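import Vale.Agent.P245.Gen2.TiltBasic
import Vale.Agent.P166W.Moments

/-!
# Gaussian tools for the width lemma: concentration of Lipschitz functions, a net of the sphere,
and the law of the image of a Gaussian matrix.
-/

open MeasureTheory Set
open scoped ENNReal Pointwise

namespace Vale.Agent.P245.General

noncomputable section

variable {n m k : ℕ}

theorem gd_one_eq : law (gd m 1) = P166W.gauss (Fin m) := by
  rw [law_gd_eq one_pos, Real.sqrt_one]
  simp only [one_smul, Measure.map_id']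

theorem nsq_sub_comm (x y : Fin m → ℝ) : nsq (x - y) = nsq (y - x) := by
  simp only [nsq, Pi.sub_apply]
  exact Finset.sum_congr rfl fun i _ => by ring

theorem gauss_lip_integrable {f : (Fin m → ℝ) → ℝ} (hc : Continuous f) {L : ℝ}
    (hf : ∀ x y, |f x - f y| ≤ L * Real.sqrt (nsq (x - y))) (lam : ℝ) :
    Integrable f (law (gd m 1)) ∧ Integrable (fun x => Real.exp (lam * f x)) (law (gd m 1)) := by
  have h1 : Integrable (fun x => Real.exp ((1 / 8) * nsq x)) (law (gd m 1)) := by
    rw [gd_one_eq]; exact (integral_exp_nsq_gauss (by norm_num) (by norm_num)).1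
  have hb : ∀ (a : ℝ) x, a * f x ≤ (|a| * |f 0| + 2 * (a * L) ^ 2) + (1 / 8) * nsq x := fun a x => by
    have h := hf x 0
    rw [sub_zero] at h
    have h2 : |f x| ≤ |f 0| + L * Real.sqrt (nsq x) := by
      linarith [abs_sub_abs_le_abs_sub (f x) (f 0)]
    have h3 : a * f x ≤ |a| * |f x| := (le_abs_self _).trans (abs_mul a (f x)).le
    have h4 := mul_le_mul_of_nonneg_left h2 (abs_nonneg a)
    have h5 := Real.mul_self_sqrt (nsq_nonneg x)
    rw [show (a * L) ^ 2 = |a| ^ 2 * L ^ 2 by rw [sq_abs]; ring]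
    nlinarith [sq_nonneg (|a| * L * 4 - Real.sqrt (nsq x)), Real.sqrt_nonneg (nsq x)]
  have he : ∀ a : ℝ, Integrable (fun x => Real.exp (a * f x)) (law (gd m 1)) := fun a =>
    (h1.const_mul (Real.exp (|a| * |f 0| + 2 * (a * L) ^ 2))).mono'
      (by fun_prop) (Filter.Eventually.of_forall fun x => by
        rw [Real.norm_eq_abs, abs_of_pos (Real.exp_pos _), ← Real.exp_add]
        exact Real.exp_le_exp.2 (hb a x))
  refine ⟨((he 1).add (he (-1))).mono' hc.aestronglyMeasurable
    (Filter.Eventually.of_forall fun x => ?_), he lam⟩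
  simp only [Pi.add_apply, one_mul, neg_mul, Real.norm_eq_abs]
  rcases abs_cases (f x) with ⟨e, -⟩ | ⟨e, -⟩ <;> rw [e] <;>
    linarith [Real.add_one_le_exp (f x), Real.add_one_le_exp (-f x), Real.exp_pos (f x),
      Real.exp_pos (-f x)]

/-- Concentration of Lipschitz functions of a standard Gaussian vector. -/
theorem gauss_mgf {f : (Fin m → ℝ) → ℝ} (hc : Continuous f) {L : ℝ} (hL : 0 ≤ L)
    (hf : ∀ x y, |f x - f y| ≤ L * Real.sqrt (nsq (x - y))) (lam : ℝ) :
    ∫ x, Real.exp (lam * f x) ∂law (gd m 1)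
      ≤ Real.exp (lam * (∫ x, f x ∂law (gd m 1)) + lam ^ 2 * L ^ 2) := by
  have hg := gd_ulc (n := m) one_pos
  have := isProb hg
  have key := maurey hg (F := fun x => lam * f x) (f := fun x => lam * f x + lam ^ 2 * L ^ 2)
    (hc.measurable.const_mul lam) ((hc.measurable.const_mul lam).add_const _) fun x y => by
      have h1 := hf x y
      have h2 : lam * (f x - f y) ≤ |lam| * |f x - f y| := (le_abs_self _).trans (abs_mul _ _).le
      have h3 := mul_le_mul_of_nonneg_left h1 (abs_nonneg lam)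
      have h4 := Real.mul_self_sqrt (nsq_nonneg (x - y))
      nlinarith [sq_nonneg (|lam| * L - Real.sqrt (nsq (x - y)) / 2), sq_abs lam]
  have hi := (gauss_lip_integrable hc hf lam).2
  have hn := (gauss_lip_integrable hc hf (-lam)).2
  have hfi := (gauss_lip_integrable hc hf lam).1
  simp only [neg_add, Real.exp_add, ← neg_mul] at key
  rw [← ofReal_integral_eq_lintegral_ofReal hi (Filter.Eventually.of_forall fun x => (Real.exp_pos _).le),
    ← ofReal_integral_eq_lintegral_ofReal (hn.mul_const _)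
      (Filter.Eventually.of_forall fun x => by positivity),
    integral_mul_const, ← ENNReal.ofReal_mul (integral_nonneg fun x => (Real.exp_pos _).le),
    ENNReal.ofReal_le_one] at key
  have h1 := exp_integral_le hg (hfi.const_mul (-lam)) hn
  rw [integral_const_mul] at h1
  have h2 := mul_le_mul_of_nonneg_left
    (mul_le_mul_of_nonneg_right h1 (Real.exp_pos (-lam ^ 2 * L ^ 2)).le)
    (integral_nonneg (μ := law (gd m 1)) fun x => (Real.exp_pos (lam * f x)).le)
  have h3 := h2.trans key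
  rw [← Real.exp_add, ← le_div_iff₀ (Real.exp_pos _), one_div, ← Real.exp_neg] at h3
  refine h3.trans_eq (congrArg _ ?_)
  ring

theorem gauss_tail {f : (Fin m → ℝ) → ℝ} (hc : Continuous f) {L : ℝ} (hL : 0 < L)
    (hf : ∀ x y, |f x - f y| ≤ L * Real.sqrt (nsq (x - y))) {s : ℝ} (hs : 0 ≤ s) :
    (law (gd m 1)).real {x | (∫ y, f y ∂law (gd m 1)) + s ≤ f x}
      ≤ Real.exp (-(s ^ 2 / (4 * L ^ 2))) := by
  have := isProb (gd_ulc (n := m) one_pos)
  set lam := s / (2 * L ^ 2)
  have hl : 0 ≤ lam := by positivity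
  set W := ∫ y, f y ∂law (gd m 1)
  have h1 := mul_meas_ge_le_integral_of_nonneg (μ := law (gd m 1))
    (Filter.Eventually.of_forall fun x => (Real.exp_pos (lam * f x)).le)
    (gauss_lip_integrable hc hf lam).2 (Real.exp (lam * (W + s)))
  have h2 : (law (gd m 1)).real {x | W + s ≤ f x} ≤
      (law (gd m 1)).real {x | Real.exp (lam * (W + s)) ≤ Real.exp (lam * f x)} :=
    measureReal_mono fun x hx => Real.exp_le_exp.2 (mul_le_mul_of_nonneg_left hx hl)
  have h3 := (mul_le_mul_of_nonneg_left h2 (Real.exp_pos _).le).trans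
    (h1.trans (gauss_mgf hc hL.le hf lam))
  rw [← le_div_iff₀' (Real.exp_pos _), ← Real.exp_sub] at h3
  refine h3.trans_eq (congrArg _ ?_)
  simp only [lam]
  field_simp
  ring

theorem gauss_tail_two {f : (Fin m → ℝ) → ℝ} (hc : Continuous f) {L : ℝ} (hL : 0 < L)
    (hf : ∀ x y, |f x - f y| ≤ L * Real.sqrt (nsq (x - y))) {s : ℝ} (hs : 0 ≤ s) :
    (law (gd m 1)).real {x | s ≤ |f x - ∫ y, f y ∂law (gd m 1)|}
      ≤ 2 * Real.exp (-(s ^ 2 / (4 * L ^ 2))) := by
  have := isProb (gd_ulc (n := m) one_pos)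
  have h2 := gauss_tail hc.neg hL (fun x y => by
    rw [Pi.neg_apply, Pi.neg_apply, show -f x - -f y = -(f x - f y) by ring, abs_neg]
    exact hf x y) hs
  simp only [Pi.neg_apply] at h2
  have h1 := gauss_tail hc hL hf hs
  rw [integral_neg] at h2
  refine le_trans ((measureReal_mono (fun x hx => ?_)).trans (measureReal_union_le
    {x | (∫ y, f y ∂law (gd m 1)) + s ≤ f x} {x | -(∫ y, f y ∂law (gd m 1)) + s ≤ -f x}))
    (by linarith)
  simp only [mem_union, mem_ofPred_eq] at hx ⊢
  rcases le_abs.1 hx with h | h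
  · left; linarith
  · right; linarith

theorem sqrt_nsq_add (x y : Fin m → ℝ) :
    Real.sqrt (nsq (x + y)) ≤ Real.sqrt (nsq x) + Real.sqrt (nsq y) := by
  simpa using sqrt_nsq_combo x y zero_le_one zero_le_one

/-- A separated set of unit vectors has at most `21 ^ k` elements. -/
theorem card_separated {N : Finset (Fin k → ℝ)} (h1 : ∀ e ∈ N, nsq e = 1)
    (h2 : ∀ e ∈ N, ∀ e' ∈ N, e ≠ e' → 1 / 100 < nsq (e - e')) : N.card ≤ 21 ^ k := by
  set B := fun (r : ℝ) (a : Fin k → ℝ) => {z : Fin k → ℝ | nsq (z - a) ≤ r ^ 2}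
  have hBm : ∀ r a, MeasurableSet (B r a) := fun r a =>
    measurableSet_le (measurable_nsq_sub a) measurable_const
  have hvol : ∀ r : ℝ, 0 < r → ∀ a, volume (B r a)
      = ENNReal.ofReal (r ^ k) * volume {z : Fin k → ℝ | nsq z ≤ 1} := fun r hr a => by
    have e : B r a = (fun z => z + -a) ⁻¹' {z : Fin k → ℝ | nsq z ≤ r ^ 2} := by
      ext z; simp [B, sub_eq_add_neg]
    have e' : {z : Fin k → ℝ | nsq z ≤ r ^ 2} = r • {z : Fin k → ℝ | nsq z ≤ 1} := by
      ext z
      rw [Set.mem_smul_set_iff_inv_smul_mem₀ hr.ne', mem_ofPred_eq, mem_ofPred_eq, nsq_smul_eq,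
        inv_pow, inv_mul_le_iff₀ (by positivity), mul_one]
    rw [e, measure_preimage_add_right, e', Measure.addHaar_smul_of_nonneg _ hr.le,
      Module.finrank_pi, Fintype.card_fin]
  set V := volume {z : Fin k → ℝ | nsq z ≤ 1}
  have hVt : V ≠ ∞ := by
    refine ((measure_mono (fun z hz => ?_)).trans_lt
      (measure_closedBall_lt_top (x := (0 : Fin k → ℝ)) (r := 1))).ne
    rw [Metric.mem_closedBall, dist_zero_right, pi_norm_le_iff_of_nonneg zero_le_one]
    intro i
    rw [Real.norm_eq_abs, ← Real.sqrt_sq_eq_abs, Real.sqrt_le_one]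
    exact (Finset.single_le_sum (fun j _ => sq_nonneg (z j)) (Finset.mem_univ i)).trans hz
  have hV0 : V ≠ 0 := by
    have ho : IsOpen {z : Fin k → ℝ | nsq z < 1} := isOpen_lt continuous_nsq continuous_const
    exact ((ho.measure_pos volume ⟨0, by simp [nsq]⟩).trans_le
      (measure_mono fun z hz => le_of_lt (mem_ofPred_eq ▸ hz))).ne'
  have hsub : (⋃ a ∈ N, B (1 / 20) a) ⊆ B (21 / 20) 0 := by
    simp only [iUnion_subset_iff]
    intro a ha z hz
    have h := sqrt_nsq_add (z - a) a
    rw [sub_add_cancel, h1 a ha, Real.sqrt_one] at h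
    have hz' : Real.sqrt (nsq (z - a)) ≤ 1 / 20 := by
      rw [Real.sqrt_le_iff]; exact ⟨by norm_num, hz⟩
    show nsq (z - 0) ≤ (21 / 20 : ℝ) ^ 2
    rw [sub_zero, ← Real.sqrt_le_left (by norm_num)]
    linarith
  have hdis : Set.PairwiseDisjoint (N : Set (Fin k → ℝ)) (B (1 / 20)) := by
    intro a ha b hb hab
    refine Set.disjoint_left.2 fun z hza hzb => ?_
    have h := sqrt_nsq_add (a - z) (z - b)
    rw [sub_add_sub_cancel, nsq_sub_comm a z] at h
    have hza' : Real.sqrt (nsq (z - a)) ≤ 1 / 20 := Real.sqrt_le_iff.2 ⟨by norm_num, hza⟩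
    have hzb' : Real.sqrt (nsq (z - b)) ≤ 1 / 20 := Real.sqrt_le_iff.2 ⟨by norm_num, hzb⟩
    have hlt := h2 a ha b hb hab
    have : Real.sqrt (1 / 100) < Real.sqrt (nsq (a - b)) := Real.sqrt_lt_sqrt (by norm_num) hlt
    rw [show (1 / 100 : ℝ) = (1 / 10) ^ 2 by norm_num, Real.sqrt_sq (by norm_num)] at this
    linarith
  have key := (measure_mono (μ := volume) hsub)
  rw [measure_biUnion_finset hdis fun a _ => hBm _ a, hvol _ (by norm_num) 0,
    Finset.sum_congr rfl fun a _ => hvol _ (by norm_num) a, Finset.sum_const, nsmul_eq_mul,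
    ← mul_assoc, ENNReal.mul_le_mul_iff_left hV0 hVt, ← ENNReal.ofReal_natCast,
    ← ENNReal.ofReal_mul (Nat.cast_nonneg _), ENNReal.ofReal_le_ofReal_iff (by positivity),
    ← le_div_iff₀ (by positivity), ← div_pow] at key
  norm_num at key
  exact_mod_cast key

/-- A net of the unit sphere. -/
theorem exists_net (k : ℕ) : ∃ N : Finset (Fin k → ℝ), N.card ≤ 21 ^ k ∧ (∀ e ∈ N, nsq e = 1) ∧
    ∀ e, nsq e = 1 → ∃ e' ∈ N, nsq (e - e') ≤ 1 / 100 := by
  classical
  let P : ℕ → Prop := fun c => ∃ N : Finset (Fin k → ℝ), N.card = c ∧ (∀ e ∈ N, nsq e = 1) ∧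
    ∀ e ∈ N, ∀ e' ∈ N, e ≠ e' → 1 / 100 < nsq (e - e')
  have hP : P (Nat.findGreatest P (21 ^ k)) :=
    Nat.findGreatest_spec (Nat.zero_le _) ⟨∅, Finset.card_empty, by simp, by simp⟩
  obtain ⟨N, hc, h1, h2⟩ := hP
  refine ⟨N, card_separated h1 h2, h1, fun e he => ?_⟩
  by_contra hno
  push Not at hno
  have heN : e ∉ N := fun hm => by
    have := hno e hm
    simp [nsq] at this
    linarith
  have h1' : ∀ a ∈ insert e N, nsq a = 1 := fun a ha => by
    rcases Finset.mem_insert.1 ha with rfl | ha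
    exacts [he, h1 a ha]
  have h2' : ∀ a ∈ insert e N, ∀ b ∈ insert e N, a ≠ b → 1 / 100 < nsq (a - b) := by
    intro a ha b hb hab
    rcases Finset.mem_insert.1 ha with ha' | ha' <;> rcases Finset.mem_insert.1 hb with hb' | hb'
    · exact absurd (ha'.trans hb'.symm) hab
    · rw [ha']; exact hno b hb'
    · rw [hb', nsq_sub_comm]; exact hno a ha'
    · exact h2 a ha' b hb' hab
  have hb := card_separated h1' h2'
  have := Nat.le_findGreatest (P := P) hb ⟨_, rfl, h1', h2'⟩
  rw [Finset.card_insert_of_notMem heN, hc] at this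
  omega

/-- The image of a unit vector under a standard Gaussian matrix is a standard Gaussian vector. -/
theorem map_matrix {e : Fin k → ℝ} (he : nsq e = 1) :
    (Measure.pi fun _ : Fin m => P166W.gauss (Fin k)).map (fun g i => ∑ j, e j * g i j)
      = law (gd m 1) := by
  have hone : (P166W.gauss (Fin k)).map (fun g => ∑ j, e j * g j)
      = ProbabilityTheory.gaussianReal 0 1 :=
    P166W.map_lin (by simpa [nsq, pow_two] using he)
  have : IsProbabilityMeasure (P166W.gauss (Fin k)) := by rw [P166W.gauss]; infer_instance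
  rw [gd_one_eq]
  refine (Measure.pi_map_pi (μ := fun _ : Fin m => P166W.gauss (Fin k))
    (f := fun (_ : Fin m) (g : Fin k → ℝ) => ∑ j, e j * g j) fun i => Measurable.aemeasurable (by fun_prop)).trans ?_
  simp only [hone]
  rfl

theorem integral_frobenius :
    Integrable (fun g : Fin m → Fin k → ℝ => ∑ i, nsq (g i))
        (Measure.pi fun _ : Fin m => P166W.gauss (Fin k)) ∧
      ∫ g, ∑ i, nsq (g i) ∂(Measure.pi fun _ : Fin m => P166W.gauss (Fin k)) ≤ m * k := by
  have : IsProbabilityMeasure (P166W.gauss (Fin k)) := by rw [P166W.gauss]; infer_instance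
  obtain ⟨hg, hg'⟩ := integral_nsq_le (gd_ulc (n := k) one_pos) (covLe_inv (gd_ulc one_pos))
  simp only [center_gd one_pos, sub_zero, one_div_one_div, mul_one, gd_one_eq] at hg hg'
  have hc : ∀ i : Fin m, Integrable (fun g : Fin m → Fin k → ℝ => nsq (g i))
      (Measure.pi fun _ : Fin m => P166W.gauss (Fin k)) := fun i =>
    integrable_comp_eval (μ := fun _ : Fin m => P166W.gauss (Fin k)) hg
  refine ⟨integrable_finsetSum _ fun i _ => hc i, ?_⟩
  rw [integral_finsetSum _ fun i _ => hc i]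
  refine (Finset.sum_le_card_nsmul _ _ (k : ℝ) fun i _ => ?_).trans (le_of_eq (by simp))
  rw [integral_comp_eval (μ := fun _ : Fin m => P166W.gauss (Fin k)) (f := nsq)
    continuous_nsq.aestronglyMeasurable]
  exact hg'

end

end Vale.Agent.P245.General
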