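import Vale.Agent.P245.General.Main

/-!
# P245, polylogarithmic bound: definitions

The discrete two-sided chain of the Gaussian channel of a density and of a bounded change of it,
with the shared noise, and the quantities read off it.
-/

open MeasureTheory

namespace Vale.Agent.P245.Gen2

open General

noncomputable section

variable {n : ℕ}

/-- The states. -/
abbrev St (n : ℕ) := Fin n → ℝ

/-- A probability density vanishing outside the ball of squared radius `D`. -/
structure Dens (D : ℝ) (σ : St n → ℝ) : Prop where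
  meas : Measurable σ
  nonneg : ∀ x, 0 ≤ σ x
  mass : ∫⁻ x, ENNReal.ofReal (σ x) = 1
  supp : ∀ x, D < nsq x → σ x = 0

/-- The standing hypotheses on the reference density: uniformly log-concave, compactly supported,
centred, linearly subgaussian, with logarithmic Sobolev constant `K`. -/
structure Base (η D K : ℝ) (ρ : St n → ℝ) : Prop where
  ulc : Ulc η ρ
  dens : Dens D ρ
  cent : center ρ = 0
  subg : SubG ρ
  posK : 0 < K
  lsi : ∀ f, Tame f → ent (law ρ) (fun x => f x ^ 2) ≤ K * energy (law ρ) f

/-- A bounded change `g` of `ρ` whose posteriors are those of a uniformly log-concave `ρ'` after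
a time shift `τ`. -/
structure Tilted (η D τ : ℝ) (ρ g ρ' : St n → ℝ) : Prop where
  gmeas : Measurable g
  bdd : ∃ lo hi : ℝ, 0 < lo ∧ ∀ x, lo ≤ g x ∧ g x ≤ hi
  gmass : ∫ x, g x ∂law ρ = 1
  ulc' : Ulc η ρ'
  dens' : Dens D ρ'
  shift : ∀ r θ, post (fun x => g x * ρ x) r θ = post ρ' (r - τ) θ

/-- The law of the channel state at time `s`. -/
def chanM (σ : St n → ℝ) (s : ℝ) : Measure (St n) :=
  ((law σ).prod (P166W.gauss (Fin n))).map fun z => s • z.1 + Real.sqrt s • z.2

/-- One noisy step. -/
def move (h : ℝ) (θ x g : St n) : St n := θ + h • x + Real.sqrt h • g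

/-- The innovation of a step. -/
def innov (σ : St n → ℝ) (h r : ℝ) (θ θ' : St n) : St n := θ' - θ - h • bary σ r θ

/-- The law of the next state. -/
def pureStep (σ : St n → ℝ) (h : ℝ) (k : ℕ) (θ : St n) : Measure (St n) :=
  ((law (post σ (k * h) θ)).prod (P166W.gauss (Fin n))).map fun z => move h θ z.1 z.2

/-- The law of the next pair of states; the noise is shared. -/
def pairStep (σ ν : St n → ℝ) (h : ℝ) (k : ℕ) (p : St n × St n) : Measure (St n × St n) :=
  (((law (post σ (k * h) p.1)).prod (law (post ν (k * h) p.2))).prod (P166W.gauss (Fin n))).map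
    fun z => (move h p.1 z.1.1 z.2, move h p.2 z.1.2 z.2)

/-- The law after `j` steps begun at index `k`. -/
def iterM {α : Type*} [MeasurableSpace α] (step : ℕ → α → Measure α) (k : ℕ) (m : Measure α) :
    ℕ → Measure α
  | 0 => m
  | j + 1 => (iterM step k m j).bind (step (k + j))

/-- The law of the pair at index `k`. -/
def pairM (σ ν : St n → ℝ) (h : ℝ) (k : ℕ) : Measure (St n × St n) :=
  iterM (pairStep σ ν h) 0 (Measure.dirac (0, 0)) k

/-- The law of the pair `j` steps after the state `p` at index `k`. -/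
def pairFrom (σ ν : St n → ℝ) (h : ℝ) (k j : ℕ) (p : St n × St n) : Measure (St n × St n) :=
  iterM (pairStep σ ν h) k (Measure.dirac p) j

/-- The expectation of `F` at time `t`, the channel being at `θ` at time `s`. -/
def fut (ρ : St n → ℝ) (s t : ℝ) (F : St n → ℝ) (θ : St n) : ℝ :=
  joint (post ρ s θ) (t - s) fun _ θ' => F (θ + θ')

/-- The Gaussian bridge from time `t` back to time `s`. -/
def brOp (s t : ℝ) (F : St n → ℝ) (θ : St n) : ℝ :=
  ∫ z, F ((s / t) • θ + Real.sqrt (s * (t - s) / t) • z) ∂P166W.gauss (Fin n)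

/-- The increment of the posterior barycentre. -/
def dBary (σ : St n → ℝ) (s : ℝ) (θ v : St n) : St n := bary σ s (θ + v) - bary σ s θ

/-- The difference of the two barycentres. -/
def wV (σ ν : St n → ℝ) (h : ℝ) (k : ℕ) (p : St n × St n) : St n :=
  bary ν (k * h) p.2 - bary σ (k * h) p.1

/-- The difference of the two barycentres at the same state. -/
def uV (σ ν : St n → ℝ) (h : ℝ) (k : ℕ) (p : St n × St n) : St n :=
  bary ν (k * h) p.2 - bary σ (k * h) p.2

/-- The difference of the states. -/
def delta (p : St n × St n) : St n := p.2 - p.1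

/-- The squared Frobenius norm. -/
def frob (M : Matrix (Fin n) (Fin n) ℝ) : ℝ := ∑ i, ∑ j, M i j ^ 2

/-- The difference of the two covariance matrices. -/
def gam (σ ν : St n → ℝ) (h : ℝ) (k : ℕ) (p : St n × St n) : Matrix (Fin n) (Fin n) ℝ :=
  covMat ν (k * h) p.2 - covMat σ (k * h) p.1

/-- The mean squared difference of the barycentres. -/
def Zk (σ ν : St n → ℝ) (h : ℝ) (k : ℕ) : ℝ := ∫ p, nsq (wV σ ν h k p) ∂pairM σ ν h k

/-- The mean energy at index `k`. -/
def fk (σ ν : St n → ℝ) (h : ℝ) (k : ℕ) : ℝ := ∫ p, frob (gam σ ν h k p) ∂pairM σ ν h k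

end

end Vale.Agent.P245.Gen2
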