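import Vale.Agent.P245.Gen2.LsiClass
import Vale.Agent.P245.Ent

/-!
# P245, general measures: contraction of the entropy along the channel

`bridge s t g θ` is the conditional expectation of `g θ_s` given `θ_t = θ`.  If the law of the
point satisfies the logarithmic Sobolev inequality with constant `K`, the entropy of
`bridge s t g` at time `t` is at most `c / (1 + c)` times the entropy of `g` at time `s`, where
`c = (K t + 2) s / (2 (t - s))`.
-/

open MeasureTheory Filter Topology
open scoped ENNReal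

namespace Vale.Agent.P245.General

noncomputable section

variable {n : ℕ} {η : ℝ} {ρ : (Fin n → ℝ) → ℝ}

/-! ### Gaussian averages of bounded measurable functions -/

/-- The derivative in the state of the unnormalised tilted average. -/
theorem hasFDerivAt_num_space (h : Ulc η ρ) {g : (Fin n → ℝ) → ℝ} (hg : Measurable g)
    (hg' : PolyB g) {r : ℝ} (hr : 0 ≤ r) (θ : Fin n → ℝ) :
    HasFDerivAt (num ρ g r)
      (∑ i, num ρ (fun x => g x * x i) r θ •
        (ContinuousLinearMap.proj i : (Fin n → ℝ) →L[ℝ] ℝ)) θ := by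
  choose D hD using fun i => wgt_dom h (polyB_mul hg' (polyB_coord i)) (nsq θ + 1)
  set E : (Fin n → ℝ) → ℝ := fun x => Real.exp (η / 16 * nsq x)
  set P : Fin n → ((Fin n → ℝ) →L[ℝ] ℝ) := fun i => ContinuousLinearMap.proj i
  have hU : {q : Fin n → ℝ | nsq q < nsq θ + 1} ∈ nhds θ :=
    (isOpen_lt continuous_nsq continuous_const).mem_nhds (by simp)
  have mb : ∀ i p, Measurable fun x => g x * x i * wgt r p x := fun i p =>
    (hg.mul (measurable_pi_apply i)).mul (continuous_wgt_x r p).measurable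
  have hib : ∀ i, Integrable (fun x => (g x * x i * wgt r θ x) • P i) (law ρ) := fun i =>
    (integrable_wgt h (hg.mul (measurable_pi_apply i)) (polyB_mul hg' (polyB_coord i)) hr
      θ).smul_const (P i)
  have key := hasFDerivAt_integral_of_dominated_of_fderiv_le (μ := law ρ)
    (F := fun (q : Fin n → ℝ) x => g x * wgt r q x) (x₀ := θ)
    (F' := fun p x => ∑ i, (g x * x i * wgt r p x) • P i)
    (bound := fun x => ∑ i, D i * E x * ‖P i‖) hU
    (Eventually.of_forall fun q =>
      (hg.mul (continuous_wgt_x r q).measurable).aestronglyMeasurable)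
    (integrable_wgt h hg hg' hr θ)
    (Finset.aestronglyMeasurable_fun_sum _ fun i _ => (hib i).aestronglyMeasurable)
    (ae_of_all _ fun x q hq => (norm_sum_le _ _).trans (Finset.sum_le_sum fun i _ => by
      rw [norm_smul, Real.norm_eq_abs]
      exact mul_le_mul_of_nonneg_right (hD i r q x hr (le_of_lt hq)) (norm_nonneg (P i))))
    (integrable_finsetSum _ fun i _ => ((integrable_exp_nsq h).const_mul (D i)).mul_const _)
    (ae_of_all _ fun x q _ => by
      have h2 : HasFDerivAt (fun p : Fin n → ℝ => dotp p x) (∑ i, x i • P i) q :=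
        HasFDerivAt.fun_sum fun i _ => (P i).hasFDerivAt.mul_const (x i)
      refine (((h2.sub_const (r / 2 * nsq x)).exp.const_mul (g x)).congr_of_eventuallyEq
        (Eventually.of_forall fun p => by simp [wgt])).congr_fderiv ?_
      simp only [Finset.smul_sum, smul_smul]
      refine Finset.sum_congr rfl fun i _ => ?_
      simp only [wgt]
      congr 1
      ring)
  refine key.congr_fderiv ?_
  rw [integral_finsetSum _ fun i _ => hib i]
  simp only [integral_smul_const]
  rfl

/-- A change of variables under the Gaussian law. -/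
theorem integral_gauss_shift (F : (Fin n → ℝ) → ℝ) (hF : Measurable F) (u : Fin n → ℝ) :
    ∫ ξ, F (u + ξ) ∂P166W.gauss (Fin n) =
      ∫ ξ, F ξ * wgt 1 ξ u ∂P166W.gauss (Fin n) := by
  have hw : Measurable fun ξ : Fin n → ℝ => ENNReal.ofReal (wgt 1 ξ u) := by
    unfold wgt dotp nsq; fun_prop
  have e : (P166W.gauss (Fin n)).map (fun ξ => u + ξ) =
      (P166W.gauss (Fin n)).withDensity fun ξ => ENNReal.ofReal (wgt 1 ξ u) := by
    refine Measure.ext_of_lintegral _ fun f hf => ?_
    rw [lintegral_map hf (by fun_prop), lintegral_withDensity_eq_lintegral_mul _ hw hf,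
      ← law_gd_one]
    simpa [Pi.mul_apply, mul_comm, add_comm] using lintegral_gd_shift one_pos hf u
  rw [← integral_map (φ := fun ξ => u + ξ) (by fun_prop) hF.aestronglyMeasurable, e,
    integral_withDensity_eq_integral_toReal_smul hw
      (Eventually.of_forall fun _ => ENNReal.ofReal_lt_top)]
  refine integral_congr_ae (Eventually.of_forall fun ξ => ?_)
  simp only [smul_eq_mul, ENNReal.toReal_ofReal (show 0 ≤ wgt 1 ξ u from (Real.exp_pos _).le),
    mul_comm]

/-- The linear exponential moment of the Gaussian law. -/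
theorem gauss_exp_dotp (w : Fin n → ℝ) :
    ∫⁻ ξ, ENNReal.ofReal (Real.exp (dotp w ξ)) ∂P166W.gauss (Fin n) =
      ENNReal.ofReal (Real.exp (nsq w / 2)) := by
  have := isProb_gd (n := n) one_pos
  have h1 := lintegral_gd_shift (n := n) one_pos (F := fun _ => 1) measurable_const w
  rw [lintegral_const, measure_univ, mul_one] at h1
  simp only [one_mul] at h1
  rw [← law_gd_one]
  have h2 : ∀ ξ, ENNReal.ofReal (Real.exp (dotp w ξ)) =
      ENNReal.ofReal (Real.exp (nsq w / 2)) * ENNReal.ofReal (wgt 1 ξ w) := fun ξ => by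
    rw [← ENNReal.ofReal_mul (Real.exp_pos _).le, wgt, ← Real.exp_add]
    congr 2
    simp only [dotp, mul_comm (ξ _)]
    ring
  simp only [h2]
  rw [lintegral_const_mul _ (by unfold wgt dotp nsq; fun_prop), ← h1, mul_one]

/-- The Gaussian average of a translate. -/
private def gavg (f : (Fin n → ℝ) → ℝ) (u : Fin n → ℝ) : ℝ :=
  ∫ ξ, f (u + ξ) ∂P166W.gauss (Fin n)

private theorem gavg_eq {f : (Fin n → ℝ) → ℝ} (hf : Measurable f) (u : Fin n → ℝ) :
    gavg f u = Real.exp (-(nsq u) / 2) * num (gd n 1) f 0 u := by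
  rw [gavg, integral_gauss_shift f hf u, num, ← law_gd_one, ← integral_const_mul]
  refine integral_congr_ae (Eventually.of_forall fun ξ => ?_)
  simp only [wgt, zero_div, zero_mul, sub_zero]
  simp only [sub_eq_add_neg, Real.exp_add]
  simp only [dotp, mul_comm (u _)]
  rw [show -(1 / 2 * nsq u) = -(nsq u) / 2 by ring]
  ring

private theorem hasFDerivAt_gavg {f : (Fin n → ℝ) → ℝ} {C : ℝ} (hf : Measurable f)
    (hC : ∀ x, |f x| ≤ C) (u : Fin n → ℝ) :
    HasFDerivAt (gavg f) (∑ i, (∫ ξ, f (u + ξ) * ξ i ∂P166W.gauss (Fin n)) •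
      (ContinuousLinearMap.proj i : (Fin n → ℝ) →L[ℝ] ℝ)) u := by
  have hu := gd_ulc (n := n) one_pos
  have hP := polyB_of_bounded hC
  set N := num (gd n 1) f 0
  set e : (Fin n → ℝ) → ℝ := fun v => Real.exp (-(nsq v) / 2)
  have he : HasFDerivAt e (∑ i, (-(u i) * e u) •
      (ContinuousLinearMap.proj i : (Fin n → ℝ) →L[ℝ] ℝ)) u := by
    have h1 : HasFDerivAt (fun v : Fin n → ℝ => nsq v) (∑ i, (2 * u i) •
        (ContinuousLinearMap.proj i : (Fin n → ℝ) →L[ℝ] ℝ)) u := by
      refine HasFDerivAt.fun_sum fun i _ => ?_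
      simpa using ((ContinuousLinearMap.proj i : (Fin n → ℝ) →L[ℝ] ℝ).hasFDerivAt (x := u)).pow 2
    refine ((h1.const_mul (-(1 / 2) : ℝ)).exp.congr_of_eventuallyEq
      (Eventually.of_forall fun v => by
        simp only [e]; congr 1; ring)).congr_fderiv ?_
    simp only [Finset.smul_sum, smul_smul, e]
    refine Finset.sum_congr rfl fun i _ => ?_
    rw [show -(1 / 2) * nsq u = -(nsq u) / 2 by ring]
    congr 1
    ring
  have hN := hasFDerivAt_num_space hu hf hP le_rfl u
  refine ((he.mul hN).congr_of_eventuallyEq (Eventually.of_forall fun v => gavg_eq hf v)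
    ).congr_fderiv ?_
  rw [Finset.smul_sum, Finset.smul_sum, ← Finset.sum_add_distrib]
  refine Finset.sum_congr rfl fun i _ => ?_
  rw [smul_smul, smul_smul, ← add_smul]
  congr 1
  have hshift := integral_gauss_shift (fun y => f y * (y i - u i))
    (hf.mul ((measurable_pi_apply i).sub_const _)) u
  simp only [Pi.add_apply, add_sub_cancel_left] at hshift
  rw [hshift]
  have i1 : Integrable (fun ξ => f ξ * ξ i * wgt 0 u ξ) (law (gd n 1)) :=
    integrable_wgt hu (hf.mul (measurable_pi_apply i)) (polyB_mul hP (polyB_coord i)) le_rfl u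
  have i2 : Integrable (fun ξ => f ξ * wgt 0 u ξ) (law (gd n 1)) :=
    integrable_wgt hu hf hP le_rfl u
  rw [← law_gd_one]
  have hpt : (fun ξ => f ξ * (ξ i - u i) * wgt 1 ξ u) = fun ξ =>
      e u * (f ξ * ξ i * wgt 0 u ξ - u i * (f ξ * wgt 0 u ξ)) := funext fun ξ => by
    simp only [wgt, e, zero_div, zero_mul, sub_zero]
    simp only [sub_eq_add_neg, Real.exp_add]
    simp only [dotp, mul_comm (u _)]
    rw [show -(1 / 2 * nsq u) = -(nsq u) / 2 by ring]
    ring
  rw [hpt, integral_const_mul, integral_sub i1 (i2.const_mul _), integral_const_mul]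
  simp only [num]
  ring

private theorem contDiff_gavg {f : (Fin n → ℝ) → ℝ} {C : ℝ} (hf : Measurable f)
    (hC : ∀ x, |f x| ≤ C) : ContDiff ℝ 1 (gavg f) := by
  have hu := gd_ulc (n := n) one_pos
  have hP := polyB_of_bounded hC
  have hn : ContDiff ℝ 1 (num (gd n 1) f 0) := by
    refine contDiff_one_iff_hasFDerivAt.2 ⟨_, ?_, fun v => hasFDerivAt_num_space hu hf hP le_rfl v⟩
    exact continuous_finsetSum _ fun i _ => (continuous_iff_continuousAt.2 fun v =>
      (hasFDerivAt_num_space hu (hf.mul (measurable_pi_apply i))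
        (polyB_mul hP (polyB_coord i)) le_rfl v).continuousAt).smul continuous_const
  rw [funext (gavg_eq hf)]
  exact ((by unfold nsq; fun_prop : ContDiff ℝ 1 fun v : Fin n → ℝ => -(nsq v) / 2).exp).mul hn

/-! ### The bridge -/

/-- The conditional expectation of `g θ_s` given `θ_t = θ`. -/
def bridge (s t : ℝ) (g : (Fin n → ℝ) → ℝ) (θ : Fin n → ℝ) : ℝ :=
  ∫ ξ, g ((s / t) • θ + Real.sqrt (s * (t - s) / t) • ξ) ∂P166W.gauss (Fin n)

/-- The entropy of a function of the state. -/
def entEp (ρ : (Fin n → ℝ) → ℝ) (r : ℝ) (F : (Fin n → ℝ) → ℝ) : ℝ :=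
  Ep ρ r (fun y => F y * Real.log (F y)) - Ep ρ r F * Real.log (Ep ρ r F)

variable {s t : ℝ} {g : (Fin n → ℝ) → ℝ}

private theorem bridge_eq_gavg (hs : 0 < s) (hst : s < t) (θ : Fin n → ℝ) :
    bridge s t g θ = gavg (fun y => g (Real.sqrt (s * (t - s) / t) • y))
      ((s / t / Real.sqrt (s * (t - s) / t)) • θ) := by
  have h0 : 0 < Real.sqrt (s * (t - s) / t) :=
    Real.sqrt_pos.2 (div_pos (mul_pos hs (sub_pos.2 hst)) (hs.trans hst))
  simp only [bridge, gavg, smul_add, smul_smul, mul_div_cancel₀ _ h0.ne']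

theorem integrable_bridge {C : ℝ} (hg : Measurable g) (hC : ∀ x, |g x| ≤ C) (θ : Fin n → ℝ) :
    Integrable (fun ξ => g ((s / t) • θ + Real.sqrt (s * (t - s) / t) • ξ))
      (P166W.gauss (Fin n)) :=
  (integrable_const C).mono' (hg.comp (by fun_prop)).aestronglyMeasurable
    (Eventually.of_forall fun ξ => by rw [Real.norm_eq_abs]; exact hC _)

theorem abs_bridge_le {C : ℝ} (hC : ∀ x, |g x| ≤ C) (θ : Fin n → ℝ) : |bridge s t g θ| ≤ C := by
  rw [← Real.norm_eq_abs]
  exact (norm_integral_le_of_norm_le (integrable_const C) (Eventually.of_forall fun ξ =>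
    by rw [Real.norm_eq_abs]; exact hC _)).trans_eq (by simp)

theorem bridge_mem {lo hi : ℝ} (hg : Measurable g) (hb : ∀ x, lo ≤ g x ∧ g x ≤ hi)
    (θ : Fin n → ℝ) : lo ≤ bridge s t g θ ∧ bridge s t g θ ≤ hi := by
  have hC : ∀ x, |g x| ≤ |lo| + |hi| := fun x => abs_le.2
    ⟨by linarith [(hb x).1, neg_abs_le lo, abs_nonneg hi],
     by linarith [(hb x).2, le_abs_self hi, abs_nonneg lo]⟩
  constructor
  · simpa [bridge] using integral_mono (integrable_const lo) (integrable_bridge hg hC θ)
      fun ξ => (hb _).1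
  · simpa [bridge] using integral_mono (integrable_bridge hg hC θ) (integrable_const hi)
      fun ξ => (hb _).2

theorem contDiff_bridge (hs : 0 < s) (hst : s < t) {C : ℝ} (hg : Measurable g)
    (hC : ∀ x, |g x| ≤ C) : ContDiff ℝ 1 (bridge s t g) := by
  rw [funext (bridge_eq_gavg (g := g) hs hst)]
  exact (contDiff_gavg (hg.comp (by fun_prop)) fun y => hC _).comp
    ((contDiff_id (E := Fin n → ℝ)).const_smul _)

theorem pd_bridge (hs : 0 < s) (hst : s < t) {C : ℝ} (hg : Measurable g)
    (hC : ∀ x, |g x| ≤ C) (i : Fin n) (θ : Fin n → ℝ) :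
    pd i (bridge s t g) θ = s / t / Real.sqrt (s * (t - s) / t) *
      ∫ ξ, g ((s / t) • θ + Real.sqrt (s * (t - s) / t) • ξ) * ξ i ∂P166W.gauss (Fin n) := by
  have h0 : 0 < Real.sqrt (s * (t - s) / t) :=
    Real.sqrt_pos.2 (div_pos (mul_pos hs (sub_pos.2 hst)) (hs.trans hst))
  set σ := Real.sqrt (s * (t - s) / t)
  set k := s / t / σ
  have h1 := (hasFDerivAt_gavg (f := fun y => g (σ • y)) (hg.comp (by fun_prop))
    (fun y => hC _) (k • θ)).comp θ ((hasFDerivAt_id θ).const_smul k)
  have h2 : HasFDerivAt (bridge s t g) _ θ :=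
    h1.congr_of_eventuallyEq (Eventually.of_forall fun v => bridge_eq_gavg hs hst v)
  rw [pd, h2.fderiv]
  simp [smul_add, smul_smul, mul_div_cancel₀ _ h0.ne', k, sum_apply, Pi.single_apply]

/-- The gradient of a conditional expectation is bounded by the conditional entropy. -/
theorem gradSq_bridge_le (hs : 0 < s) (hst : s < t) {lo hi : ℝ} (hlo : 0 < lo) (hg : Measurable g)
    (hb : ∀ x, lo ≤ g x ∧ g x ≤ hi) (θ : Fin n → ℝ) :
    gradSq (bridge s t g) θ ≤ 2 * s / (t * (t - s)) * bridge s t g θ *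
      (bridge s t (fun y => g y * Real.log (g y)) θ -
        bridge s t g θ * Real.log (bridge s t g θ)) := by
  have hC : ∀ x, |g x| ≤ hi := fun x => by
    rw [abs_of_pos (hlo.trans_le (hb x).1)]; exact (hb x).2
  have hlm : Measurable fun y => g y * Real.log (g y) := hg.mul hg.log
  have hlB : ∀ y, |g y * Real.log (g y)| ≤ hi * (|Real.log lo| + |Real.log hi|) := fun y =>
    abs_mul_log_le hlo (hb y).1 (hb y).2
  set γ := P166W.gauss (Fin n)
  set σ := Real.sqrt (s * (t - s) / t) with hσ
  set G : (Fin n → ℝ) → ℝ := fun ξ => g ((s / t) • θ + σ • ξ)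
  set v : Fin n → ℝ := fun i => ∫ ξ, G ξ * ξ i ∂γ
  set P := bridge s t g θ
  have hP0 : 0 < P := hlo.trans_le (bridge_mem hg hb θ).1
  have hGm : Measurable G := hg.comp (by fun_prop)
  have ic : ∀ i, Integrable (fun ξ => G ξ * ξ i) γ := fun i => by
    refine ((integrable_gauss (continuous_apply i) (polyB_coord i)).norm.const_mul hi).mono'
      (hGm.mul (measurable_pi_apply i)).aestronglyMeasurable (Eventually.of_forall fun ξ => ?_)
    rw [Real.norm_eq_abs, abs_mul]
    exact mul_le_mul_of_nonneg_right (hC _) (abs_nonneg _)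
  have key : nsq v ≤ 2 * P * (bridge s t (fun y => g y * Real.log (g y)) θ - P * Real.log P) := by
    set w : Fin n → ℝ := P⁻¹ • v
    have hsum : (fun ξ => G ξ * dotp w ξ) = fun ξ => ∑ i, w i * (G ξ * ξ i) := funext fun ξ => by
      simp only [dotp, Finset.mul_sum]
      exact Finset.sum_congr rfl fun i _ => by ring
    have iw : Integrable (fun ξ => G ξ * dotp w ξ) γ := by
      rw [hsum]; exact integrable_finsetSum _ fun i _ => (ic i).const_mul _
    have h1 := integral_mul_le_ent (μ := γ) (v := G) (Y := dotp w) (L := nsq w / 2)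
      (fun ξ => (hlo.trans_le (hb _).1).le) (integrable_bridge hg hC θ)
      (integrable_bridge hlm hlB θ) iw (by unfold dotp; fun_prop) (gauss_exp_dotp w).le
    have e1 : ∫ ξ, G ξ * dotp w ξ ∂γ = nsq v / P := by
      rw [hsum, integral_finsetSum _ fun i _ => (ic i).const_mul _]
      simp only [integral_const_mul, w, Pi.smul_apply, smul_eq_mul, nsq, Finset.sum_div]
      exact Finset.sum_congr rfl fun i _ => by rw [pow_two, div_eq_inv_mul]; ring
    have e2 : P * (nsq w / 2) = nsq v / P / 2 := by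
      simp only [w, nsq_smul]; field_simp
    have e3 : ent γ G = bridge s t (fun y => g y * Real.log (g y)) θ - P * Real.log P := rfl
    rw [e1, e3, show ∫ ξ, G ξ ∂γ = P from rfl, e2] at h1
    have h2 : nsq v / P ≤ 2 * (bridge s t (fun y => g y * Real.log (g y)) θ - P * Real.log P) := by
      linarith
    rw [div_le_iff₀ hP0] at h2
    linarith
  have ht : 0 < t := hs.trans hst
  have hk : (s / t / σ) ^ 2 = s / (t * (t - s)) := by
    have := sub_pos.2 hst
    rw [div_pow, hσ, Real.sq_sqrt (by positivity)]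
    field_simp
  have e : gradSq (bridge s t g) θ = s / (t * (t - s)) * nsq v := by
    simp only [gradSq, pd_bridge hs hst hg hC, nsq, Finset.mul_sum, mul_pow, ← hσ, hk]
    rfl
  rw [e]
  calc s / (t * (t - s)) * nsq v ≤ s / (t * (t - s)) *
        (2 * P * (bridge s t (fun y => g y * Real.log (g y)) θ - P * Real.log P)) :=
        mul_le_mul_of_nonneg_left key (by have := sub_pos.2 hst; positivity)
    _ = _ := by ring

/-- The tower property of the channel. -/
theorem Ep_bridge (h : Ulc η ρ) (hs : 0 < s) (hst : s < t) {φ : (Fin n → ℝ) → ℝ} {C : ℝ}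
    (hφ : Measurable φ) (hC : ∀ x, |φ x| ≤ C) : Ep ρ t (bridge s t φ) = Ep ρ s φ := by
  have := isProb h
  have ht : 0 < t := hs.trans hst
  set γ := P166W.gauss (Fin n)
  set σ := Real.sqrt (s * (t - s) / t) with hσ
  set a := s / t * Real.sqrt t
  have hab : a ^ 2 + σ ^ 2 = Real.sqrt s ^ 2 := by
    have := sub_pos.2 hst
    rw [hσ, Real.sq_sqrt hs.le, Real.sq_sqrt (by positivity), mul_pow, Real.sq_sqrt ht.le]
    field_simp
    ring
  have hcm : Continuous (bridge s t φ) := (contDiff_bridge hs hst hφ hC).continuous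
  show ∫ z, bridge s t φ (t • z.1 + Real.sqrt t • z.2) ∂(law ρ).prod γ =
    ∫ z, φ (s • z.1 + Real.sqrt s • z.2) ∂(law ρ).prod γ
  rw [integral_prod (fun z : (Fin n → ℝ) × (Fin n → ℝ) =>
      bridge s t φ (t • z.1 + Real.sqrt t • z.2))
      ((integrable_const C).mono' (hcm.comp (by fun_prop)).aestronglyMeasurable
        (Eventually.of_forall fun z => by rw [Real.norm_eq_abs]; exact abs_bridge_le hC _)),
    integral_prod (fun z : (Fin n → ℝ) × (Fin n → ℝ) => φ (s • z.1 + Real.sqrt s • z.2))
      ((integrable_const C).mono' (hφ.comp (by fun_prop)).aestronglyMeasurable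
        (Eventually.of_forall fun z => by rw [Real.norm_eq_abs]; exact hC _))]
  refine integral_congr_ae (Eventually.of_forall fun x => ?_)
  have hψ : Measurable fun q => φ (s • x + q) := hφ.comp (measurable_id.const_add _)
  calc ∫ g', bridge s t φ (t • x + Real.sqrt t • g') ∂γ
      = ∫ p, φ (s • x + (a • p.1 + σ • p.2)) ∂γ.prod γ := by
        rw [integral_prod (fun p : (Fin n → ℝ) × (Fin n → ℝ) => φ (s • x + (a • p.1 + σ • p.2)))
          ((integrable_const C).mono' (hψ.comp (by fun_prop)).aestronglyMeasurable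
            (Eventually.of_forall fun z => by rw [Real.norm_eq_abs]; exact hC _))]
        simp only [bridge, smul_add, smul_smul, ← add_assoc, ← hσ, a, div_mul_cancel₀ _ ht.ne']
        rfl
    _ = ∫ q, φ (s • x + q) ∂(γ.prod γ).map fun p => a • p.1 + σ • p.2 :=
        (integral_map (by fun_prop) hψ.aestronglyMeasurable).symm
    _ = ∫ g', φ (s • x + Real.sqrt s • g') ∂γ := by
        rw [map_gauss_add hab, integral_map (by fun_prop) hψ.aestronglyMeasurable]

/-- Contraction of the entropy along the channel. -/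
theorem entEp_bridge_le (h : Ulc η ρ) {K : ℝ} (hK : 0 ≤ K) (hρ : LsiP K (law ρ)) (hs : 0 < s)
    (hst : s < t) {lo hi : ℝ} (hlo : 0 < lo) (hg : Measurable g)
    (hb : ∀ x, lo ≤ g x ∧ g x ≤ hi) {c : ℝ} (hc : (K * t + 2) * s / (2 * (t - s)) = c) :
    entEp ρ t (bridge s t g) ≤ c / (1 + c) * entEp ρ s g := by
  have ht : 0 < t := hs.trans hst
  have hts := sub_pos.2 hst
  have := isProb h
  have hlog : ∀ y, |g y * Real.log (g y)| ≤ hi * (|Real.log lo| + |Real.log hi|) := fun y =>
    abs_mul_log_le hlo (hb y).1 (hb y).2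
  have hlm : Measurable fun y => g y * Real.log (g y) := hg.mul hg.log
  have hC : ∀ x, |g x| ≤ hi := fun x => by
    rw [abs_of_pos (hlo.trans_le (hb x).1)]; exact (hb x).2
  set P := bridge s t g
  set Q := bridge s t fun y => g y * Real.log (g y)
  have hPm : ∀ θ, lo ≤ P θ ∧ P θ ≤ hi := bridge_mem hg hb
  have hP0 : ∀ θ, 0 < P θ := fun θ => hlo.trans_le (hPm θ).1
  have hPc : ContDiff ℝ 1 P := contDiff_bridge hs hst hg hC
  have hQc : Continuous Q := (contDiff_bridge hs hst hlm hlog).continuous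
  set B := hi * (|Real.log lo| + |Real.log hi|)
  set D : (Fin n → ℝ) → ℝ := fun θ => Q θ - P θ * Real.log (P θ)
  have hDb : ∀ θ, |D θ| ≤ B + B := fun θ => (abs_sub _ _).trans (add_le_add (abs_bridge_le hlog θ)
    (abs_mul_log_le hlo (hPm θ).1 (hPm θ).2))
  have hPlc : Continuous fun θ => P θ * Real.log (P θ) :=
    hPc.continuous.mul (hPc.continuous.log fun θ => (hP0 θ).ne')
  have hDc : Continuous D := hQc.sub hPlc
  set F : (Fin n → ℝ) → ℝ := fun θ => Real.sqrt (P θ)
  have hF : ContDiff ℝ 1 F := hPc.sqrt fun θ => (hP0 θ).ne'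
  set C1 := s / (2 * (t * (t - s)))
  have hgrad : ∀ θ, gradSq F θ ≤ C1 * D θ := fun θ => by
    have h1 : ∀ i, pd i F θ = 1 / (2 * Real.sqrt (P θ)) * pd i P θ := fun i => by
      have h2 : HasFDerivAt F _ θ := (Real.hasDerivAt_sqrt (hP0 θ).ne').comp_hasFDerivAt θ
        (hPc.differentiable one_ne_zero θ).hasFDerivAt
      rw [pd, h2.fderiv]
      rfl
    have h2 : gradSq F θ = gradSq P θ / (4 * P θ) := by
      simp only [gradSq, h1, Finset.sum_div, mul_pow, div_pow, Real.sq_sqrt (hP0 θ).le]
      exact Finset.sum_congr rfl fun i _ => by ring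
    rw [h2, div_le_iff₀ (by linarith [hP0 θ])]
    refine (gradSq_bridge_le hs hst hlo hg hb θ).trans_eq ?_
    simp only [C1, D]
    field_simp
    ring
  have hlsi := lsiP_chan h hK hρ ht F hF (Real.sqrt lo) (Real.sqrt hi) (C1 * (B + B))
    (Real.sqrt_pos.2 hlo)
    (fun θ => ⟨Real.sqrt_le_sqrt (hPm θ).1, Real.sqrt_le_sqrt (hPm θ).2⟩)
    (fun θ => (hgrad θ).trans (mul_le_mul_of_nonneg_left ((le_abs_self _).trans (hDb θ))
      (by positivity)))
  simp only [ent, energy, show ∀ θ, F θ ^ 2 = P θ from fun θ => Real.sq_sqrt (hP0 θ).le] at hlsi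
  rw [integral_chan _ _ hPlc.measurable, integral_chan _ _ hPc.continuous.measurable,
    integral_chan _ _ (show Measurable (gradSq F) from (continuous_finsetSum _ fun i _ =>
      ((hF.continuous_fderiv one_ne_zero).clm_apply continuous_const).pow 2).measurable)] at hlsi
  have iB : ∀ {φ : (Fin n → ℝ) → ℝ} {C : ℝ}, Continuous φ → (∀ y, |φ y| ≤ C) →
      Integrable (fun z : (Fin n → ℝ) × (Fin n → ℝ) => φ (t • z.1 + Real.sqrt t • z.2))
        ((law ρ).prod (P166W.gauss (Fin n))) := fun {φ C} hφ hC =>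
    (integrable_const C).mono' (hφ.comp (by fun_prop)).aestronglyMeasurable
      (Eventually.of_forall fun z => by rw [Real.norm_eq_abs]; exact hC _)
  have h3 : Ep ρ t (gradSq F) ≤ C1 * Ep ρ t D := by
    simp only [Ep, joint]
    rw [← integral_const_mul]
    exact integral_mono_of_nonneg
      (Eventually.of_forall fun z => Finset.sum_nonneg fun i _ => sq_nonneg _)
      ((iB hDc hDb).const_mul _) (Eventually.of_forall fun z => hgrad _)
  have h4 : Ep ρ t D = Ep ρ t Q - Ep ρ t fun θ => P θ * Real.log (P θ) := by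
    simp only [Ep, joint]
    exact integral_sub (iB hQc (abs_bridge_le hlog)) (iB hPlc fun θ =>
      abs_mul_log_le hlo (hPm θ).1 (hPm θ).2)
  have e1 : Ep ρ t Q = Ep ρ s fun y => g y * Real.log (g y) := Ep_bridge h hs hst hlm hlog
  have e2 : Ep ρ t P = Ep ρ s g := Ep_bridge h hs hst hg hC
  have hc' : (K * t ^ 2 + 2 * t) * C1 = c := by
    rw [← hc]
    simp only [C1]
    field_simp
  have h5 : entEp ρ t P ≤ c * (entEp ρ s g - entEp ρ t P) := by
    simp only [entEp, e2]
    rw [e2] at hlsi
    have := mul_le_mul_of_nonneg_left h3 (show 0 ≤ K * t ^ 2 + 2 * t by positivity)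
    rw [← mul_assoc, hc', h4, e1] at this
    linarith
  have hc0 : 0 ≤ c := hc ▸ by positivity
  rw [div_mul_eq_mul_div, le_div_iff₀ (by linarith)]
  linarith

end

end Vale.Agent.P245.General
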