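import Vale.Agent.P245.General.Channel

/-!
# The log moment generating function of a log-concave law and the width of its tilts

`wid ρ k u` is the dual expression `inf_{s > 0} (k + lmgf (s u)) / s` of the largest mean in
direction `u` of the tilts of relative entropy at most `k`.
-/

open MeasureTheory Set

namespace Vale.Agent.P245.General

noncomputable section

variable {n : ℕ} {η : ℝ} {ρ : (Fin n → ℝ) → ℝ}

/-- The centred log moment generating function. -/
def lmgf (ρ : (Fin n → ℝ) → ℝ) (u : Fin n → ℝ) : ℝ :=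
  Real.log (∫ x, Real.exp (dotp u (x - center ρ)) ∂law ρ)

/-- The width in direction `u` of the tilts of entropy at most `k`. -/
def wid (ρ : (Fin n → ℝ) → ℝ) (k : ℝ) (u : Fin n → ℝ) : ℝ :=
  sInf ((fun s : ℝ => (k + lmgf ρ (s • u)) / s) '' Ioi 0)

theorem nsq_smul_eq (c : ℝ) (x : Fin n → ℝ) : nsq (c • x) = c ^ 2 * nsq x := nsq_smul' c x

theorem sqrt_nsq_smul {c : ℝ} (hc : 0 ≤ c) (x : Fin n → ℝ) :
    Real.sqrt (nsq (c • x)) = c * Real.sqrt (nsq x) := by
  rw [nsq_smul_eq, Real.sqrt_mul (sq_nonneg c), Real.sqrt_sq hc]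

theorem dotp_smul (c : ℝ) (u x : Fin n → ℝ) : dotp (c • u) x = c * dotp u x := by
  simp only [dotp, Pi.smul_apply, smul_eq_mul, Finset.mul_sum, mul_assoc]

theorem one_le_mgf (h : Ulc η ρ) (u : Fin n → ℝ) :
    1 ≤ ∫ x, Real.exp (dotp u (x - center ρ)) ∂law ρ := by
  obtain ⟨hi, h0⟩ := integral_dotp_centred h u
  have := exp_integral_le h hi (integrable_linear_mgf h u)
  rwa [h0, Real.exp_zero] at this

theorem lmgf_nonneg (h : Ulc η ρ) (u : Fin n → ℝ) : 0 ≤ lmgf ρ u :=
  Real.log_nonneg (one_le_mgf h u)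

theorem exp_lmgf (h : Ulc η ρ) (u : Fin n → ℝ) :
    Real.exp (lmgf ρ u) = ∫ x, Real.exp (dotp u (x - center ρ)) ∂law ρ :=
  Real.exp_log (lt_of_lt_of_le one_pos (one_le_mgf h u))

theorem lmgf_le (h : Ulc η ρ) (u : Fin n → ℝ) : lmgf ρ u ≤ nsq u / η :=
  (Real.log_le_iff_le_exp (lt_of_lt_of_le one_pos (one_le_mgf h u))).2 (linear_mgf h u)

theorem lmgf_zero (h : Ulc η ρ) : lmgf ρ 0 = 0 := by
  refine le_antisymm ?_ (lmgf_nonneg h 0)
  simpa [nsq] using lmgf_le h (0 : Fin n → ℝ)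

theorem lmgf_convex (h : Ulc η ρ) (u v : Fin n → ℝ) {a b : ℝ} (ha : 0 ≤ a) (hb : 0 ≤ b)
    (hab : a + b = 1) : lmgf ρ (a • u + b • v) ≤ a * lmgf ρ u + b * lmgf ρ v := by
  have := isProb h
  set A := lmgf ρ u
  set B := lmgf ρ v
  set c := center ρ
  have hle : ∀ x, Real.exp (dotp (a • u + b • v) (x - c)) * Real.exp (-(a * A + b * B)) ≤
      a * (Real.exp (dotp u (x - c)) * Real.exp (-A))
        + b * (Real.exp (dotp v (x - c)) * Real.exp (-B)) := fun x => by
    simp only [← Real.exp_add, dotp_add, dotp_smul]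
    calc _ = Real.exp (a • (dotp u (x - c) + -A) + b • (dotp v (x - c) + -B)) := by
          simp only [smul_eq_mul]; ring_nf
      _ ≤ _ := convexOn_exp.2 (mem_univ _) (mem_univ _) ha hb hab
  have hu := (integrable_linear_mgf h u).mul_const (Real.exp (-A))
  have hv := (integrable_linear_mgf h v).mul_const (Real.exp (-B))
  have key := integral_mono ((integrable_linear_mgf h (a • u + b • v)).mul_const _)
    ((hu.const_mul a).add (hv.const_mul b)) hle
  simp only [Pi.add_apply] at key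
  rw [integral_mul_const, integral_add (hu.const_mul a) (hv.const_mul b), integral_const_mul,
    integral_const_mul, integral_mul_const, integral_mul_const, ← exp_lmgf h, ← exp_lmgf h,
    ← exp_lmgf h, ← Real.exp_add, ← Real.exp_add, ← Real.exp_add, add_neg_cancel, add_neg_cancel,
    Real.exp_zero, mul_one, mul_one, hab, Real.exp_le_one_iff] at key
  linarith

theorem lmgf_smul_le (h : Ulc η ρ) (u : Fin n → ℝ) {a : ℝ} (ha : 0 ≤ a) (ha1 : a ≤ 1) :
    lmgf ρ (a • u) ≤ a * lmgf ρ u := by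
  simpa [lmgf_zero h] using lmgf_convex h u 0 ha (sub_nonneg.2 ha1) (add_sub_cancel a 1)

variable {k : ℝ} {u v : Fin n → ℝ}

theorem wid_img_bdd (h : Ulc η ρ) (hk : 0 ≤ k) (u : Fin n → ℝ) :
    BddBelow ((fun s : ℝ => (k + lmgf ρ (s • u)) / s) '' Ioi 0) :=
  ⟨0, by
    rintro _ ⟨s, hs, rfl⟩
    exact div_nonneg (add_nonneg hk (lmgf_nonneg h _)) (le_of_lt hs)⟩

theorem wid_le (h : Ulc η ρ) (hk : 0 ≤ k) (u : Fin n → ℝ) {s : ℝ} (hs : 0 < s) :
    wid ρ k u ≤ (k + lmgf ρ (s • u)) / s :=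
  csInf_le (wid_img_bdd h hk u) ⟨s, hs, rfl⟩

theorem le_wid {b : ℝ} (hb : ∀ s, 0 < s → b ≤ (k + lmgf ρ (s • u)) / s) : b ≤ wid ρ k u :=
  le_csInf ⟨_, mem_image_of_mem _ (mem_Ioi.2 one_pos)⟩ fun _ ⟨s, hs, e⟩ => e ▸ hb s hs

theorem wid_nonneg (h : Ulc η ρ) (hk : 0 ≤ k) (u : Fin n → ℝ) : 0 ≤ wid ρ k u :=
  le_wid fun _ hs => div_nonneg (add_nonneg hk (lmgf_nonneg h _)) hs.le

theorem wid_add_le (h : Ulc η ρ) (hk : 0 ≤ k) (u v : Fin n → ℝ) :
    wid ρ k (u + v) ≤ wid ρ k u + wid ρ k v := by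
  suffices H : wid ρ k (u + v) - wid ρ k u ≤ wid ρ k v by linarith
  refine le_wid fun q hq => ?_
  suffices H : wid ρ k (u + v) - (k + lmgf ρ (q • v)) / q ≤ wid ρ k u by linarith
  refine le_wid fun p hp => ?_
  have hs : 0 < p * q / (p + q) := by positivity
  have h1 := wid_le h hk (u + v) hs
  have e : (p * q / (p + q)) • (u + v) = (q / (p + q)) • (p • u) + (p / (p + q)) • (q • v) := by
    simp only [smul_smul, smul_add]
    congr 2 <;> field_simp
  rw [e] at h1
  have h2 := lmgf_convex h (p • u) (q • v) (a := q / (p + q)) (b := p / (p + q)) (by positivity)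
    (by positivity) (by rw [← add_div, add_comm q p, div_self (by positivity)])
  have h3 : wid ρ k (u + v) ≤ (k + (q / (p + q) * lmgf ρ (p • u) + p / (p + q) * lmgf ρ (q • v)))
      / (p * q / (p + q)) := h1.trans (div_le_div_of_nonneg_right (by linarith) hs.le)
  have e2 : (k + (q / (p + q) * lmgf ρ (p • u) + p / (p + q) * lmgf ρ (q • v))) / (p * q / (p + q))
      = (k + lmgf ρ (p • u)) / p + (k + lmgf ρ (q • v)) / q := by
    field_simp
    ring
  linarith

theorem wid_smul_le (h : Ulc η ρ) (hk : 0 ≤ k) (u : Fin n → ℝ) {c : ℝ} (hc : 0 < c) :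
    wid ρ k (c • u) ≤ c * wid ρ k u := by
  rw [← div_le_iff₀' hc]
  refine le_wid fun s hs => ?_
  have := wid_le h hk (c • u) (div_pos hs hc)
  rw [smul_smul, div_mul_cancel₀ _ hc.ne'] at this
  rw [div_le_iff₀ hc]
  exact this.trans_eq (by field_simp)

/-- The bound by uniform log-concavity. -/
theorem wid_le_norm (h : Ulc η ρ) (hk : 0 < k) (u : Fin n → ℝ) :
    wid ρ k u ≤ 2 * Real.sqrt (k / η) * Real.sqrt (nsq u) := by
  have := h.pos
  rcases eq_or_lt_of_le (nsq_nonneg u) with h0 | h0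
  · rw [← h0, Real.sqrt_zero, mul_zero]
    refine le_of_forall_pos_le_add fun e he => ?_
    have := wid_le h hk.le u (div_pos hk he)
    have h1 := lmgf_le h ((k / e) • u)
    rw [nsq_smul_eq, ← h0, mul_zero, zero_div] at h1
    have h2 : lmgf ρ ((k / e) • u) = 0 := le_antisymm h1 (lmgf_nonneg h _)
    rw [h2, add_zero, div_div_cancel₀ hk.ne'] at this
    linarith
  · have hs : 0 < Real.sqrt (k * η / nsq u) := by positivity
    have h1 := wid_le h hk.le u hs
    have h2 := lmgf_le h (Real.sqrt (k * η / nsq u) • u)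
    rw [nsq_smul_eq, Real.sq_sqrt (by positivity)] at h2
    have e : k * η / nsq u * nsq u / η = k := by field_simp
    rw [e] at h2
    refine h1.trans ((div_le_div_of_nonneg_right (add_le_add_right h2 k) hs.le).trans_eq ?_)
    rw [div_eq_iff hs.ne', mul_assoc, mul_assoc, ← Real.sqrt_mul h0.le,
      ← Real.sqrt_mul (by positivity), show k / η * (nsq u * (k * η / nsq u)) = k * k by field_simp,
      Real.sqrt_mul_self hk.le]
    ring

theorem abs_wid_sub_le (h : Ulc η ρ) (hk : 0 < k) (u v : Fin n → ℝ) :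
    |wid ρ k u - wid ρ k v| ≤ 2 * Real.sqrt (k / η) * Real.sqrt (nsq (u - v)) := by
  have e : nsq (v - u) = nsq (u - v) := by
    simp only [nsq, Pi.sub_apply]
    exact Finset.sum_congr rfl fun i _ => by ring
  have h1 := wid_add_le h hk.le v (u - v)
  have h2 := wid_add_le h hk.le u (v - u)
  have h3 := wid_le_norm h hk (u - v)
  have h4 := wid_le_norm h hk (v - u)
  rw [add_sub_cancel] at h1 h2
  rw [e] at h4
  rw [abs_le]
  constructor <;> linarith

theorem continuous_wid (h : Ulc η ρ) (hk : 0 < k) : Continuous (wid ρ k) := by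
  refine continuous_iff_continuousAt.2 fun v => tendsto_iff_norm_sub_tendsto_zero.2 ?_
  have hc : Continuous fun u : Fin n → ℝ => 2 * Real.sqrt (k / η) * Real.sqrt (nsq (u - v)) :=
    continuous_const.mul (Real.continuous_sqrt.comp (continuous_nsq.comp (by fun_prop)))
  have h0 := hc.tendsto v
  simp only [sub_self, nsq, Pi.zero_apply, zero_pow two_ne_zero, Finset.sum_const_zero,
    Real.sqrt_zero, mul_zero] at h0
  exact squeeze_zero (fun u => norm_nonneg _) (fun u => abs_wid_sub_le h hk u v) h0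

end

end Vale.Agent.P245.General
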