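import Vale.Agent.P245.Gen2.Basic
import Vale.Agent.P245.Gen2.TiltBasic
import Vale.Agent.P245.Gen2.Sdpi

/-!
# P245, polylogarithmic bound: the two-time channel and its contraction of entropy
-/

open MeasureTheory Filter Topology ProbabilityTheory

namespace Vale.Agent.P245.Gen2

open General

noncomputable section

variable {n : ℕ} {η D K s t : ℝ} {ρ : St n → ℝ}

/-! ### Posterior averages along a line -/

private theorem hasDerivAt_num_line (h : Ulc η ρ) (hs : 0 ≤ s) {g : St n → ℝ}
    (hg : Measurable g) (hg' : PolyB g) (θ v : St n) (r : ℝ) :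
    HasDerivAt (fun r => num ρ g s (θ + r • v))
      (num ρ (fun x => g x * dotp v x) s (θ + r • v)) r := by
  have h1 := (hasFDerivAt_num_space h hg hg' hs (θ + r • v)).comp_hasDerivAt r
    (((hasDerivAt_id r).smul_const v).const_add θ)
  refine h1.congr_deriv ?_
  simp only [sum_apply, smul_apply, ContinuousLinearMap.proj_apply, one_smul, smul_eq_mul, num]
  have e : (fun x => g x * dotp v x * wgt s (θ + r • v) x) =
      fun x => ∑ i, g x * x i * wgt s (θ + r • v) x * v i := funext fun x => by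
    simp only [dotp, Finset.mul_sum, Finset.sum_mul]
    exact Finset.sum_congr rfl fun i _ => by ring
  have hi : ∀ i, Integrable (fun x => g x * x i * wgt s (θ + r • v) x * v i) (law ρ) := fun i =>
    (integrable_wgt h (g := fun x => g x * x i) (hg.mul (measurable_pi_apply i))
      (polyB_mul hg' (polyB_coord i)) hs (θ + r • v)).mul_const (v i)
  rw [e, integral_finsetSum _ fun i _ => hi i]
  simp only [integral_mul_const]

private theorem dotp_bary_eq (h : Ulc η ρ) (hs : 0 ≤ s) (θ w : St n) :
    dotp w (bary ρ s θ) = mg ρ (dotp w) s θ := by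
  rw [← integral_post h hs]
  simp only [dotp]
  rw [integral_finsetSum _ fun i _ => (integrable_polyB (post_ulc h hs θ) (measurable_pi_apply i)
    (polyB_coord i)).const_mul (w i)]
  refine (Finset.sum_congr rfl fun i _ => ?_).trans
    (Finset.sum_congr rfl fun i _ => (integral_const_mul (w i) fun x : St n => x i).symm)
  rw [integral_post h hs]
  rfl

private theorem hasDerivAt_mg_line (h : Ulc η ρ) (hs : 0 ≤ s) {g : St n → ℝ} (hg : Measurable g)
    (hg' : PolyB g) (θ v : St n) (r : ℝ) :
    HasDerivAt (fun r => mg ρ g s (θ + r • v)) (pcov ρ g (dotp v) s (θ + r • v)) r := by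
  have hp := (part_pos h hs (θ + r • v)).ne'
  refine ((hasDerivAt_num_line h hs hg hg' θ v r).div
    (hasDerivAt_num_line h hs measurable_const (polyB_const 1) θ v r) hp).congr_deriv ?_
  simp only [pcov, mg, part, one_mul] at hp ⊢
  field_simp

private theorem hasDerivAt_log_part_line (h : Ulc η ρ) (hs : 0 ≤ s) (θ v : St n) (r : ℝ) :
    HasDerivAt (fun r => Real.log (part ρ s (θ + r • v))) (mg ρ (dotp v) s (θ + r • v)) r := by
  have h1 := (hasDerivAt_num_line h hs measurable_const (polyB_const 1) θ v r).log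
    (part_pos h hs (θ + r • v)).ne'
  refine h1.congr_deriv ?_
  simp only [mg, part, one_mul]

theorem lmgf_post (h : Ulc η ρ) (hs : 0 ≤ s) (θ v : St n) :
    lmgf (post ρ s θ) v =
      Real.log (part ρ s (θ + v)) - Real.log (part ρ s θ) - dotp v (bary ρ s θ) := by
  have hp := part_pos h hs θ
  have hp' := part_pos h hs (θ + v)
  have e : num ρ (fun x => Real.exp (dotp v (x - bary ρ s θ))) s θ =
      Real.exp (-dotp v (bary ρ s θ)) * part ρ s (θ + v) := by
    simp only [part, num, ← integral_const_mul]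
    refine integral_congr_ae (Eventually.of_forall fun x => ?_)
    simp only [wgt, dotp_sub, dotp_add, one_mul, ← Real.exp_add]
    congr 1
    ring
  rw [lmgf, show center (post ρ s θ) = bary ρ s θ from center_post h hs θ, integral_post h hs, mg,
    e, Real.log_div (mul_pos (Real.exp_pos _) hp').ne' hp.ne',
    Real.log_mul (Real.exp_pos _).ne' hp'.ne', Real.log_exp]
  ring

theorem dBary_coco (h : Ulc η ρ) (hs : 0 ≤ s) (θ v : St n) :
    (η + s) * nsq (dBary ρ s θ v) ≤ dotp v (dBary ρ s θ v) ∧
      dotp v (dBary ρ s θ v) ≤ nsq v / (η + s) ∧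
      nsq (dBary ρ s θ v) ≤ nsq v / (η + s) ^ 2 ∧
      dotp v (dBary ρ s θ v) - lmgf (post ρ s θ) v ≤ nsq v / (2 * (η + s)) ∧
      dotp v (dBary ρ s θ v) ≤ lmgf (post ρ s θ) ((2 : ℝ) • v) := by
  have hη : 0 < η + s := by linarith [h.pos]
  set Δ := dBary ρ s θ v with hΔ
  set φ : ℝ → ℝ := fun r => Real.log (part ρ s (θ + r • v))
  set f : ℝ → ℝ := fun r => mg ρ (dotp v) s (θ + r • v)
  set f' : ℝ → ℝ := fun r => pcov ρ (dotp v) (dotp v) s (θ + r • v)
  set g : ℝ → ℝ := fun r => mg ρ (dotp Δ) s (θ + r • v)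
  have dφ : ∀ r, HasDerivAt φ (f r) r := hasDerivAt_log_part_line h hs θ v
  have df : ∀ r, HasDerivAt f (f' r) r :=
    hasDerivAt_mg_line h hs (continuous_dotp v).measurable (polyB_dotp v) θ v
  have dg : ∀ r, HasDerivAt g (pcov ρ (dotp Δ) (dotp v) s (θ + r • v)) r :=
    hasDerivAt_mg_line h hs (continuous_dotp Δ).measurable (polyB_dotp Δ) θ v
  have hcov : ∀ (r : ℝ) (w w' : St n), pcov ρ (dotp w) (dotp w') s (θ + r • v) =
      covc (post ρ s (θ + r • v)) (dotp w) (dotp w') := fun r w w' =>
    (covc_post h hs _ (continuous_dotp w).measurable (continuous_dotp w').measurable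
      (polyB_dotp w) (polyB_dotp w')).symm
  have hc : ∀ (r : ℝ) (w : St n), covc (post ρ s (θ + r • v)) (dotp w) (dotp w) ≤ 1 / (η + s) * nsq w :=
    fun r w => covLe_inv (post_ulc h hs _) w
  have hf0 : ∀ r, 0 ≤ f' r := fun r => (covc_self_nonneg _).trans_eq (hcov r v v).symm
  have hf1 : ∀ r, f' r ≤ 1 / (η + s) * nsq v := fun r => (hcov r v v).le.trans (hc r v)
  have hmono : Monotone f := monotone_of_deriv_nonneg (fun r => (df r).differentiableAt)
    fun r => (df r).deriv.symm ▸ hf0 r
  have ef : f 1 - f 0 = dotp v Δ := by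
    simp only [f, hΔ, dBary, dotp_sub, dotp_bary_eq h hs, one_smul, zero_smul, add_zero]
  have eg : g 1 - g 0 = nsq Δ := by
    have : dotp Δ Δ = nsq Δ := by simp [dotp, nsq, pow_two]
    rw [← this]
    conv_rhs => arg 2; rw [hΔ]
    simp only [g, dBary, dotp_sub, dotp_bary_eq h hs, one_smul, zero_smul, add_zero]
  -- cocoercivity
  have ha : (η + s) * nsq Δ ≤ dotp v Δ := by
    set Φ : ℝ → ℝ := fun r => 2 * g r - 1 / (η + s) * f r
    have dΦ : ∀ r, HasDerivAt Φ (2 * pcov ρ (dotp Δ) (dotp v) s (θ + r • v) -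
        1 / (η + s) * f' r) r := fun r => ((dg r).const_mul 2).sub ((df r).const_mul _)
    obtain ⟨r, -, hr⟩ := exists_hasDerivAt_eq_slope Φ _ zero_lt_one
      (fun r _ => (dΦ r).continuousAt.continuousWithinAt) fun r _ => dΦ r
    have hb : 2 * pcov ρ (dotp Δ) (dotp v) s (θ + r • v) - 1 / (η + s) * f' r ≤ nsq Δ := by
      have h2 := covc_sq_le (post_ulc h hs (θ + r • v)) (continuous_dotp Δ).measurable
        (continuous_dotp v).measurable (polyB_dotp Δ) (polyB_dotp v)
      rw [← hcov r Δ v, ← hcov r v v] at h2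
      have h3 : pcov ρ (dotp Δ) (dotp v) s (θ + r • v) ^ 2 ≤ nsq Δ * (1 / (η + s) * f' r) := by
        refine (h2.trans (mul_le_mul_of_nonneg_right (hc r Δ) (hf0 r))).trans_eq ?_
        ring
      have h4 : 0 ≤ 1 / (η + s) * f' r := mul_nonneg (by positivity) (hf0 r)
      nlinarith [sq_nonneg (1 / (η + s) * f' r - nsq Δ), nsq_nonneg Δ]
    rw [hr, sub_zero, div_one] at hb
    have e : Φ 1 - Φ 0 = 2 * (g 1 - g 0) - 1 / (η + s) * (f 1 - f 0) := by simp only [Φ]; ring
    rw [e, ef, eg, one_div_mul_eq_div] at hb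
    have := (le_div_iff₀ hη).1 (show nsq Δ ≤ dotp v Δ / (η + s) by linarith)
    linarith
  have hcs : dotp v Δ ^ 2 ≤ nsq v * nsq Δ := dotp_sq_le v Δ
  have hv0 := nsq_nonneg v
  have hd0 := nsq_nonneg Δ
  have hp0 : 0 ≤ dotp v Δ := le_trans (mul_nonneg hη.le hd0) ha
  have hb : dotp v Δ ≤ nsq v / (η + s) := by
    rw [le_div_iff₀ hη]
    rcases hp0.eq_or_lt' with h0 | h0
    · rw [h0, zero_mul]; exact hv0
    · refine le_of_mul_le_mul_left ?_ h0
      nlinarith [mul_le_mul_of_nonneg_left ha hv0]
  refine ⟨ha, hb, ?_, ?_, ?_⟩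
  · rw [le_div_iff₀ (by positivity)]
    have := (le_div_iff₀ hη).1 hb
    nlinarith
  · rw [lmgf_post h hs, dotp_bary_eq h hs]
    set ψ : ℝ → ℝ := fun r => -φ r + r * f r - 1 / (η + s) * nsq v / 2 * (r * r)
    have dψ : ∀ r, HasDerivAt ψ (r * (f' r - 1 / (η + s) * nsq v)) r := fun r =>
      (((dφ r).neg.add ((hasDerivAt_id r).mul (df r))).sub
        (((hasDerivAt_id r).mul (hasDerivAt_id r)).const_mul _)).congr_deriv (by simp; ring)
    obtain ⟨r, hr0, hr⟩ := exists_hasDerivAt_eq_slope ψ _ zero_lt_one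
      (fun r _ => (dψ r).continuousAt.continuousWithinAt) fun r _ => dψ r
    have h1 : r * (f' r - 1 / (η + s) * nsq v) ≤ 0 :=
      mul_nonpos_of_nonneg_of_nonpos hr0.1.le (by linarith [hf1 r])
    rw [hr, sub_zero, div_one] at h1
    simp only [ψ, φ, f, one_smul, zero_smul, add_zero, one_mul, zero_mul, mul_zero, sub_zero,
      mul_one] at h1
    simp only [f, one_smul, zero_smul, add_zero] at ef
    rw [show nsq v / (2 * (η + s)) = 1 / (η + s) * nsq v / 2 by field_simp]
    linarith
  · rw [lmgf_post h hs, dotp_smul, dotp_bary_eq h hs]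
    obtain ⟨r1, h10, hr1⟩ := exists_hasDerivAt_eq_slope φ _ (show (1 : ℝ) < 2 by norm_num)
      (fun r _ => (dφ r).continuousAt.continuousWithinAt) fun r _ => dφ r
    obtain ⟨r0, h00, hr0⟩ := exists_hasDerivAt_eq_slope φ _ zero_lt_one
      (fun r _ => (dφ r).continuousAt.continuousWithinAt) fun r _ => dφ r
    have m1 : f 1 ≤ f r1 := hmono h10.1.le
    have m0 : f 0 ≤ f r0 := hmono h00.1.le
    norm_num at hr1 hr0
    simp only [φ, f, one_smul, zero_smul, add_zero] at hr1 hr0 m1 m0 ef
    linarith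

/-! ### The channel -/

theorem integral_chanM (_h : Ulc η ρ) (_hs : 0 ≤ s) {F : St n → ℝ} (hm : Measurable F) :
    ∫ θ, F θ ∂chanM ρ s = Ep ρ s F :=
  integral_chan ρ s hm

private theorem polyB2_of_bounded {Φ : St n → St n → ℝ} {C : ℝ} (hC : ∀ x θ, |Φ x θ| ≤ C) :
    PolyB2 Φ :=
  ⟨C, 0, fun x θ => by simpa using hC x θ⟩

private theorem fut_self (h : Ulc η ρ) (hs : 0 ≤ s) (F : St n → ℝ) (θ : St n) :
    fut ρ s s F θ = F θ := by
  have := isProb (post_ulc h hs θ)
  simp [fut, joint]

theorem fut_fut (h : Ulc η ρ) {r : ℝ} (hs : 0 ≤ s) (hst : s ≤ t) (htr : t ≤ r) {F : St n → ℝ}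
    (hm : Measurable F) (hF : ∃ C, ∀ x, |F x| ≤ C) (θ : St n) :
    fut ρ s t (fut ρ t r F) θ = fut ρ s r F θ := by
  obtain ⟨C, hC⟩ := hF
  rcases hst.eq_or_lt with rfl | hlt
  · exact fut_self h hs _ _
  have hp := post_ulc h hs θ
  have e := joint_split hp (sub_pos.2 hlt) (sub_nonneg.2 htr)
    (Φ := fun _ θ' => F (θ + θ')) (hm.comp (measurable_snd.const_add θ))
    (polyB2_of_bounded fun _ _ => hC _)
  rw [show t - s + (r - t) = r - s by ring] at e
  refine Eq.trans ?_ e.symm
  refine congrArg (Ep (post ρ s θ) (t - s)) (funext fun θ' => ?_)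
  rw [post_post h hs (sub_nonneg.2 hst), add_sub_cancel]
  simp only [fut, add_assoc]

/-- The average of the future given the point and the present. -/
private def futPt (s t : ℝ) (G : St n → ℝ) (x θ : St n) : ℝ :=
  ∫ g, G (θ + ((t - s) • x + Real.sqrt (t - s) • g)) ∂P166W.gauss (Fin n)

private theorem measurable_futPt {G : St n → ℝ} (hG : Measurable G) :
    Measurable (Function.uncurry (futPt s t G)) :=
  ((hG.comp (f := fun p : (St n × St n) × St n =>
    p.1.2 + ((t - s) • p.1.1 + Real.sqrt (t - s) • p.2)) (by fun_prop)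
      ).stronglyMeasurable.integral_prod_right' (ν := P166W.gauss (Fin n))).measurable

private theorem abs_futPt_le {G : St n → ℝ} {C : ℝ} (hC : ∀ x, |G x| ≤ C) (x θ : St n) :
    |futPt s t G x θ| ≤ C := by
  rw [← Real.norm_eq_abs]
  exact (norm_integral_le_of_norm_le (integrable_const C) (Eventually.of_forall fun g => by
    rw [Real.norm_eq_abs]; exact hC _)).trans_eq (by simp)

private theorem fut_eq (h : Ulc η ρ) (hs : 0 ≤ s) {G : St n → ℝ} {C : ℝ} (hG : Measurable G)
    (hC : ∀ x, |G x| ≤ C) (θ : St n) :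
    fut ρ s t G θ = mg ρ (fun x => futPt s t G x θ) s θ := by
  have := isProb (post_ulc h hs θ)
  rw [← integral_post h hs, fut, joint, integral_prod (fun z : St n × St n =>
    G (θ + ((t - s) • z.1 + Real.sqrt (t - s) • z.2)))
    ((integrable_const C).mono' (hG.comp (by fun_prop)).aestronglyMeasurable
      (Eventually.of_forall fun z => by rw [Real.norm_eq_abs]; exact hC _))]
  rfl

theorem measurable_fut (h : Ulc η ρ) (hs : 0 ≤ s) {G : St n → ℝ} (hG : Measurable G)
    (hG' : ∃ C, ∀ x, |G x| ≤ C) : Measurable (fut ρ s t G) := by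
  obtain ⟨C, hC⟩ := hG'
  rw [funext (fut_eq h hs hG hC)]
  exact measurable_mg h (measurable_futPt hG) s

/-- Rotation invariance of two independent Gaussian vectors. -/
theorem map_gauss_rot {a b : ℝ} (hb : 0 ≤ b) (hab : a ^ 2 + b ^ 2 = 1) :
    ((P166W.gauss (Fin n)).prod (P166W.gauss (Fin n))).map
        (fun p => (a • p.1 + b • p.2, b • p.1 - a • p.2)) =
      (P166W.gauss (Fin n)).prod (P166W.gauss (Fin n)) := by
  set ν := stdGaussian (EuclideanSpace ℝ (Fin n))
  have ha : -1 ≤ a ∧ a ≤ 1 := by constructor <;> nlinarith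
  have hc : Real.cos (Real.arccos a) = a := Real.cos_arccos ha.1 ha.2
  have hsn : Real.sin (Real.arccos a) = b := by
    rw [Real.sin_arccos, show 1 - a ^ 2 = b ^ 2 by linarith, Real.sqrt_sq hb]
  have h1 := IsGaussian.map_rotation_eq_self_of_forall_strongDual_eq_zero (μ := ν)
    (fun L => integral_strongDual_stdGaussian L) (Real.arccos a)
  have h2 : ν.map (fun z => -z) = ν := stdGaussian_map (LinearIsometryEquiv.neg ℝ)
  have h3 : (ν.prod ν).map (fun p => (p.1, -p.2)) = ν.prod ν := by
    conv_rhs => arg 2; rw [← h2]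
    conv_rhs => arg 1; rw [← Measure.map_id (μ := ν)]
    rw [Measure.map_prod_map _ _ measurable_id (by fun_prop)]
    rfl
  have e : P166W.gauss (Fin n) = ν.map WithLp.ofLp := by
    simp only [ν]
    rw [← map_pi_eq_stdGaussian, Measure.map_map (by fun_prop) (by fun_prop), P166W.gauss]
    simp [Function.comp_def]
  rw [e, Measure.map_prod_map _ _ (by fun_prop) (by fun_prop)]
  conv_rhs => rw [← h3, ← h1]
  rw [Measure.map_map (by fun_prop) (by fun_prop), Measure.map_map (by fun_prop) (by fun_prop),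
    Measure.map_map (by fun_prop) (by fun_prop)]
  congr 1
  funext p
  simp [Function.comp_def, ContinuousLinearMap.rotation_apply, hc, hsn, sub_eq_add_neg, add_comm]

theorem bridge (h : Ulc η ρ) (hs : 0 < s) (hst : s < t) {F G : St n → ℝ}
    (hF : Measurable F) (hG : Measurable G) (hF' : ∃ C, ∀ x, |F x| ≤ C)
    (hG' : ∃ C, ∀ x, |G x| ≤ C) :
    ∫ θ, F θ * fut ρ s t G θ ∂chanM ρ s = ∫ θ, brOp s t F θ * G θ ∂chanM ρ t := by
  have hmf := measurable_fut (t := t) h hs.le hG hG'
  obtain ⟨A, hA⟩ := hF'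
  obtain ⟨B, hB⟩ := hG'
  have := isProb h
  have ht : 0 < t := hs.trans hst
  have hts := sub_pos.2 hst
  have hA0 : 0 ≤ A := (abs_nonneg _).trans (hA 0)
  have hbd : ∀ x y, |F x * G y| ≤ A * B := fun x y => by
    rw [abs_mul]; exact mul_le_mul (hA x) (hB y) (abs_nonneg _) hA0
  set γ := P166W.gauss (Fin n)
  have hbr : Measurable (brOp s t F) :=
    ((hF.comp (f := fun p : St n × St n =>
      (s / t) • p.1 + Real.sqrt (s * (t - s) / t) • p.2) (by fun_prop)
        ).stronglyMeasurable.integral_prod_right' (ν := γ)).measurable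
  have hbrA : ∀ θ, |brOp s t F θ| ≤ A := abs_bridge_le hA
  have hm1 : Measurable fun θ => F θ * fut ρ s t G θ := hF.mul hmf
  have hm2 : Measurable fun θ => brOp s t F θ * G θ := hbr.mul hG
  rw [integral_chanM h hs.le hm1, integral_chanM h ht.le hm2]
  have hΦm : Measurable (Function.uncurry fun x θ => F θ * futPt s t G x θ) :=
    (hF.comp measurable_snd).mul (measurable_futPt hG)
  have hΦB : PolyB2 fun x θ => F θ * futPt s t G x θ := polyB2_of_bounded (C := A * B) fun x θ => by
    rw [abs_mul]; exact mul_le_mul (hA θ) (abs_futPt_le hB x θ) (abs_nonneg _) hA0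
  have hL : (fun θ => F θ * fut ρ s t G θ) =
      fun θ => mg ρ (fun x => F θ * futPt s t G x θ) s θ := funext fun θ => by
    rw [fut_eq h hs.le hG hB]
    simp only [mg, num, mul_assoc, integral_const_mul, mul_div_assoc]
  rw [hL, ← joint_mg h hs hΦm hΦB]
  simp only [joint, Ep]
  rw [integral_prod (fun z : St n × St n => F (s • z.1 + Real.sqrt s • z.2) *
      futPt s t G z.1 (s • z.1 + Real.sqrt s • z.2)) (integrable_joint h hΦm hΦB hs.le),
    integral_prod (fun z : St n × St n => brOp s t F (t • z.1 + Real.sqrt t • z.2) *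
      G (t • z.1 + Real.sqrt t • z.2))
      ((integrable_const (A * B)).mono' ((hbr.mul hG).comp (by fun_prop)).aestronglyMeasurable
        (Eventually.of_forall fun z => by
          rw [Real.norm_eq_abs, abs_mul]
          exact mul_le_mul (hbrA _) (hB _) (abs_nonneg _) hA0))]
  refine integral_congr_ae (Eventually.of_forall fun x => ?_)
  have hp : Measurable fun p : St n × St n => F (s • x + Real.sqrt s • p.1) *
      G (s • x + Real.sqrt s • p.1 + ((t - s) • x + Real.sqrt (t - s) • p.2)) :=
    (hF.comp (by fun_prop)).mul (hG.comp (by fun_prop))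
  have hq : Measurable fun p : St n × St n =>
      F ((s / t) • (t • x + Real.sqrt t • p.1) + Real.sqrt (s * (t - s) / t) • p.2) *
        G (t • x + Real.sqrt t • p.1) :=
    (hF.comp (by fun_prop)).mul (hG.comp (by fun_prop))
  set a := Real.sqrt (s / t) with ha
  set b := Real.sqrt ((t - s) / t) with hb
  have hab : a ^ 2 + b ^ 2 = 1 := by
    rw [ha, hb, Real.sq_sqrt (by positivity), Real.sq_sqrt (by positivity)]
    field_simp
    ring
  calc ∫ g, F (s • x + Real.sqrt s • g) * futPt s t G x (s • x + Real.sqrt s • g) ∂γ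
      = ∫ p, F (s • x + Real.sqrt s • p.1) *
          G (s • x + Real.sqrt s • p.1 + ((t - s) • x + Real.sqrt (t - s) • p.2)) ∂γ.prod γ := by
        rw [integral_prod _ ((integrable_const (A * B)).mono' hp.aestronglyMeasurable
          (Eventually.of_forall fun p => by rw [Real.norm_eq_abs]; exact hbd _ _))]
        simp only [futPt, integral_const_mul]
        rfl
    _ = ∫ p, F ((s / t) • (t • x + Real.sqrt t • p.1) + Real.sqrt (s * (t - s) / t) • p.2) *
          G (t • x + Real.sqrt t • p.1) ∂γ.prod γ := by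
        conv_lhs => rw [← map_gauss_rot (Real.sqrt_nonneg _) hab]
        rw [integral_map (by fun_prop) hp.aestronglyMeasurable]
        refine integral_congr_ae (Eventually.of_forall fun p => ?_)
        have e1 : Real.sqrt s * a = s / t * Real.sqrt t := by
          rw [ha, Real.sqrt_div hs.le, mul_div_assoc', Real.mul_self_sqrt hs.le,
            div_mul_eq_mul_div, eq_div_iff ht.ne', div_mul_eq_mul_div,
            div_eq_iff (Real.sqrt_ne_zero'.2 ht)]
          rw [mul_assoc, Real.mul_self_sqrt ht.le]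
        have e2 : Real.sqrt s * b = Real.sqrt (s * (t - s) / t) := by
          rw [hb, ← Real.sqrt_mul hs.le, mul_div_assoc]
        have e3 : Real.sqrt s * a + Real.sqrt (t - s) * b = Real.sqrt t := by
          rw [ha, hb, Real.sqrt_div hs.le, Real.sqrt_div hts.le, mul_div_assoc', mul_div_assoc',
            Real.mul_self_sqrt hs.le, Real.mul_self_sqrt hts.le, ← add_div, add_sub_cancel,
            Real.div_sqrt]
        have e4 : Real.sqrt s * b - Real.sqrt (t - s) * a = 0 := by
          rw [ha, hb, Real.sqrt_div hs.le, Real.sqrt_div hts.le]; ring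
        dsimp only
        congr 2
        · simp only [smul_add, smul_smul, div_mul_cancel₀ _ ht.ne', ← e1, ← e2, add_assoc]
          rfl
        · have : Real.sqrt t • p.1 = (Real.sqrt s * a + Real.sqrt (t - s) * b) • p.1 +
              (Real.sqrt s * b - Real.sqrt (t - s) * a) • p.2 := by simp [e3, e4]
          rw [this]
          module
    _ = ∫ g, brOp s t F (t • x + Real.sqrt t • g) * G (t • x + Real.sqrt t • g) ∂γ := by
        rw [integral_prod _ ((integrable_const (A * B)).mono' hq.aestronglyMeasurable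
          (Eventually.of_forall fun p => by rw [Real.norm_eq_abs]; exact hbd _ _))]
        simp only [brOp, integral_mul_const]
        rfl

/-! ### The contraction -/

private theorem tendsto_ent_add {μ : Measure (St n)} [IsProbabilityMeasure μ] {f : St n → ℝ}
    (hm : Measurable f) {C : ℝ} (h0 : ∀ x, 0 ≤ f x) (hC : ∀ x, f x ≤ C) :
    Tendsto (fun k : ℕ => ent μ fun x => f x + 1 / ((k : ℝ) + 1)) atTop (𝓝 (ent μ f)) := by
  have he : Tendsto (fun k : ℕ => 1 / ((k : ℝ) + 1)) atTop (𝓝 0) :=
    tendsto_one_div_add_atTop_nhds_zero_nat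
  have h1 : ∀ (k : ℕ) x, f x + 1 / ((k : ℝ) + 1) ∈ Set.Icc (0 : ℝ) (C + 1) := fun k x =>
    ⟨add_nonneg (h0 x) (by positivity), add_le_add (hC x)
      ((div_le_one (by positivity)).2 (by simp))⟩
  obtain ⟨M, hM⟩ := IsCompact.exists_bound_of_continuousOn
    (isCompact_Icc (a := (0 : ℝ)) (b := C + 1))
    (f := fun u => u * Real.log u) Real.continuous_mul_log.continuousOn
  have t1 : Tendsto (fun k : ℕ => ∫ x, (f x + 1 / ((k : ℝ) + 1)) *
      Real.log (f x + 1 / ((k : ℝ) + 1)) ∂μ) atTop (𝓝 (∫ x, f x * Real.log (f x) ∂μ)) := by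
    refine tendsto_integral_of_dominated_convergence (fun _ => M)
      (fun k => ((hm.add_const _).mul (hm.add_const _).log).aestronglyMeasurable)
      (integrable_const M) (fun k => Eventually.of_forall fun x => hM _ (h1 k x))
      (Eventually.of_forall fun x => ?_)
    exact (Real.continuous_mul_log.tendsto _).comp (by simpa using he.const_add (f x))
  have t2 : Tendsto (fun k : ℕ => ∫ x, f x + 1 / ((k : ℝ) + 1) ∂μ) atTop
      (𝓝 (∫ x, f x ∂μ)) := by
    refine tendsto_integral_of_dominated_convergence (fun _ => C + 1)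
      (fun k => (hm.add_const _).aestronglyMeasurable) (integrable_const _)
      (fun k => Eventually.of_forall fun x => ?_)
      (Eventually.of_forall fun x => by simpa using he.const_add (f x))
    rw [Real.norm_eq_abs, abs_of_nonneg (h1 k x).1]
    exact (h1 k x).2
  exact t1.sub ((Real.continuous_mul_log.tendsto _).comp t2)

private theorem ent_nonneg_bdd {μ : Measure (St n)} [IsProbabilityMeasure μ] {f : St n → ℝ}
    (hm : Measurable f) {C : ℝ} (h0 : ∀ x, 0 ≤ f x) (hC : ∀ x, f x ≤ C) : 0 ≤ ent μ f := by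
  obtain ⟨M, hM⟩ := IsCompact.exists_bound_of_continuousOn
    (isCompact_Icc (a := (0 : ℝ)) (b := C))
    (f := fun u => u * Real.log u) Real.continuous_mul_log.continuousOn
  have := integral_mul_le_ent (μ := μ) (v := f) (Y := fun _ => 0) (L := 0) h0
    ((integrable_const C).mono' hm.aestronglyMeasurable (Eventually.of_forall fun x => by
      rw [Real.norm_eq_abs, abs_of_nonneg (h0 x)]; exact hC x))
    ((integrable_const M).mono' (hm.mul hm.log).aestronglyMeasurable
      (Eventually.of_forall fun x => hM _ ⟨h0 x, hC x⟩))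
    (by simp) measurable_const (by simp)
  simpa using this

/-- The strict contraction of entropy along the backward bridge. -/
theorem sdpi (hb : Base η D K ρ) (hs : 0 < s) (hst : s < t) {c : ℝ}
    (hc : (K * t + 2) * s / (2 * (t - s)) ≤ c) {G : St n → ℝ} (hm : Measurable G)
    (h0 : ∀ x, 0 ≤ G x) (hB : ∃ C, ∀ x, G x ≤ C) :
    ent (chanM ρ t) (brOp s t G) ≤ c / (1 + c) * ent (chanM ρ s) G := by
  obtain ⟨C, hC⟩ := hB
  have ht : 0 < t := hs.trans hst
  have := sub_pos.2 hst
  have := isProb hb.ulc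
  have : IsProbabilityMeasure (chanM ρ s) := isProb_chan hb.ulc s
  have : IsProbabilityMeasure (chanM ρ t) := isProb_chan hb.ulc t
  set c0 := (K * t + 2) * s / (2 * (t - s)) with hc0
  have hK := hb.posK
  have hc00 : 0 ≤ c0 := by positivity
  have hCG : ∀ x, |G x| ≤ C := fun x => by rw [abs_of_nonneg (h0 x)]; exact hC x
  have hbm : Measurable (brOp s t G) := (contDiff_bridge hs hst hm hCG).continuous.measurable
  have hb0 : ∀ θ, 0 ≤ brOp s t G θ ∧ brOp s t G θ ≤ C :=
    bridge_mem hm fun x => ⟨h0 x, hC x⟩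
  have key : ent (chanM ρ t) (brOp s t G) ≤ c0 / (1 + c0) * ent (chanM ρ s) G := by
    refine le_of_tendsto_of_tendsto' (tendsto_ent_add hbm (fun θ => (hb0 θ).1) fun θ => (hb0 θ).2)
      ((tendsto_ent_add hm h0 hC).const_mul _) fun k => ?_
    set e := 1 / ((k : ℝ) + 1)
    have he : 0 < e := by positivity
    have hk := entEp_bridge_le hb.ulc hK.le (lsiP_of_tame hb.lsi) hs hst
      (g := fun x => G x + e) he (hm.add_const e)
      (fun x => ⟨le_add_of_nonneg_left (h0 x), add_le_add (hC x) le_rfl⟩) hc0.symm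
    have hbe : General.bridge s t (fun x => G x + e) = fun θ => brOp s t G θ + e := funext fun θ => by
      rw [General.bridge, integral_add (integrable_bridge hm hCG θ) (integrable_const e)]
      simp [brOp]
    rw [hbe] at hk
    have hw : ∀ {r : ℝ}, 0 ≤ r → ∀ {f : St n → ℝ}, Measurable f →
        ent (chanM ρ r) f = entEp ρ r f := fun {r} hr {f} hf => by
      have hf' : Measurable fun y => f y * Real.log (f y) := hf.mul hf.log
      rw [ent, entEp, integral_chanM hb.ulc hr hf', integral_chanM hb.ulc hr hf]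
    rw [hw ht.le (hbm.add_const e), hw hs.le (hm.add_const e)]
    exact hk
  refine key.trans (mul_le_mul_of_nonneg_right ?_ (ent_nonneg_bdd hm h0 hC))
  rw [div_le_div_iff₀ (by linarith) (by linarith)]
  linarith

end

end Vale.Agent.P245.Gen2
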