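import Vale.Agent.P245.Gen2.Cut
import Vale.Agent.P245.Gen2.Bridge

/-!
# P245, polylogarithmic bound: an excited quantity under a tilted path
-/

open MeasureTheory Filter Topology

namespace Vale.Agent.P245.Gen2

open General

noncomputable section

variable {n : ℕ} {η D t r : ℝ} {ρ : St n → ℝ}

/-- A change of the state costs the relative entropy of the two posteriors. -/
theorem gibbs_shift (h : Ulc η ρ) (ht : 0 ≤ t) {g : St n → ℝ} (hg : Measurable g) {M : ℝ}
    (hM : ∀ x, |g x| ≤ M) (θ v : St n) :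
    ∫ x, g x ∂law (post ρ t (θ + v)) ≤
      nsq v / (2 * (η + t)) + Real.log (∫ x, Real.exp (g x) ∂law (post ρ t θ)) := by
  have hu := post_ulc h ht (θ + v)
  have := isProb hu
  have hgi : Integrable g (law (post ρ t (θ + v))) :=
    integrable_polyB hu hg (polyB_of_bounded hM)
  have hvi : Integrable (dotp v) (law (post ρ t (θ + v))) :=
    integrable_polyB hu (continuous_dotp v).measurable (polyB_dotp v)
  have he : Integrable (fun x => Real.exp (g x - dotp v x)) (law (post ρ t (θ + v))) := by
    refine ((integrable_linear_mgf hu (-v)).const_mul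
      (Real.exp (M - dotp v (center (post ρ t (θ + v)))))).mono'
      (hg.sub (continuous_dotp v).measurable).exp.aestronglyMeasurable
      (Eventually.of_forall fun x => ?_)
    rw [Real.norm_eq_abs, abs_of_pos (Real.exp_pos _), ← Real.exp_add]
    refine Real.exp_le_exp.2 ?_
    have : dotp (-v) (x - center (post ρ t (θ + v))) =
        dotp v (center (post ρ t (θ + v))) - dotp v x := by
      rw [dotp_sub]; simp [dotp]; ring
    have := (abs_le.1 (hM x)).2
    linarith
  have key := exp_integral_le hu (hgi.sub hvi) he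
  simp only [Pi.sub_apply] at key
  rw [integral_sub hgi hvi] at key
  have hp := part_pos h ht θ
  have hp' := part_pos h ht (θ + v)
  have e : ∫ x, Real.exp (g x - dotp v x) ∂law (post ρ t (θ + v)) =
      part ρ t θ / part ρ t (θ + v) * ∫ x, Real.exp (g x) ∂law (post ρ t θ) := by
    rw [integral_post h ht, integral_post h ht, mg, mg]
    have : num ρ (fun x => Real.exp (g x - dotp v x)) t (θ + v) =
        num ρ (fun x => Real.exp (g x)) t θ :=
      integral_congr_ae (Eventually.of_forall fun x => by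
        simp only [wgt, dotp_add, ← Real.exp_add]; congr 1; ring)
    rw [this]
    field_simp
  have hint : 0 < ∫ x, Real.exp (g x) ∂law (post ρ t θ) := by
    have hu' := post_ulc h ht θ
    have := isProb hu'
    refine lt_of_lt_of_le (Real.exp_pos (-M)) ?_
    calc Real.exp (-M) = ∫ _x, Real.exp (-M) ∂law (post ρ t θ) := by simp
      _ ≤ _ := integral_mono (integrable_const _)
          ((integrable_const (Real.exp M)).mono' hg.exp.aestronglyMeasurable
            (Eventually.of_forall fun x => by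
              rw [Real.norm_eq_abs, abs_of_pos (Real.exp_pos _)]
              exact Real.exp_le_exp.2 (abs_le.1 (hM x)).2))
          fun x => Real.exp_le_exp.2 (abs_le.1 (hM x)).1
  rw [e] at key
  have key' := (Real.le_log_iff_exp_le (mul_pos (div_pos hp hp') hint)).2 key
  rw [Real.log_mul (div_pos hp hp').ne' hint.ne', Real.log_div hp.ne' hp'.ne',
    integral_dotp hu, center_post h ht] at key'
  have hco := (dBary_coco h ht θ v).2.2.2.1
  rw [lmgf_post h ht, dBary, dotp_sub] at hco
  simp only [dotp] at hco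
  linarith

theorem fut_eq_integral (h : Ulc η ρ) (ht : 0 ≤ t) {F : St n → ℝ} (hF : Measurable F) {B : ℝ}
    (hB : ∀ x, |F x| ≤ B) (r : ℝ) (θ : St n) :
    fut ρ t r F θ = ∫ x, (∫ g, F (θ + ((r - t) • x + Real.sqrt (r - t) • g))
      ∂P166W.gauss (Fin n)) ∂law (post ρ t θ) := by
  have := isProb (post_ulc h ht θ)
  rw [fut, joint, integral_prod (fun z : St n × St n =>
    F (θ + ((r - t) • z.1 + Real.sqrt (r - t) • z.2)))
    ((integrable_const B).mono' (hF.comp (by fun_prop)).aestronglyMeasurable
      (Eventually.of_forall fun z => by rw [Real.norm_eq_abs]; exact hB _))]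

theorem nsq_add_le_weighted {u : ℝ} (hu : 0 < u) (v w : St n) :
    nsq (v + w) ≤ (1 + u) * nsq v + (1 + 1 / u) * nsq w := by
  simp only [nsq, Finset.mul_sum, ← Finset.sum_add_distrib]
  refine Finset.sum_le_sum fun i _ => ?_
  have : 0 ≤ (u * v i - w i) ^ 2 / u := by positivity
  have e : (u * v i - w i) ^ 2 / u = u * v i ^ 2 - 2 * v i * w i + 1 / u * w i ^ 2 := by
    field_simp; ring
  simp only [Pi.add_apply]
  linarith [add_sq (v i) (w i)]

/-- The tilted bound with slack parameters. -/
theorem fut_tilt_le_slack (h : Ulc η ρ) (ht : 0 ≤ t) (htr : t ≤ r) {F G : St n → ℝ}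
    (hF : Measurable F) (hG : Measurable G) {B a b L b' u : ℝ} (hF0 : ∀ θ, 0 ≤ F θ ∧ F θ ≤ B)
    (hG0 : ∀ θ, 0 ≤ G θ ∧ G θ ≤ 1) (hb : 0 ≤ b) (hb' : b < b')
    (hu : (r - t) / (η + t) < u) (hle : ∀ θ θ', F θ ≤ a + b * nsq (θ - θ') + L * G θ')
    (θ v : St n) :
    fut ρ t r F (θ + v) ≤ a + L * fut ρ t r G θ + 2 * b' * (1 + u) ^ 2 * nsq v := by
  set κ := η + t with hκ'
  have hκ : 0 < κ := by linarith [h.pos]
  set s := r - t with hs'
  have hs : 0 ≤ s := sub_nonneg.2 htr
  have hu0 : 0 < u := lt_of_le_of_lt (div_nonneg hs hκ.le) hu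
  have hsu : s ≤ κ * u := by rw [mul_comm]; exact ((div_lt_iff₀ hκ).1 hu).le
  have hb0 : 0 < b' := lt_of_le_of_lt hb hb'
  set γ := P166W.gauss (Fin n)
  have hFb : ∀ x, |F x| ≤ B := fun x => by rw [abs_of_nonneg (hF0 x).1]; exact (hF0 x).2
  have hGb : ∀ x, |G x| ≤ 1 := fun x => by rw [abs_of_nonneg (hG0 x).1]; exact (hG0 x).2
  set Φ := fun x => ∫ g, F (θ + v + (s • x + Real.sqrt s • g)) ∂γ
  set Ψ := fun x => ∫ g, G (θ + (s • x + Real.sqrt s • g)) ∂γ
  have hΦm : Measurable Φ :=
    ((hF.comp (f := fun p : St n × St n => θ + v + (s • p.1 + Real.sqrt s • p.2)) (by fun_prop)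
      ).stronglyMeasurable.integral_prod_right' (ν := γ)).measurable
  have hΨm : Measurable Ψ :=
    ((hG.comp (f := fun p : St n × St n => θ + (s • p.1 + Real.sqrt s • p.2)) (by fun_prop)
      ).stronglyMeasurable.integral_prod_right' (ν := γ)).measurable
  have hiF : ∀ x, Integrable (fun g => F (θ + v + (s • x + Real.sqrt s • g))) γ := fun x =>
    (integrable_const B).mono' (hF.comp (by fun_prop)).aestronglyMeasurable
      (Eventually.of_forall fun g => by rw [Real.norm_eq_abs]; exact hFb _)
  have hiG : ∀ x, Integrable (fun g => G (θ + (s • x + Real.sqrt s • g))) γ := fun x =>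
    (integrable_const (1 : ℝ)).mono' (hG.comp (by fun_prop)).aestronglyMeasurable
      (Eventually.of_forall fun g => by rw [Real.norm_eq_abs]; exact hGb _)
  have hΦb : ∀ x, |Φ x| ≤ B := fun x => by
    rw [← Real.norm_eq_abs]
    exact (norm_integral_le_of_norm_le (integrable_const B) (Eventually.of_forall fun g => by
      rw [Real.norm_eq_abs]; exact hFb _)).trans_eq (by simp)
  have hΨb : ∀ x, |Ψ x| ≤ 1 := fun x => by
    rw [← Real.norm_eq_abs]
    exact (norm_integral_le_of_norm_le (integrable_const (1 : ℝ)) (Eventually.of_forall fun g => by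
      rw [Real.norm_eq_abs]; exact hGb _)).trans_eq (by simp)
  have hpt : ∀ x y, Φ x ≤ a + b' * (1 + u) * nsq v +
      b' * (1 + 1 / u) * (κ * u) ^ 2 * nsq (x - y) + L * Ψ y := fun x y => by
    set c := a + b' * (1 + u) * nsq v + b' * (1 + 1 / u) * (κ * u) ^ 2 * nsq (x - y)
    have hI : Integrable (fun g => c + L * G (θ + (s • y + Real.sqrt s • g))) γ :=
      (integrable_const c).add ((hiG y).const_mul L)
    refine (integral_mono (hiF x) hI fun g => ?_).trans_eq ?_
    · refine (hle _ (θ + (s • y + Real.sqrt s • g))).trans (add_le_add ?_ le_rfl)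
      have e : θ + v + (s • x + Real.sqrt s • g) - (θ + (s • y + Real.sqrt s • g)) =
          v + s • (x - y) := by rw [smul_sub]; abel
      rw [e]
      have h1 : nsq (v + s • (x - y)) ≤ (1 + u) * nsq v + (1 + 1 / u) * ((κ * u) ^ 2 * nsq (x - y)) := by
        refine (nsq_add_le_weighted hu0 _ _).trans (add_le_add le_rfl ?_)
        rw [nsq_smul]
        gcongr
        exact nsq_nonneg _
      have h2 := (mul_le_mul_of_nonneg_right hb'.le (nsq_nonneg (v + s • (x - y)))).trans
        (mul_le_mul_of_nonneg_left h1 hb0.le)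
      simp only [c]
      linarith
    · rw [integral_add (integrable_const c) ((hiG y).const_mul L), integral_const_mul]
      simp [Ψ]
  set A := a + b' * (1 + u) * nsq v with hA
  set lam := κ / (4 * (b' * (1 + 1 / u) * (κ * u) ^ 2)) with hlam'
  have hlam : 0 < lam := by positivity
  set f1 := fun x => lam * (Φ x - A)
  set f2 := fun y => lam * L * Ψ y
  have h1b : ∀ x, |f1 x| ≤ lam * (B + |A|) := fun x => by
    rw [abs_mul, abs_of_pos hlam]
    exact mul_le_mul_of_nonneg_left ((abs_sub _ _).trans (add_le_add (hΦb x) le_rfl)) hlam.le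
  have h2b : ∀ y, |f2 y| ≤ |lam * L| := fun y => by
    rw [abs_mul]; exact mul_le_of_le_one_right (abs_nonneg _) (hΨb y)
  have h1m : Measurable f1 := (hΦm.sub_const A).const_mul lam
  have h2m : Measurable f2 := hΨm.const_mul _
  have hσ := post_ulc h ht θ
  have := isProb hσ
  have hmau := maurey hσ h1m h2m fun x y => by
    have h1 := mul_le_mul_of_nonneg_left (hpt x y) hlam.le
    have h2 : lam * (b' * (1 + 1 / u) * (κ * u) ^ 2 * nsq (x - y)) = κ / 4 * nsq (x - y) := by
      rw [← mul_assoc, hlam']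
      congr 1
      have : 0 < b' * (1 + 1 / u) * (κ * u) ^ 2 := by positivity
      field_simp
    simp only [f1, f2, hA]
    linarith
  have i1 : Integrable (fun x => Real.exp (f1 x)) (law (post ρ t θ)) :=
    (integrable_const (Real.exp (lam * (B + |A|)))).mono' h1m.exp.aestronglyMeasurable
      (Eventually.of_forall fun x => by
        rw [Real.norm_eq_abs, abs_of_pos (Real.exp_pos _)]
        exact Real.exp_le_exp.2 ((le_abs_self _).trans (h1b x)))
  have i2 : Integrable (fun x => Real.exp (-f2 x)) (law (post ρ t θ)) :=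
    (integrable_const (Real.exp |lam * L|)).mono' h2m.neg.exp.aestronglyMeasurable
      (Eventually.of_forall fun x => by
        rw [Real.norm_eq_abs, abs_of_pos (Real.exp_pos _)]
        exact Real.exp_le_exp.2 ((neg_le_abs _).trans (h2b x)))
  rw [← ofReal_integral_eq_lintegral_ofReal i1 (Eventually.of_forall fun x => (Real.exp_pos _).le),
    ← ofReal_integral_eq_lintegral_ofReal i2 (Eventually.of_forall fun x => (Real.exp_pos _).le),
    ← ENNReal.ofReal_mul (integral_nonneg fun x => (Real.exp_pos _).le), ENNReal.ofReal_le_one]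
    at hmau
  have hi2 : Integrable (fun x => -f2 x) (law (post ρ t θ)) :=
    (integrable_polyB hσ h2m (polyB_of_bounded h2b)).neg
  have hj := exp_integral_le hσ hi2 i2
  have hJ0 : 0 < ∫ x, Real.exp (f1 x) ∂law (post ρ t θ) := by
    refine lt_of_lt_of_le (Real.exp_pos (-(lam * (B + |A|)))) ?_
    calc Real.exp (-(lam * (B + |A|)))
        = ∫ _x, Real.exp (-(lam * (B + |A|))) ∂law (post ρ t θ) := by simp
      _ ≤ _ := integral_mono (integrable_const _) i1 fun x =>
          Real.exp_le_exp.2 (abs_le.1 (h1b x)).1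
  have hlog : Real.log (∫ x, Real.exp (f1 x) ∂law (post ρ t θ)) ≤
      lam * L * fut ρ t r G θ := by
    have h3 := (mul_le_mul_of_nonneg_left hj hJ0.le).trans hmau
    rw [integral_neg, Real.exp_neg, ← div_eq_mul_inv, div_le_one (Real.exp_pos _)] at h3
    have h4 := Real.log_le_log hJ0 h3
    rw [Real.log_exp] at h4
    refine h4.trans_eq ?_
    rw [fut_eq_integral h ht hG hGb, ← integral_const_mul]
  have hg := gibbs_shift h ht h1m h1b θ v
  have hmean : ∫ x, f1 x ∂law (post ρ t (θ + v)) = lam * (fut ρ t r F (θ + v) - A) := by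
    have hu' := post_ulc h ht (θ + v)
    have := isProb hu'
    rw [fut_eq_integral h ht hF hFb, integral_const_mul,
      integral_sub (integrable_polyB hu' hΦm (polyB_of_bounded hΦb)) (integrable_const _)]
    simp only [integral_const, probReal_univ, one_smul]
    rfl
  rw [hmean, ← hκ'] at hg
  have hfin : fut ρ t r F (θ + v) - A ≤
      L * fut ρ t r G θ + 2 * (b' * (1 + 1 / u) * u ^ 2) * nsq v := by
    refine le_of_mul_le_mul_left ?_ hlam
    have e : nsq v / (2 * κ) = lam * (2 * (b' * (1 + 1 / u) * u ^ 2) * nsq v) := by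
      rw [hlam']; field_simp; ring
    rw [e] at hg
    linarith
  have e2 : b' * (1 + 1 / u) * u ^ 2 = b' * (u + u ^ 2) := by field_simp; ring
  rw [e2] at hfin
  have := mul_le_mul_of_nonneg_right
    (show b' * (1 + u) + 2 * (b' * (u + u ^ 2)) ≤ 2 * b' * (1 + u) ^ 2 by nlinarith)
    (nsq_nonneg v)
  linarith

/-- A quantity small near the good states has a small mean along the channel tilted by `v`. -/
theorem fut_tilt_le (h : Ulc η ρ) (ht : 0 ≤ t) (htr : t ≤ r) {F G : St n → ℝ} (hF : Measurable F)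
    (hG : Measurable G) {B a b L : ℝ} (hF0 : ∀ θ, 0 ≤ F θ ∧ F θ ≤ B) (hG0 : ∀ θ, 0 ≤ G θ ∧ G θ ≤ 1)
    (_ha : 0 ≤ a) (hb : 0 ≤ b) (_hL : 0 ≤ L)
    (hle : ∀ θ θ', F θ ≤ a + b * nsq (θ - θ') + L * G θ') (θ v : St n) :
    fut ρ t r F (θ + v) ≤
      a + L * fut ρ t r G θ + 2 * b * (1 + (r - t) / (η + t)) ^ 2 * nsq v := by
  refine ge_of_tendsto (f := fun e : ℝ => a + L * fut ρ t r G θ +
    2 * (b + e) * (1 + ((r - t) / (η + t) + e)) ^ 2 * nsq v) (x := 𝓝[>] (0 : ℝ)) ?_
    (eventually_mem_nhdsWithin.mono fun e (he : 0 < e) => fut_tilt_le_slack h ht htr hF hG hF0 hG0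
      hb (lt_add_of_pos_right b he) (lt_add_of_pos_right _ he) hle θ v)
  refine (Continuous.tendsto' (by fun_prop) _ _ (by simp)).mono_left nhdsWithin_le_nhds

end

end Vale.Agent.P245.Gen2
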