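import Vale.Agent.P245.Gen2.EarlyWalk
import Vale.Agent.P245.Gen2.Excite

/-!
# P245, polylogarithmic bound: the cut covariance along a tilted path
-/

open MeasureTheory Finset Polynomial

namespace Vale.Agent.P245.Gen2

open Vale.Agent.P245 Vale.Agent.P245.General

noncomputable section

/-- Along a tilted path the cut covariance is small, up to the bad states of the pure path. -/
theorem excess_path (ε κ : ℝ) (hε : 0 < ε) (hε1 : ε ≤ 1) (hκ : 0 < κ) : ∃ T₀ : ℝ, 0 < T₀ ∧
    ∀ (n N : ℕ) (η D t τ : ℝ) (ρ : St n → ℝ) (q : ℝ[X]), Ulc η ρ → Dens D ρ → η ≤ t → 0 < t →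
      t ≤ T₀ → 0 < τ → τ ≤ t → t + N * τ ≤ t / ε →
      (∀ x, 0 ≤ x → x ≤ 1 / t →
        |q.eval x| ≤ 2 ∧ (x ≤ ε ^ 2 / t → |q.eval x| ≤ ε / ((n : ℝ) + 1))) →
      ∀ θ₀ w : St n,
        t * τ * ∑ j ∈ range N, walkE ρ t τ (θ₀ + w)
            (fun ω : Noise n N => excess ρ q (rk t τ j) (pos τ θ₀ ω j)) ≤
          κ * (nsq w / t) + 2 +
            4 * n / t * (τ * ∑ j ∈ range N, fut ρ t (rk t τ j) (bad ρ (rk t τ j) 3) θ₀) := by
  obtain ⟨C, a, M₀, hC, ha, hM₀, hexc⟩ := excess_le ε hε hε1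
  refine ⟨min (ε ^ 2 / M₀) (ε / 2 * (κ * ε / (6 * C)) ^ a⁻¹), by positivity, ?_⟩
  intro n N η D t τ ρ q h hd hηt ht htT hτ hτt hN hq θ₀ w
  have hM0 : 0 < M₀ := lt_of_lt_of_le one_pos hM₀
  have hM : M₀ ≤ ε ^ 2 / t := by
    rw [le_div_iff₀ ht, mul_comm]
    exact (le_div_iff₀ hM0).1 (htT.trans (min_le_left _ _))
  have hpow : (2 * t / ε) ^ a ≤ κ * ε / (6 * C) := by
    have h0 : 0 ≤ κ * ε / (6 * C) := by positivity
    have h1 : t ≤ ε / 2 * (κ * ε / (6 * C)) ^ a⁻¹ := htT.trans (min_le_right _ _)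
    have h2 : 2 * t / ε ≤ (κ * ε / (6 * C)) ^ a⁻¹ := by rw [div_le_iff₀ hε]; linarith
    calc (2 * t / ε) ^ a ≤ ((κ * ε / (6 * C)) ^ a⁻¹) ^ a :=
          Real.rpow_le_rpow (by positivity) h2 ha.le
      _ = _ := Real.rpow_inv_rpow h0 ha.ne'
  set δ := ε / ((n : ℝ) + 1) with hδ
  have hn0 : (0 : ℝ) ≤ n := Nat.cast_nonneg n
  have hNτ : (N : ℝ) * τ ≤ t / ε := by linarith
  -- one step
  have key : ∀ j ∈ range N, walkE ρ t τ (θ₀ + w)
      (fun ω : Noise n N => excess ρ q (rk t τ j) (pos τ θ₀ ω j)) ≤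
      (n * δ ^ 2 / t ^ 2 + κ * ε / t ^ 3 * nsq w) +
        4 * n / t ^ 2 * fut ρ t (rk t τ j) (bad ρ (rk t τ j) 3) θ₀ := fun j hj => by
    have hjN : j ≤ N := (mem_range.1 hj).le
    set r := rk t τ j with hr
    have htr : t ≤ r := le_add_of_nonneg_right (by positivity)
    have hrε : r ≤ t / ε := by
      refine le_trans ?_ hN
      simp only [hr, rk]
      gcongr
    have hr0 : 0 ≤ r := ht.le.trans htr
    have hη := h.pos
    set s := η + r with hs'
    have hst : t ≤ s := by linarith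
    have hs : 0 < s := lt_of_lt_of_le ht hst
    have hs2 : s ≤ 2 * t / ε := by
      have : t ≤ t / ε := le_div_self ht.le hε hε1
      rw [mul_div_assoc]
      linarith
    have hqr : ∀ x, 0 ≤ x → x ≤ 1 / s →
        |q.eval x| ≤ 2 ∧ (x ≤ ε ^ 2 / t → |q.eval x| ≤ δ) :=
      fun x h0 h1 => hq x h0 (h1.trans (one_div_le_one_div_of_le ht hst))
    have hF0 : ∀ x, 0 ≤ excess ρ q r (x - w) ∧ excess ρ q r (x - w) ≤ (2 / s) ^ 2 * n := fun x =>
      ⟨Finset.sum_nonneg fun _ _ => nsq_nonneg _,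
        excess_le_crude h hr0 (fun y h0 h1 => (hqr y h0 h1).1) _⟩
    have hFm : Measurable fun x => excess ρ q r (x - w) :=
      ((continuous_excess hd q r).comp (continuous_id.sub continuous_const)).measurable
    have hpos : (fun ω : Noise n N => excess ρ q r (pos τ θ₀ ω j)) =
        fun ω => (fun x => excess ρ q r (x - w)) (pos τ (θ₀ + w) ω j) := by
      funext ω
      simp [pos_shift]
    rw [hpos, walkE_fut h ht.le hτ (F := fun x => excess ρ q r (x - w)) hFm
      ⟨(2 / s) ^ 2 * n, fun x => by rw [abs_of_nonneg (hF0 x).1]; exact (hF0 x).2⟩ _ hjN]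
    set c := C * s ^ a / s ^ 3
    have hc : 0 ≤ c := by positivity
    have hle : ∀ x x', excess ρ q r (x - w) ≤
        (n * δ ^ 2 / s ^ 2 + 2 * c * nsq w) + 2 * c * nsq (x - x') +
          (2 / s) ^ 2 * n * bad ρ r 3 x' := fun x x' => by
      have hw := mul_nonneg hc (nsq_nonneg w)
      have hxx := mul_nonneg hc (nsq_nonneg (x - x'))
      by_cases hx' : x' ∈ badSet ρ r 3
      · simp only [bad, Set.indicator_of_mem hx', mul_one]
        have : 0 ≤ (n : ℝ) * δ ^ 2 / s ^ 2 := by positivity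
        linarith [(hF0 x).2]
      · simp only [bad, Set.indicator_of_notMem hx', mul_zero, add_zero]
        refine (hexc n η ρ h r (ε ^ 2 / t) δ hr0 (by positivity) ?_ hM q hqr _ x'
          (covLe_of_not_bad hx')).trans ?_
        · rw [mul_div_assoc', le_div_iff₀ ht, mul_comm (η + r)]
          exact mul_le_mul_of_nonneg_left hst (sq_nonneg _)
        · have h1 : nsq (x - w - x') ≤ 2 * nsq (x - x') + 2 * nsq w := by
            have := nsq_add_le (x - x') (-w)
            rw [show nsq (-w) = nsq w by simp [nsq],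
              show x - x' + -w = x - w - x' by abel] at this
            exact this
          have := mul_le_mul_of_nonneg_left h1 hc
          linarith
    have htilt := fut_tilt_le h ht.le htr hFm (measurable_bad h hr0 3) hF0
      (fun x => ⟨bad_nonneg ρ r 3 x, bad_le_one ρ r 3 x⟩)
      (a := n * δ ^ 2 / s ^ 2 + 2 * c * nsq w) (b := 2 * c) (L := (2 / s) ^ 2 * n)
      (add_nonneg (by positivity) (mul_nonneg (by linarith) (nsq_nonneg w))) (by linarith)
      (by positivity) hle θ₀ w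
    have ert : t + (j : ℝ) * τ = r := rfl
    rw [ert]
    refine htilt.trans ?_
    have hηt0 : 0 < η + t := by linarith
    have hU : 1 + (r - t) / (η + t) = s / (η + t) := by field_simp; ring
    have hc1 : c * (s / (η + t)) ^ 2 ≤ C * (2 * t / ε) ^ a / t ^ 3 := by
      have e : c * (s / (η + t)) ^ 2 = C * s ^ a / (s * (η + t) ^ 2) := by
        simp only [c]; field_simp
      rw [e]
      refine div_le_div₀ (by positivity)
        (mul_le_mul_of_nonneg_left (Real.rpow_le_rpow hs.le hs2 ha.le) hC.le) (by positivity) ?_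
      rw [show t ^ 3 = t * t ^ 2 by ring]
      exact mul_le_mul hst (pow_le_pow_left₀ ht.le (by linarith) 2) (by positivity) hs.le
    have hc2 : c ≤ c * (s / (η + t)) ^ 2 := le_mul_of_one_le_right hc
      (one_le_pow₀ (by rw [le_div_iff₀ hηt0]; linarith))
    have hc3 : C * (2 * t / ε) ^ a / t ^ 3 * 6 ≤ κ * ε / t ^ 3 := by
      rw [div_mul_eq_mul_div]
      refine div_le_div_of_nonneg_right ?_ (by positivity)
      have := mul_le_mul_of_nonneg_left hpow hC.le
      rw [show C * (κ * ε / (6 * C)) = κ * ε / 6 by field_simp] at this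
      linarith
    have hwt : (2 * c + 2 * (2 * c) * (s / (η + t)) ^ 2) * nsq w ≤ κ * ε / t ^ 3 * nsq w :=
      mul_le_mul_of_nonneg_right (by linarith) (nsq_nonneg w)
    have hs2t : t ^ 2 ≤ s ^ 2 := pow_le_pow_left₀ ht.le hst 2
    have hd1 : (n : ℝ) * δ ^ 2 / s ^ 2 ≤ n * δ ^ 2 / t ^ 2 :=
      div_le_div_of_nonneg_left (by positivity) (by positivity) hs2t
    have hd2 : (2 / s) ^ 2 * n * fut ρ t r (bad ρ r 3) θ₀ ≤
        4 * n / t ^ 2 * fut ρ t r (bad ρ r 3) θ₀ := by
      refine mul_le_mul_of_nonneg_right ?_ (integral_nonneg fun z => bad_nonneg ρ r 3 _)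
      rw [show (2 / s) ^ 2 * (n : ℝ) = 4 * n / s ^ 2 by ring_nf]
      exact div_le_div_of_nonneg_left (by positivity) (by positivity) hs2t
    rw [hU]
    linarith
  -- the sum
  calc t * τ * ∑ j ∈ range N, walkE ρ t τ (θ₀ + w)
        (fun ω : Noise n N => excess ρ q (rk t τ j) (pos τ θ₀ ω j))
      ≤ t * τ * ∑ j ∈ range N, ((n * δ ^ 2 / t ^ 2 + κ * ε / t ^ 3 * nsq w) +
          4 * n / t ^ 2 * fut ρ t (rk t τ j) (bad ρ (rk t τ j) 3) θ₀) :=
        mul_le_mul_of_nonneg_left (Finset.sum_le_sum key) (by positivity)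
    _ = t * ((N : ℝ) * τ) * (n * δ ^ 2 / t ^ 2 + κ * ε / t ^ 3 * nsq w) +
          4 * n / t * (τ * ∑ j ∈ range N, fut ρ t (rk t τ j) (bad ρ (rk t τ j) 3) θ₀) := by
        rw [Finset.sum_add_distrib, Finset.sum_const, card_range, nsmul_eq_mul, ← Finset.mul_sum]
        field_simp
    _ ≤ _ := add_le_add ?_ le_rfl
  refine (mul_le_mul_of_nonneg_right (mul_le_mul_of_nonneg_left hNτ ht.le)
    (by have := nsq_nonneg w; positivity)).trans ?_
  have e : t * (t / ε) * (n * δ ^ 2 / t ^ 2 + κ * ε / t ^ 3 * nsq w) =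
      ε * (n / ((n : ℝ) + 1) ^ 2) + κ * (nsq w / t) := by
    rw [hδ]; field_simp
  have hn : (n : ℝ) / ((n : ℝ) + 1) ^ 2 ≤ 1 := by
    rw [div_le_one (by positivity)]; nlinarith
  rw [e]
  linarith [mul_le_mul hε1 hn (by positivity) zero_le_one]

end

end Vale.Agent.P245.Gen2
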