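import Vale.Agent.P245.Gen2.Basic

/-!
# P245, polylogarithmic bound: the discrete pair chain

Posteriors of a compactly supported density, the composition of the channel steps, the marginals
of the pair chain, its moments and the martingale property of the barycentres.
-/

open MeasureTheory ProbabilityTheory
open scoped ENNReal

namespace Vale.Agent.P245.Gen2

open General

noncomputable section

variable {n : ℕ} {η D K τ h : ℝ} {σ ν ρ g ρ' : St n → ℝ}

/-! ### Compactly supported densities -/

theorem Dens.prob (hσ : Dens D σ) : IsProbabilityMeasure (law σ) :=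
  ⟨by rw [law, withDensity_apply _ MeasurableSet.univ, setLIntegral_univ, hσ.mass]⟩

theorem Dens.ae_supp (hσ : Dens D σ) : ∀ᵐ x ∂law σ, nsq x ≤ D :=
  (ae_withDensity_iff hσ.meas.ennreal_ofReal).2 <| Filter.Eventually.of_forall fun x hx =>
    not_lt.1 fun h => hx (by rw [hσ.supp x h, ENNReal.ofReal_zero])

theorem exists_bound_supp (D : ℝ) {F : St n → ℝ} (hF : Continuous F) :
    ∃ B, 0 ≤ B ∧ ∀ x, nsq x ≤ D → |F x| ≤ B := by
  have hsub : {x : St n | nsq x ≤ D} ⊆ Metric.closedBall 0 (Real.sqrt |D|) := fun x hx => by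
    rw [mem_closedBall_zero_iff, pi_norm_le_iff_of_nonneg (Real.sqrt_nonneg _)]
    exact fun i => Real.norm_eq_abs (x i) ▸
      Real.abs_le_sqrt ((sq_le_nsq x i).trans ((hx : nsq x ≤ D).trans (le_abs_self D)))
  have hK : IsCompact {x : St n | nsq x ≤ D} :=
    Metric.isCompact_of_isClosed_isBounded (isClosed_le continuous_nsq continuous_const)
      (Metric.isBounded_closedBall.subset hsub)
  obtain ⟨B, hB⟩ := hK.exists_bound_of_continuousOn hF.continuousOn
  exact ⟨max B 0, le_max_right _ _, fun x hx => (hB x hx).trans (le_max_left _ _)⟩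

theorem Dens.integrable (hσ : Dens D σ) {F : St n → ℝ} (hm : Measurable F) {B : ℝ}
    (hb : ∀ x, nsq x ≤ D → |F x| ≤ B) : Integrable F (law σ) := by
  have := hσ.prob
  exact Integrable.of_bound hm.aestronglyMeasurable B (hσ.ae_supp.mono fun x hx => hb x hx)

theorem Dens.integrable_cont (hσ : Dens D σ) {F : St n → ℝ} (hF : Continuous F) :
    Integrable F (law σ) := by
  obtain ⟨B, -, hb⟩ := exists_bound_supp D hF
  exact hσ.integrable hF.measurable hb

theorem Dens.integrable_mul_wgt (hσ : Dens D σ) {F : St n → ℝ} (hm : Measurable F) {B : ℝ}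
    (hb : ∀ x, nsq x ≤ D → |F x| ≤ B) (s : ℝ) (θ : St n) :
    Integrable (fun x => F x * wgt s θ x) (law σ) := by
  obtain ⟨W, -, hW⟩ := exists_bound_supp D (continuous_wgt s θ)
  refine hσ.integrable (B := |B| * W) (hm.mul (continuous_wgt s θ).measurable) fun x hx => ?_
  rw [abs_mul]
  exact mul_le_mul ((hb x hx).trans (le_abs_self B)) (hW x hx) (abs_nonneg _) (abs_nonneg _)

theorem Dens.part_pos (hσ : Dens D σ) (s : ℝ) (θ : St n) : 0 < part σ s θ := by
  have := hσ.prob
  obtain ⟨B, -, hB⟩ := exists_bound_supp D (F := fun x => dotp θ x - s / 2 * nsq x)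
    ((continuous_dotp θ).sub (continuous_nsq.const_mul _))
  have h1 : ∫ _, Real.exp (-B) ∂law σ ≤ part σ s θ := by
    refine integral_mono_ae (integrable_const _)
      (hσ.integrable_mul_wgt measurable_const (B := 1) (fun _ _ => by simp) s θ)
      (hσ.ae_supp.mono fun x hx => ?_)
    simp only [wgt, one_mul]
    exact Real.exp_le_exp.2 (neg_le_of_abs_le (hB x hx))
  simp only [integral_const, probReal_univ, one_smul] at h1
  exact (Real.exp_pos _).trans_le h1

theorem Dens.measurable_num (hσ : Dens D σ) {g : St n → ℝ} (hg : Measurable g) (s : ℝ) :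
    Measurable fun θ => num σ g s θ := by
  have := hσ.prob
  have hf : Measurable fun p : St n × St n => g p.2 * wgt s p.1 p.2 :=
    (hg.comp measurable_snd).mul ((continuous_wgt2 s).measurable.comp measurable_swap)
  exact (hf.stronglyMeasurable.integral_prod_right' (ν := law σ)).measurable

theorem Dens.measurable_part (hσ : Dens D σ) (s : ℝ) : Measurable fun θ => part σ s θ :=
  hσ.measurable_num measurable_const s

theorem Dens.measurable_mg (hσ : Dens D σ) {g : St n → ℝ} (hg : Measurable g) (s : ℝ) :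
    Measurable fun θ => mg σ g s θ :=
  (hσ.measurable_num hg s).div (hσ.measurable_part s)

theorem Dens.measurable_bary (hσ : Dens D σ) (s : ℝ) : Measurable fun θ => bary σ s θ :=
  measurable_pi_iff.2 fun i => hσ.measurable_mg (measurable_pi_apply i) s

/-- The density of the posterior relative to the prior. -/
def dw (σ : St n → ℝ) (s : ℝ) (θ x : St n) : ℝ≥0∞ := ENNReal.ofReal (wgt s θ x / part σ s θ)

theorem Dens.measurable_dw (hσ : Dens D σ) (s : ℝ) :
    Measurable fun z : St n × St n => dw σ s z.1 z.2 :=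
  (((continuous_wgt2 s).measurable.comp measurable_swap).div
    ((hσ.measurable_part s).comp measurable_fst)).ennreal_ofReal

theorem Dens.measurable_dw_x (hσ : Dens D σ) (s : ℝ) (θ : St n) :
    Measurable fun x => dw σ s θ x :=
  ((continuous_wgt s θ).measurable.div_const (part σ s θ)).ennreal_ofReal

theorem Dens.law_post (hσ : Dens D σ) (s : ℝ) (θ : St n) :
    law (General.post σ s θ) = (law σ).withDensity (dw σ s θ) := by
  rw [law, law, ← withDensity_mul _ hσ.meas.ennreal_ofReal (hσ.measurable_dw_x s θ)]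
  refine congrArg _ (funext fun x => ?_)
  simp only [General.post, Pi.mul_apply, dw, mul_div_assoc, ENNReal.ofReal_mul (hσ.nonneg x)]

theorem Dens.lintegral_dw (hσ : Dens D σ) (s : ℝ) (θ : St n) :
    ∫⁻ x, dw σ s θ x ∂law σ = 1 := by
  have hp := hσ.part_pos s θ
  have hi : Integrable (fun x => wgt s θ x) (law σ) := by
    simpa using hσ.integrable_mul_wgt (F := fun _ => 1) measurable_const (B := 1)
      (fun _ _ => by simp) s θ
  simp only [dw]
  rw [← ofReal_integral_eq_lintegral_ofReal (hi.div_const _)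
    (Filter.Eventually.of_forall fun x => (div_pos (Real.exp_pos _) hp).le), integral_div]
  have : ∫ x, wgt s θ x ∂law σ = part σ s θ := by simp [part, num]
  rw [this, div_self hp.ne', ENNReal.ofReal_one]

theorem Dens.post (hσ : Dens D σ) (s : ℝ) (θ : St n) : Dens D (General.post σ s θ) where
  meas := (hσ.meas.mul (continuous_wgt s θ).measurable).div_const _
  nonneg x := div_nonneg (mul_nonneg (hσ.nonneg x) (Real.exp_pos _).le) (hσ.part_pos s θ).le
  supp x hx := by simp [General.post, hσ.supp x hx]
  mass := by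
    calc ∫⁻ x, ENNReal.ofReal (General.post σ s θ x)
        = law (General.post σ s θ) Set.univ := by
          rw [law, withDensity_apply _ MeasurableSet.univ, setLIntegral_univ]
      _ = 1 := by
          rw [hσ.law_post, withDensity_apply _ MeasurableSet.univ, setLIntegral_univ,
            hσ.lintegral_dw]

theorem Dens.integral_post (hσ : Dens D σ) (s : ℝ) (θ : St n) (g : St n → ℝ) :
    ∫ x, g x ∂law (General.post σ s θ) = mg σ g s θ := by
  have hp := hσ.part_pos s θ
  rw [hσ.law_post, integral_withDensity_eq_integral_toReal_smul (hσ.measurable_dw_x s θ)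
    (Filter.Eventually.of_forall fun _ => ENNReal.ofReal_lt_top), mg, num, ← integral_div]
  refine integral_congr_ae (Filter.Eventually.of_forall fun x => ?_)
  simp only [dw, smul_eq_mul, ENNReal.toReal_ofReal (le_of_lt (div_pos (show 0 < wgt s θ x from Real.exp_pos _) hp))]
  ring

theorem Dens.num_post (hσ : Dens D σ) (r s : ℝ) (θ θ' : St n) (g : St n → ℝ) :
    num (General.post σ r θ) g s θ' = num σ g (r + s) (θ + θ') / part σ r θ := by
  rw [num, hσ.integral_post, mg, num, num]
  simp_rw [← wgt_mul r s θ θ', mul_assoc, mul_comm (wgt s θ' _)]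

theorem Dens.post_post (hσ : Dens D σ) (r s : ℝ) (θ θ' : St n) :
    General.post (General.post σ r θ) s θ' = General.post σ (r + s) (θ + θ') := by
  have hp := (hσ.part_pos r θ).ne'
  have hq := (hσ.part_pos (r + s) (θ + θ')).ne'
  funext x
  simp only [General.post, show part (General.post σ r θ) s θ' =
    part σ (r + s) (θ + θ') / part σ r θ from hσ.num_post r s θ θ' _, ← wgt_mul r s θ θ' x]
  field_simp

theorem Dens.mg_post (hσ : Dens D σ) (r s : ℝ) (θ θ' : St n) (g : St n → ℝ) :
    mg (General.post σ r θ) g s θ' = mg σ g (r + s) (θ + θ') := by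
  rw [mg, mg, hσ.num_post r s θ θ' g,
    show part (General.post σ r θ) s θ' = part σ (r + s) (θ + θ') / part σ r θ from
      hσ.num_post r s θ θ' _, div_div_div_cancel_right₀ (hσ.part_pos r θ).ne']

theorem wgt_zero_zero (x : St n) : wgt 0 0 x = 1 := by simp [wgt, dotp]

theorem Dens.post_zero (hσ : Dens D σ) : General.post σ 0 0 = σ := by
  have := hσ.prob
  funext x
  simp [General.post, part, num, wgt_zero_zero]

theorem Dens.abs_mg_le (hσ : Dens D σ) {g : St n → ℝ} {B : ℝ} (hb : ∀ x, nsq x ≤ D → |g x| ≤ B)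
    (s : ℝ) (θ : St n) : |mg σ g s θ| ≤ B := by
  have := (hσ.post s θ).prob
  rw [← hσ.integral_post, ← Real.norm_eq_abs]
  refine (norm_integral_le_of_norm_le_const
    ((hσ.post s θ).ae_supp.mono fun x hx => hb x hx)).trans ?_
  simp

theorem coord_bound (i : Fin n) (x : St n) (hx : nsq x ≤ D) : |x i| ≤ Real.sqrt |D| :=
  Real.abs_le_sqrt ((sq_le_nsq x i).trans (hx.trans (le_abs_self D)))

theorem Dens.abs_bary_le (hσ : Dens D σ) (s : ℝ) (θ : St n) (i : Fin n) :
    |bary σ s θ i| ≤ Real.sqrt |D| :=
  hσ.abs_mg_le (g := fun x => x i) (fun x hx => coord_bound i x hx) s θ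

/-! ### The channel -/

theorem Dens.lintegral_chanM (hσ : Dens D σ) {s : ℝ} (hs : 0 < s) {G : St n → ℝ≥0∞}
    (hG : Measurable G) :
    ∫⁻ θ, G θ ∂chanM σ s =
      ∫⁻ θ, ENNReal.ofReal (part σ s θ) * G θ ∂law (gd n s) := by
  have := hσ.prob
  have := isProb_gd (n := n) hs
  have hw : Measurable fun z : St n × St n => ENNReal.ofReal (wgt s z.2 z.1) :=
    (continuous_wgt2 s).measurable.ennreal_ofReal
  rw [chanM, lintegral_map hG (by fun_prop),
    lintegral_prod (fun z : St n × St n => G (s • z.1 + Real.sqrt s • z.2))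
      (hG.comp (by fun_prop)).aemeasurable]
  calc ∫⁻ x, ∫⁻ g, G (s • x + Real.sqrt s • g) ∂P166W.gauss (Fin n) ∂law σ
      = ∫⁻ x, ∫⁻ θ, G θ * ENNReal.ofReal (wgt s θ x) ∂law (gd n s) ∂law σ := by
        refine lintegral_congr fun x => ?_
        rw [← lintegral_gd_shift hs hG x,
          lintegral_gd hs (F := fun θ => G (θ + s • x)) (hG.comp (measurable_id.add_const _))]
        simp only [add_comm (s • x)]
    _ = ∫⁻ θ, ∫⁻ x, G θ * ENNReal.ofReal (wgt s θ x) ∂law σ ∂law (gd n s) :=
        lintegral_lintegral_swap ((hG.comp measurable_snd).mul hw).aemeasurable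
    _ = _ := lintegral_congr fun θ => by
        have hm : Measurable fun x => ENNReal.ofReal (wgt s θ x) :=
          (continuous_wgt s θ).measurable.ennreal_ofReal
        rw [lintegral_const_mul _ hm, mul_comm]
        have hi : Integrable (fun x => wgt s θ x) (law σ) := by
          simpa using hσ.integrable_mul_wgt (F := fun _ => 1) measurable_const (B := 1)
            (fun _ _ => by simp) s θ
        rw [← ofReal_integral_eq_lintegral_ofReal hi
          (Filter.Eventually.of_forall fun x => (Real.exp_pos _).le)]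
        simp [part, num]

theorem Dens.chanM_eq (hσ : Dens D σ) {s : ℝ} (hs : 0 < s) :
    chanM σ s = (law (gd n s)).withDensity fun θ => ENNReal.ofReal (part σ s θ) := by
  refine Measure.ext_of_lintegral _ fun G hG => ?_
  rw [hσ.lintegral_chanM hs hG,
    lintegral_withDensity_eq_lintegral_mul _ (hσ.measurable_part s).ennreal_ofReal hG]
  rfl

theorem Dens.prob_chanM (hσ : Dens D σ) (s : ℝ) : IsProbabilityMeasure (chanM σ s) := by
  have := hσ.prob
  exact Measure.isProbabilityMeasure_map (by fun_prop)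

theorem Dens.chanM_zero (hσ : Dens D σ) : chanM σ 0 = Measure.dirac 0 := by
  have := hσ.prob
  simp [chanM]

/-- One step begun at time `r`. -/
def stepAt (σ : St n → ℝ) (h r : ℝ) (θ : St n) : Measure (St n) :=
  ((law (General.post σ r θ)).prod (P166W.gauss (Fin n))).map fun z => move h θ z.1 z.2

theorem pureStep_eq (k : ℕ) (θ : St n) : pureStep σ h k θ = stepAt σ h (k * h) θ := rfl

theorem measurable_move (h : ℝ) :
    Measurable fun z : St n × (St n × St n) => move h z.1 z.2.1 z.2.2 := by
  unfold move; fun_prop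

theorem measurable_move_fix (h : ℝ) (θ : St n) :
    Measurable fun z : St n × St n => move h θ z.1 z.2 :=
  (measurable_move h).comp measurable_prodMk_left

theorem Dens.lintegral_stepAt (hσ : Dens D σ) (r : ℝ) (θ : St n) {F : St n → ℝ≥0∞}
    (hF : Measurable F) :
    ∫⁻ y, F y ∂stepAt σ h r θ =
      ∫⁻ z, dw σ r θ z.1 * F (move h θ z.1 z.2) ∂(law σ).prod (P166W.gauss (Fin n)) := by
  have := hσ.prob
  have hd : Measurable fun z : St n × St n => dw σ r θ z.1 :=
    (hσ.measurable_dw_x r θ).comp measurable_fst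
  rw [stepAt, lintegral_map hF (measurable_move_fix h θ), hσ.law_post,
    prod_withDensity_left (hσ.measurable_dw_x r θ),
    lintegral_withDensity_eq_lintegral_mul _ hd
      (g := fun z : St n × St n => F (move h θ z.1 z.2)) (hF.comp (measurable_move_fix h θ))]
  rfl

theorem Dens.measurable_stepAt (hσ : Dens D σ) (h r : ℝ) : Measurable (stepAt σ h r) := by
  have := hσ.prob
  refine Measure.measurable_of_measurable_coe _ fun A hA => ?_
  have hI : Measurable (A.indicator (1 : St n → ℝ≥0∞)) := measurable_one.indicator hA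
  have e : (fun θ => stepAt σ h r θ A) = fun θ => ∫⁻ z, dw σ r θ z.1 *
      A.indicator 1 (move h θ z.1 z.2) ∂(law σ).prod (P166W.gauss (Fin n)) :=
    funext fun θ => by rw [← hσ.lintegral_stepAt r θ hI, lintegral_indicator_one hA]
  rw [e]
  have hb : SFinite ((law σ).prod (P166W.gauss (Fin n))) := inferInstance
  exact Measurable.lintegral_prod_right'
    (((hσ.measurable_dw r).comp (measurable_fst.prodMk (measurable_fst.comp measurable_snd))).mul
      (hI.comp (measurable_move h)))

theorem Dens.prob_stepAt (hσ : Dens D σ) (h r : ℝ) (θ : St n) :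
    IsProbabilityMeasure (stepAt σ h r θ) := by
  have := (hσ.post r θ).prob
  exact Measure.isProbabilityMeasure_map (measurable_move_fix h θ).aemeasurable

theorem Dens.stepAt_add (hσ : Dens D σ) (h r u : ℝ) (θ θ' : St n) :
    stepAt σ h (r + u) (θ + θ') = (stepAt (General.post σ r θ) h u θ').map (θ + ·) := by
  rw [stepAt, stepAt, Measure.map_map (by fun_prop) (measurable_move_fix h θ'), hσ.post_post]
  refine congrArg (fun f => Measure.map f _) (funext fun z => ?_)
  simp only [Function.comp, move]
  abel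

/-- The step composes with the channel. -/
theorem Dens.chanM_bind (hσ : Dens D σ) {s : ℝ} (hs : 0 ≤ s) (hh : 0 < h) :
    (chanM σ s).bind (stepAt σ h s) = chanM σ (s + h) := by
  have hP := hσ.prob
  have hm := hσ.measurable_stepAt h s
  rcases hs.eq_or_lt with rfl | hs
  · rw [hσ.chanM_zero, Measure.dirac_bind hm, zero_add, stepAt, hσ.post_zero, chanM]
    exact congrArg (fun f => Measure.map f _) (funext fun z => by simp [move])
  refine Measure.ext_of_lintegral _ fun F hF => ?_
  have hsh : Real.sqrt s ^ 2 + Real.sqrt h ^ 2 = Real.sqrt (s + h) ^ 2 := by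
    rw [Real.sq_sqrt hs.le, Real.sq_sqrt hh.le, Real.sq_sqrt (by linarith)]
  have hw : Measurable fun p : St n × (St n × St n) => ENNReal.ofReal (wgt s p.1 p.2.1) :=
    ((continuous_wgt2 s).measurable.comp
      ((measurable_fst.comp measurable_snd).prodMk measurable_fst)).ennreal_ofReal
  have hFm : Measurable fun p : St n × (St n × St n) => F (move h p.1 p.2.1 p.2.2) :=
    hF.comp (measurable_move h)
  have hWF := hw.mul hFm
  have := isProb_gd (n := n) hs
  rw [Measure.lintegral_bind hm.aemeasurable hF.aemeasurable,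
    hσ.lintegral_chanM hs (G := fun a => ∫⁻ x, F x ∂stepAt σ h s a)
      ((Measure.measurable_lintegral hF).comp hm)]
  calc ∫⁻ θ, ENNReal.ofReal (part σ s θ) * ∫⁻ y, F y ∂stepAt σ h s θ ∂law (gd n s)
      = ∫⁻ θ, ∫⁻ z, ENNReal.ofReal (wgt s θ z.1) * F (move h θ z.1 z.2)
          ∂(law σ).prod (P166W.gauss (Fin n)) ∂law (gd n s) := lintegral_congr fun θ => by
        rw [hσ.lintegral_stepAt s θ hF, ← lintegral_const_mul' _ _ ENNReal.ofReal_ne_top]
        refine lintegral_congr fun z => ?_
        rw [← mul_assoc, dw, ← ENNReal.ofReal_mul (hσ.part_pos s θ).le,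
          mul_div_cancel₀ _ (hσ.part_pos s θ).ne']
    _ = ∫⁻ z, ∫⁻ θ, ENNReal.ofReal (wgt s θ z.1) * F (move h θ z.1 z.2) ∂law (gd n s)
          ∂(law σ).prod (P166W.gauss (Fin n)) :=
        lintegral_lintegral_swap hWF.aemeasurable
    _ = ∫⁻ z, ∫⁻ g, F (move h (Real.sqrt s • g + s • z.1) z.1 z.2) ∂P166W.gauss (Fin n)
          ∂(law σ).prod (P166W.gauss (Fin n)) := lintegral_congr fun z => by
        have hFz : Measurable fun θ => F (move h θ z.1 z.2) := hFm.comp measurable_prodMk_right
        have e := lintegral_gd_shift hs hFz z.1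
        rw [lintegral_gd hs (F := fun θ => F (move h (θ + s • z.1) z.1 z.2))
          (hFz.comp (measurable_id.add_const (s • z.1)))] at e
        simp only [mul_comm (ENNReal.ofReal _)]
        exact e.symm
    _ = ∫⁻ x, ∫⁻ g', ∫⁻ g, F ((s + h) • x + (Real.sqrt s • g + Real.sqrt h • g'))
          ∂P166W.gauss (Fin n) ∂P166W.gauss (Fin n) ∂law σ := by
        rw [lintegral_prod _ (Measurable.lintegral_prod_right'
          (f := fun p : (St n × St n) × St n =>
            F (move h (Real.sqrt s • p.2 + s • p.1.1) p.1.1 p.1.2))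
          (hF.comp (by unfold move; fun_prop))).aemeasurable]
        refine lintegral_congr fun x => lintegral_congr fun g' => lintegral_congr fun g => ?_
        congr 1
        simp only [move, add_smul]; abel
    _ = ∫⁻ x, ∫⁻ g, F ((s + h) • x + Real.sqrt (s + h) • g) ∂P166W.gauss (Fin n) ∂law σ :=
        lintegral_congr fun x => by
          have e := congrArg (fun μ => ∫⁻ w, F ((s + h) • x + w) ∂μ)
            (map_gauss_add (n := n) hsh)
          rw [lintegral_map (f := fun w => F ((s + h) • x + w)) (hF.comp (by fun_prop))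
              (by fun_prop),
            lintegral_map (f := fun w => F ((s + h) • x + w)) (hF.comp (by fun_prop))
              (by fun_prop),
            lintegral_prod_symm (fun p : St n × St n =>
              F ((s + h) • x + (Real.sqrt s • p.1 + Real.sqrt h • p.2)))
              (hF.comp (by fun_prop)).aemeasurable] at e
          exact e
    _ = ∫⁻ y, F y ∂chanM σ (s + h) := by
        rw [chanM, lintegral_map hF (by fun_prop),
          lintegral_prod (fun z : St n × St n => F ((s + h) • z.1 + Real.sqrt (s + h) • z.2))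
            (hF.comp (by fun_prop)).aemeasurable]

/-- The mean of a posterior average is the prior average. -/
theorem Dens.integral_chanM_mg (hσ : Dens D σ) {s : ℝ} (hs : 0 < s) {g : St n → ℝ}
    (hg : Measurable g) {B : ℝ} (hb : ∀ x, nsq x ≤ D → |g x| ≤ B) :
    ∫ θ, mg σ g s θ ∂chanM σ s = ∫ x, g x ∂law σ := by
  have := hσ.prob
  have := isProb_gd (n := n) hs
  have hw : Measurable fun p : St n × St n => wgt s p.2 p.1 := (continuous_wgt2 s).measurable
  have h1 : ∀ x : St n, ∫⁻ θ, ENNReal.ofReal (wgt s θ x) ∂law (gd n s) = 1 := fun x =>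
    lintegral_wgt_gd hs x
  have hint : Integrable (fun p : St n × St n => g p.1 * wgt s p.2 p.1)
      ((law σ).prod (law (gd n s))) := by
    have hwi : Integrable (fun p : St n × St n => wgt s p.2 p.1)
        ((law σ).prod (law (gd n s))) := by
      refine ⟨hw.aestronglyMeasurable, ?_⟩
      rw [hasFiniteIntegral_iff_ofReal (Filter.Eventually.of_forall fun p : St n × St n =>
        show 0 ≤ wgt s p.2 p.1 from (Real.exp_pos _).le),
        lintegral_prod _ hw.ennreal_ofReal.aemeasurable]
      simp [h1]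
    refine (hwi.const_mul |B|).mono' ((hg.comp measurable_fst).mul hw).aestronglyMeasurable ?_
    filter_upwards [Measure.quasiMeasurePreserving_fst.ae hσ.ae_supp] with p hp
    rw [norm_mul, Real.norm_of_nonneg (le_of_lt (show 0 < wgt s p.2 p.1 from Real.exp_pos _))]
    exact mul_le_mul_of_nonneg_right ((hb _ hp).trans (le_abs_self B)) (Real.exp_pos _).le
  rw [hσ.chanM_eq hs, integral_withDensity_eq_integral_toReal_smul
    (hσ.measurable_part s).ennreal_ofReal
    (Filter.Eventually.of_forall fun _ => ENNReal.ofReal_lt_top)]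
  calc ∫ θ, (ENNReal.ofReal (part σ s θ)).toReal • mg σ g s θ ∂law (gd n s)
      = ∫ θ, ∫ x, g x * wgt s θ x ∂law σ ∂law (gd n s) := by
        refine integral_congr_ae (Filter.Eventually.of_forall fun θ => ?_)
        simp only [ENNReal.toReal_ofReal (hσ.part_pos s θ).le, smul_eq_mul, mg,
          mul_div_cancel₀ _ (hσ.part_pos s θ).ne']
        rfl
    _ = ∫ x, ∫ θ, g x * wgt s θ x ∂law (gd n s) ∂law σ := (integral_integral_swap hint).symm
    _ = _ := by
        refine integral_congr_ae (Filter.Eventually.of_forall fun x => ?_)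
        simp only
        rw [integral_const_mul, integral_eq_lintegral_of_nonneg_ae
          (f := fun θ => wgt s θ x)
          (Filter.Eventually.of_forall fun θ => (Real.exp_pos _).le)
          (hw.comp measurable_prodMk_left).aestronglyMeasurable]
        simp [h1]

/-- The posterior averages are a martingale along the steps. -/
theorem Dens.integral_stepAt_mg (hσ : Dens D σ) (hh : 0 < h) (r : ℝ) (θ : St n) {g : St n → ℝ}
    (hg : Measurable g) {B : ℝ} (hb : ∀ x, nsq x ≤ D → |g x| ≤ B) :
    ∫ θ', mg σ g (r + h) θ' ∂stepAt σ h r θ = mg σ g r θ := by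
  have hτ := hσ.post r θ
  have e := hσ.stepAt_add h r 0 θ 0
  rw [add_zero, add_zero] at e
  have e0 : stepAt (General.post σ r θ) h 0 0 = chanM (General.post σ r θ) h := by
    have := hτ.chanM_bind le_rfl hh
    rwa [hτ.chanM_zero, Measure.dirac_bind (hτ.measurable_stepAt h 0), zero_add] at this
  rw [e, e0, integral_map (measurable_const_add θ).aemeasurable
    (hσ.measurable_mg hg (r + h)).aestronglyMeasurable]
  simp_rw [← hσ.mg_post r h θ]
  rw [hτ.integral_chanM_mg hh hg hb, hσ.integral_post]

/-! ### Iterated steps -/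

section Iter

variable {α β : Type*} [MeasurableSpace α] [MeasurableSpace β] {step : ℕ → α → Measure α}

theorem prob_bind {m : Measure α} [IsProbabilityMeasure m] {κ : α → Measure β} (hκ : Measurable κ)
    (hp : ∀ a, IsProbabilityMeasure (κ a)) : IsProbabilityMeasure (m.bind κ) :=
  ⟨by simp [Measure.bind_apply MeasurableSet.univ hκ.aemeasurable, fun a => (hp a).measure_univ]⟩

theorem bind_map {γ : Type*} [MeasurableSpace γ] (m : Measure α) {κ : α → Measure β}
    (hκ : Measurable κ) {f : β → γ} (hf : Measurable f) :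
    (m.bind κ).map f = m.bind fun a => (κ a).map f := by
  refine Measure.ext_of_lintegral _ fun F hF => ?_
  rw [lintegral_map hF hf,
    Measure.lintegral_bind hκ.aemeasurable (f := fun b => F (f b)) (hF.comp hf).aemeasurable,
    Measure.lintegral_bind (m := m) (μ := fun a => (κ a).map f)
      ((Measure.measurable_map f hf).comp hκ).aemeasurable hF.aemeasurable]
  simp [lintegral_map hF hf]

theorem map_bind {γ : Type*} [MeasurableSpace γ] (m : Measure α) {f : α → β} (hf : Measurable f)
    {κ : β → Measure γ} (hκ : Measurable κ) : (m.map f).bind κ = m.bind fun a => κ (f a) := by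
  refine Measure.ext_of_lintegral _ fun F hF => ?_
  rw [Measure.lintegral_bind hκ.aemeasurable hF.aemeasurable,
    Measure.lintegral_bind (m := m) (μ := fun a => κ (f a)) (hκ.comp hf).aemeasurable
      hF.aemeasurable,
    lintegral_map (f := fun b => ∫⁻ x, F x ∂κ b) ((Measure.measurable_lintegral hF).comp hκ) hf]

theorem integral_bind_of (m : Measure α) {κ : α → Measure β} (hκ : Measurable κ) {f : β → ℝ}
    (hf : Integrable f (m.bind κ)) : ∫ y, f y ∂m.bind κ = ∫ a, ∫ y, f y ∂κ a ∂m := by
  let Ker : Kernel α β := ⟨κ, hκ⟩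
  have e : m.bind κ = (Ker ∘ₖ Kernel.const Unit m) () := by
    rw [← Measure.comp_eq_comp_const_apply]; rfl
  rw [e] at hf ⊢
  exact Kernel.integral_comp hf

theorem measurable_integral_of {κ : α → Measure β} (hκ : Measurable κ) {f : β → ℝ}
    (hf : Measurable f) : Measurable fun a => ∫ y, f y ∂κ a :=
  (hf.stronglyMeasurable.integral_kernel (κ := (⟨κ, hκ⟩ : Kernel α β))).measurable

theorem prob_iter (hm : ∀ k, Measurable (step k)) (hp : ∀ k a, IsProbabilityMeasure (step k a))
    (k : ℕ) (m : Measure α) [IsProbabilityMeasure m] :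
    ∀ j, IsProbabilityMeasure (iterM step k m j)
  | 0 => ‹_›
  | j + 1 => by
    have := prob_iter hm hp k m j
    exact prob_bind (hm _) (hp _)

theorem measurable_iter_dirac (hm : ∀ k, Measurable (step k)) (k : ℕ) :
    ∀ j, Measurable fun a => iterM step k (Measure.dirac a) j
  | 0 => Measure.measurable_dirac
  | j + 1 => (Measure.measurable_bind' (hm _)).comp (measurable_iter_dirac hm k j)

theorem iter_eq_bind (hm : ∀ k, Measurable (step k)) (k : ℕ) (m : Measure α) :
    ∀ j, iterM step k m j = m.bind fun a => iterM step k (Measure.dirac a) j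
  | 0 => (Measure.bind_dirac).symm
  | j + 1 => by
    rw [iterM, iter_eq_bind hm k m j, Measure.bind_bind
      (measurable_iter_dirac hm k j).aemeasurable (hm _).aemeasurable]
    rfl

theorem iter_add (k : ℕ) (m : Measure α) (i : ℕ) :
    ∀ j, iterM step k m (i + j) = iterM step (k + i) (iterM step k m i) j
  | 0 => rfl
  | j + 1 => by
    rw [← add_assoc, iterM, iterM, iter_add k m i j, add_assoc]

end Iter

/-! ### The pair chain -/

/-- Polynomial growth in the pair. -/
def PolyP (F : St n × St n → ℝ) : Prop :=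
  ∃ (A : ℝ) (m : ℕ), ∀ p, |F p| ≤ A * (1 + nsq p.1 + nsq p.2) ^ m

theorem Dens.measurable_pairStep (hσ : Dens D σ) (hν : Dens D ν) (h : ℝ) (k : ℕ) :
    Measurable (pairStep σ ν h k) := by
  have := hσ.prob
  have := hν.prob
  set base := ((law σ).prod (law ν)).prod (P166W.gauss (Fin n))
  refine Measure.measurable_of_measurable_coe _ fun A hA => ?_
  have hI : Measurable (A.indicator (1 : St n × St n → ℝ≥0∞)) := measurable_one.indicator hA
  have hd : ∀ p : St n × St n,
      Measurable fun z : St n × St n => dw σ (k * h) p.1 z.1 * dw ν (k * h) p.2 z.2 := fun p =>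
    ((hσ.measurable_dw_x _ _).comp measurable_fst).mul
      ((hν.measurable_dw_x _ _).comp measurable_snd)
  have hmv : Measurable fun w : (St n × St n) × ((St n × St n) × St n) =>
      (move h w.1.1 w.2.1.1 w.2.2, move h w.1.2 w.2.1.2 w.2.2) := by unfold move; fun_prop
  have e : (fun p => pairStep σ ν h k p A) = fun p => ∫⁻ z,
      dw σ (k * h) p.1 z.1.1 * dw ν (k * h) p.2 z.1.2 *
        A.indicator 1 (move h p.1 z.1.1 z.2, move h p.2 z.1.2 z.2) ∂base := funext fun p => by
    have hmp : Measurable fun z : (St n × St n) × St n =>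
        (move h p.1 z.1.1 z.2, move h p.2 z.1.2 z.2) := hmv.comp measurable_prodMk_left
    rw [← lintegral_indicator_one hA, pairStep, lintegral_map hI hmp,
      hσ.law_post, hν.law_post, prod_withDensity (hσ.measurable_dw_x _ _) (hν.measurable_dw_x _ _),
      prod_withDensity_left (hd p),
      lintegral_withDensity_eq_lintegral_mul _
        (f := fun z : (St n × St n) × St n => dw σ (k * h) p.1 z.1.1 * dw ν (k * h) p.2 z.1.2)
        ((hd p).comp measurable_fst)
        (g := fun z : (St n × St n) × St n =>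
          A.indicator 1 (move h p.1 z.1.1 z.2, move h p.2 z.1.2 z.2)) (hI.comp hmp)]
    rfl
  rw [e]
  refine Measurable.lintegral_prod_right'
    (f := fun w : (St n × St n) × ((St n × St n) × St n) =>
      dw σ (k * h) w.1.1 w.2.1.1 * dw ν (k * h) w.1.2 w.2.1.2 *
        A.indicator 1 (move h w.1.1 w.2.1.1 w.2.2, move h w.1.2 w.2.1.2 w.2.2))
    ((Measurable.mul ?_ ?_).mul (hI.comp hmv))
  · exact (hσ.measurable_dw _).comp (f := fun w : (St n × St n) × ((St n × St n) × St n) =>
      (w.1.1, w.2.1.1)) (by fun_prop)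
  · exact (hν.measurable_dw _).comp (f := fun w : (St n × St n) × ((St n × St n) × St n) =>
      (w.1.2, w.2.1.2)) (by fun_prop)

theorem Dens.prob_pairStep (hσ : Dens D σ) (hν : Dens D ν) (h : ℝ) (k : ℕ) (p : St n × St n) :
    IsProbabilityMeasure (pairStep σ ν h k p) := by
  have := (hσ.post (k * h) p.1).prob
  have := (hν.post (k * h) p.2).prob
  exact Measure.isProbabilityMeasure_map (by unfold move; fun_prop)

theorem isProb_pairFrom (hσ : Dens D σ) (hν : Dens D ν) (hh : 0 < h) (k j : ℕ) (p : St n × St n) :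
    IsProbabilityMeasure (pairFrom σ ν h k j p) ∧ IsProbabilityMeasure (pairM σ ν h k) :=
  ⟨prob_iter (hσ.measurable_pairStep hν h) (hσ.prob_pairStep hν h) _ _ _,
    prob_iter (hσ.measurable_pairStep hν h) (hσ.prob_pairStep hν h) _ _ _⟩

theorem measurable_pairFrom (hσ : Dens D σ) (hν : Dens D ν) (hh : 0 < h) (k j : ℕ) :
    Measurable (pairFrom σ ν h k j) :=
  measurable_iter_dirac (hσ.measurable_pairStep hν h) k j

theorem pairFrom_add (hσ : Dens D σ) (hν : Dens D ν) (h : ℝ) (k i j : ℕ) (p : St n × St n) :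
    pairFrom σ ν h k (i + j) p = (pairFrom σ ν h k i p).bind (pairFrom σ ν h (k + i) j) := by
  rw [pairFrom, iter_add, iter_eq_bind (hσ.measurable_pairStep hν h)]
  rfl

theorem pairFrom_one (hσ : Dens D σ) (hν : Dens D ν) (h : ℝ) (k : ℕ) (p : St n × St n) :
    pairFrom σ ν h k 1 p = pairStep σ ν h k p :=
  Measure.dirac_bind (hσ.measurable_pairStep hν h k) p

theorem pairM_eq_from (σ ν : St n → ℝ) (h : ℝ) (k : ℕ) :
    pairM σ ν h k = pairFrom σ ν h 0 k (0, 0) := rfl

theorem pairM_add (hσ : Dens D σ) (hν : Dens D ν) (h : ℝ) (k j : ℕ) :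
    pairM σ ν h (k + j) = (pairM σ ν h k).bind (pairFrom σ ν h k j) := by
  rw [pairM_eq_from, pairM_eq_from, pairFrom_add hσ hν, zero_add]

theorem moment_step (hσ : Dens D σ) (hν : Dens D ν) (h : ℝ) (k m : ℕ) :
    ∃ C : ℝ, 0 ≤ C ∧ ∀ p, ∫⁻ q, ENNReal.ofReal ((1 + nsq q.1 + nsq q.2) ^ m)
      ∂pairStep σ ν h k p ≤ ENNReal.ofReal (C * (1 + nsq p.1 + nsq p.2) ^ m) := by
  set c := 3 + 6 * h ^ 2 * |D| + 6 * |h| with hc
  have hc0 : 0 ≤ c := by positivity
  set M := ∫ g : St n, (1 + nsq g) ^ m ∂P166W.gauss (Fin n)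
  have hg0 : ∀ g : St n, 0 ≤ (1 + nsq g) ^ m := fun g =>
    pow_nonneg (by linarith [nsq_nonneg g]) m
  refine ⟨c ^ m * M, mul_nonneg (pow_nonneg hc0 m) (integral_nonneg hg0), fun p => ?_⟩
  have := (hσ.post (k * h) p.1).prob
  have := (hν.post (k * h) p.2).prob
  set W := 1 + nsq p.1 + nsq p.2 with hW
  have hW1 : 1 ≤ W := by linarith [nsq_nonneg p.1, nsq_nonneg p.2]
  have hmeas : Measurable fun q : St n × St n => ENNReal.ofReal ((1 + nsq q.1 + nsq q.2) ^ m) := by
    unfold nsq; fun_prop
  have mv : ∀ θ x g : St n, nsq x ≤ D →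
      nsq (move h θ x g) ≤ 3 * nsq θ + 3 * h ^ 2 * |D| + 3 * |h| * nsq g := by
    intro θ x g hx
    have hs : Real.sqrt h ^ 2 ≤ |h| :=
      (pow_le_pow_left₀ (Real.sqrt_nonneg _) (Real.sqrt_le_sqrt (le_abs_self h)) 2).trans
        (Real.sq_sqrt (abs_nonneg h)).le
    have h1 : nsq (move h θ x g) ≤
        3 * (nsq θ + h ^ 2 * nsq x + Real.sqrt h ^ 2 * nsq g) := by
      simp only [nsq, move, Pi.add_apply, Pi.smul_apply, smul_eq_mul, Finset.mul_sum,
        ← Finset.sum_add_distrib]
      refine Finset.sum_le_sum fun i _ => ?_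
      nlinarith [sq_nonneg (θ i - h * x i), sq_nonneg (θ i - Real.sqrt h * g i),
        sq_nonneg (h * x i - Real.sqrt h * g i)]
    nlinarith [mul_le_mul_of_nonneg_left (hx.trans (le_abs_self D)) (sq_nonneg h),
      mul_le_mul_of_nonneg_right hs (nsq_nonneg g)]
  rw [pairStep, lintegral_map hmeas (by unfold move; fun_prop)]
  calc _ ≤ ∫⁻ z : (St n × St n) × St n, ENNReal.ofReal ((c * W) ^ m) *
          ENNReal.ofReal ((1 + nsq z.2) ^ m)
          ∂((law (General.post σ (k * h) p.1)).prod (law (General.post ν (k * h) p.2))).prod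
            (P166W.gauss (Fin n)) := by
        refine lintegral_mono_ae ?_
        filter_upwards [Measure.quasiMeasurePreserving_fst.ae
            (Measure.quasiMeasurePreserving_fst.ae (hσ.post (k * h) p.1).ae_supp),
          Measure.quasiMeasurePreserving_fst.ae
            (Measure.quasiMeasurePreserving_snd.ae (hν.post (k * h) p.2).ae_supp)] with z hx hy
        rw [← ENNReal.ofReal_mul (pow_nonneg (by positivity) m), ← mul_pow]
        refine ENNReal.ofReal_le_ofReal (pow_le_pow_left₀ (by
          linarith [nsq_nonneg (move h p.1 z.1.1 z.2), nsq_nonneg (move h p.2 z.1.2 z.2)]) ?_ m)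
        have hg := nsq_nonneg z.2
        have := mv p.1 z.1.1 z.2 hx
        have := mv p.2 z.1.2 z.2 hy
        have hDD := mul_nonneg (sq_nonneg h) (abs_nonneg D)
        have h1 : 0 ≤ c - 3 := by linarith [hc, abs_nonneg h]
        have h2 : 0 ≤ (c - 3) * (W - 1) := mul_nonneg h1 (by linarith)
        have h3 : c * nsq z.2 * 1 ≤ c * nsq z.2 * W :=
          mul_le_mul_of_nonneg_left hW1 (mul_nonneg hc0 hg)
        have h4 : 6 * |h| * nsq z.2 ≤ c * nsq z.2 :=
          mul_le_mul_of_nonneg_right (by linarith) hg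
        linarith [hc, hW, abs_nonneg h]
    _ = ENNReal.ofReal (c ^ m * M * W ^ m) := by
        rw [lintegral_const_mul' _ _ ENNReal.ofReal_ne_top,
          lintegral_prod (fun z : (St n × St n) × St n => ENNReal.ofReal ((1 + nsq z.2) ^ m))
            (by unfold nsq; fun_prop)]
        simp only [lintegral_const, measure_univ, mul_one]
        rw [← ofReal_integral_eq_lintegral_ofReal (integrable_gauss_pow m)
          (Filter.Eventually.of_forall hg0), ← ENNReal.ofReal_mul (pow_nonneg (by positivity) m),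
          mul_pow]
        simp only [M]
        ring_nf

theorem moment_iter (hσ : Dens D σ) (hν : Dens D ν) (h : ℝ) (k m : ℕ) :
    ∀ j, ∃ C : ℝ, 0 ≤ C ∧ ∀ p, ∫⁻ q, ENNReal.ofReal ((1 + nsq q.1 + nsq q.2) ^ m)
      ∂pairFrom σ ν h k j p ≤ ENNReal.ofReal (C * (1 + nsq p.1 + nsq p.2) ^ m)
  | 0 => ⟨1, zero_le_one, fun p => by
      rw [show pairFrom σ ν h k 0 p = Measure.dirac p from rfl,
        lintegral_dirac' _ (by unfold nsq; fun_prop), one_mul]⟩
  | j + 1 => by
    obtain ⟨C, hC, hCb⟩ := moment_iter hσ hν h k m j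
    obtain ⟨C', hC', hCb'⟩ := moment_step hσ hν h (k + j) m
    have hmeas : Measurable fun q : St n × St n =>
        ENNReal.ofReal ((1 + nsq q.1 + nsq q.2) ^ m) := by
      unfold nsq; fun_prop
    refine ⟨C' * C, mul_nonneg hC' hC, fun p => ?_⟩
    rw [show pairFrom σ ν h k (j + 1) p =
      (pairFrom σ ν h k j p).bind (pairStep σ ν h (k + j)) from rfl,
      Measure.lintegral_bind (hσ.measurable_pairStep hν h _).aemeasurable hmeas.aemeasurable]
    refine (lintegral_mono hCb').trans ?_
    simp only [ENNReal.ofReal_mul hC']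
    rw [lintegral_const_mul _ hmeas, mul_assoc, ENNReal.ofReal_mul hC']
    exact mul_le_mul_right (hCb p) _

theorem integrable_pair (hσ : Dens D σ) (hν : Dens D ν) (hh : 0 < h) (k j : ℕ) (p : St n × St n)
    {F : St n × St n → ℝ} (hm : Measurable F) (hF : PolyP F) :
    Integrable F (pairM σ ν h k) ∧ Integrable F (pairFrom σ ν h k j p) := by
  obtain ⟨A, m, hA⟩ := hF
  have key : ∀ k j p, Integrable F (pairFrom σ ν h k j p) := fun k j p => by
    obtain ⟨C, -, hC⟩ := moment_iter hσ hν h k m j
    have hpow : ∀ q : St n × St n, 0 ≤ (1 + nsq q.1 + nsq q.2) ^ m := fun q =>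
      pow_nonneg (by linarith [nsq_nonneg q.1, nsq_nonneg q.2]) m
    have hi : Integrable (fun q : St n × St n => (1 + nsq q.1 + nsq q.2) ^ m)
        (pairFrom σ ν h k j p) := by
      refine ⟨(by unfold nsq; fun_prop : Measurable _).aestronglyMeasurable, ?_⟩
      rw [hasFiniteIntegral_iff_ofReal (Filter.Eventually.of_forall hpow)]
      exact (hC p).trans_lt ENNReal.ofReal_lt_top
    exact (hi.const_mul A).mono' hm.aestronglyMeasurable (Filter.Eventually.of_forall hA)
  exact ⟨pairM_eq_from σ ν h k ▸ key 0 k (0, 0), key k j p⟩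

theorem integral_pair_add (hσ : Dens D σ) (hν : Dens D ν) (hh : 0 < h) (k j : ℕ)
    {F : St n × St n → ℝ} (hm : Measurable F) (hF : PolyP F) :
    ∫ p, F p ∂pairM σ ν h (k + j) = ∫ p, ∫ q, F q ∂pairFrom σ ν h k j p ∂pairM σ ν h k := by
  have hi := (integrable_pair hσ hν hh (k + j) 0 (0, 0) hm hF).1
  rw [pairM_add hσ hν] at hi ⊢
  exact integral_bind_of _ (measurable_pairFrom hσ hν hh k j) hi

theorem integral_from_add (hσ : Dens D σ) (hν : Dens D ν) (hh : 0 < h) (k i j : ℕ)
    (p : St n × St n) {F : St n × St n → ℝ} (hm : Measurable F) (hF : PolyP F) :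
    ∫ q, F q ∂pairFrom σ ν h k (i + j) p
      = ∫ r, ∫ q, F q ∂pairFrom σ ν h (k + i) j r ∂pairFrom σ ν h k i p := by
  have hi := (integrable_pair hσ hν hh k (i + j) p hm hF).2
  rw [pairFrom_add hσ hν] at hi ⊢
  exact integral_bind_of _ (measurable_pairFrom hσ hν hh (k + i) j) hi

theorem map_fst_pairStep (hσ : Dens D σ) (hν : Dens D ν) (h : ℝ) (k : ℕ) (p : St n × St n) :
    (pairStep σ ν h k p).map Prod.fst = stepAt σ h (k * h) p.1 := by
  have := (hσ.post (k * h) p.1).prob
  have := (hν.post (k * h) p.2).prob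
  have e : ((law (General.post σ (k * h) p.1)).prod (P166W.gauss (Fin n))) =
      (((law (General.post σ (k * h) p.1)).prod (law (General.post ν (k * h) p.2))).prod
        (P166W.gauss (Fin n))).map fun z => (z.1.1, z.2) := by
    change _ = Measure.map (Prod.map Prod.fst id) _
    rw [← Measure.map_prod_map _ _ measurable_fst measurable_id, Measure.map_fst_prod,
      measure_univ, one_smul, Measure.map_id]
  rw [pairStep, stepAt, e, Measure.map_map measurable_fst (by unfold move; fun_prop),
    Measure.map_map (measurable_move_fix h p.1) (by fun_prop)]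
  rfl

theorem map_snd_pairStep (hσ : Dens D σ) (hν : Dens D ν) (h : ℝ) (k : ℕ) (p : St n × St n) :
    (pairStep σ ν h k p).map Prod.snd = stepAt ν h (k * h) p.2 := by
  have := (hσ.post (k * h) p.1).prob
  have := (hν.post (k * h) p.2).prob
  have e : ((law (General.post ν (k * h) p.2)).prod (P166W.gauss (Fin n))) =
      (((law (General.post σ (k * h) p.1)).prod (law (General.post ν (k * h) p.2))).prod
        (P166W.gauss (Fin n))).map fun z => (z.1.2, z.2) := by
    change _ = Measure.map (Prod.map Prod.snd id) _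
    rw [← Measure.map_prod_map _ _ measurable_snd measurable_id, Measure.map_snd_prod,
      measure_univ, one_smul, Measure.map_id]
  rw [pairStep, stepAt, e, Measure.map_map measurable_snd (by unfold move; fun_prop),
    Measure.map_map (measurable_move_fix h p.2) (by fun_prop)]
  rfl

theorem iter_marginal (hσ : Dens D σ) (hh : 0 < h) {step : ℕ → St n × St n → Measure (St n × St n)}
    (hstep : ∀ k, Measurable (step k)) {π : St n × St n → St n} (hπ : Measurable π)
    (hmap : ∀ (k : ℕ) p, (step k p).map π = stepAt σ h (k * h) (π p)) (k : ℕ) (p : St n × St n) :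
    ∀ j : ℕ, (iterM step k (Measure.dirac p) j).map π =
      (chanM (General.post σ (k * h) (π p)) (j * h)).map (π p + ·)
  | 0 => by
    rw [iterM, Measure.map_dirac' hπ, Nat.cast_zero, zero_mul,
      (hσ.post _ _).chanM_zero, Measure.map_dirac' (measurable_const_add _), add_zero]
  | j + 1 => by
    have hτ := hσ.post (k * h) (π p)
    have hmS := hσ.measurable_stepAt h ((k + j : ℕ) * h)
    rw [iterM, bind_map _ (hstep _) hπ]
    simp only [hmap]
    rw [← map_bind _ hπ hmS, iter_marginal hσ hh hstep hπ hmap k p j,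
      map_bind _ (measurable_const_add _) hmS,
      show (k + j : ℕ) * h = k * h + j * h by push_cast; ring]
    simp only [hσ.stepAt_add h (k * h) (j * h) (π p)]
    rw [← bind_map _ (hτ.measurable_stepAt h _) (measurable_const_add _),
      hτ.chanM_bind (by positivity) hh, Nat.cast_succ, add_mul, one_mul]

theorem pairFrom_map_fst (hσ : Dens D σ) (hν : Dens D ν) (hh : 0 < h) (k j : ℕ)
    (p : St n × St n) : (pairFrom σ ν h k j p).map Prod.fst =
      (chanM (General.post σ (k * h) p.1) (j * h)).map (p.1 + ·) :=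
  iter_marginal hσ hh (hσ.measurable_pairStep hν h) measurable_fst (map_fst_pairStep hσ hν h) k p j

theorem pairFrom_map_snd (hσ : Dens D σ) (hν : Dens D ν) (hh : 0 < h) (k j : ℕ)
    (p : St n × St n) : (pairFrom σ ν h k j p).map Prod.snd =
      (chanM (General.post ν (k * h) p.2) (j * h)).map (p.2 + ·) :=
  iter_marginal hν hh (hσ.measurable_pairStep hν h) measurable_snd (map_snd_pairStep hσ hν h) k p j

theorem pair_marginals (hσ : Dens D σ) (hν : Dens D ν) (hh : 0 < h) (k : ℕ) :
    (pairM σ ν h k).map Prod.fst = chanM σ (k * h) ∧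
      (pairM σ ν h k).map Prod.snd = chanM ν (k * h) := by
  rw [pairM_eq_from, pairFrom_map_fst hσ hν hh, pairFrom_map_snd hσ hν hh]
  simp [hσ.post_zero, hν.post_zero]

theorem pairFrom_fst (hρ : Ulc η ρ) (hσ : Dens D ρ) (hν : Dens D ν) (hh : 0 < h) (k j : ℕ)
    (p : St n × St n) {F : St n → ℝ} (hm : Measurable F) (hF : PolyB F) :
    ∫ q, F q.1 ∂pairFrom ρ ν h k j p = fut ρ (k * h) ((k + j : ℕ) * h) F p.1 := by
  rw [← integral_map measurable_fst.aemeasurable hm.aestronglyMeasurable,
    pairFrom_map_fst hσ hν hh,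
    integral_map (measurable_const_add p.1).aemeasurable hm.aestronglyMeasurable, chanM,
    integral_map (f := fun x => F (p.1 + x)) (by fun_prop)
      (hm.comp (measurable_const_add p.1)).aestronglyMeasurable, fut,
    joint, show ((k + j : ℕ) : ℝ) * h - k * h = j * h by push_cast; ring]

theorem measurable_wV0 (hσ : Dens D σ) (hν : Dens D ν) (h : ℝ) (k : ℕ) :
    Measurable (wV σ ν h k) :=
  ((hν.measurable_bary _).comp measurable_snd).sub ((hσ.measurable_bary _).comp measurable_fst)

theorem abs_wV_le (hσ : Dens D σ) (hν : Dens D ν) (h : ℝ) (k : ℕ) (p : St n × St n) (i : Fin n) :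
    |wV σ ν h k p i| ≤ 2 * Real.sqrt |D| := by
  simp only [wV, Pi.sub_apply]
  linarith [abs_sub (bary ν (k * h) p.2 i) (bary σ (k * h) p.1 i),
    hν.abs_bary_le (k * h) p.2 i, hσ.abs_bary_le (k * h) p.1 i]

theorem polyP_of_bounded {F : St n × St n → ℝ} {B : ℝ} (hB : ∀ p, |F p| ≤ B) : PolyP F :=
  ⟨B, 0, fun p => by simpa using hB p⟩

theorem abs_nsq_wV_le (hσ : Dens D σ) (hν : Dens D ν) (h : ℝ) (k : ℕ) (p : St n × St n) :
    |nsq (wV σ ν h k p)| ≤ n * (2 * Real.sqrt |D|) ^ 2 := by
  rw [abs_of_nonneg (nsq_nonneg _)]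
  calc nsq (wV σ ν h k p) ≤ ∑ _i : Fin n, (2 * Real.sqrt |D|) ^ 2 :=
        Finset.sum_le_sum fun i _ => sq_le_sq.2 (by
          rw [abs_of_nonneg (a := 2 * Real.sqrt |D|) (by positivity)]
          exact abs_wV_le hσ hν h k p i)
    _ = _ := by simp

theorem wV_step (hσ : Dens D σ) (hν : Dens D ν) (hh : 0 < h) (k : ℕ) (p : St n × St n)
    (i : Fin n) : ∫ q, wV σ ν h (k + 1) q i ∂pairStep σ ν h k p = wV σ ν h k p i := by
  have hmσ : Measurable fun θ => bary σ ((k + 1 : ℕ) * h) θ i :=
    hσ.measurable_mg (measurable_pi_apply i) _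
  have hmν : Measurable fun θ => bary ν ((k + 1 : ℕ) * h) θ i :=
    hν.measurable_mg (measurable_pi_apply i) _
  have i1 : Integrable (fun q : St n × St n => bary ν ((k + 1 : ℕ) * h) q.2 i)
      (pairStep σ ν h k p) := pairFrom_one hσ hν h k p ▸
    (integrable_pair hσ hν hh k 1 p (hmν.comp measurable_snd)
      (polyP_of_bounded fun q => hν.abs_bary_le _ q.2 i)).2
  have i2 : Integrable (fun q : St n × St n => bary σ ((k + 1 : ℕ) * h) q.1 i)
      (pairStep σ ν h k p) := pairFrom_one hσ hν h k p ▸
    (integrable_pair hσ hν hh k 1 p (hmσ.comp measurable_fst)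
      (polyP_of_bounded fun q => hσ.abs_bary_le _ q.1 i)).2
  simp only [wV, Pi.sub_apply]
  rw [integral_sub i1 i2, ← integral_map measurable_snd.aemeasurable hmν.aestronglyMeasurable,
    ← integral_map measurable_fst.aemeasurable hmσ.aestronglyMeasurable,
    map_fst_pairStep hσ hν, map_snd_pairStep hσ hν,
    show ((k + 1 : ℕ) : ℝ) * h = k * h + h by push_cast; ring]
  simp only [bary]
  rw [hν.integral_stepAt_mg hh _ _ (measurable_pi_apply i) (fun x hx => coord_bound i x hx),
    hσ.integral_stepAt_mg hh _ _ (measurable_pi_apply i) (fun x hx => coord_bound i x hx)]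

theorem wV_martingale (hσ : Dens D σ) (hν : Dens D ν) (hh : 0 < h) (k j : ℕ) (p : St n × St n)
    (i : Fin n) : ∫ q, wV σ ν h (k + j) q i ∂pairFrom σ ν h k j p = wV σ ν h k p i := by
  induction j with
  | zero =>
    simp only [Nat.add_zero]
    exact integral_dirac' (fun q => wV σ ν h k q i) p
      ((measurable_pi_apply i).comp (measurable_wV0 hσ hν h k)).stronglyMeasurable
  | succ j ih =>
    rw [integral_from_add hσ hν hh k j 1 p (F := fun q => wV σ ν h (k + (j + 1)) q i)
      ((measurable_pi_apply i).comp (measurable_wV0 hσ hν h _))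
      (polyP_of_bounded fun q => abs_wV_le hσ hν h _ q i)]
    simp only [pairFrom_one hσ hν, ← add_assoc, wV_step hσ hν hh]
    exact ih

theorem Zk_mono (hσ : Dens D σ) (hν : Dens D ν) (hh : 0 < h) {k j : ℕ} (hkj : k ≤ j) :
    Zk σ ν h k ≤ Zk σ ν h j := by
  obtain ⟨l, rfl⟩ := Nat.exists_eq_add_of_le hkj
  have hm : ∀ k, Measurable fun q => nsq (wV σ ν h k q) := fun k =>
    continuous_nsq.measurable.comp (measurable_wV0 hσ hν h k)
  have hP : ∀ k, PolyP fun q => nsq (wV σ ν h k q) := fun k =>
    polyP_of_bounded (abs_nsq_wV_le hσ hν h k)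
  rw [Zk, Zk, integral_pair_add hσ hν hh k l (hm _) (hP _)]
  refine integral_mono (integrable_pair hσ hν hh k 0 (0, 0) (hm k) (hP k)).1
    (integrable_pair hσ hν hh k 0 (0, 0)
      (measurable_integral_of (measurable_pairFrom hσ hν hh k l) (hm _))
      (polyP_of_bounded (B := n * (2 * Real.sqrt |D|) ^ 2) fun p => ?_)).1 fun p => ?_
  · have := (isProb_pairFrom hσ hν hh k l p).1
    rw [← Real.norm_eq_abs]
    refine (norm_integral_le_of_norm_le_const (C := n * (2 * Real.sqrt |D|) ^ 2)
      (Filter.Eventually.of_forall fun q => abs_nsq_wV_le hσ hν h (k + l) q)).trans ?_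
    simp
  · have := (isProb_pairFrom hσ hν hh k l p).1
    have hmi : ∀ i, Measurable fun q => wV σ ν h (k + l) q i := fun i =>
      (measurable_pi_apply i).comp (measurable_wV0 hσ hν h _)
    have hint : ∀ i, Integrable (fun q => wV σ ν h (k + l) q i) (pairFrom σ ν h k l p) :=
      fun i => (integrable_pair hσ hν hh k l p (hmi i)
        (polyP_of_bounded fun q => abs_wV_le hσ hν h _ q i)).2
    have hint2 : ∀ i, Integrable (fun q => wV σ ν h (k + l) q i ^ 2) (pairFrom σ ν h k l p) :=
      fun i => (integrable_pair hσ hν hh k l p ((hmi i).pow_const 2)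
        (polyP_of_bounded (B := (2 * Real.sqrt |D|) ^ 2) fun q => by
          rw [abs_of_nonneg (sq_nonneg _), sq_le_sq,
            abs_of_nonneg (a := 2 * Real.sqrt |D|) (by positivity)]
          exact abs_wV_le hσ hν h _ q i)).2
    show nsq (wV σ ν h k p) ≤ ∫ q, ∑ i, wV σ ν h (k + l) q i ^ 2 ∂pairFrom σ ν h k l p
    rw [integral_finsetSum _ fun i _ => hint2 i]
    refine Finset.sum_le_sum fun i _ => ?_
    set c := wV σ ν h k p i
    have e : ∫ q, (wV σ ν h (k + l) q i - c) ^ 2 ∂pairFrom σ ν h k l p =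
        (∫ q, wV σ ν h (k + l) q i ^ 2 ∂pairFrom σ ν h k l p) - c ^ 2 := by
      simp only [sub_sq]
      rw [integral_add (f := fun q => wV σ ν h (k + l) q i ^ 2 - 2 * wV σ ν h (k + l) q i * c)
          (g := fun _ => c ^ 2)
          ((hint2 i).sub (((hint i).const_mul 2).mul_const c)) (integrable_const _),
        integral_sub (f := fun q => wV σ ν h (k + l) q i ^ 2)
          (g := fun q => 2 * wV σ ν h (k + l) q i * c)
          (hint2 i) (((hint i).const_mul 2).mul_const c), integral_mul_const,
        integral_const_mul, wV_martingale hσ hν hh, integral_const, probReal_univ, one_smul]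
      ring
    nlinarith [integral_nonneg (μ := pairFrom σ ν h k l p)
      (f := fun q => (wV σ ν h (k + l) q i - c) ^ 2) fun q => sq_nonneg _]

end

end Vale.Agent.P245.Gen2
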