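import Vale.Agent.P245.Gen2.Basic

/-!
# P245, polylogarithmic bound: compactly supported densities

Every continuous function is integrable against a compactly supported density, so the posterior
quantities exist at every time and are continuous in the state.
-/

open MeasureTheory Filter Topology

namespace Vale.Agent.P245.Gen2

open General

variable {n : ℕ} {η D K τ s : ℝ} {σ ρ g ρ' : St n → ℝ}

theorem dens_nonneg (hσ : Dens D σ) : 0 ≤ D := by
  by_contra hD
  have h0 : ∀ x, σ x = 0 := fun x => hσ.supp x (by linarith [General.nsq_nonneg x, not_le.1 hD])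
  simpa [h0] using hσ.mass

theorem dens_isProb (hσ : Dens D σ) : IsProbabilityMeasure (law σ) :=
  ⟨by rw [law, withDensity_apply _ MeasurableSet.univ, setLIntegral_univ, hσ.mass]⟩

theorem dens_ae_le (hσ : Dens D σ) : ∀ᵐ x ∂law σ, nsq x ≤ D := by
  rw [law, ae_withDensity_iff hσ.meas.ennreal_ofReal]
  refine Eventually.of_forall fun x hx => ?_
  by_contra h
  exact hx (by rw [hσ.supp x (not_le.1 h), ENNReal.ofReal_zero])

theorem dens_integrable (hσ : Dens D σ) {f : St n → ℝ} (hf : Continuous f) :
    Integrable f (law σ) := by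
  have := dens_isProb hσ
  have hc : IsCompact {x : St n | nsq x ≤ D} := by
    refine (isCompact_Icc (a := fun _ => -(D + 1)) (b := fun _ => D + 1)).of_isClosed_subset
      (isClosed_le continuous_nsq continuous_const) fun x hx => ?_
    have h : ∀ i, |x i| ≤ D + 1 := fun i => by
      have h1 : x i ^ 2 ≤ nsq x :=
        Finset.single_le_sum (f := fun j => x j ^ 2) (fun j _ => sq_nonneg _) (Finset.mem_univ i)
      have h2 : nsq x ≤ D := hx
      nlinarith [sq_abs (x i), abs_nonneg (x i), sq_nonneg (|x i| - 1)]
    exact ⟨fun i => (abs_le.1 (h i)).1, fun i => (abs_le.1 (h i)).2⟩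
  obtain ⟨M, hM⟩ := hc.exists_bound_of_continuousOn hf.continuousOn
  exact Integrable.of_bound hf.aestronglyMeasurable M ((dens_ae_le hσ).mono fun x hx => hM x hx)

theorem dens_part_pos (hσ : Dens D σ) (s : ℝ) (θ : St n) : 0 < part σ s θ := by
  have := dens_isProb hσ
  have hi := dens_integrable hσ (continuous_wgt s θ)
  simp only [part, num, one_mul]
  exact integral_exp_pos (f := fun x => dotp θ x - s / 2 * nsq x) hi

theorem dens_post (hσ : Dens D σ) (s : ℝ) (θ : St n) : Dens D (post σ s θ) where
  meas := (hσ.meas.mul (continuous_wgt s θ).measurable).div_const _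
  nonneg x := div_nonneg (mul_nonneg (hσ.nonneg x) (Real.exp_pos _).le) (dens_part_pos hσ s θ).le
  mass := by
    have hp := dens_part_pos hσ s θ
    have hi := (dens_integrable hσ (continuous_wgt s θ)).div_const (part σ s θ)
    have e : (fun x => ENNReal.ofReal (post σ s θ x))
        = fun x => ENNReal.ofReal (σ x) * ENNReal.ofReal (wgt s θ x / part σ s θ) :=
      funext fun x => by rw [← ENNReal.ofReal_mul (hσ.nonneg x), post, mul_div_assoc]
    rw [e, ← lintegral_law hσ.meas ((continuous_wgt s θ).measurable.div_const _).ennreal_ofReal,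
      ← ofReal_integral_eq_lintegral_ofReal hi
        (Eventually.of_forall fun x => div_nonneg (Real.exp_pos _).le hp.le),
      integral_div, show (∫ x, wgt s θ x ∂law σ) = part σ s θ by simp [part, num],
      div_self hp.ne', ENNReal.ofReal_one]
  supp x hx := by simp [post, hσ.supp x hx]

theorem dens_tilted (hb : Base η D K ρ) (ht : Tilted η D τ ρ g ρ') :
    Dens D (fun x => g x * ρ x) := by
  have := dens_isProb hb.dens
  obtain ⟨lo, hi, hlo, hg⟩ := ht.bdd
  have hg0 : ∀ x, 0 ≤ g x := fun x => le_trans hlo.le (hg x).1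
  refine ⟨ht.gmeas.mul hb.dens.meas, fun x => mul_nonneg (hg0 x) (hb.dens.nonneg x), ?_,
    fun x hx => by simp [hb.dens.supp x hx]⟩
  have hint : Integrable g (law ρ) :=
    Integrable.of_bound ht.gmeas.aestronglyMeasurable hi
      (Eventually.of_forall fun x => by rw [Real.norm_eq_abs, abs_of_nonneg (hg0 x)]; exact (hg x).2)
  have e : (fun x => ENNReal.ofReal (g x * ρ x))
      = fun x => ENNReal.ofReal (ρ x) * ENNReal.ofReal (g x) :=
    funext fun x => by rw [mul_comm (g x), ENNReal.ofReal_mul (hb.dens.nonneg x)]
  rw [e, ← lintegral_law hb.dens.meas ht.gmeas.ennreal_ofReal,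
    ← ofReal_integral_eq_lintegral_ofReal hint (Eventually.of_forall hg0), ht.gmass,
    ENNReal.ofReal_one]

theorem abs_dotp_le (θ x : St n) : |dotp θ x| ≤ (nsq θ + nsq x) / 2 := by
  simp only [dotp, nsq, ← Finset.sum_add_distrib, Finset.sum_div]
  refine (Finset.abs_sum_le_sum_abs _ _).trans (Finset.sum_le_sum fun i _ => ?_)
  rw [abs_mul, ← sq_abs (θ i), ← sq_abs (x i)]
  nlinarith [sq_nonneg (|θ i| - |x i|)]

theorem continuous_num (hσ : Dens D σ) {f : St n → ℝ} (hf : Continuous f) (s : ℝ) :
    Continuous (num σ f s) := by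
  refine continuous_iff_continuousAt.2 fun θ₀ => ?_
  refine continuousAt_of_dominated
    (bound := fun x => |f x| * Real.exp ((nsq θ₀ + 1 + nsq x) / 2 + |s| / 2 * nsq x)) ?_ ?_ ?_ ?_
  · exact Eventually.of_forall fun θ => (hf.mul (continuous_wgt s θ)).aestronglyMeasurable
  · filter_upwards [(isOpen_lt continuous_nsq continuous_const).mem_nhds
      (show nsq θ₀ < nsq θ₀ + 1 by linarith)] with θ hθ
    refine Eventually.of_forall fun x => ?_
    have hθ' : nsq θ < nsq θ₀ + 1 := hθ
    rw [Real.norm_eq_abs, abs_mul, wgt, abs_of_pos (Real.exp_pos _)]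
    refine mul_le_mul_of_nonneg_left (Real.exp_le_exp.2 ?_) (abs_nonneg _)
    have h1 := (abs_le.1 (abs_dotp_le θ x)).2
    have h2 : -(|s| / 2 * nsq x) ≤ s / 2 * nsq x := by
      have := mul_le_mul_of_nonneg_right (neg_abs_le s) (General.nsq_nonneg x)
      linarith
    linarith
  · exact dens_integrable hσ (by fun_prop)
  · refine Eventually.of_forall fun x => Continuous.continuousAt ?_
    simp only [wgt, dotp]
    fun_prop

theorem continuous_mg (hσ : Dens D σ) {f : St n → ℝ} (hf : Continuous f) (s : ℝ) :
    Continuous (mg σ f s) :=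
  (continuous_num hσ hf s).div (continuous_num hσ continuous_const s)
    fun θ => (dens_part_pos hσ s θ).ne'

theorem continuous_bary (hσ : Dens D σ) (s : ℝ) : Continuous (bary σ s) :=
  continuous_pi fun i => continuous_mg hσ (continuous_apply i) s

theorem measurable_bary (hσ : Dens D σ) (s : ℝ) : Measurable (bary σ s) :=
  (continuous_bary hσ s).measurable

theorem measurable_covMat (hσ : Dens D σ) (s : ℝ) (i j : Fin n) :
    Measurable fun θ => covMat σ s θ i j :=
  ((continuous_mg hσ ((continuous_apply i).mul (continuous_apply j)) s).sub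
    ((continuous_mg hσ (continuous_apply i) s).mul
      (continuous_mg hσ (continuous_apply j) s))).measurable

theorem dens_integral_post (hσ : Dens D σ) (s : ℝ) (θ : St n) (f : St n → ℝ) :
    ∫ x, f x ∂law (post σ s θ) = mg σ f s θ := by
  rw [integral_law (dens_post hσ s θ).meas (dens_post hσ s θ).nonneg, mg, num,
    integral_law hσ.meas hσ.nonneg, ← integral_div]
  exact integral_congr_ae (Eventually.of_forall fun x => by simp only [post]; ring)

theorem nsq_bary_le_supp (hσ : Dens D σ) (s : ℝ) (θ : St n) : nsq (bary σ s θ) ≤ D := by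
  have hp := dens_post hσ s θ
  have := dens_isProb hp
  set b := bary σ s θ with hb
  have e : ∫ x, dotp b x ∂law (post σ s θ) = nsq b := by
    simp only [dotp]
    rw [integral_finsetSum _ fun i _ => (dens_integrable hp (continuous_apply i)).const_mul _]
    refine Finset.sum_congr rfl fun i _ => ?_
    rw [integral_const_mul, dens_integral_post hσ, sq]
    rfl
  have h := integral_mono_ae (dens_integrable hp (continuous_dotp b))
    (integrable_const ((nsq b + D) / 2))
    ((dens_ae_le hp).mono fun x hx => by
      have := (abs_le.1 (abs_dotp_le b x)).2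
      linarith)
  rw [e, integral_const, probReal_univ, one_smul] at h
  linarith

theorem abs_covMat_le (hσ : Dens D σ) (s : ℝ) (θ : St n) (i j : Fin n) :
    |covMat σ s θ i j| ≤ 2 * D := by
  have hp := dens_post hσ s θ
  have := dens_isProb hp
  have hle : ∀ (x : St n) (k : Fin n), x k ^ 2 ≤ nsq x := fun x k =>
    Finset.single_le_sum (f := fun j => x j ^ 2) (fun j _ => sq_nonneg _) (Finset.mem_univ k)
  have hxy : ∀ x : St n, |x i * x j| ≤ nsq x := fun x => by
    rw [abs_mul]
    nlinarith [sq_abs (x i), sq_abs (x j), sq_nonneg (|x i| - |x j|), hle x i, hle x j]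
  have h1 : |mg σ (fun x => x i * x j) s θ| ≤ D := by
    rw [← dens_integral_post hσ]
    refine (abs_integral_le_integral_abs).trans ?_
    have h := integral_mono_ae
      (dens_integrable hp ((continuous_apply i).mul (continuous_apply j))).abs (integrable_const D)
      ((dens_ae_le hp).mono fun x hx => (hxy x).trans hx)
    simpa using h
  have h2 : |mg σ (fun x => x i) s θ * mg σ (fun x => x j) s θ| ≤ D :=
    (hxy (bary σ s θ)).trans (nsq_bary_le_supp hσ s θ)
  show |pcov σ (fun x => x i) (fun x => x j) s θ| ≤ 2 * D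
  refine (abs_sub _ _).trans ?_
  linarith

end Vale.Agent.P245.Gen2
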