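import Vale.Agent.P245.Gen2.Bridge
import Vale.Agent.P245.Gen2.Support
import Vale.Agent.P245.Gen2.Chain

/-!
# P245, polylogarithmic bound: transferring a pure exponential moment to an early vector
-/

open MeasureTheory ProbabilityTheory

namespace Vale.Agent.P245.Gen2

open Vale.Agent.P245 Vale.Agent.P245.General

noncomputable section

variable {n : ℕ} {η D K s t c σ B Zc : ℝ} {ρ : St n → ℝ}


/-! ### Exponential growth in the Gaussian variable -/

/-- The weight bounding functions of exponential growth. -/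
private def ew (C : ℝ) (x : St n) : ℝ := Real.exp (C * (1 + Real.sqrt (nsq x)))

private theorem ew_pos (C : ℝ) (x : St n) : 0 < ew C x := Real.exp_pos _

private theorem ew_mono {C C' : ℝ} (h : C ≤ C') (x : St n) : ew C x ≤ ew C' x :=
  Real.exp_le_exp.2 (mul_le_mul_of_nonneg_right h (by linarith [Real.sqrt_nonneg (nsq x)]))

private theorem ew_one_le {C : ℝ} (h : 0 ≤ C) (x : St n) : 1 ≤ ew C x :=
  Real.one_le_exp (mul_nonneg h (by linarith [Real.sqrt_nonneg (nsq x)]))

private theorem const_le_ew (a : ℝ) (x : St n) : a ≤ ew |a| x :=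
  (le_abs_self a).trans ((by linarith [Real.add_one_le_exp |a|] : |a| ≤ Real.exp |a|).trans
    (Real.exp_le_exp.2 (le_mul_of_one_le_right (abs_nonneg a)
      (by linarith [Real.sqrt_nonneg (nsq x)]))))

private theorem ew_mul (C C' : ℝ) (x : St n) : ew C x * ew C' x = ew (C + C') x := by
  rw [ew, ew, ew, ← Real.exp_add, add_mul]

private theorem ew_add_le {C C' : ℝ} (h : 0 ≤ C) (h' : 0 ≤ C') (x : St n) :
    ew C x + ew C' x ≤ ew (C + C' + 1) x := by
  have h1 := ew_mono (show C ≤ C + C' by linarith) x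
  have h2 := ew_mono (show C' ≤ C + C' by linarith) x
  have h3 : 2 ≤ ew 1 x := by
    have h4 : Real.exp 1 ≤ ew 1 x :=
      Real.exp_le_exp.2 (by linarith [Real.sqrt_nonneg (nsq x)])
    linarith [Real.add_one_le_exp (1 : ℝ)]
  rw [← ew_mul (C + C') 1]
  nlinarith [ew_pos (C + C') x]

private theorem integrable_ew (C : ℝ) : Integrable (ew C) (P166W.gauss (Fin n)) := by
  have hπ : Integrable (fun g : St n => ∏ i, (Real.exp (|C| * g i) + Real.exp (-|C| * g i)))
      (P166W.gauss (Fin n)) :=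
    Integrable.fintype_prod (f := fun _ x => Real.exp (|C| * x) + Real.exp (-|C| * x))
      fun _ => (integrable_exp_mul_gaussianReal _).add (integrable_exp_mul_gaussianReal _)
  refine (hπ.const_mul (Real.exp |C|)).mono'
    (show Measurable (ew C : St n → ℝ) by unfold ew nsq; fun_prop).aestronglyMeasurable
    (Filter.Eventually.of_forall fun g => ?_)
  rw [Real.norm_eq_abs, abs_of_pos (ew_pos C g)]
  have h1 : Real.sqrt (nsq g) ≤ ∑ i, |g i| := by
    refine Real.sqrt_le_iff.2 ⟨Finset.sum_nonneg fun i _ => abs_nonneg _, ?_⟩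
    simp only [nsq, ← sq_abs (g _)]
    exact Finset.sum_sq_le_sq_sum_of_nonneg fun i _ => abs_nonneg (g i)
  calc ew C g ≤ Real.exp (|C| + |C| * ∑ i, |g i|) := Real.exp_le_exp.2 (by
        nlinarith [le_abs_self C, Real.sqrt_nonneg (nsq g), abs_nonneg C])
    _ = Real.exp |C| * ∏ i, Real.exp (|C| * |g i|) := by
        rw [Real.exp_add, Finset.mul_sum, Real.exp_sum]
    _ ≤ _ := by
        refine mul_le_mul_of_nonneg_left (Finset.prod_le_prod (fun i _ => (Real.exp_pos _).le)
          fun i _ => ?_) (Real.exp_pos _).le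
        rcases le_total 0 (g i) with h | h
        · rw [abs_of_nonneg h]; linarith [Real.exp_pos (-|C| * g i)]
        · rw [abs_of_nonpos h, mul_neg, ← neg_mul]; linarith [Real.exp_pos (|C| * g i)]

private theorem integrable_dom {f : St n → ℝ} (hm : Measurable f) {C : ℝ}
    (hb : ∀ x, |f x| ≤ ew C x) : Integrable f (P166W.gauss (Fin n)) :=
  (integrable_ew C).mono' hm.aestronglyMeasurable (Filter.Eventually.of_forall hb)

private theorem gauss_swap {α : Type*} [MeasurableSpace α] {μ : Measure α} [IsProbabilityMeasure μ]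
    {f : α → St n → ℝ} (hm : Measurable (Function.uncurry f)) {C : ℝ}
    (hb : ∀ a x, |f a x| ≤ ew C x) :
    ∫ a, ∫ x, f a x ∂P166W.gauss (Fin n) ∂μ = ∫ x, ∫ a, f a x ∂μ ∂P166W.gauss (Fin n) := by
  refine integral_integral_swap ?_
  exact ((integrable_ew C).comp_snd μ).mono' hm.aestronglyMeasurable
    (Filter.Eventually.of_forall fun z => hb z.1 z.2)

private theorem abs_integral_le_of_le {α : Type*} [MeasurableSpace α] {μ : Measure α}
    [IsProbabilityMeasure μ] {f : α → ℝ} {b : ℝ} (hb : ∀ a, |f a| ≤ b) : |∫ a, f a ∂μ| ≤ b := by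
  rw [← Real.norm_eq_abs]
  simpa using norm_integral_le_of_norm_le_const (μ := μ) (f := f) (Filter.Eventually.of_forall hb)

/-! ### Elementary inequalities -/

private theorem log_tangent {x a : ℝ} (hx : 0 < x) (ha : 0 < a) :
    x * Real.log a + x - a ≤ x * Real.log x := by
  have h := Real.log_le_sub_one_of_pos (div_pos ha hx)
  rw [Real.log_div ha.ne' hx.ne'] at h
  have h2 := mul_le_mul_of_nonneg_left h hx.le
  rw [mul_sub, mul_sub, mul_div_cancel₀ _ hx.ne'] at h2
  linarith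

/-- The relative entropy of `x + q` against `q`, less `x`. -/
private def psi (q x : ℝ) : ℝ := (x + q) * Real.log ((x + q) / q) - x

private theorem psi_tangent {q u w : ℝ} (hq : 0 < q) (hu : 0 ≤ u) (hw : 0 ≤ w) :
    psi q u + Real.log ((u + q) / q) * (w - u) ≤ psi q w := by
  have h := log_tangent (show 0 < w + q by linarith) (show 0 < u + q by linarith)
  simp only [psi, Real.log_div (by linarith : w + q ≠ 0) hq.ne',
    Real.log_div (by linarith : u + q ≠ 0) hq.ne']
  nlinarith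

private theorem psi_le {q x : ℝ} (hq : 0 < q) (hx : 0 < x) :
    psi q x ≤ x * Real.log x - x * Real.log q + q := by
  have hs : 0 < x + q := by linarith
  have h1 := log_tangent hx hs
  have h2 := log_tangent hq hs
  simp only [psi, Real.log_div hs.ne' hq.ne']
  nlinarith

private theorem abs_psi_le {q x : ℝ} (hq : 0 < q) (hx : 0 ≤ x) :
    |psi q x| ≤ (x + q) ^ 2 / q + x := by
  have h1 : 1 ≤ (x + q) / q := (one_le_div hq).2 (by linarith)
  have h2 := Real.log_nonneg h1
  have h3 := Real.log_le_self (zero_le_one.trans h1)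
  refine (abs_sub _ _).trans (add_le_add ?_ (abs_of_nonneg hx).le)
  rw [abs_mul, abs_of_nonneg (by linarith : 0 ≤ x + q), abs_of_nonneg h2]
  refine (mul_le_mul_of_nonneg_left h3 (by linarith)).trans (le_of_eq ?_)
  ring

private theorem measurable_psi (q : ℝ) : Measurable (psi q) := by unfold psi; fun_prop

/-! ### The bridge at one level -/

private theorem fut_stepAt (hρ : Dens D ρ) (s t : ℝ) {F : St n → ℝ} (hm : Measurable F)
    (θ : St n) : fut ρ s t F θ = ∫ y, F y ∂stepAt ρ (t - s) s θ := by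
  rw [stepAt, integral_map (measurable_move_fix _ θ).aemeasurable hm.aestronglyMeasurable, fut,
    joint]
  simp only [move, add_assoc]

/-- The entropy contraction against a bounded change at one level. -/
private theorem level_bound (hb : Base η D K ρ) (hs : 0 < s) (hst : s < t)
    (hc : (K * t + 2) * s / (2 * (t - s)) ≤ c) {u z : St n → ℝ} {q U V : ℝ} (hq : 0 < q)
    (hum : Measurable u) (hu0 : ∀ θ, 0 ≤ u θ) (huU : ∀ θ, u θ ≤ U)
    (hzm : Measurable z) (hz0 : ∀ θ, 0 ≤ z θ) (hzV : ∀ θ, z θ ≤ V) :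
    ∫ θ, u θ * fut ρ s t (fun x =>
        Real.log (brOp s t (fun y => u y + q) x / ((∫ y, u y ∂chanM ρ s) + q))
          + ((∫ y, u y ∂chanM ρ s) + q) / brOp s t (fun y => u y + q) x * z x) θ ∂chanM ρ s
      ≤ c / (1 + c) * (∫ θ, psi q (u θ) ∂chanM ρ s) + (∫ θ, u θ ∂chanM ρ s)
        + ((∫ θ, u θ ∂chanM ρ s) + q) * ∫ θ, z θ ∂chanM ρ t := by
  have := hb.dens.prob_chanM s
  have := hb.dens.prob_chanM t
  set I := ∫ θ, u θ ∂chanM ρ s with hI
  have hI0 : 0 ≤ I := integral_nonneg hu0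
  set M := I + q with hM
  have hM0 : 0 < M := by linarith
  have hU0 : 0 ≤ U := (hu0 0).trans (huU 0)
  have iu : ∀ {f : St n → ℝ}, Measurable f → ∀ C, (∀ x, |f x| ≤ C) → ∀ (μ : Measure (St n))
      [IsProbabilityMeasure μ], Integrable f μ := fun hf C hC μ _ =>
    Integrable.of_bound hf.aestronglyMeasurable C (Filter.Eventually.of_forall hC)
  have huA : ∀ x, |u x| ≤ U := fun x => by rw [abs_of_nonneg (hu0 x)]; exact huU x
  have huint := iu hum U huA (chanM ρ s)
  set G := fun y => u y + q with hG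
  have hGm : Measurable G := hum.add_const q
  set b := brOp s t G with hbdef
  have hbr : ∀ x, q ≤ b x ∧ b x ≤ U + q := bridge_mem hGm fun x =>
    ⟨by simp only [hG]; linarith [hu0 x], by simp only [hG]; linarith [huU x]⟩
  have hbu : ∀ x, 0 ≤ brOp s t u x ∧ brOp s t u x ≤ U := bridge_mem hum fun x => ⟨hu0 x, huU x⟩
  have hbadd : ∀ x, b x = brOp s t u x + q := fun x => by
    simp only [hbdef, hG, brOp]
    rw [integral_add (integrable_bridge hum huA x) (integrable_const q)]
    simp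
  have hbm : Measurable b := (contDiff_bridge hs hst hGm (C := U + q) fun x => by
    simp only [hG]; rw [abs_of_nonneg (by linarith [hu0 x])]; linarith [huU x]).continuous.measurable
  have hbum : Measurable (brOp s t u) := (contDiff_bridge hs hst hum huA).continuous.measurable
  set φ := fun x => Real.log (b x / M) + M / b x * z x with hφ
  have hφm : Measurable φ := (hbm.div_const M).log.add ((measurable_const.div hbm).mul hzm)
  set Lb := |Real.log q| + |Real.log (U + q)| with hLb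
  have hlogb : ∀ x, |Real.log (b x)| ≤ Lb := fun x => by
    have h1 := Real.log_le_log hq (hbr x).1
    have h2 := Real.log_le_log (hq.trans_le (hbr x).1) (hbr x).2
    rw [abs_le]; constructor <;>
      linarith [neg_abs_le (Real.log q), le_abs_self (Real.log (U + q)), abs_nonneg (Real.log q),
        abs_nonneg (Real.log (U + q))]
  have hbz : ∀ x, |M / b x * z x| ≤ M / q * V := fun x => by
    rw [abs_of_nonneg (mul_nonneg (div_nonneg hM0.le (hq.le.trans (hbr x).1)) (hz0 x))]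
    exact mul_le_mul (div_le_div_of_nonneg_left hM0.le hq (hbr x).1) (hzV x) (hz0 x)
      (div_nonneg hM0.le hq.le)
  have hφb : ∀ x, |φ x| ≤ Lb + |Real.log M| + M / q * V := fun x => by
    simp only [hφ]
    refine (abs_add_le _ _).trans (add_le_add ?_ (hbz x))
    rw [Real.log_div (hq.trans_le (hbr x).1).ne' hM0.ne']
    exact (abs_sub _ _).trans (add_le_add (hlogb x) le_rfl)
  rw [bridge hb.ulc hs hst hum hφm ⟨U, huA⟩ ⟨_, hφb⟩]
  have hbI : ∫ x, b x ∂chanM ρ t = M := by
    have e := bridge hb.ulc hs hst hGm (G := fun _ => 1) measurable_const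
      ⟨U + q, fun x => by simp only [hG]; rw [abs_of_nonneg (by linarith [hu0 x])]
                          linarith [huU x]⟩ ⟨1, fun _ => by simp⟩
    have e1 : ∀ θ, fut ρ s t (fun _ => 1) θ = 1 := fun θ => by
      have := hb.dens.prob_stepAt (t - s) s θ
      rw [fut_stepAt hb.dens s t measurable_const]
      simp
    simp only [e1, mul_one] at e
    rw [← e, hM, hI]
    simp only [hG]
    rw [integral_add huint (integrable_const q)]
    simp
  have pt : ∀ x, brOp s t u x * φ x ≤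
      b x * Real.log (b x) - q * Real.log q - brOp s t u x * Real.log M + M * z x := fun x => by
    have hb0 : 0 < b x := hq.trans_le (hbr x).1
    have h1 : q * Real.log q ≤ q * Real.log (b x) :=
      mul_le_mul_of_nonneg_left (Real.log_le_log hq (hbr x).1) hq.le
    have h2 : brOp s t u x * (M / b x * z x) ≤ M * z x := by
      rw [← mul_assoc]
      refine mul_le_mul_of_nonneg_right ?_ (hz0 x)
      rw [← mul_div_assoc, div_le_iff₀ hb0, mul_comm]
      exact mul_le_mul_of_nonneg_left (by linarith [hbadd x]) hM0.le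
    have h3 : b x * Real.log (b x) = brOp s t u x * Real.log (b x) + q * Real.log (b x) := by
      rw [hbadd x]; ring
    simp only [hφ, mul_add, Real.log_div hb0.ne' hM0.ne', mul_sub]
    linarith
  have ibl : Integrable (fun x => b x * Real.log (b x)) (chanM ρ t) :=
    iu (f := fun x => b x * Real.log (b x)) (hbm.mul hbm.log) ((U + q) * Lb) (fun x => by
      rw [abs_mul, abs_of_nonneg (hq.le.trans (hbr x).1)]
      exact mul_le_mul (hbr x).2 (hlogb x) (abs_nonneg _) (by linarith)) _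
  have ibu : Integrable (brOp s t u) (chanM ρ t) :=
    iu hbum U (fun x => by rw [abs_of_nonneg (hbu x).1]; exact (hbu x).2) _
  have izz : Integrable z (chanM ρ t) :=
    iu hzm V (fun x => by rw [abs_of_nonneg (hz0 x)]; exact hzV x) _
  have h1 : Integrable (fun x => b x * Real.log (b x) - q * Real.log q) (chanM ρ t) :=
    ibl.sub (integrable_const _)
  have h2 : Integrable
      (fun x => b x * Real.log (b x) - q * Real.log q - brOp s t u x * Real.log M) (chanM ρ t) :=
    h1.sub (ibu.mul_const _)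
  refine (integral_mono (iu (f := fun x => brOp s t u x * φ x) (hbum.mul hφm) (U * (Lb + |Real.log M| + M / q * V)) (fun x => by
      rw [abs_mul, abs_of_nonneg (hbu x).1]
      exact mul_le_mul (hbu x).2 (hφb x) (abs_nonneg _) hU0) _)
    (h2.fun_add (izz.const_mul M)) pt).trans ?_
  have eu : ∫ x, brOp s t u x ∂chanM ρ t = I := by
    have h : ∫ x, (brOp s t u x + q) ∂chanM ρ t = M := by simp only [← hbadd]; exact hbI
    rw [integral_add ibu (integrable_const q)] at h
    simp at h; linarith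
  rw [integral_add h2 (izz.const_mul M), integral_sub h1 (ibu.mul_const _),
    integral_sub ibl (integrable_const _), integral_const, probReal_univ, one_smul,
    integral_mul_const, integral_const_mul, eu]
  have hsd := sdpi hb hs hst hc hGm (fun x => by simp only [hG]; linarith [hu0 x])
    ⟨U + q, fun x => by simp only [hG]; linarith [huU x]⟩
  have eG : ∫ x, G x ∂chanM ρ s = M := by
    simp only [hG]; rw [integral_add huint (integrable_const q)]; simp [hM, hI]
  rw [ent, ent, ← hbdef, hbI, eG] at hsd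
  have iG : Integrable (fun x => G x * Real.log (G x)) (chanM ρ s) := by
    refine iu (f := fun x => G x * Real.log (G x)) (hGm.mul hGm.log) ((U + q) * Lb) (fun x => ?_) _
    have g1 : q ≤ G x := by simp only [hG]; linarith [hu0 x]
    have g2 : G x ≤ U + q := by simp only [hG]; linarith [huU x]
    rw [abs_mul, abs_of_nonneg (hq.le.trans g1)]
    refine mul_le_mul g2 ?_ (abs_nonneg _) (by linarith)
    have a1 := Real.log_le_log hq g1
    have a2 := Real.log_le_log (hq.trans_le g1) g2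
    rw [abs_le]; constructor <;>
      linarith [neg_abs_le (Real.log q), le_abs_self (Real.log (U + q)), abs_nonneg (Real.log q),
        abs_nonneg (Real.log (U + q))]
  have hent : (∫ x, G x * Real.log (G x) ∂chanM ρ s) - M * Real.log M ≤
      ∫ x, psi q (u x) ∂chanM ρ s := by
    have hlt := log_tangent hM0 hq
    have iGq : Integrable (fun x => G x * Real.log (G x) - G x * Real.log q) (chanM ρ s) :=
      iG.sub ((huint.add (integrable_const q)).mul_const _)
    have e : ∀ x, psi q (u x) = G x * Real.log (G x) - G x * Real.log q - u x := fun x => by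
      simp only [psi, hG]
      rw [Real.log_div (by linarith [hu0 x]) hq.ne', mul_sub]
    simp only [e]
    rw [integral_sub iGq huint, integral_sub iG ((huint.fun_add (integrable_const q)).mul_const _),
      integral_mul_const, eG]
    linarith
  have hcc : 0 ≤ c / (1 + c) := by
    have hK := hb.posK
    have := sub_pos.2 hst
    have ht : 0 < t := hs.trans hst
    have : 0 ≤ c := le_trans (by positivity) hc
    positivity
  have hql : q * Real.log M - q * Real.log q ≤ I := by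
    have := log_tangent hq hM0
    linarith
  have h5 := mul_le_mul_of_nonneg_left hent hcc
  have h6 : M * Real.log M - I * Real.log M = q * Real.log M := by rw [hM]; ring
  linarith


/-- The contraction for a family of weights, one for each value of the noise: the tilt `φ` may be
used in place of any exponent. -/
private theorem level_family (hb : Base η D K ρ) (hs : 0 < s) (hst : s < t)
    (hc : (K * t + 2) * s / (2 * (t - s)) ≤ c) (ν : Measure (St n × St n)) [IsProbabilityMeasure ν]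
    (hν : ν.fst = chanM ρ s) {W Zf : St n → St n → ℝ} (hW : Measurable (Function.uncurry W))
    {C1 E : ℝ} (hC1 : 0 ≤ C1) (hE : 0 ≤ E) (hW0 : ∀ h ζ, 0 ≤ W h ζ)
    (hWb : ∀ h ζ, W h ζ ≤ ew C1 ζ) (hZ : Measurable (Function.uncurry Zf))
    (hZ0 : ∀ θ ζ, 0 ≤ Zf θ ζ) (hZb : ∀ θ ζ, Zf θ ζ ≤ ew E ζ) {q : ℝ} (hq : 0 < q) (hq1 : q ≤ 1) :
    ∃ φ : St n → St n → ℝ, Measurable (Function.uncurry φ) ∧ (∃ C, ∀ θ ζ, |φ θ ζ| ≤ ew C ζ) ∧
      (∀ θ ζ, ∃ ℓ, φ θ ζ = ℓ + Real.exp (-ℓ) * Zf θ ζ) ∧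
      ∀ ζ, ∫ z, W z.2 ζ * fut ρ s t (fun x => φ x ζ) z.1 ∂ν ≤
        ∫ z, (c / (1 + c) * psi q (W z.2 ζ) + W z.2 ζ
          + (W z.2 ζ + q) * ∫ θ, Zf θ ζ ∂chanM ρ t) ∂ν := by
  have hPs := hb.dens.prob_chanM s
  have hPt := hb.dens.prob_chanM t
  set κ := ν.condKernel with hκ
  have hdis : chanM ρ s ⊗ₘ κ = ν := by rw [← hν, hκ]; exact ν.disintegrate ν.condKernel
  have hWabs : ∀ h ζ, |W h ζ| ≤ ew C1 ζ := fun h ζ => by
    rw [abs_of_nonneg (hW0 h ζ)]; exact hWb h ζ
  set u : St n → St n → ℝ := fun θ ζ => ∫ h, W h ζ ∂κ θ with hudef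
  have hum : Measurable fun z : St n × St n => u z.1 z.2 :=
    (StronglyMeasurable.integral_kernel_prod_right' (κ := κ.comap Prod.fst measurable_fst)
      (f := fun p : (St n × St n) × St n => W p.2 p.1.2)
      (hW.comp (f := fun p : (St n × St n) × St n => (p.2, p.1.2))
        (by fun_prop)).stronglyMeasurable).measurable
  have hu0 : ∀ θ ζ, 0 ≤ u θ ζ := fun θ ζ => integral_nonneg fun h => hW0 h ζ
  have hub : ∀ θ ζ, u θ ζ ≤ ew C1 ζ := fun θ ζ =>
    (le_abs_self _).trans (abs_integral_le_of_le fun h => hWabs h ζ)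
  set I : St n → ℝ := fun ζ => ∫ θ, u θ ζ ∂chanM ρ s with hIdef
  have hIm : Measurable I :=
    (StronglyMeasurable.integral_prod_left' (μ := chanM ρ s)
      (f := fun z : St n × St n => u z.1 z.2) hum.stronglyMeasurable).measurable
  have hI0 : ∀ ζ, 0 ≤ I ζ := fun ζ => integral_nonneg fun θ => hu0 θ ζ
  have hIb : ∀ ζ, I ζ ≤ ew C1 ζ := fun ζ =>
    (le_abs_self _).trans (abs_integral_le_of_le fun θ => by
      rw [abs_of_nonneg (hu0 θ ζ)]; exact hub θ ζ)
  set bG : St n → St n → ℝ := fun θ ζ => brOp s t (fun y => u y ζ + q) θ with hbGdef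
  have hbGm : Measurable fun z : St n × St n => bG z.1 z.2 :=
    (StronglyMeasurable.integral_prod_right' (ν := P166W.gauss (Fin n))
      (f := fun p : (St n × St n) × St n =>
        u ((s / t) • p.1.1 + Real.sqrt (s * (t - s) / t) • p.2) p.1.2 + q)
      (Measurable.stronglyMeasurable ((hum.comp (g := fun z : St n × St n => u z.1 z.2)
        (f := fun p : (St n × St n) × St n =>
          ((s / t) • p.1.1 + Real.sqrt (s * (t - s) / t) • p.2, p.1.2))
        (by fun_prop)).add_const q))).measurable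
  set R := C1 + 1 + 1 with hRdef
  have hR : ∀ ζ : St n, ew C1 ζ + 1 ≤ ew R ζ := fun ζ => by
    refine le_trans ?_ (ew_add_le hC1 zero_le_one ζ)
    linarith [ew_one_le (zero_le_one' ℝ) ζ]
  have hbGb : ∀ θ ζ, q ≤ bG θ ζ ∧ bG θ ζ ≤ ew R ζ := fun θ ζ =>
    bridge_mem (n := n) ((hum.comp measurable_prodMk_right).add_const _) (fun x =>
      ⟨le_add_of_nonneg_left (hu0 x ζ), le_trans (add_le_add (hub x ζ) hq1) (hR ζ)⟩) θ
  have hM : ∀ ζ, q ≤ I ζ + q ∧ I ζ + q ≤ ew R ζ := fun ζ =>
    ⟨le_add_of_nonneg_left (hI0 ζ), le_trans (add_le_add (hIb ζ) hq1) (hR ζ)⟩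
  set P := |1 / q| + R with hPdef
  have hP0 : 0 ≤ P := by rw [hPdef, hRdef]; positivity
  have hrat : ∀ (ζ : St n) (a b : ℝ), q ≤ a → q ≤ b → a ≤ ew R ζ → a / b ≤ ew P ζ :=
    fun ζ a b ha hb' ha' => by
      refine (div_le_div_of_nonneg_left (hq.le.trans ha) hq hb').trans ?_
      rw [hPdef, ← ew_mul, div_eq_mul_one_div, mul_comm]
      exact mul_le_mul (const_le_ew _ ζ) ha' (hq.le.trans ha) (ew_pos _ _).le
  refine ⟨fun θ ζ => Real.log (bG θ ζ / (I ζ + q)) + (I ζ + q) / bG θ ζ * Zf θ ζ,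
    ((hbGm.div ((hIm.comp measurable_snd).add_const _)).log).add
      ((((hIm.comp measurable_snd).add_const _).div hbGm).mul hZ),
    ⟨P + P + 1 + (P + E) + 1, fun θ ζ => ?_⟩, fun θ ζ => ?_, fun ζ => ?_⟩
  · obtain ⟨m1, m2⟩ := hM ζ
    obtain ⟨b1, b2⟩ := hbGb θ ζ
    have r1 := hrat ζ _ _ b1 m1 b2
    have r2 := hrat ζ _ _ m1 b1 m2
    have p1 : 0 < bG θ ζ / (I ζ + q) := div_pos (hq.trans_le b1) (hq.trans_le m1)
    have p2 : 0 < (I ζ + q) / bG θ ζ := div_pos (hq.trans_le m1) (hq.trans_le b1)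
    have l2 : -Real.log (bG θ ζ / (I ζ + q)) ≤ (I ζ + q) / bG θ ζ := by
      rw [← Real.log_inv, inv_div]; exact Real.log_le_self p2.le
    have hlog : |Real.log (bG θ ζ / (I ζ + q))| ≤ ew (P + P + 1) ζ := by
      have := ew_add_le hP0 hP0 ζ
      rw [abs_le]; constructor <;> linarith [ew_pos P ζ, Real.log_le_self p1.le]
    have hz : |(I ζ + q) / bG θ ζ * Zf θ ζ| ≤ ew (P + E) ζ := by
      rw [abs_of_nonneg (mul_nonneg p2.le (hZ0 _ _)), ← ew_mul]
      exact mul_le_mul r2 (hZb θ ζ) (hZ0 _ _) (ew_pos _ _).le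
    exact ((abs_add_le _ _).trans (add_le_add hlog hz)).trans
      (ew_add_le (by linarith) (by linarith) ζ)
  · refine ⟨Real.log (bG θ ζ / (I ζ + q)), ?_⟩
    rw [Real.exp_neg, Real.exp_log (div_pos (hq.trans_le (hbGb θ ζ).1) (hq.trans_le (hM ζ).1)),
      inv_div]
  have hwζ : Measurable fun h => W h ζ := hW.comp measurable_prodMk_right
  have huζ : Measurable fun θ => u θ ζ := hum.comp measurable_prodMk_right
  have hzζ : Measurable fun θ => Zf θ ζ := hZ.comp measurable_prodMk_right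
  set φζ := fun x => Real.log (bG x ζ / (I ζ + q)) + (I ζ + q) / bG x ζ * Zf x ζ with hφζ
  have hφm : Measurable φζ :=
    (((hbGm.comp measurable_prodMk_right).div_const _).log).add
      ((measurable_const.div (hbGm.comp measurable_prodMk_right)).mul hzζ)
  obtain ⟨Cb, hφb⟩ : ∃ Cb, ∀ x, |φζ x| ≤ Cb := ⟨Real.log (ew P ζ) + ew P ζ * ew E ζ,
    fun x => by
      obtain ⟨m1, m2⟩ := hM ζ
      obtain ⟨b1, b2⟩ := hbGb x ζ
      have p1 : 0 < bG x ζ / (I ζ + q) := div_pos (hq.trans_le b1) (hq.trans_le m1)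
      have p2 : 0 < (I ζ + q) / bG x ζ := div_pos (hq.trans_le m1) (hq.trans_le b1)
      have r1 := Real.log_le_log p1 (hrat ζ _ _ b1 m1 b2)
      have r2 : -Real.log (bG x ζ / (I ζ + q)) ≤ Real.log (ew P ζ) := by
        rw [← Real.log_inv, inv_div]; exact Real.log_le_log p2 (hrat ζ _ _ m1 b1 m2)
      have hl : |Real.log (bG x ζ / (I ζ + q))| ≤ Real.log (ew P ζ) :=
        abs_le.2 ⟨by linarith, r1⟩
      refine (abs_add_le _ _).trans (add_le_add hl ?_)
      rw [abs_of_nonneg (mul_nonneg p2.le (hZ0 _ _))]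
      exact mul_le_mul (hrat ζ _ _ m1 b1 m2) (hZb x ζ) (hZ0 _ _) (ew_pos _ _).le⟩
  have hFm : Measurable (fut ρ s t φζ) := measurable_fut hb.ulc hs.le hφm ⟨Cb, hφb⟩
  have hFb : ∀ θ, |fut ρ s t φζ θ| ≤ Cb := fun θ => by
    rw [fut_stepAt hb.dens s t hφm]
    have := hb.dens.prob_stepAt (t - s) s θ
    exact abs_integral_le_of_le hφb
  have iwF : Integrable (fun z : St n × St n => W z.2 ζ * fut ρ s t φζ z.1) ν :=
    Integrable.of_bound ((hwζ.comp measurable_snd).mul (hFm.comp measurable_fst)).aestronglyMeasurable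
      (ew C1 ζ * Cb) (Filter.Eventually.of_forall fun z => by
        rw [norm_mul, Real.norm_eq_abs, Real.norm_eq_abs]
        exact mul_le_mul (hWabs _ ζ) (hFb _) (abs_nonneg _) (ew_pos _ _).le)
  have iν : ∀ {f : St n → ℝ}, Measurable f → ∀ b, (∀ h, |f h| ≤ b) →
      Integrable (fun z : St n × St n => f z.2) ν := fun hf b hb' =>
    Integrable.of_bound (hf.comp measurable_snd).aestronglyMeasurable b
      (Filter.Eventually.of_forall fun z => hb' z.2)
  have hψb : ∀ x : ℝ, 0 ≤ x → x ≤ ew C1 ζ → |psi q x| ≤ (ew C1 ζ + q) ^ 2 / q + ew C1 ζ :=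
    fun x hx hx' => (abs_psi_le hq hx).trans (by gcongr)
  have iψ : Integrable (fun z : St n × St n => psi q (W z.2 ζ)) ν :=
    iν ((measurable_psi _).comp hwζ) _ fun h => hψb _ (hW0 h ζ) (hWb h ζ)
  have iW : Integrable (fun z : St n × St n => W z.2 ζ) ν := iν hwζ _ fun h => hWabs h ζ
  have e1 : ∫ z, W z.2 ζ * fut ρ s t φζ z.1 ∂ν =
      ∫ θ, u θ ζ * fut ρ s t φζ θ ∂chanM ρ s := by
    rw [← hdis] at iwF ⊢
    rw [Measure.integral_compProd iwF]
    simp only [hudef, integral_mul_const]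
  have e2 : ∫ z, W z.2 ζ ∂ν = I ζ := by
    rw [← hdis] at iW ⊢
    rw [Measure.integral_compProd iW]
  show ∫ z, W z.2 ζ * fut ρ s t φζ z.1 ∂ν ≤ _
  rw [e1]
  refine (level_bound hb hs hst hc hq huζ (fun θ => hu0 θ ζ) (fun θ => hub θ ζ) hzζ
    (fun θ => hZ0 _ _) (fun θ => hZb θ ζ)).trans ?_
  have e3 : ∫ θ, psi q (u θ ζ) ∂chanM ρ s ≤ ∫ z, psi q (W z.2 ζ) ∂ν := by
    rw [← hdis] at iψ ⊢
    rw [Measure.integral_compProd iψ]
    refine integral_mono ?_ ?_ fun θ => ?_
    · exact Integrable.of_bound ((measurable_psi _).comp huζ).aestronglyMeasurable _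
        (Filter.Eventually.of_forall fun θ => hψb _ (hu0 θ ζ) (hub θ ζ))
    · exact Integrable.of_bound
        ((StronglyMeasurable.integral_kernel (κ := κ)
          ((measurable_psi q).comp hwζ).stronglyMeasurable).aestronglyMeasurable) _
        (Filter.Eventually.of_forall fun θ => abs_integral_le_of_le fun h =>
          hψb _ (hW0 h ζ) (hWb h ζ))
    · have i1 : Integrable (fun h => W h ζ) (κ θ) :=
        Integrable.of_bound hwζ.aestronglyMeasurable _
          (Filter.Eventually.of_forall fun h => hWabs h ζ)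
      have i2 : Integrable (fun h => psi q (W h ζ)) (κ θ) :=
        Integrable.of_bound ((measurable_psi _).comp hwζ).aestronglyMeasurable _
          (Filter.Eventually.of_forall fun h => hψb _ (hW0 h ζ) (hWb h ζ))
      have i3 : Integrable (fun h => Real.log ((u θ ζ + q) / q) * (W h ζ - u θ ζ)) (κ θ) :=
        (i1.sub (integrable_const _)).const_mul _
      have := integral_mono ((integrable_const (psi q (u θ ζ))).fun_add i3) i2
        fun h => psi_tangent hq (hu0 θ ζ) (hW0 h ζ)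
      rw [integral_add (integrable_const _) i3, integral_const_mul,
        integral_sub i1 (integrable_const _), integral_const, integral_const, probReal_univ,
        one_smul, one_smul, show ∫ h, W h ζ ∂κ θ = u θ ζ from rfl, sub_self, mul_zero,
        add_zero] at this
      exact this
  have hcc : 0 ≤ c / (1 + c) := by
    have hK := hb.posK
    have := sub_pos.2 hst
    have ht : 0 < t := hs.trans hst
    have : 0 ≤ c := le_trans (by positivity) hc
    positivity
  have a1 : Integrable (fun z : St n × St n => c / (1 + c) * psi q (W z.2 ζ) + W z.2 ζ) ν :=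
    (iψ.const_mul _).add iW
  have a2 : Integrable (fun z : St n × St n => W z.2 ζ + q) ν := iW.add (integrable_const q)
  rw [integral_add a1 (a2.mul_const _), integral_add (iψ.const_mul _) iW, integral_const_mul,
    integral_mul_const, integral_add iW (integrable_const q), integral_const, probReal_univ,
    one_smul, e2]
  have := mul_le_mul_of_nonneg_left e3 hcc
  simp only [hIdef]
  linarith

/-! ### The shifted Gaussian -/

private theorem wgt_le_ew {u : St n} {C : ℝ} (hC : 0 ≤ C) (hu : nsq u ≤ C ^ 2) (ζ : St n) :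
    wgt 1 ζ u ≤ ew C ζ := by
  have h1 : dotp ζ u ≤ Real.sqrt (nsq ζ) * Real.sqrt (nsq u) :=
    Real.sum_mul_le_sqrt_mul_sqrt _ _ _
  have h2 := mul_le_mul_of_nonneg_left (Real.sqrt_le_iff.2 ⟨hC, hu⟩) (Real.sqrt_nonneg (nsq ζ))
  refine Real.exp_le_exp.2 ?_
  linarith [nsq_nonneg u]

private theorem integrable_wgt_one (u : St n) :
    Integrable (fun ζ => wgt 1 ζ u) (P166W.gauss (Fin n)) :=
  integrable_dom (by unfold wgt dotp; fun_prop) fun ζ => by
    rw [abs_of_nonneg (show 0 ≤ wgt 1 ζ u from (Real.exp_pos _).le)]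
    exact wgt_le_ew (Real.sqrt_nonneg (nsq u)) (Real.sq_sqrt (nsq_nonneg u)).ge ζ

private theorem integral_wgt_mul (u : St n) {F : St n → ℝ} (hF : Measurable F) :
    ∫ ζ, wgt 1 ζ u * F ζ ∂P166W.gauss (Fin n) = ∫ ξ, F (u + ξ) ∂P166W.gauss (Fin n) := by
  rw [integral_gauss_shift F hF u]
  simp only [mul_comm]

private theorem integral_wgt_one (u : St n) :
    ∫ ζ, wgt 1 ζ u ∂P166W.gauss (Fin n) = 1 := by
  simpa using integral_wgt_mul u (F := fun _ => 1) measurable_const

private theorem integral_dotp_zero (v : St n) :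
    Integrable (fun ξ : St n => dotp v ξ) (P166W.gauss (Fin n)) ∧
      ∫ ξ, dotp v ξ ∂P166W.gauss (Fin n) = 0 := by
  refine ⟨(c1p_dotp v).cp.integrable_gauss, ?_⟩
  simp only [dotp]
  rw [integral_finsetSum _ fun j _ => ((c1p_coord j).cp.integrable_gauss).const_mul _]
  refine Finset.sum_eq_zero fun j _ => ?_
  rw [integral_const_mul]
  have := gauss_ibp_c1p (c1p_const (n := n) 1) j
  simp only [mul_one, pd_const, integral_zero] at this
  rw [this, mul_zero]

/-- An affine minorant of the shifted function gives a bound on its tilted mean. -/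
private theorem le_tilted_mean {f : St n → ℝ} (hf : Measurable f) {C : ℝ}
    (hb : ∀ ζ, |f ζ| ≤ ew C ζ) {a : ℝ} {v u : St n} (h : ∀ ξ, a + dotp v ξ ≤ f (u + ξ)) :
    a ≤ ∫ ζ, wgt 1 ζ u * f ζ ∂P166W.gauss (Fin n) := by
  rw [integral_wgt_mul u hf]
  obtain ⟨hi, hz⟩ := integral_dotp_zero v
  have e : ∫ ξ, (a + dotp v ξ) ∂P166W.gauss (Fin n) = a := by
    rw [integral_add (integrable_const _) hi, hz, integral_const, probReal_univ, one_smul, add_zero]
  rw [← e]
  refine integral_mono ((integrable_const a).fun_add hi) ?_ h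
  refine integrable_dom (hf.comp (measurable_const_add u))
    (C := |C| * (1 + Real.sqrt (nsq u))) fun ξ => (hb _).trans (Real.exp_le_exp.2 ?_)
  have t1 : Real.sqrt (nsq (u + ξ)) ≤ Real.sqrt (nsq u) + Real.sqrt (nsq ξ) := by
    refine Real.sqrt_le_iff.2 ⟨by positivity, ?_⟩
    have a2 : dotp u ξ ≤ Real.sqrt (nsq u) * Real.sqrt (nsq ξ) :=
      Real.sum_mul_le_sqrt_mul_sqrt _ _ _
    have a3 : nsq (u + ξ) = nsq u + 2 * dotp u ξ + nsq ξ := by
      simp only [nsq, dotp, Finset.mul_sum, ← Finset.sum_add_distrib, Pi.add_apply]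
      exact Finset.sum_congr rfl fun j _ => by ring
    rw [add_sq, Real.sq_sqrt (nsq_nonneg u), Real.sq_sqrt (nsq_nonneg ξ)]
    linarith
  have h0 := Real.sqrt_nonneg (nsq (u + ξ))
  nlinarith [mul_le_mul_of_nonneg_left t1 (abs_nonneg C),
    mul_le_mul_of_nonneg_right (le_abs_self C) h0, le_abs_self C,
    mul_nonneg (mul_nonneg (abs_nonneg C) (Real.sqrt_nonneg (nsq u))) (Real.sqrt_nonneg (nsq ξ))]

private theorem integral_psi_wgt {q : ℝ} (hq : 0 < q) (u : St n) :
    Integrable (fun ζ => psi q (wgt 1 ζ u)) (P166W.gauss (Fin n)) ∧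
      ∫ ζ, psi q (wgt 1 ζ u) ∂P166W.gauss (Fin n) ≤ nsq u / 2 - Real.log q + q := by
  have hm : Measurable fun ζ : St n => wgt 1 ζ u := by unfold wgt dotp; fun_prop
  have hiw := integrable_wgt_one u
  set C := Real.sqrt (nsq u) with hCdef
  have hC : 0 ≤ C := Real.sqrt_nonneg _
  have hu : nsq u ≤ C ^ 2 := (Real.sq_sqrt (nsq_nonneg u)).ge
  have hiψ : Integrable (fun ζ => psi q (wgt 1 ζ u)) (P166W.gauss (Fin n)) := by
    refine Integrable.mono' ((((integrable_ew (n := n) (C + C)).add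
      ((integrable_ew C).const_mul (2 * q))).add (integrable_const (q ^ 2))).div_const q |>.add
        (integrable_ew C)) ((measurable_psi q).comp hm).aestronglyMeasurable
      (Filter.Eventually.of_forall fun ζ => ?_)
    have h0 : 0 ≤ wgt 1 ζ u := (Real.exp_pos _).le
    have h1 := wgt_le_ew hC hu ζ
    refine (abs_psi_le hq h0).trans ?_
    simp only [Pi.add_apply]
    refine add_le_add (div_le_div_of_nonneg_right ?_ hq.le) h1
    rw [← ew_mul]
    nlinarith
  have hiD : Integrable (fun ζ => wgt 1 ζ u * dotp ζ u) (P166W.gauss (Fin n)) := by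
    refine integrable_dom (hm.mul (by unfold dotp; fun_prop)) (C := C + C) fun ζ => ?_
    rw [abs_mul, ← ew_mul, abs_of_nonneg (show 0 ≤ wgt 1 ζ u from (Real.exp_pos _).le)]
    refine mul_le_mul (wgt_le_ew hC hu ζ) ?_ (abs_nonneg _) (ew_pos _ _).le
    have a2 : |dotp ζ u| ≤ Real.sqrt (nsq ζ) * C := by
      rw [hCdef, ← Real.sqrt_mul (nsq_nonneg ζ)]
      exact Real.abs_le_sqrt (dotp_sq_le _ _)
    refine a2.trans (le_trans ?_ (Real.add_one_le_exp _))
    nlinarith [Real.sqrt_nonneg (nsq ζ)]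
  refine ⟨hiψ, ?_⟩
  have hb : ∀ ζ, psi q (wgt 1 ζ u) ≤
      wgt 1 ζ u * dotp ζ u + wgt 1 ζ u * (-Real.log q - nsq u / 2) + q := fun ζ => by
    refine (psi_le hq (Real.exp_pos _)).trans (le_of_eq ?_)
    simp only [wgt, Real.log_exp]
    ring
  have i4 : Integrable
      (fun ζ => wgt 1 ζ u * dotp ζ u + wgt 1 ζ u * (-Real.log q - nsq u / 2))
      (P166W.gauss (Fin n)) := hiD.add (hiw.mul_const _)
  refine (integral_mono hiψ (i4.fun_add (integrable_const _)) hb).trans ?_
  rw [integral_add i4 (integrable_const _), integral_add hiD (hiw.mul_const _),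
    integral_mul_const, integral_wgt_one, integral_const, probReal_univ, one_smul,
    integral_wgt_mul u (F := fun ζ => dotp ζ u) (by unfold dotp; fun_prop)]
  have e : ∀ ξ : St n, dotp (u + ξ) u = dotp u u + dotp u ξ := fun ξ => by
    simp only [dotp, ← Finset.sum_add_distrib, Pi.add_apply]
    exact Finset.sum_congr rfl fun j _ => by ring
  obtain ⟨hi, hz⟩ := integral_dotp_zero u
  simp only [e]
  rw [integral_add (integrable_const _) hi, hz, integral_const, probReal_univ, one_smul, add_zero,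
    show dotp u u = nsq u by simp [dotp, nsq, pow_two]]
  linarith

/-- The weight of the level `i` at the smoothed vector `σ ζ`. -/
private def lw (B σ : ℝ) (lev : St n → ℕ) (i : ℕ) (h ζ : St n) : ℝ :=
  ({h : St n | nsq h ≤ B} ∩ lev ⁻¹' {i}).indicator (fun h => wgt 1 ζ (σ⁻¹ • h)) h

private theorem nsq_inv_le (hσ : 0 < σ) {h : St n} (hB : nsq h ≤ B) :
    nsq (σ⁻¹ • h) ≤ (Real.sqrt B / σ) ^ 2 := by
  rw [General.nsq_smul, div_pow, Real.sq_sqrt ((nsq_nonneg h).trans hB), div_eq_inv_mul, inv_pow]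
  exact mul_le_mul_of_nonneg_left hB (by positivity)

private theorem lw_facts (hσ : 0 < σ) {lev : St n → ℕ} (hlev : Measurable lev) (i : ℕ) :
    Measurable (Function.uncurry (lw B σ lev i)) ∧
      ∀ h ζ, 0 ≤ lw B σ lev i h ζ ∧ lw B σ lev i h ζ ≤ ew (Real.sqrt B / σ) ζ := by
  refine ⟨?_, fun h ζ => ⟨Set.indicator_nonneg (fun _ _ => (Real.exp_pos _).le) h,
    Set.indicator_le' (fun h hh' => wgt_le_ew (div_nonneg (Real.sqrt_nonneg _) hσ.le)
      (nsq_inv_le hσ hh'.1) ζ) (fun _ _ => (ew_pos _ _).le) h⟩⟩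
  have hT : MeasurableSet ({h : St n | nsq h ≤ B} ∩ lev ⁻¹' {i}) :=
    (measurableSet_le continuous_nsq.measurable measurable_const).inter
      (hlev (measurableSet_singleton i))
  have e : Function.uncurry (lw B σ lev i) =
      (Prod.fst ⁻¹' ({h : St n | nsq h ≤ B} ∩ lev ⁻¹' {i})).indicator
        fun z : St n × St n => wgt 1 z.2 (σ⁻¹ • z.1) :=
    funext fun z => Set.indicator_comp_right (g := fun h => wgt 1 z.2 (σ⁻¹ • h))
      (fun z : St n × St n => z.1) (x := z) ▸ rfl
  rw [e]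
  exact Measurable.indicator (by unfold wgt dotp nsq; fun_prop) (measurable_fst hT)

private theorem lw_of_mem {lev : St n → ℕ} {h : St n} (hB : nsq h ≤ B) (ζ : St n) :
    lw B σ lev (lev h) h ζ = wgt 1 ζ (σ⁻¹ • h) :=
  Set.indicator_of_mem (show h ∈ {h : St n | nsq h ≤ B} ∩ lev ⁻¹' {lev h} from ⟨hB, rfl⟩) _

private theorem lw_of_ne {lev : St n → ℕ} {i : ℕ} {h : St n} (hi : lev h ≠ i) (ζ : St n) :
    lw B σ lev i h ζ = 0 :=
  Set.indicator_of_notMem
    (show h ∉ {h : St n | nsq h ≤ B} ∩ lev ⁻¹' {i} from fun hT' => hi hT'.2) _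

/-- The bound at one state, integrated against the noise. -/
private def lJ (ρ : St n → ℝ) (t B σ c : ℝ) (lev : St n → ℕ) (Z : ℕ → St n → St n → ℝ) (i : ℕ)
    (h ζ : St n) : ℝ :=
  c / (1 + c) * psi ((1 / 2) ^ i) (lw B σ lev i h ζ) + lw B σ lev i h ζ
    + (lw B σ lev i h ζ + (1 / 2) ^ i) * ∫ θ, Z i θ (σ • ζ) ∂chanM ρ t

private theorem mean_le (hb : Base η D K ρ) (ht : 0 < t) (hσ : 0 < σ) {lev : St n → ℕ}
    {Z : ℕ → St n → St n → ℝ} {i : ℕ} (hZ : Measurable (Function.uncurry (Z i)))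
    (hZc : ∀ h : St n, (h = 0 ∨ (nsq h ≤ B ∧ lev h = i)) →
      ∫ ξ, Ep ρ t (fun θ => Z i θ (h + σ • ξ)) ∂P166W.gauss (Fin n) ≤ Zc)
    (h : St n) (hh' : h = 0 ∨ (nsq h ≤ B ∧ lev h = i)) :
    ∫ ζ, wgt 1 ζ (σ⁻¹ • h) * (∫ θ, Z i θ (σ • ζ) ∂chanM ρ t) ∂P166W.gauss (Fin n) ≤ Zc := by
  have := hb.dens.prob_chanM t
  have hm : Measurable fun ζ : St n => ∫ θ, Z i θ (σ • ζ) ∂chanM ρ t :=
    (StronglyMeasurable.integral_prod_left' (μ := chanM ρ t)
      (f := fun z : St n × St n => Z i z.1 (σ • z.2))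
      (hZ.comp (f := fun z : St n × St n => (z.1, σ • z.2))
        (by fun_prop)).stronglyMeasurable).measurable
  rw [integral_wgt_mul _ hm]
  refine le_trans (le_of_eq (integral_congr_ae (Filter.Eventually.of_forall fun ξ => ?_)))
    (hZc h hh')
  simp only [smul_add, smul_inv_smul₀ hσ.ne']
  exact integral_chanM hb.ulc ht.le (hZ.comp measurable_prodMk_right)

private theorem sum_lJ_le (hb : Base η D K ρ) (hs : 0 < s) (hst : s < t)
    (hc : (K * t + 2) * s / (2 * (t - s)) ≤ c) (hσ : 0 < σ) {lev : St n → ℕ} {m : ℕ}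
    {Z : ℕ → St n → St n → ℝ} (hZ : ∀ i, Measurable (Function.uncurry (Z i)))
    (hZ0 : ∀ i θ y, 0 ≤ Z i θ y) {E : ℝ} (hZb : ∀ i ≤ m, ∀ θ ζ, Z i θ (σ • ζ) ≤ ew E ζ)
    (hZc : ∀ i ≤ m, ∀ h : St n, (h = 0 ∨ (nsq h ≤ B ∧ lev h = i)) →
      ∫ ξ, Ep ρ t (fun θ => Z i θ (h + σ • ξ)) ∂P166W.gauss (Fin n) ≤ Zc)
    {h : St n} (hB : nsq h ≤ B) (hm : lev h ≤ m) :
    ∑ i ∈ Finset.range (m + 1), ∫ ζ, lJ ρ t B σ c lev Z i h ζ ∂P166W.gauss (Fin n) ≤
      c / (1 + c) * (nsq h / (2 * σ ^ 2) + Real.log 2 * lev h + 1) + 1 + 3 * Zc := by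
  have ht : 0 < t := hs.trans hst
  have := hb.dens.prob_chanM t
  have hcc : 0 ≤ c / (1 + c) := by
    have hK := hb.posK
    have := sub_pos.2 hst
    have : 0 ≤ c := le_trans (by positivity) hc
    positivity
  set EZ : ℕ → St n → ℝ := fun i ζ => ∫ θ, Z i θ (σ • ζ) ∂chanM ρ t with hEZdef
  have hEZm : ∀ i, Measurable (EZ i) := fun i =>
    (StronglyMeasurable.integral_prod_left' (μ := chanM ρ t)
      (f := fun z : St n × St n => Z i z.1 (σ • z.2))
      ((hZ i).comp (f := fun z : St n × St n => (z.1, σ • z.2))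
        (by fun_prop)).stronglyMeasurable).measurable
  have hEZb : ∀ i ≤ m, ∀ ζ, |EZ i ζ| ≤ ew E ζ := fun i hi ζ => abs_integral_le_of_le fun θ => by
    rw [abs_of_nonneg (hZ0 _ _ _)]; exact hZb i hi θ ζ
  have hZc' : ∀ i ≤ m, ∀ h' : St n, (h' = 0 ∨ (nsq h' ≤ B ∧ lev h' = i)) →
      ∫ ζ, wgt 1 ζ (σ⁻¹ • h') * EZ i ζ ∂P166W.gauss (Fin n) ≤ Zc := fun i hi h' hc' =>
    mean_le hb ht hσ (hZ i) (hZc i hi) h' hc'
  have hL0 : ∀ ζ : St n, wgt 1 ζ (σ⁻¹ • (0 : St n)) = 1 := fun ζ => by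
    simp [wgt, dotp, nsq]
  have hZ1 : ∀ i ≤ m, ∫ ζ, EZ i ζ ∂P166W.gauss (Fin n) ≤ Zc := fun i hi => by
    have := hZc' i hi 0 (Or.inl rfl)
    simpa only [hL0, one_mul] using this
  have hZc0 : 0 ≤ Zc :=
    (integral_nonneg fun ζ => integral_nonneg fun θ => hZ0 _ _ _).trans (hZ1 0 (Nat.zero_le m))
  set i0 := lev h with hi0
  set q : ℕ → ℝ := fun i => (1 / 2) ^ i with hqdef
  have hq : ∀ i, 0 < q i := fun i => pow_pos (by norm_num) i
  have hlq : Real.log (q i0) = -(Real.log 2 * i0) := by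
    simp only [hqdef, one_div, Real.log_pow, Real.log_inv]; ring
  have hite : ∀ i ∈ Finset.range (m + 1), ∫ ζ, lJ ρ t B σ c lev Z i h ζ ∂P166W.gauss (Fin n) ≤
      q i * Zc + if i = i0 then c / (1 + c) * (nsq h / (2 * σ ^ 2) + Real.log 2 * i0 + 1) + 1 + Zc
        else 0 := fun i hi => by
    have him := Finset.mem_range_succ_iff.1 hi
    have iE := integrable_dom (hEZm i) (hEZb i him)
    have a1 := mul_le_mul_of_nonneg_left (hZ1 i him) (hq i).le
    by_cases hii : i = i0
    · rw [if_pos hii]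
      subst hii
      simp only [lJ, lw_of_mem hB, add_mul, hi0]
      rw [← hi0]
      set u := σ⁻¹ • h with hu
      obtain ⟨iψ, hψ⟩ := integral_psi_wgt (hq i0) u
      have iL := integrable_wgt_one u
      have iLE : Integrable (fun ζ => wgt 1 ζ u * EZ i0 ζ) (P166W.gauss (Fin n)) :=
        integrable_dom ((show Measurable fun ζ : St n => wgt 1 ζ u by
          unfold wgt dotp; fun_prop).mul (hEZm i0)) (C := Real.sqrt (nsq u) + E) fun ζ => by
          rw [abs_mul, ← ew_mul, abs_of_nonneg (show 0 ≤ wgt 1 ζ u from (Real.exp_pos _).le)]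
          exact mul_le_mul (wgt_le_ew (Real.sqrt_nonneg _) (Real.sq_sqrt (nsq_nonneg u)).ge ζ)
            (hEZb i0 him ζ) (abs_nonneg _) (ew_pos _ _).le
      change ∫ ζ, (c / (1 + c) * psi (q i0) (wgt 1 ζ u) + wgt 1 ζ u
        + (wgt 1 ζ u * EZ i0 ζ + q i0 * EZ i0 ζ)) ∂P166W.gauss (Fin n) ≤ _
      rw [integral_add ((iψ.const_mul _).fun_add iL) (iLE.fun_add (iE.const_mul _)),
        integral_add (iψ.const_mul _) iL, integral_add iLE (iE.const_mul _),
        integral_const_mul, integral_const_mul, integral_wgt_one]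
      have a3 := hZc' i0 him h (Or.inr ⟨hB, rfl⟩)
      have e : nsq u / 2 = nsq h / (2 * σ ^ 2) := by
        rw [hu, General.nsq_smul]; field_simp
      have hq1 : q i0 ≤ 1 := pow_le_one₀ (by norm_num) (by norm_num)
      have a2 := mul_le_mul_of_nonneg_left
        (show ∫ ζ, psi (q i0) (wgt 1 ζ u) ∂P166W.gauss (Fin n) ≤
          nsq h / (2 * σ ^ 2) + Real.log 2 * i0 + 1 by linarith) hcc
      linarith
    · rw [if_neg hii, add_zero]
      have hp : psi ((1 / 2 : ℝ) ^ i) 0 = 0 := by simp [psi]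
      simp only [lJ, lw_of_ne (Ne.symm hii), hp, mul_zero, zero_add]
      rw [integral_const_mul]
      exact a1
  refine (Finset.sum_le_sum hite).trans ?_
  rw [Finset.sum_add_distrib, ← Finset.sum_mul, Finset.sum_ite_eq' (Finset.range (m + 1)) i0,
    if_pos (Finset.mem_range_succ_iff.2 hm)]
  have hsum2 : ∑ i ∈ Finset.range (m + 1), q i ≤ 2 := sum_geometric_two_le _
  nlinarith [mul_le_mul_of_nonneg_right hsum2 hZc0]

private theorem abs_lJ_le (hb : Base η D K ρ) (hσ : 0 < σ) {lev : St n → ℕ}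
    {Z : ℕ → St n → St n → ℝ} (hZ0 : ∀ i θ y, 0 ≤ Z i θ y) {i : ℕ} {E : ℝ}
    (hZb : ∀ θ ζ, Z i θ (σ • ζ) ≤ ew E ζ) (hlev : Measurable lev) (hE : 0 ≤ E) :
    ∃ C, ∀ h ζ, |lJ ρ t B σ c lev Z i h ζ| ≤ ew C ζ := by
  have := hb.dens.prob_chanM t
  set C1 := Real.sqrt B / σ with hC1def
  have hC1 : 0 ≤ C1 := div_nonneg (Real.sqrt_nonneg _) hσ.le
  set q : ℝ := (1 / 2) ^ i with hqdef
  have hq : 0 < q := pow_pos (by norm_num) i
  set R := C1 + 1 + 1 with hRdef
  set P := |1 / q| + R + R with hPdef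
  have hP0 : 0 ≤ P := by rw [hPdef, hRdef]; positivity
  set Q := |c / (1 + c)| + (P + C1 + 1) with hQdef
  have hQ0 : 0 ≤ Q := by rw [hQdef]; positivity
  refine ⟨Q + C1 + 1 + (R + E) + 1, fun h ζ => ?_⟩
  obtain ⟨hw0, hwb⟩ := (lw_facts (B := B) hσ hlev i).2 h ζ
  have hR : lw B σ lev i h ζ + q ≤ ew R ζ := by
    refine le_trans ?_ (ew_add_le hC1 zero_le_one ζ)
    linarith [ew_one_le (zero_le_one' ℝ) ζ,
      (pow_le_one₀ (by norm_num) (by norm_num) : q ≤ 1)]
  have hw : |lw B σ lev i h ζ| ≤ ew C1 ζ := by rw [abs_of_nonneg hw0]; exact hwb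
  have hψ : |psi q (lw B σ lev i h ζ)| ≤ ew (P + C1 + 1) ζ := by
    refine (abs_psi_le hq hw0).trans (le_trans (add_le_add ?_ hwb) (ew_add_le hP0 hC1 ζ))
    rw [sq, hPdef, ← ew_mul, ← ew_mul, div_eq_mul_one_div, mul_comm, mul_assoc]
    have hpos : 0 ≤ lw B σ lev i h ζ + q := by linarith
    have := mul_le_mul (const_le_ew (1 / q) ζ) (mul_le_mul hR hR hpos (ew_pos _ _).le)
      (mul_nonneg hpos hpos) (ew_pos _ _).le
    linarith
  have b1 : |c / (1 + c) * psi q (lw B σ lev i h ζ)| ≤ ew Q ζ := by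
    rw [abs_mul, hQdef, ← ew_mul]
    exact mul_le_mul ((const_le_ew |c / (1 + c)| ζ).trans_eq (by rw [abs_abs])) hψ
      (abs_nonneg _) (ew_pos _ _).le
  have b2 : |(lw B σ lev i h ζ + q) * ∫ θ, Z i θ (σ • ζ) ∂chanM ρ t| ≤ ew (R + E) ζ := by
    rw [abs_mul, ← ew_mul, abs_of_nonneg (show 0 ≤ lw B σ lev i h ζ + q by linarith)]
    exact mul_le_mul hR (abs_integral_le_of_le fun θ => by
      rw [abs_of_nonneg (hZ0 _ _ _)]; exact hZb θ ζ) (abs_nonneg _) (ew_pos _ _).le
  exact (abs_add_le _ _).trans ((add_le_add ((abs_add_le _ _).trans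
    ((add_le_add b1 hw).trans (ew_add_le hQ0 hC1 ζ))) b2).trans
      (ew_add_le (by linarith) (by rw [hRdef]; linarith) ζ))

private theorem measurable_lJ (hb : Base η D K ρ) (hσ : 0 < σ) {lev : St n → ℕ}
    {Z : ℕ → St n → St n → ℝ} {i : ℕ} (hZ : Measurable (Function.uncurry (Z i)))
    (hlev : Measurable lev) : Measurable (Function.uncurry (lJ ρ t B σ c lev Z i)) := by
  have := hb.dens.prob_chanM t
  have hw := (lw_facts (B := B) hσ hlev i).1
  have hm : Measurable fun ζ : St n => ∫ θ, Z i θ (σ • ζ) ∂chanM ρ t :=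
    (StronglyMeasurable.integral_prod_left' (μ := chanM ρ t)
      (f := fun z : St n × St n => Z i z.1 (σ • z.2))
      (hZ.comp (f := fun z : St n × St n => (z.1, σ • z.2))
        (by fun_prop)).stronglyMeasurable).measurable
  exact (((measurable_psi _).comp hw).const_mul _ |>.add hw).add
    ((hw.add_const _).mul (hm.comp measurable_snd))

private theorem measurable_step_integral (hρ : Dens D ρ) (s t : ℝ) {f : St n → St n → ℝ}
    (hf : Measurable (Function.uncurry f)) :
    Measurable fun z : St n × St n => ∫ y, f y z.2 ∂stepAt ρ (t - s) s z.1 :=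
  let Kf : Kernel (St n) (St n) := ⟨stepAt ρ (t - s) s, hρ.measurable_stepAt (t - s) s⟩
  have : IsMarkovKernel Kf := ⟨hρ.prob_stepAt (t - s) s⟩
  (StronglyMeasurable.integral_kernel_prod_right'
    (κ := Kf.comap Prod.fst measurable_fst)
    (f := fun p : (St n × St n) × St n => f p.2 p.1.2)
    (hf.comp (f := fun p : (St n × St n) × St n => (p.2, p.1.2))
      (by fun_prop)).stronglyMeasurable).measurable

/-- The pointwise inequality at one state, the exponent averaged over the noise. -/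
private theorem pointwise_le (hρ : Dens D ρ) (hσ : 0 < σ) {lev : St n → ℕ} {m : ℕ} {h : St n}
    (hB : nsq h ≤ B) (hm : lev h ≤ m) {a : St n → ℝ} (ha : Measurable a) {CA : ℝ}
    (hab : ∀ y, |a y| ≤ CA) {v : St n → St n} {Z : ℕ → St n → St n → ℝ}
    (φ : ℕ → St n → St n → ℝ) (hφm : ∀ i, Measurable (Function.uncurry (φ i))) (Cφ : ℕ → ℝ)
    (hφb : ∀ i θ ζ, |φ i θ ζ| ≤ ew (Cφ i) ζ)
    (hdv : ∀ y ξ (ℓ : ℝ), a y + dotp (v y) ξ ≤ ℓ + Real.exp (-ℓ) * Z (lev h) y (h + σ • ξ))
    (hφ : ∀ θ ζ, ∃ ℓ, φ (lev h) θ ζ = ℓ + Real.exp (-ℓ) * Z (lev h) θ (σ • ζ)) (θ : St n) :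
    ∫ y, a y ∂stepAt ρ (t - s) s θ ≤ ∑ i ∈ Finset.range (m + 1),
      ∫ ζ, lw B σ lev i h ζ * (∫ y, φ i y ζ ∂stepAt ρ (t - s) s θ) ∂P166W.gauss (Fin n) := by
  have := hρ.prob_stepAt (t - s) s θ
  set i := lev h with hidef
  rw [Finset.sum_eq_single i]
  rotate_left
  · intro j _ hj
    simp [lw_of_ne (Ne.symm hj)]
  · intro hh'; exact absurd (Finset.mem_range_succ_iff.2 hm) hh'
  simp only [hidef, lw_of_mem hB]
  rw [← hidef]
  set C1 := Real.sqrt B / σ
  have hC1 : 0 ≤ C1 := div_nonneg (Real.sqrt_nonneg _) hσ.le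
  set u := σ⁻¹ • h with hu
  have hun : nsq u ≤ C1 ^ 2 := nsq_inv_le hσ hB
  have hgm : Measurable (Function.uncurry fun (y : St n) (ζ : St n) => wgt 1 ζ u * φ i y ζ) :=
    (show Measurable fun z : St n × St n => wgt 1 z.2 u by unfold wgt dotp; fun_prop).mul (hφm i)
  have hgb : ∀ y ζ, |wgt 1 ζ u * φ i y ζ| ≤ ew (C1 + Cφ i) ζ := fun y ζ => by
    rw [abs_mul, ← ew_mul, abs_of_nonneg (show 0 ≤ wgt 1 ζ u from (Real.exp_pos _).le)]
    exact mul_le_mul (wgt_le_ew hC1 hun ζ) (hφb i y ζ) (abs_nonneg _) (ew_pos _ _).le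
  have e : ∫ ζ, wgt 1 ζ u * (∫ y, φ i y ζ ∂stepAt ρ (t - s) s θ) ∂P166W.gauss (Fin n) =
      ∫ y, ∫ ζ, wgt 1 ζ u * φ i y ζ ∂P166W.gauss (Fin n) ∂stepAt ρ (t - s) s θ := by
    rw [gauss_swap hgm hgb]
    simp only [integral_const_mul]
  rw [e]
  refine integral_mono ?_ ?_ fun y => ?_
  · exact Integrable.of_bound ha.aestronglyMeasurable CA (Filter.Eventually.of_forall hab)
  · exact Integrable.of_bound (hgm.stronglyMeasurable.integral_prod_right).aestronglyMeasurable
      (∫ ζ, ew (C1 + Cφ i) ζ ∂P166W.gauss (Fin n)) (Filter.Eventually.of_forall fun y =>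
        norm_integral_le_of_norm_le (integrable_ew _) (Filter.Eventually.of_forall fun ζ =>
          hgb y ζ))
  · refine le_tilted_mean ((hφm i).comp measurable_prodMk_left) (hφb i y) (v := v y) fun ξ => ?_
    obtain ⟨ℓ, hℓ⟩ := hφ y (u + ξ)
    show _ ≤ φ i y (u + ξ)
    rw [hℓ, smul_add, hu, smul_inv_smul₀ hσ.ne']
    exact hdv y ξ ℓ

/-- One level: from the bound for each value of the noise to the bound on the space of the pair. -/
private theorem swap_le {α : Type} [MeasurableSpace α] {π : Measure (St n × α)}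
    [IsProbabilityMeasure π] (hρ : Dens D ρ) {hh : St n × α → St n}
    (hpm : Measurable fun p => (p.1, hh p)) {w J φ : St n → St n → ℝ}
    (hw : Measurable (Function.uncurry w)) (hJ : Measurable (Function.uncurry J))
    (hφm : Measurable (Function.uncurry φ)) {C1 C2 : ℝ}
    (hb1 : ∀ θ h ζ, |w h ζ * ∫ y, φ y ζ ∂stepAt ρ (t - s) s θ| ≤ ew C1 ζ)
    (hb2 : ∀ h ζ, |J h ζ| ≤ ew C2 ζ)
    (hle : ∀ ζ, ∫ z, w z.2 ζ * fut ρ s t (fun x => φ x ζ) z.1 ∂π.map (fun p => (p.1, hh p)) ≤
      ∫ z, J z.2 ζ ∂π.map (fun p => (p.1, hh p))) :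
    ∫ p, ∫ ζ, w (hh p) ζ * (∫ y, φ y ζ ∂stepAt ρ (t - s) s p.1) ∂P166W.gauss (Fin n) ∂π ≤
      ∫ p, ∫ ζ, J (hh p) ζ ∂P166W.gauss (Fin n) ∂π := by
  have hF := measurable_step_integral hρ s t hφm
  have hm : Measurable hh := measurable_snd.comp hpm
  have hwFm : Measurable (Function.uncurry fun (p : St n × α) (ζ : St n) =>
      w (hh p) ζ * ∫ y, φ y ζ ∂stepAt ρ (t - s) s p.1) :=
    (hw.comp ((hm.comp measurable_fst).prodMk measurable_snd)).mul
      (hF.comp ((measurable_fst.comp measurable_fst).prodMk measurable_snd))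
  have hJm : Measurable (Function.uncurry fun (p : St n × α) (ζ : St n) => J (hh p) ζ) :=
    hJ.comp ((hm.comp measurable_fst).prodMk measurable_snd)
  rw [gauss_swap hwFm fun p ζ => hb1 _ _ ζ, gauss_swap hJm fun p ζ => hb2 _ ζ]
  refine integral_mono ?_ ?_ fun ζ => ?_
  · exact integrable_dom (hwFm.stronglyMeasurable.integral_prod_left).measurable
      fun ζ => abs_integral_le_of_le fun p => hb1 _ _ ζ
  · exact integrable_dom (hJm.stronglyMeasurable.integral_prod_left).measurable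
      fun ζ => abs_integral_le_of_le fun p => hb2 _ ζ
  · have e1 : ∀ θ, fut ρ s t (fun x => φ x ζ) θ = ∫ y, φ y ζ ∂stepAt ρ (t - s) s θ := fun θ =>
      fut_stepAt hρ s t (F := fun x => φ x ζ) (hφm.comp measurable_prodMk_right) θ
    have m1 : Measurable fun z : St n × St n =>
        w z.2 ζ * ∫ y, φ y ζ ∂stepAt ρ (t - s) s z.1 :=
      (hw.comp (measurable_snd.prodMk measurable_const)).mul
        (hF.comp (measurable_fst.prodMk measurable_const))
    have m2 : Measurable fun z : St n × St n => J z.2 ζ :=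
      hJ.comp (measurable_snd.prodMk measurable_const)
    have h2 := hle ζ
    simp only [e1] at h2
    rw [integral_map hpm.aemeasurable m1.aestronglyMeasurable,
      integral_map hpm.aemeasurable m2.aestronglyMeasurable] at h2
    exact h2

/-- A change of measure through the smoothed vector `h + σ ξ` and its level, the information on
which is contracted from time `s` to time `t`. -/
theorem early_jensen (hb : Base η D K ρ) (hs : 0 < s) (hst : s < t)
    (hc : (K * t + 2) * s / (2 * (t - s)) ≤ c) (hσ : 0 < σ)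
    {α : Type} [MeasurableSpace α] (π : Measure (St n × α)) [IsProbabilityMeasure π]
    (hπ : π.map Prod.fst = chanM ρ s) {hh : St n × α → St n} (hm : Measurable hh)
    (hB : ∀ p, nsq (hh p) ≤ B)
    {lev : St n → ℕ} (hlev : Measurable lev) {m : ℕ} (hlm : ∀ h, lev h ≤ m)
    {A : St n → St n → ℝ} (hA : Measurable (Function.uncurry A))
    (hA' : ∃ C, ∀ θ h, nsq h ≤ B → |A θ h| ≤ C)
    {d : St n → St n → St n} (hd : Measurable (Function.uncurry d))
    (hd' : ∃ C, ∀ θ h, nsq h ≤ B → nsq (d θ h) ≤ C)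
    {Z : ℕ → St n → St n → ℝ} (hZ : ∀ i, Measurable (Function.uncurry (Z i)))
    (hZ0 : ∀ i θ y, 0 ≤ Z i θ y)
    (hZ' : ∃ E : ℝ, ∀ i ≤ m, ∀ θ y, Z i θ y ≤ Real.exp (E * (1 + Real.sqrt (nsq y))))
    (hdv : ∀ θ h ξ (ℓ : ℝ), nsq h ≤ B →
      A θ h + dotp (d θ h) ξ ≤ ℓ + Real.exp (-ℓ) * Z (lev h) θ (h + σ • ξ))
    (hZc : ∀ i ≤ m, ∀ h : St n, (h = 0 ∨ (nsq h ≤ B ∧ lev h = i)) →
      ∫ ξ, Ep ρ t (fun θ => Z i θ (h + σ • ξ)) ∂P166W.gauss (Fin n) ≤ Zc) :
    ∫ p, fut ρ s t (fun θ => A θ (hh p)) p.1 ∂π ≤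
      c / (1 + c) * ((∫ p, nsq (hh p) ∂π) / (2 * σ ^ 2) +
        Real.log 2 * (∫ p, (lev (hh p) : ℝ) ∂π) + 2) + 3 + 3 * Zc := by
  have ht : 0 < t := hs.trans hst
  have hρd := hb.dens
  have hPs := hρd.prob_chanM s
  have hPt := hρd.prob_chanM t
  obtain ⟨CA, hCA⟩ := hA'
  obtain ⟨E, hE⟩ := hZ'
  set C1 := Real.sqrt B / σ with hC1def
  have hC1 : 0 ≤ C1 := div_nonneg (Real.sqrt_nonneg _) hσ.le
  set E' := |E| * (1 + σ) with hE'def
  have hE' : 0 ≤ E' := mul_nonneg (abs_nonneg E) (by linarith)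
  have hZb : ∀ i ≤ m, ∀ θ ζ, Z i θ (σ • ζ) ≤ ew E' ζ := fun i hi θ ζ => by
    refine (hE i hi θ _).trans (Real.exp_le_exp.2 ?_)
    rw [General.nsq_smul, Real.sqrt_mul (sq_nonneg σ), Real.sqrt_sq hσ.le]
    have h1 := Real.sqrt_nonneg (nsq ζ)
    have h2 := mul_le_mul_of_nonneg_right (le_abs_self E)
      (show 0 ≤ 1 + σ * Real.sqrt (nsq ζ) by positivity)
    rw [hE'def]
    nlinarith [mul_nonneg (abs_nonneg E) h1, mul_nonneg (abs_nonneg E) hσ.le]
  set ν := π.map fun p => (p.1, hh p) with hνdef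
  have hpm : Measurable fun p => (p.1, hh p) := measurable_fst.prodMk hm
  have : IsProbabilityMeasure ν := Measure.isProbabilityMeasure_map hpm.aemeasurable
  have hνfst : ν.fst = chanM ρ s := by
    rw [hνdef, Measure.fst, Measure.map_map measurable_fst hpm]; exact hπ
  have hex : ∀ i, ∃ φ : St n → St n → ℝ, Measurable (Function.uncurry φ) ∧
      (∃ C, ∀ θ ζ, |φ θ ζ| ≤ ew C ζ) ∧ (i ≤ m →
      (∀ θ ζ, ∃ ℓ, φ θ ζ = ℓ + Real.exp (-ℓ) * Z i θ (σ • ζ)) ∧
      ∀ ζ, ∫ z, lw B σ lev i z.2 ζ * fut ρ s t (fun x => φ x ζ) z.1 ∂ν ≤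
        ∫ z, lJ ρ t B σ c lev Z i z.2 ζ ∂ν) := fun i => by
    by_cases hi : i ≤ m
    · obtain ⟨φ, h1, h2, h3, h4⟩ := level_family hb hs hst hc ν hνfst
        (W := lw B σ lev i) (Zf := fun θ ζ => Z i θ (σ • ζ)) (lw_facts hσ hlev i).1 hC1 hE'
        (fun h ζ => ((lw_facts hσ hlev i).2 h ζ).1) (fun h ζ => ((lw_facts hσ hlev i).2 h ζ).2)
        ((hZ i).comp (f := fun z : St n × St n => (z.1, σ • z.2)) (by fun_prop))
        (fun θ ζ => hZ0 _ _ _) (hZb i hi) (q := (1 / 2) ^ i) (pow_pos (by norm_num) i)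
        (pow_le_one₀ (by norm_num) (by norm_num))
      exact ⟨φ, h1, h2, fun _ => ⟨h3, h4⟩⟩
    · exact ⟨fun _ _ => 0, measurable_const, ⟨0, fun θ ζ => by simpa using (ew_pos 0 ζ).le⟩,
        fun h => absurd h hi⟩
  choose φ hφm hφC hφ using hex
  choose Cφ hφb using hφC
  set F : ℕ → St n → St n → ℝ := fun i θ ζ => ∫ y, φ i y ζ ∂stepAt ρ (t - s) s θ with hFdef
  have hFm : ∀ i, Measurable (Function.uncurry (F i)) := fun i =>
    measurable_step_integral hρd s t (hφm i)
  have hwF : ∀ i θ h ζ, |lw B σ lev i h ζ * F i θ ζ| ≤ ew (C1 + Cφ i) ζ := fun i θ h ζ => by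
    obtain ⟨h0, h1⟩ := (lw_facts (B := B) hσ hlev i).2 h ζ
    have := hρd.prob_stepAt (t - s) s θ
    rw [abs_mul, ← ew_mul, abs_of_nonneg h0]
    exact mul_le_mul h1 (abs_integral_le_of_le fun y => hφb i y ζ) (abs_nonneg _) (ew_pos _ _).le
  have hwFm : ∀ i, Measurable (Function.uncurry
      fun (p : St n × α) (ζ : St n) => lw B σ lev i (hh p) ζ * F i p.1 ζ) := fun i =>
    ((lw_facts hσ hlev i).1.comp ((hm.comp measurable_fst).prodMk measurable_snd)).mul
      ((hFm i).comp ((measurable_fst.comp measurable_fst).prodMk measurable_snd))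
  -- the pointwise inequality
  set A0 : St n → St n → ℝ := fun θ h => {h : St n | nsq h ≤ B}.indicator (A θ) h with hA0def
  have hA0m : Measurable (Function.uncurry A0) := by
    have e : Function.uncurry A0 =
        (Prod.snd ⁻¹' {h : St n | nsq h ≤ B}).indicator (Function.uncurry A) :=
      funext fun z => Set.indicator_comp_right (g := A z.1)
        (fun z : St n × St n => z.2) (x := z) ▸ rfl
    rw [e]
    exact hA.indicator (measurable_snd (measurableSet_le continuous_nsq.measurable measurable_const))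
  have eA0 : ∀ p y, A0 y (hh p) = A y (hh p) := fun p y =>
    Set.indicator_of_mem (show hh p ∈ {h : St n | nsq h ≤ B} from hB p) (A y)
  have e0 : ∀ p : St n × α, fut ρ s t (fun θ => A θ (hh p)) p.1 =
      ∫ y, A0 y (hh p) ∂stepAt ρ (t - s) s p.1 := fun p => by
    rw [fut_stepAt hρd s t (F := fun θ => A θ (hh p)) (hA.comp measurable_prodMk_right)]
    simp only [eA0]
  have hΛm : Measurable fun p : St n × α => ∫ y, A0 y (hh p) ∂stepAt ρ (t - s) s p.1 :=
    (measurable_step_integral hρd s t hA0m).comp hpm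
  have hint : ∀ i, Integrable
      (fun p : St n × α => ∫ ζ, lw B σ lev i (hh p) ζ * F i p.1 ζ ∂P166W.gauss (Fin n)) π :=
    fun i => Integrable.of_bound
      ((hwFm i).stronglyMeasurable.integral_prod_right).aestronglyMeasurable
      (∫ ζ, ew (C1 + Cφ i) ζ ∂P166W.gauss (Fin n)) (Filter.Eventually.of_forall fun p =>
        norm_integral_le_of_norm_le (integrable_ew _) (Filter.Eventually.of_forall fun ζ =>
          hwF i _ _ ζ))
  have step1 : ∀ p : St n × α, ∫ y, A0 y (hh p) ∂stepAt ρ (t - s) s p.1 ≤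
      ∑ i ∈ Finset.range (m + 1),
        ∫ ζ, lw B σ lev i (hh p) ζ * F i p.1 ζ ∂P166W.gauss (Fin n) := fun p =>
    pointwise_le hρd hσ (hB p) (hlm _) (a := fun y => A0 y (hh p))
      (hA0m.comp measurable_prodMk_right) (fun y => by rw [eA0]; exact hCA _ _ (hB p))
      (v := fun y => d y (hh p)) φ hφm Cφ hφb
      (fun y ξ ℓ => by rw [eA0]; exact hdv y (hh p) ξ ℓ (hB p))
      ((hφ _ (hlm _)).1) p.1
  simp only [e0]
  refine (integral_mono (Integrable.of_bound hΛm.aestronglyMeasurable CA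
    (Filter.Eventually.of_forall fun p => by
      have := hρd.prob_stepAt (t - s) s p.1
      exact abs_integral_le_of_le fun y => by rw [eA0]; exact hCA _ _ (hB p)))
    (integrable_finsetSum _ fun i _ => hint i) step1).trans ?_
  rw [integral_finsetSum _ fun i _ => hint i]
  -- the bound at each level
  have hJC : ∀ i, ∃ C, i ≤ m → ∀ h ζ, |lJ ρ t B σ c lev Z i h ζ| ≤ ew C ζ := fun i => by
    by_cases hi : i ≤ m
    · obtain ⟨C, hC⟩ := abs_lJ_le (t := t) (B := B) (c := c) hb hσ hZ0 (hZb i hi) hlev hE'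
      exact ⟨C, fun _ => hC⟩
    · exact ⟨0, fun h => absurd h hi⟩
  choose CJ hJb using hJC
  have hJ0 : ∀ i, Measurable (Function.uncurry (lJ ρ t B σ c lev Z i)) := fun i =>
    measurable_lJ (t := t) (B := B) (c := c) hb hσ (hZ i) hlev
  have hJm : ∀ i, Measurable (Function.uncurry
      fun (p : St n × α) (ζ : St n) => lJ ρ t B σ c lev Z i (hh p) ζ) := fun i =>
    (hJ0 i).comp (f := fun z : (St n × α) × St n => (hh z.1, z.2))
      ((hm.comp measurable_fst).prodMk measurable_snd)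
  have hJint : ∀ i ≤ m, Integrable
      (fun p : St n × α => ∫ ζ, lJ ρ t B σ c lev Z i (hh p) ζ ∂P166W.gauss (Fin n)) π :=
    fun i hi => Integrable.of_bound
      ((hJm i).stronglyMeasurable.integral_prod_right).aestronglyMeasurable
      (∫ ζ, ew (CJ i) ζ ∂P166W.gauss (Fin n)) (Filter.Eventually.of_forall fun p =>
        norm_integral_le_of_norm_le (integrable_ew _) (Filter.Eventually.of_forall fun ζ =>
          hJb i hi _ ζ))
  have hlev' : ∀ i ∈ Finset.range (m + 1),
      ∫ p, ∫ ζ, lw B σ lev i (hh p) ζ * F i p.1 ζ ∂P166W.gauss (Fin n) ∂π ≤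
      ∫ p, ∫ ζ, lJ ρ t B σ c lev Z i (hh p) ζ ∂P166W.gauss (Fin n) ∂π := fun i hi =>
    swap_le (w := lw B σ lev i) (J := lJ ρ t B σ c lev Z i) (φ := φ i) hρd hpm
      (lw_facts hσ hlev i).1 (hJ0 i) (hφm i) (hwF i)
      (hJb i (Finset.mem_range_succ_iff.1 hi)) ((hφ i (Finset.mem_range_succ_iff.1 hi)).2)
  refine (Finset.sum_le_sum hlev').trans ?_
  rw [← integral_finsetSum _ fun i hi => hJint i (Finset.mem_range_succ_iff.1 hi)]
  have i1 : Integrable (fun p => nsq (hh p) / (2 * σ ^ 2)) π :=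
    (Integrable.of_bound (f := fun p => nsq (hh p))
      (continuous_nsq.measurable.comp hm).aestronglyMeasurable B
      (Filter.Eventually.of_forall fun p => by
        rw [Real.norm_eq_abs, abs_of_nonneg (nsq_nonneg _)]; exact hB p)).div_const _
  have i2 : Integrable (fun p => Real.log 2 * (lev (hh p) : ℝ)) π :=
    (Integrable.of_bound (f := fun p => (lev (hh p) : ℝ))
      ((measurable_from_top.comp hlev).comp hm).aestronglyMeasurable (m : ℝ)
      (Filter.Eventually.of_forall fun p => by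
        rw [Real.norm_eq_abs, Nat.abs_cast]; exact_mod_cast hlm _)).const_mul _
  have i3 : Integrable (fun p => c / (1 + c) *
      (nsq (hh p) / (2 * σ ^ 2) + Real.log 2 * lev (hh p) + 1) + 1) π :=
    (((i1.fun_add i2).fun_add (integrable_const 1)).const_mul _).fun_add (integrable_const 1)
  refine (integral_mono (integrable_finsetSum _ fun i hi =>
    hJint i (Finset.mem_range_succ_iff.1 hi)) (i3.fun_add (integrable_const (3 * Zc)))
    fun p => sum_lJ_le hb hs hst hc hσ hZ hZ0 hZb hZc (hB p) (hlm _)).trans ?_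
  rw [integral_add i3 (integrable_const _),
    integral_add (((i1.fun_add i2).fun_add (integrable_const 1)).const_mul _) (integrable_const 1),
    integral_const_mul, integral_add (i1.fun_add i2) (integrable_const 1), integral_add i1 i2,
    integral_div, integral_const_mul]
  simp only [integral_const, probReal_univ, one_smul]
  have hcc : 0 ≤ c / (1 + c) := by
    have hK := hb.posK
    have := sub_pos.2 hst
    have : 0 ≤ c := le_trans (by positivity) hc
    positivity
  nlinarith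

end

end Vale.Agent.P245.Gen2
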