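import Vale.Agent.P245.Gen2.Basic

/-!
# P245, polylogarithmic bound: the good event
-/

open MeasureTheory

namespace Vale.Agent.P245.Gen2

open General

/-- Below `R / K` the posterior covariance exceeds `3` with negligible probability. -/
theorem bad_le (R : ℝ) (hR : 1 ≤ R) (ε : ℝ) (hε : 0 < ε) : ∃ K₀ : ℝ, 1 ≤ K₀ ∧
    ∀ (n : ℕ) (η D K : ℝ) (ρ : St n → ℝ), Base η D K ρ → K₀ * (1 + Real.log n) ^ 2 ≤ K →
      ∀ r, 0 < r → r ≤ R / K → Ep ρ r (bad ρ r 3) ≤ ε / ((n : ℝ) + 1) ^ 20 := by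
  obtain ⟨C₁, hC₁, hguan⟩ := guan
  obtain ⟨C₂, hC₂, hq⟩ := qbound
  obtain ⟨a, ha⟩ : ∃ a, a = 21 + C₁ * 2 ^ 20 / ε := ⟨_, rfl⟩
  have hC₂0 : 0 < C₂ := lt_of_lt_of_le one_pos hC₂
  have hq0 : 0 ≤ C₁ * 2 ^ 20 / ε := by positivity
  have ha21 : 21 ≤ a := by linarith
  have hR0 : 0 < R := lt_of_lt_of_le one_pos hR
  have ha0 : 0 < a := by linarith
  refine ⟨1 + 8 * C₁ * C₂ * R * a, le_add_of_nonneg_right (by positivity), ?_⟩
  intro n η D K ρ h hK r hr hrK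
  set ℓ := 1 + Real.log n with hℓdef
  have hℓ : 1 ≤ ℓ := le_add_of_nonneg_right (Real.log_natCast_nonneg n)
  have hg := hguan n η ρ h.ulc (C₂ * ℓ) 2 (1 / 2) r (hq n)
    (one_le_mul_of_one_le_of_one_le hC₂ hℓ) two_pos (covLe_of_subG h.ulc h.cent h.subg)
    (by norm_num) (by norm_num) hr
  rw [show (2 : ℝ) * (1 + 1 / 2) = 3 by norm_num] at hg
  refine hg.trans ?_
  rcases Nat.eq_zero_or_pos n with rfl | hn
  · simp only [Nat.cast_zero, mul_zero, zero_mul]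
    positivity
  have hn1 : (1 : ℝ) ≤ n := by exact_mod_cast hn
  have hn0 : (0 : ℝ) < n := by linarith
  have hexp : a * ℓ ≤ (1 / 2) ^ 2 / (C₁ * (C₂ * ℓ) * 2 * r) := by
    rw [le_div_iff₀ (by positivity)]
    have h1 : r * K ≤ R := (le_div_iff₀ h.posK).1 hrK
    have h2 : 8 * C₁ * C₂ * R * a * ℓ ^ 2 ≤ K := by
      refine le_trans ?_ hK
      exact mul_le_mul_of_nonneg_right (by linarith) (sq_nonneg ℓ)
    have h3 := mul_le_mul_of_nonneg_left h2 hr.le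
    have h4 : R * (8 * C₁ * C₂ * a * ℓ ^ 2 * r) ≤ R * 1 := by linarith
    have h5 := le_of_mul_le_mul_left h4 hR0
    linarith
  have hbig : C₁ * 2 ^ 20 * n ^ 21 ≤ ε * Real.exp (a * ℓ) := by
    have e : Real.exp (a * ℓ) = Real.exp a * (n : ℝ) ^ a := by
      rw [hℓdef, mul_add, mul_one, Real.exp_add, mul_comm a (Real.log _),
        ← Real.rpow_def_of_pos hn0]
    have h1 : C₁ * 2 ^ 20 ≤ ε * Real.exp a := by
      have h2 : C₁ * 2 ^ 20 / ε ≤ Real.exp a := by linarith [Real.add_one_le_exp a]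
      rwa [div_le_iff₀' hε] at h2
    have h2 : (n : ℝ) ^ 21 ≤ (n : ℝ) ^ a := by
      rw [← Real.rpow_natCast]
      exact Real.rpow_le_rpow_of_exponent_le hn1 (by exact_mod_cast ha21)
    rw [e]
    calc C₁ * 2 ^ 20 * (n : ℝ) ^ 21 ≤ ε * Real.exp a * (n : ℝ) ^ a :=
          mul_le_mul h1 h2 (by positivity) (by positivity)
      _ = _ := by ring
  have hmain : C₁ * n * ((n : ℝ) + 1) ^ 20 ≤ ε * Real.exp (a * ℓ) := by
    refine le_trans ?_ hbig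
    calc C₁ * n * ((n : ℝ) + 1) ^ 20 ≤ C₁ * n * (2 * n) ^ 20 := by gcongr; linarith
      _ = C₁ * 2 ^ 20 * (n : ℝ) ^ 21 := by ring
  calc C₁ * n * Real.exp (-((1 / 2) ^ 2 / (C₁ * (C₂ * ℓ) * 2 * r)))
      ≤ C₁ * n * Real.exp (-(a * ℓ)) :=
        mul_le_mul_of_nonneg_left (Real.exp_le_exp.2 (neg_le_neg hexp)) (by positivity)
    _ ≤ ε / ((n : ℝ) + 1) ^ 20 := by
        rw [le_div_iff₀ (by positivity), Real.exp_neg, ← div_eq_mul_inv, div_mul_eq_mul_div,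
          div_le_iff₀ (Real.exp_pos _)]
        exact hmain

end Vale.Agent.P245.Gen2
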