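import Vale.Agent.P245.Gen2.EarlyBudget
import Vale.Agent.P245.Gen2.EarlyExcess
import Vale.Agent.P245.Gen2.EarlyJensen
import Vale.Agent.P245.Gen2.Good

/-!
# P245, polylogarithmic bound: an early vector is not followed
-/

open MeasureTheory Finset Polynomial

namespace Vale.Agent.P245.Gen2

open Vale.Agent.P245 Vale.Agent.P245.General

noncomputable section

variable {n : ℕ} {η D K s t : ℝ} {ρ : St n → ℝ}

/-- The bad states, met with small probability, weigh at most a constant along the grid. -/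
theorem integral_badPath_le (h : Ulc η ρ) {ε τ : ℝ} (hs : 0 < s) (hst : s < t) (hε : 0 < ε)
    (hτ : 0 < τ) {N : ℕ} (hT : t + N * τ = t / ε)
    (hbad : ∀ r, 0 < r → r ≤ t / ε → Ep ρ r (bad ρ r 3) ≤ ε / ((n : ℝ) + 1) ^ 20)
    {α : Type} [MeasurableSpace α] {π : Measure (St n × α)} (hπ : π.map Prod.fst = chanM ρ s) :
    ∫ p, fut ρ s t (badPath ρ t τ N) p.1 ∂π ≤ 4 := by
  have ht : 0 < t := hs.trans hst
  haveI : IsProbabilityMeasure (chanM ρ t) := by
    have := isProb h
    exact Measure.isProbabilityMeasure_map (by fun_prop)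
  have hbp := measurable_badPath (N := N) h ht.le hτ.le
  have hbb := abs_badPath_le (N := N) h ht hτ.le
  rw [integral_fst_chan hπ (measurable_fut h hs.le hbp ⟨_, hbb⟩),
    chan_fut h hs hst.le hbp ⟨_, hbb⟩]
  have hr : ∀ j : ℕ, t ≤ rk t τ j := fun j => by simp only [rk]; have : 0 ≤ (j : ℝ) * τ := by positivity
                                                 linarith
  have hmf : ∀ j, Measurable (fut ρ t (rk t τ j) (bad ρ (rk t τ j) 3)) := fun j =>
    measurable_fut h ht.le (measurable_bad h (ht.le.trans (hr j)) 3) ⟨1, abs_le_one_bad _ _⟩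
  have hi : ∀ j, Integrable (fut ρ t (rk t τ j) (bad ρ (rk t τ j) 3)) (chanM ρ t) := fun j =>
    Integrable.of_bound (hmf j).aestronglyMeasurable 1 (Filter.Eventually.of_forall fun θ => by
      rw [Real.norm_eq_abs]; exact abs_fut_le h ht.le (abs_le_one_bad _ _) _ θ)
  simp only [badPath, integral_const_mul]
  rw [integral_finsetSum _ fun j _ => hi j]
  have hj : ∀ j ∈ range N, ∫ θ, fut ρ t (rk t τ j) (bad ρ (rk t τ j) 3) θ ∂chanM ρ t ≤
      ε / ((n : ℝ) + 1) ^ 20 := fun j hj => by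
    have hm := measurable_bad h (ht.le.trans (hr j)) 3
    rw [chan_fut h ht (hr j) hm ⟨1, abs_le_one_bad _ _⟩, integral_chanM h (ht.le.trans (hr j)) hm]
    refine hbad _ (ht.trans_le (hr j)) ?_
    have : (j : ℝ) * τ ≤ N * τ :=
      mul_le_mul_of_nonneg_right (by exact_mod_cast (Finset.mem_range.1 hj).le) hτ.le
    simp only [rk]; linarith
  refine (mul_le_mul_of_nonneg_left (mul_le_mul_of_nonneg_left (Finset.sum_le_sum hj) hτ.le)
    (by positivity)).trans ?_
  rw [Finset.sum_const, Finset.card_range, nsmul_eq_mul]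
  have hn : (n : ℝ) / ((n : ℝ) + 1) ^ 20 ≤ 1 := by
    rw [div_le_one (by positivity)]
    exact (le_add_of_nonneg_right zero_le_one).trans
      (le_self_pow₀ (by linarith [(n.cast_nonneg : (0 : ℝ) ≤ n)]) (by norm_num))
  have hN : (N : ℝ) * τ ≤ t / ε := by linarith
  calc 4 * (n : ℝ) / t * (τ * (N * (ε / ((n : ℝ) + 1) ^ 20)))
      = 4 * ε / t * ((N : ℝ) * τ) * ((n : ℝ) / ((n : ℝ) + 1) ^ 20) := by ring
    _ ≤ 4 * ε / t * (t / ε) * 1 := by gcongr
    _ = 4 := by field_simp

/-- A costed pairing averaged over the future dominates the response. -/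
theorem response_avg (h : Ulc η ρ) (hd : Dens D ρ) (hs : 0 ≤ s) (ht : 0 ≤ t)
    {α : Type} [MeasurableSpace α] (π : Measure (St n × α)) [IsProbabilityMeasure π]
    {hh : St n × α → St n} (hm : Measurable hh) {B : ℝ} (hB : ∀ p, nsq (hh p) ≤ B)
    {A : St n → St n → ℝ} (hA : Measurable (Function.uncurry A)) {CA : ℝ}
    (hA' : ∀ θ w, nsq w ≤ B → |A θ w| ≤ CA)
    {G : St n → ℝ} (hG : Measurable G) {Cb : ℝ} (hG' : ∀ θ, |G θ| ≤ Cb)
    {cost : St n → ℝ} (hcost : Measurable cost) {Cc : ℝ} (hcost' : ∀ w, nsq w ≤ B → |cost w| ≤ Cc)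
    {lam k₂ : ℝ}
    (hle : ∀ θ w, nsq w ≤ B → lam * dotp w (dBary ρ t θ w) ≤ A θ w + cost w + k₂ * G θ) :
    lam * ∫ p, fut ρ s t (fun θ => dotp (hh p) (dBary ρ t θ (hh p))) p.1 ∂π ≤
      (∫ p, fut ρ s t (fun θ => A θ (hh p)) p.1 ∂π) + (∫ p, cost (hh p) ∂π) +
        k₂ * ∫ p, fut ρ s t G p.1 ∂π := by
  set P : St n × α → St n → ℝ := fun p θ => dotp (hh p) (dBary ρ t θ (hh p)) with hPdef
  have hηt0 : 0 < η + t := by linarith [h.pos]
  have hPb : ∀ p θ, |P p θ| ≤ B / (η + t) := fun p θ => by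
    have hc := dBary_coco h ht θ (hh p)
    rw [abs_of_nonneg ((mul_nonneg hηt0.le (nsq_nonneg' _)).trans hc.1)]
    exact hc.2.1.trans (div_le_div_of_nonneg_right (hB p) hηt0.le)
  have hPm : Measurable fun q : St n × (St n × α) => P q.2 q.1 := by
    have hbm := measurable_bary hd t
    have hh2 : Measurable fun q : St n × (St n × α) => hh q.2 := hm.comp measurable_snd
    exact continuous_dotp2.measurable.comp (hh2.prodMk
      ((hbm.comp (measurable_fst.add hh2)).sub (hbm.comp measurable_fst)))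
  set Cm := max (max (|lam| * (B / (η + t))) CA) Cb
  have hpt : ∀ p, lam * fut ρ s t (P p) p.1 ≤ fut ρ s t (fun θ => A θ (hh p)) p.1 +
      cost (hh p) + k₂ * fut ρ s t G p.1 := fun p => by
    have e : lam * fut ρ s t (P p) p.1 = fut ρ s t (fun θ => lam * P p θ) p.1 := by
      simp only [fut, joint, integral_const_mul]
    rw [e]
    refine fut_le_affine h hs ((hPm.comp (measurable_id.prodMk measurable_const)).const_mul lam)
      (hA.comp (measurable_id.prodMk measurable_const)) hG (C := Cm) (fun θ => ⟨?_, ?_, ?_⟩)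
      (fun θ => hle θ _ (hB p)) p.1
    · rw [abs_mul]
      exact (mul_le_mul_of_nonneg_left (hPb p θ) (abs_nonneg _)).trans
        ((le_max_left _ _).trans (le_max_left _ _))
    · exact (hA' θ _ (hB p)).trans ((le_max_right _ _).trans (le_max_left _ _))
    · exact (hG' θ).trans (le_max_right _ _)
  have iP : Integrable (fun p => fut ρ s t (P p) p.1) π :=
    Integrable.of_bound ((measurable_fut₂ h hs hPm fun p => ⟨_, hPb p⟩).comp
      (measurable_fst.prodMk measurable_id)).aestronglyMeasurable (B / (η + t))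
      (Filter.Eventually.of_forall fun p => by
        rw [Real.norm_eq_abs]; exact abs_fut_le h hs (hPb p) _ _)
  have iA : Integrable (fun p => fut ρ s t (fun θ => A θ (hh p)) p.1) π :=
    Integrable.of_bound ((measurable_fut₂ h hs (F := fun θ p => A θ (hh p))
      (hA.comp (measurable_fst.prodMk (hm.comp measurable_snd)))
      fun p => ⟨CA, fun θ => hA' θ _ (hB p)⟩).comp
      (measurable_fst.prodMk measurable_id)).aestronglyMeasurable CA
      (Filter.Eventually.of_forall fun p => by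
        rw [Real.norm_eq_abs]; exact abs_fut_le h hs (fun θ => hA' θ _ (hB p)) _ _)
  have iB : Integrable (fun p => fut ρ s t G p.1) π :=
    Integrable.of_bound ((measurable_fut h hs hG ⟨Cb, hG'⟩).comp
      measurable_fst).aestronglyMeasurable Cb
      (Filter.Eventually.of_forall fun p => by
        rw [Real.norm_eq_abs]; exact abs_fut_le h hs hG' _ _)
  have ic : Integrable (fun p => cost (hh p)) π :=
    Integrable.of_bound (hcost.comp hm).aestronglyMeasurable Cc
      (Filter.Eventually.of_forall fun p => by rw [Real.norm_eq_abs]; exact hcost' _ (hB p))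
  have iAc : Integrable (fun p => fut ρ s t (fun θ => A θ (hh p)) p.1 + cost (hh p)) π := iA.add ic
  have hint := integral_mono (iP.const_mul lam) (iAc.add (iB.const_mul k₂)) hpt
  simp only [Pi.add_apply] at hint
  rw [integral_const_mul, integral_add iAc (iB.const_mul k₂), integral_add iA ic,
    integral_const_mul] at hint
  exact hint

/-- The mean level and the mean cost of a bounded vector. -/
theorem level_means {α : Type} [MeasurableSpace α] (π : Measure (St n × α)) [IsProbabilityMeasure π]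
    {hh : St n × α → St n} (hm : Measurable hh) {B : ℝ} (hB : ∀ p, nsq (hh p) ≤ B)
    (ht : 0 < t) {ε lam : ℝ} (hε : 0 < ε) (m : ℕ) (k₁ C₁ : ℝ) :
    Real.log 2 * ∫ p, (levOf ((∫ p, nsq (hh p) ∂π) + t) m (hh p) : ℝ) ∂π ≤ 5 ∧
      ∫ p, (k₁ * (nsq (hh p) / t) + C₁ +
          levCost lam ε t ((∫ p, nsq (hh p) ∂π) + t) (levOf ((∫ p, nsq (hh p) ∂π) + t) m (hh p))) ∂π ≤
        (k₁ + 5 * (lam ^ 2 * (9 / 4 * t + 81 / 2 * ε ^ 3))) * ((∫ p, nsq (hh p) ∂π) / t) +
          (C₁ + lam ^ 2 * (9 / 4 * t + 81 / 2 * ε ^ 3)) := by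
  set H2 := ∫ p, nsq (hh p) ∂π with hH2
  have hH20 : 0 ≤ H2 := integral_nonneg fun p => nsq_nonneg' _
  set S := H2 + t with hSdef
  have hS : 0 < S := by positivity
  set aC := lam ^ 2 * (9 / 4 + 81 / 2 * (ε ^ 3 / t)) with haC
  have haC0 : 0 ≤ aC := by positivity
  have hlevm := (measurable_levOf (n := n) S m).comp hm
  have iH : Integrable (fun p => nsq (hh p)) π :=
    Integrable.of_bound (continuous_nsq.measurable.comp hm).aestronglyMeasurable B
      (Filter.Eventually.of_forall fun p => by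
        rw [Real.norm_eq_abs, abs_of_nonneg (nsq_nonneg' _)]; exact hB p)
  have icl : Integrable (fun p => levCost lam ε t S (levOf S m (hh p))) π :=
    Integrable.of_bound ((measurable_from_top (f := levCost lam ε t S)).comp
      hlevm).aestronglyMeasurable (aC * (4 * B + S))
      (Filter.Eventually.of_forall fun p => by
        rw [Real.norm_eq_abs, abs_of_nonneg (levCost_nonneg ht hε hS.le _)]
        exact mul_le_mul_of_nonneg_left
          ((levOf_pow_le hS.le m _).trans (by linarith [hB p])) haC0)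
  have ilev : Integrable (fun p => (levOf S m (hh p) : ℝ)) π :=
    Integrable.of_bound ((measurable_from_top (f := fun i : ℕ => (i : ℝ))).comp
      hlevm).aestronglyMeasurable m (Filter.Eventually.of_forall fun p => by
        rw [Real.norm_eq_abs, abs_of_nonneg (Nat.cast_nonneg _)]
        exact_mod_cast levOf_le S m _)
  constructor
  · rw [← integral_const_mul]
    have h1 := integral_mono (ilev.const_mul (Real.log 2))
      (((iH.const_mul 4).add (integrable_const S)).div_const S) fun p => by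
        refine (log_two_mul_le _).trans ?_
        simp only [Pi.add_apply]
        rw [le_div_iff₀ hS]
        exact levOf_pow_le hS.le m (hh p)
    simp only [Pi.add_apply] at h1
    rw [integral_div, integral_add (iH.const_mul 4) (integrable_const S)] at h1
    simp only [integral_const_mul, integral_const, probReal_univ, one_smul, ← hH2] at h1 ⊢
    refine h1.trans ?_
    rw [div_le_iff₀ hS, hSdef]; linarith
  · have h1 := integral_mono icl (((iH.const_mul 4).add (integrable_const S)).const_mul aC)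
      fun p => mul_le_mul_of_nonneg_left (levOf_pow_le hS.le m (hh p)) haC0
    simp only [Pi.add_apply] at h1
    rw [integral_const_mul, integral_add (iH.const_mul 4) (integrable_const S), integral_const_mul,
      integral_const, probReal_univ, one_smul, ← hH2] at h1
    have i1 : Integrable (fun p => k₁ * (nsq (hh p) / t)) π := (iH.div_const t).const_mul k₁
    have i2 : Integrable (fun p => k₁ * (nsq (hh p) / t) + C₁) π := i1.add (integrable_const C₁)
    rw [integral_add i2 icl, integral_add i1 (integrable_const C₁), integral_const_mul,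
      integral_div, integral_const, probReal_univ, one_smul, ← hH2]
    have e2 : aC * (4 * H2 + S) = 5 * (lam ^ 2 * (9 / 4 * t + 81 / 2 * ε ^ 3)) * (H2 / t) +
        lam ^ 2 * (9 / 4 * t + 81 / 2 * ε ^ 3) := by rw [haC, hSdef]; field_simp; ring
    linarith

/-- The early bound with the parameters fixed. -/
theorem early_param (hb : Base η D K ρ) (hηt : η ≤ t) (hs : 0 < s) (hst : s < t) (ht1 : t ≤ 1)
    {c : ℝ} (hc0 : 0 ≤ c) (hc : (K * t + 2) * s / (2 * (t - s)) ≤ c)
    {ε γ κ lam b₀ : ℝ} (hε : 0 < ε) (hε1 : ε < 1) (hγ : 0 < γ) (hlam : 0 < lam) (hb₀ : 0 < b₀)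
    (hex : ∀ (N : ℕ) (τ : ℝ) (q : ℝ[X]), 0 < τ → τ ≤ t → t + N * τ ≤ t / ε →
      (∀ x, 0 ≤ x → x ≤ 1 / t →
        |q.eval x| ≤ 2 ∧ (x ≤ ε ^ 2 / t → |q.eval x| ≤ ε / ((n : ℝ) + 1))) →
      ∀ θ₀ w : St n, t * τ * ∑ j ∈ range N, walkE ρ t τ (θ₀ + w)
          (fun ω : Noise n N => excess ρ q (rk t τ j) (pos τ θ₀ ω j)) ≤
        κ * (nsq w / t) + 2 + badPath ρ t τ N θ₀)
    (hbad : ∀ r, 0 < r → r ≤ t / ε → Ep ρ r (bad ρ r 3) ≤ ε / ((n : ℝ) + 1) ^ 20)
    {α : Type} [MeasurableSpace α] (π : Measure (St n × α)) [IsProbabilityMeasure π]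
    (hπ : π.map Prod.fst = chanM ρ s) {hh : St n × α → St n} (hm : Measurable hh) {B : ℝ}
    (hB : ∀ p, nsq (hh p) ≤ B) :
    lam * ∫ p, fut ρ s t (fun θ => dotp (hh p) (dBary ρ t θ (hh p))) p.1 ∂π ≤
      (c / (1 + c) * lam ^ 2 / (2 * b₀) +
          (1 / 2 + 4 * ε * lam + b₀ / 2 * ((1 + γ) * (1 + ε) ^ 4 + (1 + 1 / γ) * (2 * κ))) +
          5 * (lam ^ 2 * (9 / 4 * t + 81 / 2 * ε ^ 3))) * ((∫ p, nsq (hh p) ∂π) / t) +
        (c / (1 + c) * 7 + 3 + 9 * Real.exp 1 + lam + b₀ / 2 * ((1 + 1 / γ) * 14) +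
          lam ^ 2 * (9 / 4 * t + 81 / 2 * ε ^ 3) + 4 * (b₀ * (1 + 1 / γ))) := by
  have hu := hb.ulc
  have ht : 0 < t := hs.trans hst
  have hB0 : 0 ≤ B := by
    obtain ⟨p⟩ : Nonempty (St n × α) := nonempty_of_isProbabilityMeasure π
    exact (nsq_nonneg' _).trans (hB p)
  have hn0 : (0 : ℝ) ≤ n := Nat.cast_nonneg n
  obtain ⟨q, hq⟩ := exists_cut (show (0 : ℝ) < 1 / t by positivity)
    (show (0 : ℝ) < ε ^ 2 / t by positivity) (show (0 : ℝ) < ε / ((n : ℝ) + 1) by positivity)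
  have hεn : ε / ((n : ℝ) + 1) ≤ ε := div_le_self hε.le (by linarith)
  set E₁ := envC n (1 + D + 10 * B)
  set E₀ := envC n (1 + D + 10)
  set R₂ := mgfErr n D (lam ^ 2 * B)
  have hE₁0 : 0 ≤ E₁ := envC_nonneg n _
  have hE₀0 : 0 ≤ E₀ := envC_nonneg n _
  have hR₂0 : 0 ≤ R₂ := mgfErr_nonneg n D _
  obtain ⟨N, τ, hτ, hτ1, hτt, hT, herr⟩ := exists_grid ht hε hε1
    (show 0 ≤ 6 * E₁ + R₂ + ((n : ℝ) + 1) * (6 * E₀) by positivity)
  have hNτ0 : 0 ≤ (N : ℝ) * τ * Real.sqrt τ := by positivity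
  have hpos : 0 ≤ ((n : ℝ) + 1) * (6 * E₀) := by positivity
  have he1 : (N : ℝ) * τ * Real.sqrt τ * (6 * E₁) ≤ 1 :=
    le_trans (mul_le_mul_of_nonneg_left (by linarith) hNτ0) herr
  have he2 : (N : ℝ) * τ * Real.sqrt τ * ((n + 1) * (6 * E₀)) ≤ 1 :=
    le_trans (mul_le_mul_of_nonneg_left (by linarith) hNτ0) herr
  have he3 : (N : ℝ) * τ * Real.sqrt τ * R₂ ≤ 1 :=
    le_trans (mul_le_mul_of_nonneg_left (by linarith) hNτ0) herr
  have hP : PathCtx η D t τ (ε ^ 2 / t) (1 + ε / ((n : ℝ) + 1)) ρ q :=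
    ⟨hu, hb.dens, ht.le, hτ, hτ1, by positivity, by linarith, fun x hx hx' => by
      have hx2 : x ≤ 1 / t := hx'.trans (one_div_le_one_div_of_le ht (by linarith [hu.pos]))
      exact ⟨(hq x hx hx2).1, (hq x hx hx2).2.1⟩⟩
  have hex' := hex N τ q hτ (hτt.trans (mul_le_of_le_one_left ht.le hε1.le)) hT.le fun x hx hx' =>
    ⟨(hq x hx hx').1.trans (by linarith), (hq x hx hx').2.2⟩
  have hτε : τ / t ≤ ε := by rw [div_le_iff₀ ht]; linarith
  have hH20 : 0 ≤ ∫ p, nsq (hh p) ∂π := integral_nonneg fun p => nsq_nonneg' _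
  set S := (∫ p, nsq (hh p) ∂π) + t with hSdef
  have hS : 0 < S := by positivity
  obtain ⟨m, hm4⟩ := pow_unbounded_of_one_lt (B / S) (show (1 : ℝ) < 4 by norm_num)
  have hm4' : B ≤ 4 ^ m * S := by rw [div_lt_iff₀ hS] at hm4; linarith
  set σ := Real.sqrt (b₀ * t) / lam with hσdef
  have hσ : 0 < σ := by positivity
  have hσ2 : σ ^ 2 = b₀ * t / lam ^ 2 := by
    rw [hσdef, div_pow, Real.sq_sqrt (by positivity)]
  have hσ3 : lam ^ 2 * σ ^ 2 / 2 = b₀ * t / 2 := by rw [hσ2]; field_simp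
  have hlevm : Measurable (levOf (n := n) S m) := measurable_levOf S m
  have hclm : Measurable fun w : St n => levCost lam ε t S (levOf S m w) :=
    (measurable_from_top (f := levCost lam ε t S)).comp hlevm
  have hclb : ∀ w : St n, nsq w ≤ B →
      |levCost lam ε t S (levOf S m w)| ≤ lam ^ 2 * (9 / 4 + 81 / 2 * (ε ^ 3 / t)) * (4 * B + S) :=
    fun w hw => by
      rw [abs_of_nonneg (levCost_nonneg ht hε hS.le _)]
      exact mul_le_mul_of_nonneg_left ((levOf_pow_le hS.le m w).trans (by linarith)) (by positivity)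
  obtain ⟨CP, _, hCP⟩ := hP.pathMean_bdd (N := N) hlam.le hb₀.le hB0
  obtain ⟨Cd, hCd⟩ := hP.pathDir_bdd (N := N) (lam := lam) σ
  obtain ⟨EZ, hEZ⟩ := pathZ_bound hP N lam (lam ^ 2 * σ ^ 2 / 2)
  set A : St n → St n → ℝ :=
    fun θ w => pathMean N ρ q η t τ lam b₀ θ w - levCost lam ε t S (levOf S m w) with hAdef
  have hA : Measurable (Function.uncurry A) :=
    hP.measurable_pathMean.sub (hclm.comp measurable_snd)
  have hA' : ∀ θ w, nsq w ≤ B → |A θ w| ≤
      CP + lam ^ 2 * (9 / 4 + 81 / 2 * (ε ^ 3 / t)) * (4 * B + S) := fun θ w hw =>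
    (abs_sub _ _).trans (add_le_add (hCP θ w hw) (hclb w hw))
  set k₁ := 1 / 2 + 4 * ε * lam + b₀ / 2 * ((1 + γ) * (1 + ε) ^ 4 + (1 + 1 / γ) * (2 * κ))
  set C₁ := lam + b₀ / 2 * ((1 + 1 / γ) * 14)
  have hjen := early_jensen hb hs hst hc hσ π hπ hm hB hlevm (levOf_le S m) hA ⟨_, hA'⟩
    (hP.measurable_pathDir (N := N) (lam := lam) σ) ⟨Cd, fun θ w _ => hCd θ w⟩
    (Z := fun i => pathZ N ρ q t τ lam (lam ^ 2 * σ ^ 2 / 2) (levCost lam ε t S i))
    (fun i => hP.measurable_pathZ (N := N) (lam := lam) _ _)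
    (fun i θ y => div_nonneg (integral_nonneg fun ω => mul_nonneg (Real.exp_pos _).le
      (pwt_nonneg hu ht.le hτ _ ω N)) (part_pos hu ht.le θ).le)
    ⟨EZ, fun i _ θ y => hEZ _ (levCost_nonneg ht hε hS.le i) θ y⟩
    (fun θ w ξ ℓ _ => hP.pairing_dv hσ3 _ θ w ξ ℓ)
    (Zc := 3 * Real.exp 1) (fun i _ w hw => by
      rcases hw with rfl | ⟨hwB, rfl⟩
      · refine pathZ_level hP ht hε hb.subg hT he3 ?_ ?_
        · simpa [nsq] using hB0
        · simp only [nsq, Pi.zero_apply, zero_pow two_ne_zero, Finset.sum_const_zero]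
          positivity
      · exact pathZ_level hP ht hε hb.subg hT he3 hwB (le_levOf m (hwB.trans hm4')))
  obtain ⟨hl5, hcostI⟩ := level_means π hm hB ht (ε := ε) (lam := lam) hε m k₁ C₁
  have havg := response_avg (s := s) (t := t) hu hb.dens hs.le ht.le π hm hB hA hA'
    (measurable_badPath (N := N) hu ht.le hτ.le) (abs_badPath_le (N := N) hu ht hτ.le)
    (cost := fun w => k₁ * (nsq w / t) + C₁ + levCost lam ε t S (levOf S m w))
    ((((continuous_nsq.measurable.div_const t).const_mul k₁).add_const C₁).add hclm)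
    (Cc := |k₁| * (B / t) + |C₁| + lam ^ 2 * (9 / 4 + 81 / 2 * (ε ^ 3 / t)) * (4 * B + S))
    (fun w hw => by
      refine (abs_add_le _ _).trans (add_le_add ((abs_add_le _ _).trans (add_le_add ?_ le_rfl))
        (hclb w hw))
      rw [abs_mul, abs_of_nonneg (div_nonneg (nsq_nonneg' w) ht.le)]
      exact mul_le_mul_of_nonneg_left (div_le_div_of_nonneg_right hw ht.le) (abs_nonneg _))
    (lam := lam) (k₂ := b₀ * (1 + 1 / γ)) (fun θ w hw => by
      have := point_bound N hP ht ht1 hε hγ hlam.le hb₀.le hT hτε (by linarith) hex' he1 he2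
        (fun w hw => envC_mono (by linarith)) θ w hw
      simp only [hAdef, k₁, C₁]
      linarith)
  have hbadI : b₀ * (1 + 1 / γ) * ∫ p, fut ρ s t (badPath ρ t τ N) p.1 ∂π ≤
      b₀ * (1 + 1 / γ) * 4 :=
    mul_le_mul_of_nonneg_left (integral_badPath_le hu hs hst hε hτ hT hbad hπ) (by positivity)
  have hc1 : 0 ≤ c / (1 + c) := by positivity
  have hη' := mul_le_mul_of_nonneg_left hl5 hc1
  have e1 : (∫ p, nsq (hh p) ∂π) / (2 * σ ^ 2) =
      lam ^ 2 / (2 * b₀) * ((∫ p, nsq (hh p) ∂π) / t) := by rw [hσ2]; field_simp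
  rw [e1] at hjen
  simp only [hSdef, hAdef, k₁, C₁] at hjen havg hcostI hη' ⊢
  linear_combination havg + hjen + hcostI + hbadI + hη'

/-- A vector known at time `128 / K` has response below the maximal one by a constant factor. -/
theorem early : ∃ sl C R₀ : ℝ, 0 < sl ∧ sl < 1 ∧ 0 < C ∧ 1 ≤ R₀ ∧ ∀ R, R₀ ≤ R → ∃ K₀ : ℝ, 1 ≤ K₀ ∧
    ∀ (n : ℕ) (η D K : ℝ) (ρ : St n → ℝ), Base η D K ρ → K₀ * (1 + Real.log n) ^ 2 ≤ K →
      ∀ t, R / K ≤ t → t ≤ 2 * R / K →
        ∀ (α : Type) [MeasurableSpace α] (π : Measure (St n × α)) [IsProbabilityMeasure π],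
          π.map Prod.fst = chanM ρ (128 / K) →
          ∀ hh : St n × α → St n, Measurable hh → (∃ B, ∀ p, nsq (hh p) ≤ B) →
            ∫ p, fut ρ (128 / K) t (fun θ => dotp (hh p) (dBary ρ t θ (hh p))) p.1 ∂π ≤
              (1 - sl) * (∫ p, nsq (hh p) ∂π) / t + C := by
  set e := Real.sqrt (128 / 129 : ℝ) with he
  have he0 : 0 < e := by positivity
  have he2 : e ^ 2 = 128 / 129 := Real.sq_sqrt (by norm_num)
  have he1 : e < 1 := by nlinarith
  set g := 1 - e with hg
  have hg0 : 0 < g := by linarith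
  have hg1 : g < 1 := by linarith
  set lam := 4 / g with hlam
  have hlam0 : 0 < lam := by positivity
  set γ := g / 8 with hγ
  have hγ0 : 0 < γ := by positivity
  set ε := g / (8 * (19 + 820 / g)) with hε
  have hε0 : 0 < ε := by positivity
  have hε1 : ε < 1 := by
    rw [hε, div_lt_one (by positivity)]
    have : 0 < 820 / g := by positivity
    linarith
  set κ := g / (8 * (1 + 1 / γ)) with hκ
  have hκ0 : 0 < κ := by positivity
  obtain ⟨T₀, hT₀, hexc⟩ := excess_path ε κ hε0 hε1.le hκ0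
  set Tm := min (min T₀ 1) (g / (96 * lam)) with hTm
  have hTm0 : 0 < Tm := lt_min (lt_min hT₀ one_pos) (by positivity)
  set b₀ := lam * e with hb₀
  have hb₀0 : 0 < b₀ := by positivity
  set C := (e ^ 2 * 7 + 3 + 9 * Real.exp 1 + lam + b₀ / 2 * ((1 + 1 / γ) * 14) +
    lam ^ 2 * (9 / 4 + 81 / 2) + 4 * (b₀ * (1 + 1 / γ))) / lam with hC
  have hC0 : 0 < C := by positivity
  refine ⟨g / 4, C, 384, by linarith, by linarith, hC0, by norm_num, fun R hR => ?_⟩
  have hR0 : 0 < R := by linarith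
  obtain ⟨Kb, hKb, hbad⟩ := bad_le (2 * R / ε) (by
    rw [le_div_iff₀ hε0]; linarith) ε hε0
  refine ⟨max Kb (2 * R / Tm), hKb.trans (le_max_left _ _), ?_⟩
  intro n η D K ρ hb hK t ht ht' α _ π _ hπ hh hm hB
  obtain ⟨B, hB⟩ := hB
  have hK0 := hb.posK
  have hl : (1 : ℝ) ≤ (1 + Real.log n) ^ 2 :=
    one_le_pow₀ (le_add_of_nonneg_right (Real.log_natCast_nonneg n))
  have hKR : 2 * R / Tm ≤ K := by
    refine le_trans ?_ hK
    exact (le_max_right _ _).trans (le_mul_of_one_le_right (by positivity) hl)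
  have ht0 : 0 < t := lt_of_lt_of_le (by positivity) ht
  have htm : t ≤ Tm := by
    refine ht'.trans ?_
    rw [div_le_iff₀ hK0]; rw [div_le_iff₀ hTm0] at hKR; linarith
  have htT : t ≤ T₀ := htm.trans ((min_le_left _ _).trans (min_le_left _ _))
  have ht1 : t ≤ 1 := htm.trans ((min_le_left _ _).trans (min_le_right _ _))
  have htl : t ≤ g / (96 * lam) := htm.trans (min_le_right _ _)
  have hKt : R ≤ t * K := by rw [div_le_iff₀ hK0] at ht; linarith
  have hst : 128 / K < t := by rw [div_lt_iff₀ hK0]; linarith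
  set η' := min η t with hη'
  have hb' : Base η' D K ρ := ⟨ulc_mono hb.ulc (lt_min hb.ulc.pos ht0) (min_le_left _ _),
    hb.dens, hb.cent, hb.subg, hb.posK, hb.lsi⟩
  have hcc : (K * t + 2) * (128 / K) / (2 * (t - 128 / K)) ≤ 128 := by
    rw [div_le_iff₀ (by linarith)]
    field_simp
    nlinarith
  have hmain := early_param (c := 128) hb' (min_le_right _ _) (by positivity) hst ht1 (by norm_num)
    hcc hε0 hε1 hγ0 hlam0 hb₀0
    (fun N τ q hτ hτt hT hq => hexc n N η' D t τ ρ q hb'.ulc hb.dens (min_le_right _ _) ht0 htT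
      hτ hτt hT hq)
    (fun r hr hrt => hbad n η D K ρ hb
      (le_trans (mul_le_mul_of_nonneg_right (le_max_left _ _) (sq_nonneg _)) hK) r hr (by
        refine hrt.trans ?_
        rw [div_div, div_le_div_iff₀ hε0 (by positivity)]
        rw [le_div_iff₀ hK0] at ht'
        nlinarith))
    π hπ hm hB
  set k := ∫ p, fut ρ (128 / K) t (fun θ => dotp (hh p) (dBary ρ t θ (hh p))) p.1 ∂π
  set V := (∫ p, nsq (hh p) ∂π) / t with hV
  have hV0 : 0 ≤ V := div_nonneg (integral_nonneg fun p => nsq_nonneg' _) ht0.le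
  rw [show (128 : ℝ) / (1 + 128) = e ^ 2 by rw [he2]; norm_num] at hmain
  have hcoef := coef_le he0 hg hg0 hlam hγ hε hκ hb₀ ht0 htl
  have hC' : e ^ 2 * 7 + 3 + 9 * Real.exp 1 + lam + b₀ / 2 * ((1 + 1 / γ) * 14) +
      lam ^ 2 * (9 / 4 * t + 81 / 2 * ε ^ 3) + 4 * (b₀ * (1 + 1 / γ)) ≤ lam * C := by
    rw [hC, mul_div_cancel₀ _ hlam0.ne']
    have : lam ^ 2 * (9 / 4 * t + 81 / 2 * ε ^ 3) ≤ lam ^ 2 * (9 / 4 + 81 / 2) := by
      refine mul_le_mul_of_nonneg_left ?_ (sq_nonneg _)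
      have : ε ^ 3 ≤ 1 := pow_le_one₀ hε0.le hε1.le
      linarith
    linarith
  have hfin : lam * k ≤ lam * ((1 - g / 4) * V + C) := by
    have := mul_le_mul_of_nonneg_right hcoef hV0
    linarith
  have := le_of_mul_le_mul_left hfin hlam0
  rw [hV] at this
  rwa [mul_div_assoc]

end

end Vale.Agent.P245.Gen2
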