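import Vale.Agent.P245.Gen2.Chain
import Vale.Agent.P245.Gen2.Support

/-!
# P245, polylogarithmic bound: elementary inequalities for vectors and growth in the pair
-/

open MeasureTheory

namespace Vale.Agent.P245.Gen2

open General

variable {n : ℕ} {D h : ℝ} {σ ν : St n → ℝ}

theorem nsq_eq_dotp (x : St n) : nsq x = dotp x x := by simp [nsq, dotp, pow_two]

theorem dotp_le_sqrt (x y : St n) : dotp x y ≤ Real.sqrt (nsq x) * Real.sqrt (nsq y) :=
  Real.sum_mul_le_sqrt_mul_sqrt _ _ _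

/-- The weighted triangle inequality for squares. -/
theorem nsq_le_weighted (x y : St n) {c : ℝ} (hc : 0 < c) :
    nsq x ≤ (1 + c) * nsq y + (1 + 1 / c) * nsq (x - y) := by
  simp only [nsq, Pi.sub_apply, Finset.mul_sum, ← Finset.sum_add_distrib]
  refine Finset.sum_le_sum fun i _ => ?_
  have h : 0 ≤ (c * y i - (x i - y i)) ^ 2 / c := by positivity
  have e : (c * y i - (x i - y i)) ^ 2 / c
      = c * y i ^ 2 - 2 * y i * (x i - y i) + 1 / c * (x i - y i) ^ 2 := by field_simp; ring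
  nlinarith

theorem nsq_sub_le (x y : St n) : nsq (x - y) ≤ 2 * nsq x + 2 * nsq y := by
  simp only [nsq, Pi.sub_apply, Finset.mul_sum, ← Finset.sum_add_distrib]
  exact Finset.sum_le_sum fun i _ => by nlinarith [sq_nonneg (x i + y i)]

theorem polyP_const (c : ℝ) : PolyP fun _ : St n × St n => c := ⟨|c|, 0, fun p => by simp⟩

theorem polyP_of_le {F : St n × St n → ℝ} {c : ℝ} (hF : ∀ p, |F p| ≤ c) : PolyP F :=
  ⟨c, 0, fun p => by simpa using hF p⟩

theorem polyP_add {F G : St n × St n → ℝ} (hF : PolyP F) (hG : PolyP G) :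
    PolyP fun p => F p + G p := by
  obtain ⟨A, k, hA⟩ := hF
  obtain ⟨B, m, hB⟩ := hG
  refine ⟨|A| + |B|, k + m, fun p => (abs_add_le _ _).trans ?_⟩
  have hx : 1 ≤ 1 + nsq p.1 + nsq p.2 := by linarith [nsq_nonneg p.1, nsq_nonneg p.2]
  rw [add_mul]
  refine add_le_add ((hA p).trans ?_) ((hB p).trans ?_)
  · exact mul_le_mul (le_abs_self A) (pow_le_pow_right₀ hx (by omega)) (by positivity) (abs_nonneg _)
  · exact mul_le_mul (le_abs_self B) (pow_le_pow_right₀ hx (by omega)) (by positivity) (abs_nonneg _)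

theorem polyP_mul_const {F : St n × St n → ℝ} (hF : PolyP F) (c : ℝ) :
    PolyP fun p => c * F p := by
  obtain ⟨A, k, hA⟩ := hF
  exact ⟨|c| * A, k, fun p => by
    rw [abs_mul, mul_assoc]; exact mul_le_mul_of_nonneg_left (hA p) (abs_nonneg c)⟩

theorem polyP_nsq_fst : PolyP fun p : St n × St n => nsq p.1 :=
  ⟨1, 1, fun p => by
    rw [abs_of_nonneg (nsq_nonneg _), one_mul, pow_one]; linarith [nsq_nonneg p.2]⟩

theorem polyP_nsq_snd : PolyP fun p : St n × St n => nsq p.2 :=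
  ⟨1, 1, fun p => by
    rw [abs_of_nonneg (nsq_nonneg _), one_mul, pow_one]; linarith [nsq_nonneg p.1]⟩

theorem polyP_nsq_delta : PolyP fun p : St n × St n => nsq (delta p) := by
  refine ⟨2, 1, fun p => ?_⟩
  rw [abs_of_nonneg (nsq_nonneg _), pow_one]
  have := nsq_sub_le p.2 p.1
  simp only [delta]; linarith

theorem measurable_wV (hσ : Dens D σ) (hν : Dens D ν) (k : ℕ) : Measurable (wV σ ν h k) :=
  ((measurable_bary hν _).comp measurable_snd).sub ((measurable_bary hσ _).comp measurable_fst)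

theorem nsq_wV_le (hσ : Dens D σ) (hν : Dens D ν) (k : ℕ) (p : St n × St n) :
    nsq (wV σ ν h k p) ≤ 4 * D := by
  refine (nsq_sub_le _ _).trans ?_
  linarith [nsq_bary_le_supp hν ((k : ℝ) * h) p.2, nsq_bary_le_supp hσ ((k : ℝ) * h) p.1]

theorem measurable_uV (hσ : Dens D σ) (hν : Dens D ν) (k : ℕ) : Measurable (uV σ ν h k) :=
  ((measurable_bary hν _).comp measurable_snd).sub ((measurable_bary hσ _).comp measurable_snd)

theorem nsq_uV_le (hσ : Dens D σ) (hν : Dens D ν) (k : ℕ) (p : St n × St n) :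
    nsq (uV σ ν h k p) ≤ 4 * D := by
  refine (nsq_sub_le _ _).trans ?_
  linarith [nsq_bary_le_supp hν ((k : ℝ) * h) p.2, nsq_bary_le_supp hσ ((k : ℝ) * h) p.2]

theorem nsq_dBary_le (hσ : Dens D σ) (s : ℝ) (θ v : St n) : nsq (dBary σ s θ v) ≤ 4 * D := by
  refine (nsq_sub_le _ _).trans ?_
  linarith [nsq_bary_le_supp hσ s (θ + v), nsq_bary_le_supp hσ s θ]

theorem measurable_nsq' : Measurable (nsq : St n → ℝ) := continuous_nsq.measurable

end Vale.Agent.P245.Gen2
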