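import Vale.Agent.P245.Gen2.Multi
import Vale.Agent.P245.Gen2.Vec

/-!
# P245, polylogarithmic bound: integrals against the joint laws
-/

open MeasureTheory ProbabilityTheory

namespace Vale.Agent.P245.Gen2

open General

noncomputable section

variable {n : ℕ} {η D h : ℝ} {σ ν ρ : St n → ℝ}
variable (hσ : Dens D σ) (hν : Dens D ν) (hh : 0 < h)
include hσ hν hh

theorem integrable_law2 (k i : ℕ) {F : (St n × St n) × (St n × St n) → ℝ} (hm : Measurable F)
    {P Q : St n × St n → ℝ} (hPm : Measurable P) (hP : PolyP P) (hQm : Measurable Q)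
    (hQ : PolyP Q) (hF : ∀ x, |F x| ≤ P x.1 + Q x.2) :
    Integrable F (law2 hσ hν hh k i) := by
  have iP : Integrable (fun x => P x.1) (law2 hσ hν hh k i) := by
    have := (integrable_pair hσ hν hh k 0 (0, 0) hPm hP).1
    rw [← fst_law2 hσ hν hh k i] at this
    exact (integrable_map_measure hPm.aestronglyMeasurable measurable_fst.aemeasurable).1 this
  have iQ : Integrable (fun x => Q x.2) (law2 hσ hν hh k i) := by
    have := (integrable_pair hσ hν hh (k + i) 0 (0, 0) hQm hQ).1
    rw [← snd_law2 hσ hν hh k i] at this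
    exact (integrable_map_measure hQm.aestronglyMeasurable measurable_snd.aemeasurable).1 this
  exact (iP.add iQ).mono' hm.aestronglyMeasurable
    (Filter.Eventually.of_forall fun x => (Real.norm_eq_abs _).le.trans (hF x))

theorem integral_law2 (k i : ℕ) {F : (St n × St n) × (St n × St n) → ℝ}
    (hF : Integrable F (law2 hσ hν hh k i)) :
    ∫ x, F x ∂law2 hσ hν hh k i = ∫ p, ∫ q, F (p, q) ∂pairFrom σ ν h k i p ∂pairM σ ν h k := by
  have := isProb_pairM hσ hν hh k
  have := isMarkov_ker hσ hν hh k i
  exact Measure.integral_compProd hF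

theorem integral_law2_fst (k i : ℕ) {P : St n × St n → ℝ} (hPm : Measurable P) :
    ∫ x, P x.1 ∂law2 hσ hν hh k i = ∫ p, P p ∂pairM σ ν h k := by
  conv_rhs => rw [← fst_law2 hσ hν hh k i]
  rw [integral_map measurable_fst.aemeasurable hPm.aestronglyMeasurable]

theorem integral_law2_snd (k i : ℕ) {P : St n × St n → ℝ} (hPm : Measurable P) :
    ∫ x, P x.2 ∂law2 hσ hν hh k i = ∫ p, P p ∂pairM σ ν h (k + i) := by
  conv_rhs => rw [← snd_law2 hσ hν hh k i]
  rw [integral_map measurable_snd.aemeasurable hPm.aestronglyMeasurable]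

theorem integral_law3_snd (k i j : ℕ) {P : St n × St n → ℝ} (hPm : Measurable P) :
    ∫ x, P x.2 ∂law3 hσ hν hh k i j = ∫ p, P p ∂pairM σ ν h (k + i + j) := by
  conv_rhs => rw [← snd_law3 hσ hν hh k i j]
  rw [integral_map measurable_snd.aemeasurable hPm.aestronglyMeasurable]

theorem integral_law3_fst (k i j : ℕ) {F : (St n × St n) × (St n × St n) → ℝ} (hm : Measurable F) :
    ∫ x, F x.1 ∂law3 hσ hν hh k i j = ∫ y, F y ∂law2 hσ hν hh k i := by
  conv_rhs => rw [← fst_law3 hσ hν hh k i j]
  rw [integral_map measurable_fst.aemeasurable hm.aestronglyMeasurable]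

theorem integral_law3_tail (k i j : ℕ) {F : (St n × St n) × (St n × St n) → ℝ}
    (hm : Measurable F) :
    ∫ x, F (x.1.2, x.2) ∂law3 hσ hν hh k i j = ∫ y, F y ∂law2 hσ hν hh (k + i) j := by
  conv_rhs => rw [← map_law3 hσ hν hh k i j]
  rw [integral_map (by fun_prop) hm.aestronglyMeasurable]

/-- The martingale property tested against a function of the earlier pair. -/
theorem law2_martingale (k i : ℕ) {V : St n × St n → St n} (hVm : Measurable V)
    (hV : PolyP fun p => nsq (V p)) :
    ∫ x, dotp (V x.1) (wV σ ν h (k + i) x.2) ∂law2 hσ hν hh k i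
      = ∫ p, dotp (V p) (wV σ ν h k p) ∂pairM σ ν h k := by
  have hm : Measurable fun x : (St n × St n) × (St n × St n) =>
      dotp (V x.1) (wV σ ν h (k + i) x.2) :=
    continuous_dotp2.measurable.comp
      ((hVm.comp measurable_fst).prodMk ((measurable_wV hσ hν _).comp measurable_snd))
  have hint := integrable_law2 hσ hν hh k i hm (P := fun p => 1 / 2 * nsq (V p))
    (Q := fun _ => 2 * D) (measurable_nsq'.comp hVm |>.const_mul _) (polyP_mul_const hV _)
    measurable_const (polyP_const _) fun x => by
      refine (abs_dotp_le _ _).trans ?_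
      have := nsq_wV_le (h := h) hσ hν (k + i) x.2
      linarith
  rw [integral_law2 hσ hν hh k i hint]
  refine integral_congr_ae (Filter.Eventually.of_forall fun p => ?_)
  have hi : ∀ l : Fin n, Integrable (fun q => V p l * wV σ ν h (k + i) q l)
      (pairFrom σ ν h k i p) := fun l => by
    refine ((integrable_pair hσ hν hh k i p ((measurable_pi_apply l).comp (measurable_wV hσ hν _))
      (polyP_of_le (c := 4 * D + 1) fun q => ?_)).2).const_mul _
    have h1 := nsq_wV_le (h := h) hσ hν (k + i) q
    have h2 : wV σ ν h (k + i) q l ^ 2 ≤ nsq (wV σ ν h (k + i) q) :=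
      Finset.single_le_sum (f := fun l => wV σ ν h (k + i) q l ^ 2) (fun _ _ => sq_nonneg _)
        (Finset.mem_univ l)
    simp only [Function.comp]
    nlinarith [sq_abs (wV σ ν h (k + i) q l), sq_nonneg (|wV σ ν h (k + i) q l| - 1)]
  simp only [dotp]
  rw [integral_finsetSum _ fun l _ => hi l]
  refine Finset.sum_congr rfl fun l _ => ?_
  rw [integral_const_mul, wV_martingale hσ hν hh k i p l]

omit hσ hν hh in
/-- A function of the two later states integrates through the channel. -/
theorem law2_fut (hρ : Ulc η ρ) (hd : Dens D ρ) (hν : Dens D ν) (hh' : 0 < h) (k i : ℕ) {G : St n × St n → St n → ℝ}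
    (hG : ∀ p, Measurable (G p) ∧ PolyB (G p))
    (hint : Integrable (fun x => G x.1 x.2.1) (law2 hd hν hh' k i)) :
    ∫ x, G x.1 x.2.1 ∂law2 hd hν hh' k i
      = ∫ p, fut ρ (k * h) ((k + i : ℕ) * h) (G p) p.1 ∂pairM ρ ν h k := by
  rw [integral_law2 hd hν hh' k i hint]
  exact integral_congr_ae (Filter.Eventually.of_forall fun p =>
    pairFrom_fst hρ hd hν hh' k i p (hG p).1 (hG p).2)

omit hσ hν hh in
theorem measurable_future (hd : Dens D ρ) (hν : Dens D ν) (hh : 0 < h) (k j : ℕ) {α : Type*}
    [MeasurableSpace α] {F : (α × St n) × St n → ℝ} (hF : Measurable F) :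
    Measurable fun z : α × St n => ∫ q, F (z, q.1) ∂pairFrom ρ ν h k j (z.2, 0) := by
  have := isMarkov_ker hd hν hh k j
  have h0 : Measurable fun z : α × St n => (z.2, (0 : St n)) := measurable_snd.prodMk measurable_const
  have h1 : StronglyMeasurable fun w : (α × St n) × (St n × St n) => F (w.1, w.2.1) :=
    (hF.comp (measurable_fst.prodMk (measurable_fst.comp measurable_snd))).stronglyMeasurable
  exact (h1.integral_kernel_prod_right' (κ := (ker hd hν hh k j).comap _ h0)).measurable

omit hσ hν hh in
/-- The integral over the third pair, as an iterated integral. -/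
theorem integral_law3_bdd (hd : Dens D ρ) (hν : Dens D ν) (hh : 0 < h) (k i j : ℕ)
    {F : ((St n × St n) × (St n × St n)) × (St n × St n) → ℝ} (hF : Measurable F) {B : ℝ}
    (hB : ∀ x, |F x| ≤ B) :
    ∫ x, F x ∂law3 hd hν hh k i j
      = ∫ y, ∫ q, F (y, q) ∂pairFrom ρ ν h (k + i) j y.2 ∂law2 hd hν hh k i := by
  have := isProb_law2 hd hν hh k i
  have := isProb_law3 hd hν hh k i j
  have := isMarkov_ker hd hν hh (k + i) j
  have hint : Integrable F (law3 hd hν hh k i j) :=
    Integrable.of_bound hF.aestronglyMeasurable B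
      (ae_of_all _ fun x => (Real.norm_eq_abs _).le.trans (hB x))
  exact Measure.integral_compProd hint

omit hσ hν hh in
theorem bdd_integral (hd : Dens D ρ) (hν : Dens D ν) (hh : 0 < h) (k j : ℕ) (p : St n × St n)
    {F : St n → ℝ} {B : ℝ} (hB : ∀ x, |F x| ≤ B) :
    |∫ q, F q.1 ∂pairFrom ρ ν h k j p| ≤ B := by
  have := (isProb_pairFrom hd hν hh k j p).1
  refine (norm_integral_le_of_norm_le_const (C := B)
    (ae_of_all _ fun q => (Real.norm_eq_abs _).le.trans (hB _))).trans ?_
  simp

omit hσ hν hh in
/-- A bounded function of three states integrates through the channel twice. -/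
theorem law3_fut (hρ : Ulc η ρ) (hd : Dens D ρ) (hν : Dens D ν) (hh : 0 < h) (k i j : ℕ)
    (G : St n × St n → St n → St n → ℝ)
    (hG : Measurable fun z : ((St n × St n) × St n) × St n => G z.1.1 z.1.2 z.2)
    {B : ℝ} (hB : ∀ p a b, |G p a b| ≤ B) :
    ∫ x, G x.1.1 x.1.2.1 x.2.1 ∂law3 hd hν hh k i j
      = ∫ p, fut ρ (k * h) ((k + i : ℕ) * h)
          (fun a => fut ρ ((k + i : ℕ) * h) ((k + i + j : ℕ) * h) (G p a) a) p.1
        ∂pairM ρ ν h k := by
  have hGm : ∀ p a, Measurable (G p a) := fun p a =>
    (show Measurable ((fun z : ((St n × St n) × St n) × St n => G z.1.1 z.1.2 z.2) ∘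
      fun b : St n => (((p, a) : (St n × St n) × St n), b)) from
      hG.comp (measurable_const.prodMk measurable_id))
  have heq : ∀ p (r : St n × St n),
      fut ρ ((k + i : ℕ) * h) ((k + i + j : ℕ) * h) (G p r.1) r.1
        = ∫ q, G p r.1 q.1 ∂pairFrom ρ ν h (k + i) j r := fun p r =>
    (pairFrom_fst hρ hd hν hh (k + i) j r (hGm p r.1)
      ⟨B, 0, fun x => by simpa using hB p r.1 x⟩).symm
  have hFm : Measurable fun x : ((St n × St n) × (St n × St n)) × (St n × St n) =>
      G x.1.1 x.1.2.1 x.2.1 :=
    (show Measurable ((fun z : ((St n × St n) × St n) × St n => G z.1.1 z.1.2 z.2) ∘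
      fun x : ((St n × St n) × (St n × St n)) × (St n × St n) => ((x.1.1, x.1.2.1), x.2.1)) from
      hG.comp (by fun_prop))
  rw [integral_law3_bdd hd hν hh k i j hFm fun x => hB _ _ _]
  simp only [← heq]
  have hm : Measurable fun z : (St n × St n) × St n =>
      fut ρ ((k + i : ℕ) * h) ((k + i + j : ℕ) * h) (G z.1 z.2) z.2 := by
    have e := measurable_future (F := fun w : ((St n × St n) × St n) × St n => G w.1.1 w.1.2 w.2)
      hd hν hh (k + i) j hG
    simp only [← fun (z : (St n × St n) × St n) => heq z.1 (z.2, 0)] at e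
    exact e
  have hb : ∀ p a, |fut ρ ((k + i : ℕ) * h) ((k + i + j : ℕ) * h) (G p a) a| ≤ B := fun p a => by
    rw [heq p (a, 0)]; exact bdd_integral hd hν hh (k + i) j _ (hB p a)
  have := isProb_law2 hd hν hh k i
  generalize hHdef :
    (fun p a => fut ρ ((k + i : ℕ) * h) ((k + i + j : ℕ) * h) (G p a) a : St n × St n → St n → ℝ) = H
  have hmH : Measurable fun z : (St n × St n) × St n => H z.1 z.2 := by rw [← hHdef]; exact hm
  have hbH : ∀ p a, |H p a| ≤ B := by rw [← hHdef]; exact hb
  have hp : ∀ p, Measurable (H p) ∧ PolyB (H p) := fun p => by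
    refine ⟨?_, ⟨B, 0, fun x => by simpa using hbH p x⟩⟩
    have h1 : Measurable fun x : St n => (p, x) := measurable_const.prodMk measurable_id
    exact hmH.comp h1
  have hint : Integrable (fun x : (St n × St n) × (St n × St n) => H x.1 x.2.1)
      (law2 hd hν hh k i) := by
    have h1 : Measurable fun x : (St n × St n) × (St n × St n) => (x.1, x.2.1) := by fun_prop
    have h2 : Measurable fun x : (St n × St n) × (St n × St n) => H x.1 x.2.1 := hmH.comp h1
    exact Integrable.of_bound h2.aestronglyMeasurable B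
      (ae_of_all _ fun x => (Real.norm_eq_abs _).le.trans (hbH x.1 x.2.1))
  have e := law2_fut (G := H) hρ hd hν hh k i hp hint
  rw [← hHdef] at e
  exact e

theorem integrable_law3 (k i j : ℕ)
    {F : ((St n × St n) × (St n × St n)) × (St n × St n) → ℝ} (hm : Measurable F)
    {P : (St n × St n) × (St n × St n) → ℝ} {Q : St n × St n → ℝ} (hPm : Measurable P)
    (hP : Integrable P (law2 hσ hν hh k i)) (hQm : Measurable Q) (hQ : PolyP Q)
    (hF : ∀ x, |F x| ≤ P x.1 + Q x.2) :
    Integrable F (law3 hσ hν hh k i j) := by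
  have iP : Integrable (fun x => P x.1) (law3 hσ hν hh k i j) := by
    rw [← fst_law3 hσ hν hh k i j] at hP
    exact (integrable_map_measure hPm.aestronglyMeasurable measurable_fst.aemeasurable).1 hP
  have iQ : Integrable (fun x => Q x.2) (law3 hσ hν hh k i j) := by
    have := (integrable_pair hσ hν hh (k + i + j) 0 (0, 0) hQm hQ).1
    rw [← snd_law3 hσ hν hh k i j] at this
    exact (integrable_map_measure hQm.aestronglyMeasurable measurable_snd.aemeasurable).1 this
  exact (iP.add iQ).mono' hm.aestronglyMeasurable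
    (ae_of_all _ fun x => (Real.norm_eq_abs _).le.trans (hF x))

/-- The martingale property tested against a function of the two earlier pairs. -/
theorem law3_martingale (k i j : ℕ) {V : (St n × St n) × (St n × St n) → St n} (hVm : Measurable V)
    (hV : Integrable (fun y => nsq (V y)) (law2 hσ hν hh k i)) :
    ∫ x, dotp (V x.1) (wV σ ν h (k + i + j) x.2) ∂law3 hσ hν hh k i j
      = ∫ y, dotp (V y) (wV σ ν h (k + i) y.2) ∂law2 hσ hν hh k i := by
  have := isProb_law2 hσ hν hh k i
  have := isMarkov_ker hσ hν hh (k + i) j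
  have hm : Measurable fun x : ((St n × St n) × (St n × St n)) × (St n × St n) =>
      dotp (V x.1) (wV σ ν h (k + i + j) x.2) :=
    continuous_dotp2.measurable.comp
      ((hVm.comp measurable_fst).prodMk ((measurable_wV hσ hν _).comp measurable_snd))
  have hint : Integrable (fun x : ((St n × St n) × (St n × St n)) × (St n × St n) =>
      dotp (V x.1) (wV σ ν h (k + i + j) x.2)) (law3 hσ hν hh k i j) :=
    integrable_law3 hσ hν hh k i j hm (P := fun y => 1 / 2 * nsq (V y)) (Q := fun _ => 2 * D)
      ((measurable_nsq'.comp hVm).const_mul _) (hV.const_mul _) measurable_const (polyP_const _)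
      fun x => by
        refine (abs_dotp_le _ _).trans ?_
        have := nsq_wV_le (h := h) hσ hν (k + i + j) x.2
        linarith
  unfold law3 at hint ⊢
  rw [Measure.integral_compProd hint]
  refine integral_congr_ae (ae_of_all _ fun y => ?_)
  simp only [Kernel.comap_apply, ker_apply]
  have hi : ∀ l : Fin n, Integrable (fun q => V y l * wV σ ν h (k + i + j) q l)
      (pairFrom σ ν h (k + i) j y.2) := fun l => by
    refine ((integrable_pair hσ hν hh (k + i) j y.2
      ((measurable_pi_apply l).comp (measurable_wV hσ hν _))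
      (polyP_of_le (c := 4 * D + 1) fun q => ?_)).2).const_mul _
    have h1 := nsq_wV_le (h := h) hσ hν (k + i + j) q
    have h2 : wV σ ν h (k + i + j) q l ^ 2 ≤ nsq (wV σ ν h (k + i + j) q) :=
      Finset.single_le_sum (f := fun l => wV σ ν h (k + i + j) q l ^ 2) (fun _ _ => sq_nonneg _)
        (Finset.mem_univ l)
    simp only [Function.comp]
    nlinarith [sq_abs (wV σ ν h (k + i + j) q l), sq_nonneg (|wV σ ν h (k + i + j) q l| - 1)]
  simp only [dotp]
  rw [integral_finsetSum _ fun l _ => hi l]
  refine Finset.sum_congr rfl fun l _ => ?_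
  rw [integral_const_mul, wV_martingale hσ hν hh (k + i) j y.2 l]

end

end Vale.Agent.P245.Gen2
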