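import Vale.Agent.P245.Gen2.CoupleDefs
import Vale.Agent.P245.Gen2.MultiInt
import Vale.Agent.P245.Gen2.Early

/-!
# P245, polylogarithmic bound: the early case

The vector `t • w_s` is known at time `s = 128 / K`; `early` bounds its response at time `t`,
and the martingale property says that `t • w_t` is close to it when `Z` has hardly grown since `s`.
-/

open MeasureTheory Filter

namespace Vale.Agent.P245.Gen2

open General

private theorem nsq_smul_of (c : ℝ) {n : ℕ} (x : St n) : nsq (c • x) = c ^ 2 * nsq x := by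
  simp only [nsq, Pi.smul_apply, smul_eq_mul, mul_pow, Finset.mul_sum]

private theorem nsq_sub_eq {n : ℕ} (x y : St n) : nsq (y - x) = nsq y + nsq x - 2 * dotp x y := by
  simp only [nsq, dotp, Pi.sub_apply, Finset.mul_sum, ← Finset.sum_add_distrib,
    ← Finset.sum_sub_distrib]
  exact Finset.sum_congr rfl fun i _ => by ring

private theorem early_arith {sl C Z₁ Zs Zt X : ℝ} (h0 : 0 < sl) (h1 : sl < 1) (hC : 0 ≤ C)
    (hZ : (1 - sl ^ 2 / 64) * Z₁ ≤ Zs) (hs : Zs ≤ Z₁) (ht : Zt ≤ Z₁) (hz0 : 0 ≤ Zs)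
    (hX : X ≤ (1 + sl / 4) * ((1 - sl) * Zs + C) + (1 + 1 / (sl / 4)) * (Zt - Zs)) :
    X ≤ (1 - sl / 2) * Z₁ + 2 * C := by
  have hd : Zt - Zs ≤ sl ^ 2 / 64 * Z₁ := by linarith
  have hZ1 : 0 ≤ Z₁ := hz0.trans hs
  have e1 : (1 + 1 / (sl / 4)) * (Zt - Zs) ≤ 5 * sl / 64 * Z₁ := by
    refine (mul_le_mul_of_nonneg_left hd (by positivity)).trans ?_
    have e : (1 + 1 / (sl / 4)) * (sl ^ 2 / 64 * Z₁) = (sl ^ 2 + 4 * sl) / 64 * Z₁ := by
      field_simp
    rw [e]
    exact mul_le_mul_of_nonneg_right (by nlinarith) hZ1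
  have e2 : (1 + sl / 4) * ((1 - sl) * Zs + C) ≤ (1 - 3 * sl / 4) * Z₁ + 2 * C := by
    have a : (1 + sl / 4) * ((1 - sl) * Zs) ≤ (1 - 3 * sl / 4) * Z₁ := by
      rw [← mul_assoc]
      exact mul_le_mul (by nlinarith) hs hz0 (by linarith)
    have b : (1 + sl / 4) * C ≤ 2 * C := mul_le_mul_of_nonneg_right (by linarith) hC
    linarith
  linarith [mul_nonneg h0.le hZ1]

variable {n : ℕ} {η D h : ℝ} {σ ν : St n → ℝ}

/-- The increments of the martingale are orthogonal to the past. -/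
private theorem integral_incr (hσ : Dens D σ) (hν : Dens D ν) (hh : 0 < h) (k i : ℕ) :
    Integrable (fun x : (St n × St n) × (St n × St n) =>
      nsq (wV σ ν h (k + i) x.2 - wV σ ν h k x.1)) (law2 hσ hν hh k i) ∧
    ∫ x, nsq (wV σ ν h (k + i) x.2 - wV σ ν h k x.1) ∂law2 hσ hν hh k i
      = Zk σ ν h (k + i) - Zk σ ν h k := by
  have := isProb_law2 hσ hν hh k i
  have hwm := measurable_wV (h := h) hσ hν k
  have hwm' := measurable_wV (h := h) hσ hν (k + i)
  have hw := nsq_wV_le (h := h) hσ hν k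
  have hw' := nsq_wV_le (h := h) hσ hν (k + i)
  have ib : ∀ (F : (St n × St n) × (St n × St n) → ℝ) (c : ℝ), Measurable F →
      (∀ x, |F x| ≤ c) → Integrable F (law2 hσ hν hh k i) := fun F c hF hFb =>
    Integrable.of_bound hF.aestronglyMeasurable c
      (Filter.Eventually.of_forall fun x => (Real.norm_eq_abs _).le.trans (hFb x))
  refine ⟨ib _ (16 * D)
    (measurable_nsq'.comp ((hwm'.comp measurable_snd).sub (hwm.comp measurable_fst))) (fun x => by
      rw [abs_of_nonneg (General.nsq_nonneg _)]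
      linarith [nsq_sub_le (wV σ ν h (k + i) x.2) (wV σ ν h k x.1), hw x.1, hw' x.2]), ?_⟩
  have i1 := ib (fun x => nsq (wV σ ν h (k + i) x.2)) (4 * D)
    (measurable_nsq'.comp (hwm'.comp measurable_snd))
    (fun x => by rw [abs_of_nonneg (General.nsq_nonneg _)]; exact hw' x.2)
  have i2 := ib (fun x => nsq (wV σ ν h k x.1)) (4 * D)
    (measurable_nsq'.comp (hwm.comp measurable_fst))
    (fun x => by rw [abs_of_nonneg (General.nsq_nonneg _)]; exact hw x.1)
  have i3 := ib (fun x => dotp (wV σ ν h k x.1) (wV σ ν h (k + i) x.2)) (4 * D)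
    (continuous_dotp2.measurable.comp
      ((hwm.comp measurable_fst).prodMk (hwm'.comp measurable_snd)))
    (fun x => (Gen2.abs_dotp_le _ _).trans (by linarith [hw x.1, hw' x.2]))
  have i12 : Integrable (fun x => nsq (wV σ ν h (k + i) x.2) + nsq (wV σ ν h k x.1))
      (law2 hσ hν hh k i) := i1.add i2
  have hm := law2_martingale hσ hν hh k i hwm (polyP_of_le fun p => by
    rw [abs_of_nonneg (General.nsq_nonneg _)]; exact hw p)
  simp only [nsq_sub_eq]
  rw [integral_sub i12 (i3.const_mul 2), integral_add i1 i2, integral_const_mul, hm,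
    integral_law2_snd hσ hν hh k i (P := fun p => nsq (wV σ ν h (k + i) p))
      (measurable_nsq'.comp hwm'),
    integral_law2_fst hσ hν hh k i (P := fun p => nsq (wV σ ν h k p))
      (measurable_nsq'.comp hwm)]
  simp only [← nsq_eq_dotp, Zk]
  ring

/-- The response to a shift `y` is compared with the pairing of an earlier shift `x`. -/
private theorem nsq_dBary_split (hu : Ulc η σ) {T c : ℝ} (hT : 0 < T) (hc : 0 < c) (θ x y : St n) :
    nsq (dBary σ T θ (T • y)) ≤ (1 + c) * (dotp (T • x) (dBary σ T θ (T • x)) / T)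
      + (1 + 1 / c) * nsq (y - x) := by
  refine (nsq_le_weighted _ (dBary σ T θ (T • x)) hc).trans ?_
  refine add_le_add (mul_le_mul_of_nonneg_left ?_ (by linarith))
    (mul_le_mul_of_nonneg_left ?_ (by positivity))
  · rw [le_div_iff₀ hT, mul_comm]
    refine le_trans ?_ (dBary_coco hu hT.le θ (T • x)).1
    exact mul_le_mul_of_nonneg_right (by linarith [hu.pos]) (General.nsq_nonneg _)
  · have e : dBary σ T θ (T • y) - dBary σ T θ (T • x)
        = dBary σ T (θ + T • x) (T • (y - x)) := by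
      simp only [dBary, smul_sub]
      rw [show θ + T • x + (T • y - T • x) = θ + T • y by abel]
      abel
    rw [e]
    refine (dBary_coco hu hT.le _ _).2.2.1.trans ?_
    rw [nsq_smul_of, div_le_iff₀ (by have := hu.pos; positivity), mul_comm (nsq _)]
    exact mul_le_mul_of_nonneg_right (pow_le_pow_left₀ hT.le (by linarith [hu.pos]) 2)
      (General.nsq_nonneg _)

/-- The response at a later time against the response of the vector known earlier. -/
private theorem mB2_le_incr (hu : Ulc η σ) (hσ : Dens D σ) (hν : Dens D ν) (hh : 0 < h) {T : ℝ}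
    (k i : ℕ) (hT : ((k + i : ℕ) : ℝ) * h = T) (hT0 : 0 < T) {c : ℝ} (hc : 0 < c) :
    mB2 σ ν h (k + i) ≤ (1 + c) * ((∫ p, fut σ (k * h) T (fun θ =>
        dotp (T • wV σ ν h k p) (dBary σ T θ (T • wV σ ν h k p))) p.1 ∂pairM σ ν h k) / T)
      + (1 + 1 / c) * (Zk σ ν h (k + i) - Zk σ ν h k) := by
  subst hT
  set T : ℝ := ((k + i : ℕ) : ℝ) * h with hT
  have := isProb_law2 hσ hν hh k i
  have hwm := measurable_wV (h := h) hσ hν k
  have hwm' := measurable_wV (h := h) hσ hν (k + i)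
  have hcont : Continuous fun q : St n × St n => dBary σ T q.1 q.2 :=
    ((continuous_bary hσ T).comp (continuous_fst.add continuous_snd)).sub
      ((continuous_bary hσ T).comp continuous_fst)
  let G : St n × St n → St n → ℝ := fun p θ =>
    dotp (T • wV σ ν h k p) (dBary σ T θ (T • wV σ ν h k p))
  have hGB : ∀ p θ, |G p θ| ≤ (T ^ 2 * (4 * D) + 4 * D) / 2 := fun p θ => by
    refine (Gen2.abs_dotp_le _ _).trans ?_
    have h1 : nsq (T • wV σ ν h k p) ≤ T ^ 2 * (4 * D) := by
      rw [nsq_smul_of]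
      exact mul_le_mul_of_nonneg_left (nsq_wV_le hσ hν k p) (sq_nonneg T)
    linarith [nsq_dBary_le hσ T θ (T • wV σ ν h k p)]
  have hGm : ∀ p, Measurable (G p) ∧ PolyB (G p) := fun p =>
    ⟨((continuous_dotp _).comp (hcont.comp (continuous_id.prodMk continuous_const))).measurable,
      ⟨(T ^ 2 * (4 * D) + 4 * D) / 2, 0, fun θ => by simpa using hGB p θ⟩⟩
  have hvm : Measurable fun x : (St n × St n) × (St n × St n) => T • wV σ ν h k x.1 :=
    (hwm.comp measurable_fst).const_smul T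
  have hGi : Integrable (fun x : (St n × St n) × (St n × St n) => G x.1 x.2.1)
      (law2 hσ hν hh k i) := by
    refine Integrable.of_bound ?_ ((T ^ 2 * (4 * D) + 4 * D) / 2)
      (Filter.Eventually.of_forall fun x => (Real.norm_eq_abs _).le.trans (hGB x.1 x.2.1))
    exact (continuous_dotp2.measurable.comp (hvm.prodMk (hcont.measurable.comp
      ((measurable_fst.comp measurable_snd).prodMk hvm)))).aestronglyMeasurable
  obtain ⟨hId, hd⟩ := integral_incr hσ hν hh k i
  have hwT : Measurable fun p : St n × St n => T • wV σ ν h (k + i) p := hwm'.const_smul T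
  have hBm : Measurable fun p : St n × St n =>
      nsq (dBary σ T p.1 (T • wV σ ν h (k + i) p)) := by
    have := measurable_nsq'.comp (hcont.measurable.comp (measurable_fst.prodMk hwT))
    simpa only [Function.comp_def] using this
  have hIB : Integrable (fun x : (St n × St n) × (St n × St n) =>
      nsq (dBary σ T x.2.1 (T • wV σ ν h (k + i) x.2))) (law2 hσ hν hh k i) :=
    Integrable.of_bound (hBm.comp measurable_snd).aestronglyMeasurable (4 * D)
      (Filter.Eventually.of_forall fun x => by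
        rw [Real.norm_eq_abs, abs_of_nonneg (General.nsq_nonneg _)]
        exact nsq_dBary_le hσ _ _ _)
  have hfut := law2_fut hu hσ hν hh k i hGm hGi
  have hR : Integrable (fun x : (St n × St n) × (St n × St n) => (1 + c) * (G x.1 x.2.1 / T)
      + (1 + 1 / c) * nsq (wV σ ν h (k + i) x.2 - wV σ ν h k x.1)) (law2 hσ hν hh k i) :=
    ((hGi.div_const T).const_mul _).add (hId.const_mul _)
  have hmain := integral_mono hIB hR fun x => nsq_dBary_split hu hT0 hc x.2.1 _ _
  rw [integral_law2_snd hσ hν hh k i hBm,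
    integral_add ((hGi.div_const T).const_mul _) (hId.const_mul _), integral_const_mul,
    integral_const_mul, integral_div, hd, hfut] at hmain
  exact hmain

theorem caseA : ∃ sl C A₀ : ℝ, 0 < sl ∧ sl < 1 ∧ 1 ≤ C ∧ 1 ≤ A₀ ∧ ∀ A : ℕ, A₀ ≤ A →
    ∃ K₀ : ℝ, 1 ≤ K₀ ∧ ∀ (n : ℕ) (η D K : ℝ) (ρ g ρ' : St n → ℝ), Base η D K ρ →
      K₀ * (1 + Real.log n) ^ 2 ≤ K → Tilted η D (64 / K) ρ g ρ' → ∀ᶠ N : ℕ in atTop,
        (let h := hN K N
         let Z := Zk ρ (nu ρ g) h
         ∀ t : ℕ, A ^ 4 * N ≤ t → t ≤ 2 * A ^ 4 * N →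
          (1 - sl ^ 2 / 64) * Z (2 * A ^ 4 * N) ≤ Z (128 * N) →
            mB2 ρ (nu ρ g) h t ≤ (1 - sl / 2) * Z (2 * A ^ 4 * N) + C * K / (A : ℝ) ^ 4) := by
  obtain ⟨sl, C, R₀, hsl, hsl1, hC, hR₀, hearly⟩ := early
  refine ⟨sl, max 1 (2 * C), max R₀ 4, hsl, hsl1, le_max_left _ _,
    le_trans (by norm_num) (le_max_right _ _), fun A hA => ?_⟩
  have hA4 : (4 : ℝ) ≤ A := (le_max_right _ _).trans hA
  have hA4' : 4 ≤ A := by exact_mod_cast hA4
  have hpow : 256 ≤ A ^ 4 := le_trans (by norm_num) (Nat.pow_le_pow_left hA4' 4)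
  obtain ⟨K₀, hK₀, hearly⟩ := hearly ((A : ℝ) ^ 4)
    (((le_max_left _ _).trans hA).trans (le_self_pow₀ (by linarith) (by norm_num)))
  refine ⟨K₀, hK₀, fun n η D K ρ g ρ' hb hK ht => ?_⟩
  filter_upwards [eventually_ge_atTop 1] with N hN1
  dsimp only
  intro t htl htu hZ
  have hνd : Dens D (nu ρ g) := dens_tilted hb ht
  have hσ := hb.dens
  have hK0 := hb.posK
  have hNR : (0 : ℝ) < N := by exact_mod_cast hN1
  obtain ⟨h, hh'⟩ : ∃ h, h = hN K N := ⟨_, rfl⟩
  rw [← hh'] at hZ ⊢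
  have hh : 0 < h := by rw [hh', hN]; positivity
  obtain ⟨i, rfl⟩ : ∃ i, t = 128 * N + i := ⟨t - 128 * N, by
    have : 128 * N ≤ A ^ 4 * N := Nat.mul_le_mul_right N (by omega)
    omega⟩
  have hkh : ((128 * N : ℕ) : ℝ) * h = 128 / K := by
    rw [hh', hN]; push_cast; field_simp
  have hNh : (N : ℝ) * h = 1 / K := by
    rw [hh', hN]; field_simp
  obtain ⟨T, hT⟩ : ∃ T, ((128 * N + i : ℕ) : ℝ) * h = T := ⟨_, rfl⟩
  have hTl : (A : ℝ) ^ 4 / K ≤ T := by
    have : ((A : ℝ) ^ 4 * N) * h ≤ T := by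
      rw [← hT]
      refine mul_le_mul_of_nonneg_right ?_ hh.le
      exact_mod_cast htl
    rwa [mul_assoc, hNh, mul_one_div] at this
  have hTu : T ≤ 2 * (A : ℝ) ^ 4 / K := by
    have : T ≤ (2 * (A : ℝ) ^ 4 * N) * h := by
      rw [← hT]
      refine mul_le_mul_of_nonneg_right ?_ hh.le
      exact_mod_cast htu
    rwa [mul_assoc _ (N : ℝ), hNh, mul_one_div] at this
  have hT0 : 0 < T := lt_of_lt_of_le (by positivity) hTl
  have := isProb_pairM hσ hνd hh (128 * N)
  have he := hearly n η D K ρ hb hK T hTl hTu (St n) (pairM ρ (nu ρ g) h (128 * N))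
    (by rw [(pair_marginals hσ hνd hh _).1, hkh]) (fun p => T • wV ρ (nu ρ g) h (128 * N) p)
    ((measurable_wV hσ hνd _).const_smul T)
    ⟨T ^ 2 * (4 * D), fun p => by
      rw [nsq_smul_of]
      exact mul_le_mul_of_nonneg_left (nsq_wV_le hσ hνd _ p) (sq_nonneg T)⟩
  have hB := mB2_le_incr hb.ulc hσ hνd hh (128 * N) i hT hT0 (c := sl / 4) (by positivity)
  rw [hkh] at hB
  simp only [nsq_smul_of, integral_const_mul] at he
  have hGT : (∫ p, fut ρ (128 / K) T (fun θ => dotp (T • wV ρ (nu ρ g) h (128 * N) p)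
        (dBary ρ T θ (T • wV ρ (nu ρ g) h (128 * N) p))) p.1 ∂pairM ρ (nu ρ g) h (128 * N)) / T
      ≤ (1 - sl) * Zk ρ (nu ρ g) h (128 * N) + C * K / (A : ℝ) ^ 4 := by
    rw [div_le_iff₀ hT0]
    refine he.trans ?_
    rw [add_mul]
    refine add_le_add (le_of_eq (by rw [Zk]; field_simp)) ?_
    rw [div_le_iff₀ hK0] at hTl
    rw [div_mul_eq_mul_div, le_div_iff₀ (by positivity)]
    calc C * (A : ℝ) ^ 4 ≤ C * (T * K) := mul_le_mul_of_nonneg_left hTl hC.le
      _ = C * K * T := by ring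
  have hB' := hB.trans (add_le_add (mul_le_mul_of_nonneg_left hGT (by positivity)) le_rfl)
  refine (early_arith hsl hsl1 (by positivity) hZ (Zk_mono hσ hνd hh (by omega))
    (Zk_mono hσ hνd hh htu) (integral_nonneg fun p => General.nsq_nonneg _) hB').trans
      (add_le_add le_rfl ?_)
  rw [← mul_div_assoc, ← mul_assoc]
  gcongr
  exact le_max_right _ _

end Vale.Agent.P245.Gen2
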