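import Vale.Agent.P245.Gen2.CRec

/-!
# P245, polylogarithmic bound: saturation at a late time
-/

open MeasureTheory Filter

namespace Vale.Agent.P245.Gen2

open General

private theorem ent_nonneg_of_mass {n : ℕ} {μ : Measure (St n)} [IsProbabilityMeasure μ]
    {g : St n → ℝ} (hm : Measurable g) (hb : ∃ lo hi : ℝ, 0 < lo ∧ ∀ x, lo ≤ g x ∧ g x ≤ hi)
    (h1 : ∫ x, g x ∂μ = 1) : 0 ≤ ent μ g := by
  obtain ⟨lo, hi, hlo, hg⟩ := hb
  have ig : Integrable g μ := Integrable.of_bound hm.aestronglyMeasurable hi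
    (Eventually.of_forall fun x => by
      rw [Real.norm_eq_abs, abs_of_pos (hlo.trans_le (hg x).1)]; exact (hg x).2)
  have il : Integrable (fun x => g x * Real.log (g x)) μ := by
    refine Integrable.of_bound (hm.mul (Real.measurable_log.comp hm)).aestronglyMeasurable
      (hi * (|Real.log lo| + |Real.log hi|)) (Eventually.of_forall fun x => ?_)
    have hx := hlo.trans_le (hg x).1
    have a1 := Real.log_le_log hlo (hg x).1
    have a2 := Real.log_le_log hx (hg x).2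
    rw [Real.norm_eq_abs, abs_mul, abs_of_pos hx]
    refine mul_le_mul (hg x).2 ?_ (abs_nonneg _) (hx.le.trans (hg x).2)
    rw [abs_le]
    constructor <;> linarith [neg_abs_le (Real.log lo), le_abs_self (Real.log hi),
      abs_nonneg (Real.log lo), abs_nonneg (Real.log hi)]
  have h2 : ∫ x, (g x - 1) ∂μ ≤ ∫ x, g x * Real.log (g x) ∂μ := by
    refine integral_mono (ig.sub (integrable_const 1)) il fun x => ?_
    have hx := hlo.trans_le (hg x).1
    have := mul_le_mul_of_nonneg_left (Real.one_sub_inv_le_log_of_pos hx) hx.le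
    rw [mul_sub, mul_one, mul_inv_cancel₀ hx.ne'] at this
    exact this
  rw [integral_sub ig (integrable_const 1), h1, integral_const, probReal_univ, one_smul,
    sub_self] at h2
  rw [ent, h1, Real.log_one, mul_zero, sub_zero]
  exact h2

private theorem nsq_sub_smul {n : ℕ} (d w : St n) (T : ℝ) :
    nsq (d - T • w) = nsq d - 2 * T * dotp d w + T ^ 2 * nsq w := by
  simp only [nsq, dotp, Pi.sub_apply, Pi.smul_apply, smul_eq_mul, Finset.mul_sum,
    ← Finset.sum_add_distrib, ← Finset.sum_sub_distrib]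
  exact Finset.sum_congr rfl fun i _ => by ring

private theorem nsq_add_le {n : ℕ} (x y : St n) : nsq (x + y) ≤ 2 * nsq x + 2 * nsq y := by
  simp only [nsq, Pi.add_apply, Finset.mul_sum, ← Finset.sum_add_distrib]
  exact Finset.sum_le_sum fun i _ => by nlinarith [sq_nonneg (x i - y i)]

/-- The difference of the barycentres is nearly the response to the shift it predicts. -/
private theorem Zk_le_mB2 {n : ℕ} {η D h : ℝ} {σ ν : St n → ℝ} (hρ : Ulc η σ) (hσ : Dens D σ)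
    (hν : Dens D ν) (hh : 0 < h) {k : ℕ} (hk : 1 ≤ k) {c : ℝ} (hc : 0 < c) :
    Zk σ ν h k ≤ (1 + c) * mB2 σ ν h k + (1 + 1 / c) * (2 * mU σ ν h k
      + 2 * ((mD2 σ ν h k - 2 * ((k : ℝ) * h) * mDw σ ν h k + ((k : ℝ) * h) ^ 2 * Zk σ ν h k)
        / ((k : ℝ) * h) ^ 2)) := by
  set T := (k : ℝ) * h with hT
  have hT0 : 0 < T := mul_pos (Nat.cast_pos.2 (by omega)) hh
  have hd : Measurable (delta : St n × St n → St n) := measurable_snd.sub measurable_fst
  have iD : Integrable (fun p => nsq (delta p)) (pairM σ ν h k) :=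
    (integrable_pair hσ hν hh k 0 (0, 0) (measurable_nsq'.comp hd) polyP_nsq_delta).1
  have bd : ∀ {F : St n × St n → ℝ}, Measurable F → (∀ p, 0 ≤ F p ∧ F p ≤ 4 * D) →
      Integrable F (pairM σ ν h k) := fun hm hF =>
    (integrable_pair hσ hν hh k 0 (0, 0) hm
      (polyP_of_le (c := 4 * D) fun p => by rw [abs_of_nonneg (hF p).1]; exact (hF p).2)).1
  have iZ : Integrable (fun p => nsq (wV σ ν h k p)) (pairM σ ν h k) :=
    bd (measurable_nsq'.comp (measurable_wV hσ hν k))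
      fun p => ⟨nsq_nonneg _, nsq_wV_le hσ hν k p⟩
  have iU : Integrable (fun p => nsq (uV σ ν h k p)) (pairM σ ν h k) :=
    bd (measurable_nsq'.comp (measurable_uV hσ hν k))
      fun p => ⟨nsq_nonneg _, nsq_uV_le hσ hν k p⟩
  have iB : Integrable (fun p => nsq (dBary σ T p.1 (T • wV σ ν h k p))) (pairM σ ν h k) := by
    refine bd (measurable_nsq'.comp ?_) fun p => ⟨nsq_nonneg _, nsq_dBary_le hσ _ _ _⟩
    exact ((measurable_bary hσ T).comp (measurable_fst.add ((measurable_wV hσ hν k).const_smul T))).sub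
      ((measurable_bary hσ T).comp measurable_fst)
  have iW : Integrable (fun p => dotp (delta p) (wV σ ν h k p)) (pairM σ ν h k) := by
    refine Integrable.mono' ((iD.add iZ).div_const 2)
      (continuous_dotp2.measurable.comp (hd.prodMk (measurable_wV hσ hν k))).aestronglyMeasurable
      (Eventually.of_forall fun p => ?_)
    rw [Real.norm_eq_abs]
    exact abs_dotp_le _ _
  set R := fun p => 2 * nsq (uV σ ν h k p) + 2 * ((nsq (delta p)
      - 2 * T * dotp (delta p) (wV σ ν h k p) + T ^ 2 * nsq (wV σ ν h k p)) / T ^ 2) with hR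
  have iQ : Integrable (fun p => nsq (delta p) - 2 * T * dotp (delta p) (wV σ ν h k p)
      + T ^ 2 * nsq (wV σ ν h k p)) (pairM σ ν h k) :=
    (iD.sub (iW.const_mul (2 * T))).add (iZ.const_mul (T ^ 2))
  have iR : Integrable R (pairM σ ν h k) :=
    (iU.const_mul 2).add ((iQ.div_const (T ^ 2)).const_mul 2)
  have pt : ∀ p, nsq (wV σ ν h k p) ≤ (1 + c) * nsq (dBary σ T p.1 (T • wV σ ν h k p))
      + (1 + 1 / c) * R p := by
    intro p
    refine (nsq_le_weighted _ (dBary σ T p.1 (T • wV σ ν h k p)) hc).trans ?_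
    refine add_le_add le_rfl (mul_le_mul_of_nonneg_left ?_ (by positivity))
    have e : wV σ ν h k p - dBary σ T p.1 (T • wV σ ν h k p) = uV σ ν h k p
        + dBary σ T (p.1 + T • wV σ ν h k p) (delta p - T • wV σ ν h k p) := by
      have e' : p.1 + T • wV σ ν h k p + (delta p - T • wV σ ν h k p) = p.2 := by
        simp only [delta]; abel
      rw [dBary, dBary, e']
      simp only [wV, uV, ← hT]
      abel
    rw [e]
    refine (nsq_add_le _ _).trans ?_
    refine add_le_add le_rfl (mul_le_mul_of_nonneg_left ?_ (by norm_num))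
    refine ((dBary_coco hρ hT0.le _ _).2.2.1).trans ?_
    rw [← nsq_sub_smul]
    refine div_le_div_of_nonneg_left (nsq_nonneg _) (by positivity) ?_
    exact pow_le_pow_left₀ hT0.le (by linarith [hρ.pos]) 2
  have := integral_mono iZ ((iB.const_mul (1 + c)).add (iR.const_mul (1 + 1 / c))) pt
  rw [integral_add' (iB.const_mul _) (iR.const_mul _), integral_const_mul, integral_const_mul,
    hR, integral_add (iU.const_mul 2) ((iQ.div_const _).const_mul 2), integral_const_mul,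
    integral_const_mul, integral_div,
    integral_add (iD.sub' (iW.const_mul (2 * T))) (iZ.const_mul (T ^ 2)),
    integral_sub iD (iW.const_mul (2 * T)), integral_const_mul, integral_const_mul] at this
  exact this

/-- From the two bounds on the displacement over time to the saturation of `Z`. -/
private theorem first_alg {sZ sA a y z : ℝ} (hsA : sA ^ 2 = a) (hsA1 : 1 ≤ sA) (hz0 : 0 ≤ z)
    (hz : z ≤ sZ) (low : (1 - 3 / a) * sZ ≤ y + sZ / sA)
    (up : y ≤ z + 9 * sZ / sA + sZ / sA) : sZ ^ 2 - z ^ 2 ≤ 28 / sA * sZ ^ 2 := by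
  have hA0 : 0 < sA := by linarith
  have hZ0 : 0 ≤ sZ := hz0.trans hz
  set q := sZ / sA with hq
  have hq0 : 0 ≤ q := by positivity
  have d : 3 / a * sZ ≤ 3 * q := by
    rw [← hsA, hq, show 3 / sA ^ 2 * sZ = 3 * (sZ / sA ^ 2) by ring]
    exact mul_le_mul_of_nonneg_left
      (div_le_div_of_nonneg_left hZ0 hA0 (le_self_pow₀ hsA1 (by norm_num))) (by norm_num)
  have up' : y ≤ z + 10 * q := by
    have : 9 * sZ / sA = 9 * q := by rw [hq]; ring
    linarith
  have low' : sZ - 3 * q ≤ y + q := by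
    rw [sub_mul, one_mul] at low
    linarith
  have e : sZ - z ≤ 14 * q := by linarith
  calc sZ ^ 2 - z ^ 2 = (sZ - z) * (sZ + z) := by ring
    _ ≤ 14 * q * (2 * sZ) := mul_le_mul e (by linarith) (by linarith) (by positivity)
    _ = 28 / sA * sZ ^ 2 := by rw [hq]; ring

/-- The algebra at the chosen time. -/
private theorem second_alg {Z1 Zt U Q mB e : ℝ} (he0 : 0 < e) (he1 : e ≤ 1) (hZ0 : 0 ≤ Z1)
    (hU : U ≤ 65 * e ^ 2 * Z1) (hQ : Q ≤ 59 * e ^ 2 * Z1) (hZt : (1 - 28 * e) * Z1 ≤ Zt)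
    (main : Zt ≤ (1 + e) * mB + (1 + 1 / e) * (2 * U + 2 * Q)) :
    (1 - 600 * e) * Z1 ≤ mB := by
  have hee : e ^ 2 ≤ e := by rw [pow_two]; exact mul_le_of_le_one_left he0.le he1
  have m1 : (1 + 1 / e) * (2 * U + 2 * Q) ≤ 496 * e * Z1 := by
    refine (mul_le_mul_of_nonneg_left (show _ ≤ 248 * e ^ 2 * Z1 by linarith) (by positivity)).trans
      ?_
    rw [show (1 + 1 / e) * (248 * e ^ 2 * Z1) = 248 * (e ^ 2 + e) * Z1 by field_simp]
    exact mul_le_mul_of_nonneg_right (by linarith) hZ0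
  have m2 : (1 + e) * (1 - 600 * e) * Z1 ≤ (1 - 524 * e) * Z1 :=
    mul_le_mul_of_nonneg_right (by nlinarith) hZ0
  refine le_of_mul_le_mul_left ?_ (by linarith : (0 : ℝ) < 1 + e)
  linarith

/-- The deterministic part. -/
private theorem late_core {K E S p : ℝ} {A N : ℕ} {d2 dw Z U mB : ℕ → ℝ} (hA : 4 ≤ A) (hN1 : 1 ≤ N)
    (hK : 1 ≤ K) (hS : S = (A : ℝ) ^ 5 / K) (hr₁ : (A : ℝ) / K ≤ 1) (hp : 0 ≤ p)
    (hh1 : hN K N ≤ 1)
    (hr : Seq.Rec (hN K N) E (A ^ 5 * N) d2 dw Z) (hU : ∀ k, 0 ≤ U k)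
    (hBud : hN K N * ∑ k ∈ Finset.range (A ^ 5 * N), U k ≤ 2 * p + E * Real.sqrt (hN K N))
    (hdw : ∀ k, 1 ≤ k → k ≤ A ^ 5 * N → dw k ≤ Real.sqrt (d2 k) * Real.sqrt (U k)
      + d2 k / ((k : ℝ) * hN K N))
    (hB : ∀ k : ℕ, 1 ≤ k → ∀ c : ℝ, 0 < c → Z k ≤ (1 + c) * mB k + (1 + 1 / c) * (2 * U k
      + 2 * ((d2 k - 2 * ((k : ℝ) * hN K N) * dw k + ((k : ℝ) * hN K N) ^ 2 * Z k)
        / ((k : ℝ) * hN K N) ^ 2)))
    (e1 : E * K * Real.sqrt (hN K N) ≤ 1 / 32)
    (e2 : 3 * E * (1 + S) ^ 2 * Real.sqrt (hN K N) ≤ S ^ 2 / (32 * A))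
    (e3 : 10 * (1 + E) * (1 + S) ^ 2 / ((A : ℝ) / K) * Real.sqrt (Real.sqrt (hN K N))
      ≤ 1 / (6 * A))
    (e4 : 9 * E * (1 + S) ^ 2 * Real.sqrt (hN K N) ≤ ((A : ℝ) ^ 4 / K) ^ 2 / (32 * A))
    (hZ : K / 32 * (p + 1) < Z (32 * N)) :
    Z (2 * A ^ 4 * N) - Z (A * N) ≤ 600 / Real.sqrt A * Z (2 * A ^ 4 * N) ∧
      ∃ t : ℕ, A ^ 4 * N ≤ t ∧ t ≤ 2 * A ^ 4 * N ∧
        (1 - 600 / Real.sqrt (Real.sqrt A)) * Z (2 * A ^ 4 * N) ≤ mB t := by
  set h := hN K N with hh
  set a := (A : ℝ) with ha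
  have ha4 : 4 ≤ a := by rw [ha]; exact_mod_cast hA
  have ha0 : 0 < a := by linarith
  have hK0 : 0 < K := by linarith
  have hN0 : (0 : ℝ) < N := Nat.cast_pos.2 hN1
  have hh0 : 0 < h := hr.hpos
  have hE := hr.epos
  have hNh : (N : ℝ) * h = 1 / K := by rw [hh, hN]; field_simp
  -- times
  have tM : ((A ^ 5 * N : ℕ) : ℝ) * h = S := by
    push_cast; rw [mul_assoc, hNh, hS]; ring
  have tq : ((A * N : ℕ) : ℝ) * h = a / K := by
    push_cast; rw [mul_assoc, hNh]; ring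
  have t4 : ((A ^ 4 * N : ℕ) : ℝ) * h = a ^ 4 / K := by
    push_cast; rw [mul_assoc, hNh]; ring
  -- indices
  have iq : A * N ≤ A ^ 4 * N := Nat.mul_le_mul_right N (Nat.le_self_pow (by norm_num) A)
  have i45 : 2 * A ^ 4 * N < A ^ 5 * N := by
    refine Nat.mul_lt_mul_of_pos_right ?_ hN1
    rw [pow_succ A 4, mul_comm 2]
    exact Nat.mul_lt_mul_of_pos_left (by omega) (by positivity)
  have i44 : A ^ 4 * N ≤ 2 * A ^ 4 * N :=
    Nat.mul_le_mul_right N (Nat.le_mul_of_pos_left _ (by norm_num))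
  have i32 : 32 * N ≤ 2 * A ^ 4 * N := by
    refine Nat.mul_le_mul_right N ?_
    have := Nat.pow_le_pow_left hA 4
    omega
  have iq1 : 1 ≤ A * N := Nat.mul_pos (by omega) hN1
  set Z1 := Z (2 * A ^ 4 * N) with hZ1
  set Zr := Z (A * N) with hZr
  have hrZ : Zr ≤ Z1 := hr.Zmono _ _ (iq.trans i44) i45.le
  have hp1 : K / 32 * (p + 1) < Z1 := hZ.trans_le (hr.Zmono _ _ i32 i45.le)
  have hKZ : K / 32 ≤ Z1 := by
    have : K / 32 * 1 ≤ K / 32 * (p + 1) := mul_le_mul_of_nonneg_left (by linarith) (by positivity)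
    linarith
  have hZ32 : 1 / 32 ≤ Z1 := le_trans (by linarith) hKZ
  have hZ0 : 0 ≤ Z1 := by linarith
  have hBK : (2 * p + E * Real.sqrt h) * K ≤ 65 * Z1 := by
    have : K * 1 ≥ 0 := by linarith
    linarith
  set sA := Real.sqrt a with hsA
  set sZ := Real.sqrt Z1 with hsZ
  have hsA2 : sA ^ 2 = a := Real.sq_sqrt ha0.le
  have hsA1 : 1 ≤ sA := Real.one_le_sqrt.2 (by linarith)
  have hsAa : sA ≤ a := by rw [← hsA2]; exact le_self_pow₀ hsA1 (by norm_num)
  have hsA0 : 0 < sA := by linarith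
  have hsZ2 : sZ ^ 2 = Z1 := Real.sq_sqrt hZ0
  have hsZ6 : 1 / 6 ≤ sZ := Real.le_sqrt_of_sq_le (by linarith)
  have hsZ0 : 0 ≤ sZ := by linarith
  have hsmall : 1 / (32 * a) ≤ Z1 / a := by
    rw [← div_div]; exact div_le_div_of_nonneg_right hZ32 ha0.le
  -- the first inequality
  set y := Real.sqrt (d2 (A ^ 5 * N)) / S with hy
  have hS0 : 0 < S := by rw [hS]; positivity
  have low : (1 - 3 / a) * sZ ≤ y + sZ / sA := by
    have g := Seq.d2_ge hr hh1 tM.le i45 le_rfl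
    have hlen : S * (1 - 3 / a) ≤ ((A ^ 5 * N - 2 * A ^ 4 * N - 1 : ℕ) : ℝ) * h := by
      rw [Nat.sub_sub, Nat.cast_sub (by omega), sub_mul, tM]
      push_cast
      rw [add_mul, one_mul, mul_assoc, hNh]
      have e : S * (1 - 3 / a) = S - 3 * (a ^ 4 / K) := by rw [hS]; field_simp
      have hle : h ≤ a ^ 4 / K := by
        rw [← t4]
        exact le_mul_of_one_le_left hh0.le (Nat.one_le_cast.2 (Nat.mul_pos (by positivity) hN1))
      rw [e]
      linarith [show 2 * a ^ 4 * (1 / K) = 2 * (a ^ 4 / K) by ring]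
    have h3 : 0 ≤ 1 - 3 / a := by rw [sub_nonneg, div_le_one ha0]; linarith
    have g2 : (S * (1 - 3 / a)) ^ 2 * Z1 ≤ d2 (A ^ 5 * N) + S ^ 2 * (Z1 / a) := by
      refine (mul_le_mul_of_nonneg_right (pow_le_pow_left₀ (by positivity) hlen 2) hZ0).trans ?_
      refine g.trans (add_le_add le_rfl (e2.trans ?_))
      rw [div_eq_mul_one_div (S ^ 2)]
      exact mul_le_mul_of_nonneg_left hsmall (sq_nonneg S)
    have hy2 : y ^ 2 = d2 (A ^ 5 * N) / S ^ 2 := by rw [hy, div_pow, Real.sq_sqrt (hr.d2nonneg _)]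
    have hy0 : 0 ≤ y := by positivity
    have g3 : ((1 - 3 / a) * sZ) ^ 2 ≤ y ^ 2 + (sZ / sA) ^ 2 := by
      rw [mul_pow, hy2, hsZ2, div_pow sZ sA 2, hsZ2, hsA2, div_add' _ _ _ (by positivity),
        le_div_iff₀ (by positivity)]
      linarith
    refine (pow_le_pow_iff_left₀ (by positivity) (by positivity) (by norm_num : 2 ≠ 0)).1 ?_
    have : 0 ≤ y * (sZ / sA) := by positivity
    linarith
  have up : y ≤ Real.sqrt Zr + 9 * sZ / sA + sZ / sA := by
    have hq : a / K ≤ ((A * N : ℕ) : ℝ) * h := tq.ge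
    have g := Seq.hardy hr hh1 tM.le (by positivity) hr₁ hU hBud hq
      ((iq.trans i44).trans i45.le) le_rfl
      fun k hk hk' => hdw k (iq1.trans hk) hk'.le
    rw [tM, tq] at g
    have g1 : Real.sqrt ((2 * p + E * Real.sqrt h) / (a / K)) ≤ 9 * sZ / sA := by
      rw [Real.sqrt_le_iff]
      refine ⟨by positivity, ?_⟩
      rw [div_div_eq_mul_div, div_pow, mul_pow, hsZ2, hsA2]
      exact div_le_div_of_nonneg_right (by linarith) ha0.le
    have g2 : 1 / (6 * a) ≤ sZ / sA := by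
      rw [← div_div]
      exact div_le_div₀ hsZ0 hsZ6 hsA0 hsAa
    linarith
  have first : Z1 - Zr ≤ 28 / sA * Z1 := by
    have := first_alg hsA2 hsA1 (Real.sqrt_nonneg Zr) (Real.sqrt_le_sqrt hrZ) low up
    rwa [Real.sq_sqrt (hr.Znonneg (A * N) : 0 ≤ Zr), hsZ2] at this
  refine ⟨first.trans (mul_le_mul_of_nonneg_right (by gcongr; norm_num) hZ0), ?_⟩
  -- the time
  obtain ⟨t, htm, htU⟩ : ∃ t ∈ Finset.Ico (A ^ 4 * N) (2 * A ^ 4 * N),
      U t ≤ 65 * Z1 / a ^ 4 := by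
    have hpos : 0 < A ^ 4 * N := Nat.mul_pos (by positivity) hN1
    have hne : (Finset.Ico (A ^ 4 * N) (2 * A ^ 4 * N)).Nonempty := by
      rw [Finset.nonempty_Ico, mul_assoc]; omega
    refine Finset.exists_le_of_sum_le hne ?_
    rw [Finset.sum_const, Nat.card_Ico, nsmul_eq_mul, show 2 * A ^ 4 * N - A ^ 4 * N = A ^ 4 * N by
      rw [mul_assoc]; omega]
    have h1 : h * ∑ k ∈ Finset.Ico (A ^ 4 * N) (2 * A ^ 4 * N), U k ≤ 2 * p + E * Real.sqrt h := by
      refine le_trans (mul_le_mul_of_nonneg_left ?_ hh0.le) hBud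
      exact Finset.sum_le_sum_of_subset_of_nonneg
        (fun l hl => Finset.mem_range.2 (lt_trans (Finset.mem_Ico.1 hl).2 i45)) fun l _ _ => hU l
    refine le_of_mul_le_mul_left (h1.trans ?_) hh0
    have e : h * (((A ^ 4 * N : ℕ) : ℝ) * (65 * Z1 / a ^ 4)) = 65 * Z1 / K := by
      rw [← mul_assoc, mul_comm h, t4]; field_simp
    rw [e, le_div_iff₀ hK0]
    exact hBK
  rw [Finset.mem_Ico] at htm
  refine ⟨t, htm.1, htm.2.le, ?_⟩
  set T := (t : ℝ) * h with hT
  have hT4 : a ^ 4 / K ≤ T := by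
    rw [← t4]; exact mul_le_mul_of_nonneg_right (Nat.cast_le.2 htm.1) hh0.le
  have hT0 : 0 < T := lt_of_lt_of_le (by positivity) hT4
  have htN : t ≤ A ^ 5 * N := (htm.2.trans i45).le
  set e := 1 / Real.sqrt sA with he
  have he0 : 0 < e := by positivity
  have he2 : e ^ 2 = 1 / sA := by rw [he, div_pow, one_pow, Real.sq_sqrt hsA0.le]
  have he1 : e ≤ 1 := by rw [he, div_le_one (by positivity)]; exact Real.one_le_sqrt.2 hsA1
  have hee : e ^ 2 ≤ e := by rw [pow_two]; exact mul_le_of_le_one_left he0.le he1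
  have hae : 1 / a ≤ e ^ 2 := by rw [he2]; exact one_div_le_one_div_of_le hsA0 hsAa
  -- the gap
  have gap : (d2 t - 2 * T * dw t + T ^ 2 * Z t) / T ^ 2 ≤ 59 * e ^ 2 * Z1 := by
    rw [div_le_iff₀ (by positivity)]
    refine (Seq.gap_le hr hh1 tM.le (r := A * N) (iq.trans htm.1) htN).trans ?_
    rw [tq]
    have u1 : 2 * T ^ 2 * (Z t - Zr) ≤ 2 * T ^ 2 * (28 * e ^ 2 * Z1) := by
      refine mul_le_mul_of_nonneg_left ?_ (by positivity)
      have := hr.Zmono t (2 * A ^ 4 * N) htm.2.le i45.le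
      rw [he2, mul_one_div]
      linarith
    have u2 : 2 * T * (a / K) * Z t ≤ 2 * T * (T * e ^ 2) * Z1 := by
      refine mul_le_mul (mul_le_mul_of_nonneg_left ?_ (by positivity))
        (hr.Zmono t (2 * A ^ 4 * N) htm.2.le i45.le) (hr.Znonneg t) (by positivity)
      refine le_trans ?_ (mul_le_mul hT4 hae (by positivity) hT0.le)
      rw [show a ^ 4 / K * (1 / a) = a ^ 3 / K by field_simp]
      exact div_le_div_of_nonneg_right (le_self_pow₀ (by linarith) (by norm_num)) hK0.le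
    have u3 : 9 * E * (1 + S) ^ 2 * Real.sqrt h ≤ T ^ 2 * (e ^ 2 * Z1) := by
      refine e4.trans ?_
      rw [div_eq_mul_one_div ((a ^ 4 / K) ^ 2)]
      refine mul_le_mul (pow_le_pow_left₀ (by positivity) hT4 2) ?_ (by positivity) (by positivity)
      refine hsmall.trans ?_
      rw [div_eq_mul_one_div, mul_comm Z1]
      exact mul_le_mul_of_nonneg_right hae hZ0
    linarith
  have hU2 : U t ≤ 65 * e ^ 2 * Z1 := by
    refine htU.trans ?_
    rw [show 65 * Z1 / a ^ 4 = 65 * (1 / a ^ 4) * Z1 by ring]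
    refine mul_le_mul_of_nonneg_right (mul_le_mul_of_nonneg_left (le_trans ?_ hae) (by norm_num)) hZ0
    exact one_div_le_one_div_of_le ha0 (le_self_pow₀ (by linarith) (by norm_num))
  have m2 : (1 - 28 * e) * Z1 ≤ Z t := by
    refine le_trans ?_ (hr.Zmono (A * N) t (iq.trans htm.1) htN)
    have : 28 / sA * Z1 ≤ 28 * e * Z1 := by
      refine mul_le_mul_of_nonneg_right ?_ hZ0
      rw [div_eq_mul_one_div, ← he2]
      linarith
    linarith
  have := second_alg he0 he1 hZ0 hU2 gap m2 (hB t (iq1.trans (iq.trans htm.1)) e he0)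
  rwa [show 600 / Real.sqrt sA = 600 * e by rw [he]; ring]

theorem late : ∃ C A₀ : ℝ, 1 ≤ C ∧ 1 ≤ A₀ ∧ ∀ A : ℕ, A₀ ≤ A →
    ∀ (n : ℕ) (η D K : ℝ) (ρ g ρ' : St n → ℝ), Base η D K ρ → (A : ℝ) ^ 6 ≤ K →
      Tilted η D (64 / K) ρ g ρ' → ∀ᶠ N : ℕ in atTop,
        (let h := hN K N
         let Z := Zk ρ (nu ρ g) h
         K / 32 * (ent (law ρ) g + 1) < Z (32 * N) →
          Z (2 * A ^ 4 * N) - Z (A * N) ≤ C / Real.sqrt A * Z (2 * A ^ 4 * N) ∧
          ∃ t : ℕ, A ^ 4 * N ≤ t ∧ t ≤ 2 * A ^ 4 * N ∧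
            (1 - C / Real.sqrt (Real.sqrt A)) * Z (2 * A ^ 4 * N) ≤ mB2 ρ (nu ρ g) h t) := by
  refine ⟨600, 4, by norm_num, by norm_num, fun A hA n η D K ρ g ρ' hb hK ht => ?_⟩
  have hA4 : 4 ≤ A := by exact_mod_cast hA
  have hK1 : 1 ≤ K := le_trans (one_le_pow₀ (by linarith)) hK
  have hK0 : 0 < K := by linarith
  have ha0 : 0 < (A : ℝ) := by linarith
  have hr1 : (A : ℝ) / K ≤ 1 :=
    (div_le_one hK0).2 ((le_self_pow₀ (by linarith) (by norm_num)).trans hK)
  set S := (A : ℝ) ^ 5 / K with hS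
  have hS0 : 0 < S := by positivity
  obtain ⟨E, hE, hrec⟩ := rec_bounds hb ht S
  have := dens_isProb hb.dens
  have hp := ent_nonneg_of_mass ht.gmeas ht.bdd ht.gmass
  have lim : Tendsto (fun N : ℕ => hN K N) atTop (nhds 0) := by
    have := (tendsto_one_div_atTop_nhds_zero_nat (𝕜 := ℝ)).const_mul (1 / K)
    rw [mul_zero] at this
    exact this.congr fun N => by rw [hN]; ring
  have small : ∀ c : ℝ, ∀ δ : ℝ, 0 < δ → ∀ᶠ N : ℕ in atTop,
      c * Real.sqrt (hN K N) ≤ δ ∧ c * Real.sqrt (Real.sqrt (hN K N)) ≤ δ := by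
    intro c δ hδ
    have l1 := lim.sqrt
    rw [Real.sqrt_zero] at l1
    have l2 := l1.sqrt
    rw [Real.sqrt_zero] at l2
    have a1 := l1.const_mul c
    have a2 := l2.const_mul c
    rw [mul_zero] at a1 a2
    exact (a1.eventually (ge_mem_nhds hδ)).and (a2.eventually (ge_mem_nhds hδ))
  filter_upwards [eventually_ge_atTop 1, lim.eventually (ge_mem_nhds zero_lt_one),
    small (E * K) (1 / 32) (by norm_num),
    small (3 * E * (1 + S) ^ 2) (S ^ 2 / (32 * A)) (by positivity),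
    small (10 * (1 + E) * (1 + S) ^ 2 / ((A : ℝ) / K)) (1 / (6 * A)) (by positivity),
    small (9 * E * (1 + S) ^ 2) (((A : ℝ) ^ 4 / K) ^ 2 / (32 * A)) (by positivity)]
    with N hN1 hh1 e1 e2 e3 e4
  intro h Z hZ
  have hh0 : 0 < hN K N := by
    have : (0 : ℝ) < N := Nat.cast_pos.2 hN1
    rw [hN]; positivity
  have tM : ((A ^ 5 * N : ℕ) : ℝ) * hN K N = S := by
    have : (0 : ℝ) < N := Nat.cast_pos.2 hN1
    rw [hN, hS]; push_cast; field_simp
  obtain ⟨hr, hbud, hdw⟩ := hrec (hN K N) hh0 hh1 (A ^ 5 * N) tM.le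
  exact late_core (U := mU ρ (nu ρ g) h) (mB := mB2 ρ (nu ρ g) h) hA4 hN1 hK1 rfl hr1 hp hh1 hr
    (fun k => integral_nonneg fun p => nsq_nonneg _) hbud hdw
    (fun k hk c hc => Zk_le_mB2 hb.ulc hb.dens (dens_tilted hb ht) hh0 hk hc)
    e1.1 e2.1 e3.2 e4.1 hZ

end Vale.Agent.P245.Gen2
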