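import Vale.Agent.P245.Gen2.StepOne

/-!
# P245, polylogarithmic bound: several steps from a fixed state
-/

open MeasureTheory Matrix

namespace Vale.Agent.P245.Gen2

open General

noncomputable section

variable {n : ℕ} {η D K τ h : ℝ} {σ ν ρ g ρ' : St n → ℝ}

/-- The Cauchy-Schwarz inequality for bounded functions. -/
theorem cs_bdd {α : Type*} [MeasurableSpace α] {μ : Measure α} [IsProbabilityMeasure μ]
    {u v : α → ℝ} (hu : Measurable u) (hv : Measurable v) {A B : ℝ} (hA : ∀ x, |u x| ≤ A)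
    (hB : ∀ x, |v x| ≤ B) :
    (∫ x, u x * v x ∂μ) ^ 2 ≤ (∫ x, u x ^ 2 ∂μ) * ∫ x, v x ^ 2 ∂μ ∧
      ∫ x, u x * v x ∂μ ≤ Real.sqrt (∫ x, u x ^ 2 ∂μ) * Real.sqrt (∫ x, v x ^ 2 ∂μ) := by
  have hb : ∀ {w : α → ℝ} {C : ℝ}, Measurable w → (∀ x, |w x| ≤ C) → Integrable w μ :=
    fun hw hC => Integrable.of_bound hw.aestronglyMeasurable _
      (Filter.Eventually.of_forall fun x => by simpa using hC x)
  have i1 : Integrable (fun x => u x * v x) μ := hb (hu.mul hv) (C := A * B) fun x => by
    rw [abs_mul]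
    exact mul_le_mul (hA x) (hB x) (abs_nonneg _) ((abs_nonneg _).trans (hA x))
  have i2 : Integrable (fun x => u x ^ 2) μ := hb (hu.pow_const 2) (C := A ^ 2) fun x => by
    rw [abs_pow]; exact pow_le_pow_left₀ (abs_nonneg _) (hA x) 2
  have i3 : Integrable (fun x => v x ^ 2) μ := hb (hv.pow_const 2) (C := B ^ 2) fun x => by
    rw [abs_pow]; exact pow_le_pow_left₀ (abs_nonneg _) (hB x) 2
  have key : ∀ t : ℝ, 0 ≤ (∫ x, u x ^ 2 ∂μ) * (t * t) + 2 * (∫ x, u x * v x ∂μ) * t
      + ∫ x, v x ^ 2 ∂μ := fun t => by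
    have e : (fun x => (t * u x + v x) ^ 2) =
        fun x => t * t * u x ^ 2 + 2 * t * (u x * v x) + v x ^ 2 := funext fun x => by ring
    have h0 : 0 ≤ ∫ x, (t * u x + v x) ^ 2 ∂μ := integral_nonneg fun x => sq_nonneg _
    have j : Integrable (fun x => t * t * u x ^ 2 + 2 * t * (u x * v x)) μ :=
      (i2.const_mul _).add (i1.const_mul _)
    rw [e, integral_add j i3, integral_add (i2.const_mul _) (i1.const_mul _), integral_const_mul,
      integral_const_mul] at h0
    linarith
  have hd := discrim_le_zero key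
  rw [discrim] at hd
  have hsq : (∫ x, u x * v x ∂μ) ^ 2 ≤ (∫ x, u x ^ 2 ∂μ) * ∫ x, v x ^ 2 ∂μ := by linarith
  refine ⟨hsq, ?_⟩
  rw [← Real.sqrt_mul (integral_nonneg fun x => sq_nonneg _)]
  exact (le_abs_self _).trans (Real.abs_le_sqrt hsq)

theorem frob_nonneg_sum (M : Matrix (Fin n) (Fin n) ℝ) : 0 ≤ frob M :=
  Finset.sum_nonneg fun _ _ => Finset.sum_nonneg fun _ _ => sq_nonneg _

theorem frob_prod (M : Matrix (Fin n) (Fin n) ℝ) : frob M = ∑ q : Fin n × Fin n, M q.1 q.2 ^ 2 :=
  (Fintype.sum_prod_type (f := fun q : Fin n × Fin n => M q.1 q.2 ^ 2)).symm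

theorem frob_inner_le (X Y : Matrix (Fin n) (Fin n) ℝ) :
    ∑ a, ∑ b, X a b * Y a b ≤ Real.sqrt (frob X) * Real.sqrt (frob Y) := by
  rw [frob_prod, frob_prod, ← Fintype.sum_prod_type (f := fun q : Fin n × Fin n =>
    X q.1 q.2 * Y q.1 q.2)]
  exact Real.sum_mul_le_sqrt_mul_sqrt _ _ _

theorem sqrt_frob_add_le (X Y : Matrix (Fin n) (Fin n) ℝ) :
    Real.sqrt (frob (X + Y)) ≤ Real.sqrt (frob X) + Real.sqrt (frob Y) := by
  rw [Real.sqrt_le_left (by positivity), add_sq, Real.sq_sqrt (frob_nonneg_sum X),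
    Real.sq_sqrt (frob_nonneg_sum Y)]
  have e : frob (X + Y) = frob X + 2 * (∑ a, ∑ b, X a b * Y a b) + frob Y := by
    simp only [frob, Matrix.add_apply, Finset.mul_sum, ← Finset.sum_add_distrib]
    exact Finset.sum_congr rfl fun a _ => Finset.sum_congr rfl fun b _ => by ring
  have := frob_inner_le X Y
  rw [e]
  linarith

theorem sqrt_frob_le {M : Matrix (Fin n) (Fin n) ℝ} {e : ℝ} (he : 0 ≤ e)
    (hM : ∀ a b, |M a b| ≤ e) : Real.sqrt (frob M) ≤ n * e := by
  rw [Real.sqrt_le_left (by positivity)]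
  refine (le_abs_self _).trans ((abs_sum_le (c := n * e ^ 2) fun a =>
    abs_sum_le (c := e ^ 2) fun b => ?_).trans (le_of_eq (by ring)))
  rw [abs_pow]
  exact pow_le_pow_left₀ (abs_nonneg _) (hM a b) 2

theorem sqrt_frob_smul {c : ℝ} (hc : 0 ≤ c) (X : Matrix (Fin n) (Fin n) ℝ) :
    Real.sqrt (frob (c • X)) = c * Real.sqrt (frob X) := by
  have e : frob (c • X) = c ^ 2 * frob X := by
    simp [frob, Finset.mul_sum, mul_pow]
  rw [e, Real.sqrt_mul (sq_nonneg c), Real.sqrt_sq hc]

theorem sqrt_frob_mul_le {M N : Matrix (Fin n) (Fin n) ℝ} {c : ℝ} (hc : 0 ≤ c)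
    (hM : ∀ v, nsq (M *ᵥ v) ≤ c ^ 2 * nsq v) :
    Real.sqrt (frob (M * N)) ≤ c * Real.sqrt (frob N) := by
  rw [← Real.sqrt_sq hc, ← Real.sqrt_mul (sq_nonneg c)]
  refine Real.sqrt_le_sqrt ?_
  unfold frob
  rw [Finset.sum_comm, Finset.sum_comm (γ := Fin n) (f := fun i j => N i j ^ 2), Finset.mul_sum]
  exact Finset.sum_le_sum fun j _ => hM fun l => N l j

theorem frob_transpose (M : Matrix (Fin n) (Fin n) ℝ) : frob Mᵀ = frob M :=
  Finset.sum_comm

theorem ulc_posts (hb : Base η D K ρ) (ht : Tilted η D τ ρ g ρ') (hτ : 0 < τ) (k : ℕ)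
    (hk : 2 * τ ≤ k * h) (p : St n × St n) :
    Ulc (η + k * h) (post ρ (k * h) p.1) ∧
      Ulc (η + (k * h - τ)) (post (fun x => g x * ρ x) (k * h) p.2) := by
  refine ⟨post_ulc hb.ulc (by linarith) _, ?_⟩
  rw [ht.shift]
  exact post_ulc ht.ulc' (by linarith) _

/-- The drift of `gam` is at most `3 / r` times `gam`. -/
theorem sqrt_frob_drift_le (hb : Base η D K ρ) (ht : Tilted η D τ ρ g ρ') (hτ : 0 < τ) (h : ℝ)
    (k : ℕ) (hk : 2 * τ ≤ k * h) (p : St n × St n) :
    Real.sqrt (frob (drift ρ (fun x => g x * ρ x) h k p))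
      ≤ 3 / (k * h) * Real.sqrt (frob (gam ρ (fun x => g x * ρ x) h k p)) := by
  have hr : 0 < (k : ℝ) * h := by linarith
  set ν := fun x => g x * ρ x
  set B := covMat ν (k * h) p.2 with hB
  set A := covMat ρ (k * h) p.1 with hA
  set G := gam ρ ν h k p with hG
  obtain ⟨hf, hS, -⟩ := gam_bounds hb ht hτ h k hk p
  have hBv : ∀ v, nsq (B *ᵥ v) ≤ (2 / (k * h)) ^ 2 * nsq v :=
    nsq_mulVec_le (covMat_symm _ _) fun u => by
      rw [abs_of_nonneg (hf u).1]; exact (hf u).2
  have hAv : ∀ v, nsq (A *ᵥ v) ≤ (1 / (k * h)) ^ 2 * nsq v :=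
    nsq_mulVec_le (covMat_symm _ _) fun u => by
      obtain ⟨a1, a2⟩ := covMat_form hb.ulc hr p.1 u
      rw [abs_of_nonneg a1]; exact a2
  have e : drift ρ ν h k p = B * G + G * A := by
    simp only [drift, G, gam, A, B, Matrix.mul_sub, Matrix.sub_mul]
    abel
  have eT : (G * A)ᵀ = A * G := by
    rw [transpose_mul, hS.eq, (covMat_symm (k * h) p.1).eq]
  rw [e]
  refine (sqrt_frob_add_le _ _).trans ?_
  have h1 := sqrt_frob_mul_le (N := G) (by positivity) hBv
  have h2 := sqrt_frob_mul_le (N := G) (by positivity) hAv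
  rw [← eT, frob_transpose] at h2
  have : 3 / ((k : ℝ) * h) * Real.sqrt (frob G)
      = 2 / (k * h) * Real.sqrt (frob G) + 1 / (k * h) * Real.sqrt (frob G) := by ring
  linarith

theorem measurable_inner (hσ : Dens D σ) (hν : Dens D ν) (hh : 0 < h) (k j : ℕ)
    {F : St n × St n → ℝ} (hm : Measurable F) :
    Measurable fun p => ∫ q, F q ∂pairFrom σ ν h k j p :=
  (StronglyMeasurable.integral_kernel
    (κ := ⟨pairFrom σ ν h k j, measurable_pairFrom hσ hν hh k j⟩) hm.stronglyMeasurable).measurable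

/-- A bound on the last step integrates to a bound from a fixed state. -/
theorem from_close (hσ : Dens D σ) (hν : Dens D ν) (hh : 0 < h) (k j : ℕ) (p : St n × St n)
    {F H : St n × St n → ℝ} (hFm : Measurable F) (hF : PolyP F) (hHm : Measurable H) (hH : PolyP H)
    {ε : ℝ} (hb : ∀ r, |(∫ q, F q ∂pairFrom σ ν h (k + j) 1 r) - H r| ≤ ε) :
    |(∫ q, F q ∂pairFrom σ ν h k (j + 1) p) - ∫ r, H r ∂pairFrom σ ν h k j p| ≤ ε := by
  have := (isProb_pairFrom hσ hν hh k j p).1
  have hu := measurable_inner hσ hν hh (k + j) 1 hFm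
  have iH := (integrable_pair hσ hν hh k j p hHm hH).2
  have iu : Integrable (fun r => ∫ q, F q ∂pairFrom σ ν h (k + j) 1 r)
      (pairFrom σ ν h k j p) := by
    refine (iH.abs.add (integrable_const ε)).mono' hu.aestronglyMeasurable
      (Filter.Eventually.of_forall fun r => ?_)
    have := abs_sub_abs_le_abs_sub (∫ q, F q ∂pairFrom σ ν h (k + j) 1 r) (H r)
    simp only [Real.norm_eq_abs, Pi.add_apply]
    linarith [hb r]
  rw [integral_from_add hσ hν hh k j 1 p hFm hF, ← integral_sub iu iH]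
  simpa using norm_integral_le_of_norm_le_const (μ := pairFrom σ ν h k j p)
    (f := fun r => (∫ q, F q ∂pairFrom σ ν h (k + j) 1 r) - H r)
    (Filter.Eventually.of_forall hb)

/-- A bound on the last step integrates to a bound at the next index. -/
theorem pair_close (hσ : Dens D σ) (hν : Dens D ν) (hh : 0 < h) (k : ℕ)
    {F H : St n × St n → ℝ} (hFm : Measurable F) (hF : PolyP F) (hHm : Measurable H) (hH : PolyP H)
    {ε : ℝ} (hb : ∀ r, |(∫ q, F q ∂pairFrom σ ν h k 1 r) - H r| ≤ ε) :
    |(∫ q, F q ∂pairM σ ν h (k + 1)) - ∫ r, H r ∂pairM σ ν h k| ≤ ε := by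
  have := from_close hσ hν hh 0 k (0, 0) hFm hF hHm hH (ε := ε) (by simpa using hb)
  exact this

/-- The pairing of `wV` with the displacement of the first state over `j` steps. -/
theorem cross_expand (hσ : Dens D σ) (hν : Dens D ν) : ∃ E : ℝ, 0 ≤ E ∧
    ∀ h : ℝ, 0 < h → h ≤ 1 → ∀ (k j : ℕ) (p : St n × St n) (a b : Fin n),
      |(∫ q, wV σ ν h (k + j) q a * (q.1 b - p.1 b) ∂pairFrom σ ν h k j p)
          - h * ∑ i ∈ Finset.range j, ∫ r, (wV σ ν h (k + i) r a
              * bary σ ((k + i : ℕ) * h) r.1 b + gam σ ν h (k + i) r a b) ∂pairFrom σ ν h k i p|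
        ≤ j * (E * (h * Real.sqrt h)) := by
  obtain ⟨E, hE, hs⟩ := step_cross hσ hν
  have hD := dens_nonneg hσ
  refine ⟨E, hE, fun h hh hh1 k j p a b => ?_⟩
  induction j with
  | zero => simp [pairFrom_zero]
  | succ j ih =>
    set H2 := fun r => wV σ ν h (k + j) r a * bary σ ((k + j : ℕ) * h) r.1 b
      + gam σ ν h (k + j) r a b
    have hwc : ∀ m, Continuous fun r => wV σ ν h m r a := fun m =>
      (continuous_apply a).comp (continuous_wV hσ hν h m)
    have c1 : ∀ m, Continuous fun r : St n × St n => wV σ ν h m r a * (r.1 b - p.1 b) :=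
      fun m => (hwc m).mul (by fun_prop)
    have p1 : ∀ m, PolyP fun r : St n × St n => wV σ ν h m r a * (r.1 b - p.1 b) := fun m =>
      polyP_lin (C := 2 * (1 + D) * (1 + |p.1 b|)) fun q => by
        rw [abs_mul, mul_assoc]
        refine mul_le_mul (abs_wV_le_supp hσ hν _ _ _ a) ?_ (abs_nonneg _) (by linarith)
        refine (abs_sub _ _).trans ?_
        nlinarith [abs_coord_le q.1 b, nsq_nonneg q.1, nsq_nonneg q.2, abs_nonneg (p.1 b)]
    have c2 : Continuous H2 :=
      ((hwc (k + j)).mul ((continuous_apply b).comp ((continuous_bary hσ _).comp continuous_fst))).add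
        (continuous_gam hσ hν h (k + j) a b)
    have hB : ∀ r, |H2 r| ≤ 2 * (1 + D) * (1 + D) + 4 * (1 + D) := fun r => by
      refine (abs_add_le _ _).trans (add_le_add ?_ (abs_gam_le hσ hν _ _ _ a b))
      rw [abs_mul]
      exact mul_le_mul (abs_wV_le_supp hσ hν _ _ _ a) (abs_mg_le_supp hσ
        (fun x hx => abs_coord_le_supp hx b) _ _) (abs_nonneg _) (by linarith)
    have p2 : PolyP fun r : St n × St n => wV σ ν h (k + j) r a * (r.1 b - p.1 b) + h * H2 r :=
      polyP_lin (C := 2 * (1 + D) * (1 + |p.1 b|) + h * (2 * (1 + D) * (1 + D) + 4 * (1 + D)))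
        fun q => by
        refine (abs_add_le _ _).trans ?_
        rw [add_mul]
        refine add_le_add ?_ ?_
        · rw [abs_mul, mul_assoc]
          refine mul_le_mul (abs_wV_le_supp hσ hν _ _ _ a) ?_ (abs_nonneg _) (by linarith)
          refine (abs_sub _ _).trans ?_
          nlinarith [abs_coord_le q.1 b, nsq_nonneg q.1, nsq_nonneg q.2, abs_nonneg (p.1 b)]
        · rw [abs_mul, abs_of_pos hh]
          exact (mul_le_mul_of_nonneg_left (hB q) hh.le).trans (le_mul_of_one_le_right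
            (by positivity) (by linarith [nsq_nonneg q.1, nsq_nonneg q.2]))
    have key := from_close hσ hν hh k j p (c1 (k + j + 1)).measurable (p1 _)
      ((c1 (k + j)).add (c2.const_mul h)).measurable p2 (ε := E * (h * Real.sqrt h))
      fun r => hs h hh hh1 (k + j) r a b (p.1 b)
    simp only [Pi.add_apply] at key
    rw [integral_add (integrable_pair hσ hν hh k j p (c1 (k + j)).measurable (p1 _)).2
      ((integrable_pair hσ hν hh k j p c2.measurable (polyP_bdd hB)).2.const_mul h),
      integral_const_mul] at key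
    rw [Finset.sum_range_succ, mul_add]
    push_cast
    obtain ⟨k1, k2⟩ := abs_le.1 key
    obtain ⟨l1, l2⟩ := abs_le.1 ih
    simp only [H2, Nat.cast_add] at k1 k2 l1 l2 ⊢
    rw [← add_assoc k j 1, abs_le]
    constructor <;> linarith

/-- The mean of `gam` after `i` steps. -/
theorem gam_expand (hb : Base η D K ρ) (ht : Tilted η D τ ρ g ρ') (hτ : 0 < τ) :
    ∃ E : ℝ, 0 ≤ E ∧ ∀ h : ℝ, 0 < h → h ≤ 1 → ∀ k i : ℕ, 2 * τ ≤ k * h →
      ∀ (p : St n × St n) (a b : Fin n),
        let ν := fun x => g x * ρ x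
        |(∫ r, gam ρ ν h (k + i) r a b ∂pairFrom ρ ν h k i p)
            - (gam ρ ν h k p a b
              - h * ∑ l ∈ Finset.range i, ∫ r, drift ρ ν h (k + l) r a b ∂pairFrom ρ ν h k l p)|
          ≤ i * (E * (h * Real.sqrt h)) := by
  have hσ := hb.dens
  have hν := dens_tilted hb ht
  obtain ⟨E, hE, hs⟩ := step_gam hσ hν
  have hD := dens_nonneg hσ
  refine ⟨E, hE, fun h hh hh1 k i hk p a b => ?_⟩
  intro ν
  induction i with
  | zero => simp [pairFrom_zero]
  | succ i ih =>
    have hki : 2 * τ ≤ (k + i : ℕ) * h :=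
      hk.trans (mul_le_mul_of_nonneg_right (by simp) hh.le)
    have hgc := fun m => continuous_gam hσ hν h m a b
    have hgb := fun m (r : St n × St n) => abs_gam_le hσ hν h m r a b
    have hdc : Continuous fun r => drift ρ ν h (k + i) r a b := by
      have c1 : ∀ {τ' : St n → ℝ} {f : St n × St n → St n} (_ : Dens D τ') (_ : Continuous f)
          (u v : Fin n), Continuous fun r => covMat τ' ((k + i : ℕ) * h) (f r) u v :=
        fun hd hf u v => (continuous_covMat_supp hd _ u v).comp hf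
      simp only [drift, Matrix.sub_apply, Matrix.mul_apply]
      exact (continuous_finsetSum _ fun l _ => (c1 hν continuous_snd a l).mul
        (c1 hν continuous_snd l b)).sub (continuous_finsetSum _ fun l _ =>
        (c1 hσ continuous_fst a l).mul (c1 hσ continuous_fst l b))
    have hdb : ∀ r, |drift ρ ν h (k + i) r a b| ≤ 2 * (n * ((2 * D) * (2 * D))) := fun r => by
      simp only [drift, Matrix.sub_apply, Matrix.mul_apply]
      refine (abs_sub _ _).trans ?_
      have h1 := abs_sum_le (c := (2 * D) * (2 * D)) (f := fun l =>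
          covMat ν ((k + i : ℕ) * h) r.2 a l * covMat ν ((k + i : ℕ) * h) r.2 l b) fun l => by
        rw [abs_mul]; exact mul_le_mul (abs_covMat_le hν _ _ a l) (abs_covMat_le hν _ _ l b)
          (abs_nonneg _) (by linarith)
      have h2 := abs_sum_le (c := (2 * D) * (2 * D)) (f := fun l =>
          covMat ρ ((k + i : ℕ) * h) r.1 a l * covMat ρ ((k + i : ℕ) * h) r.1 l b) fun l => by
        rw [abs_mul]; exact mul_le_mul (abs_covMat_le hσ _ _ a l) (abs_covMat_le hσ _ _ l b)
          (abs_nonneg _) (by linarith)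
      linarith
    have key := from_close hσ hν hh k i p (hgc (k + i + 1)).measurable (polyP_bdd (hgb _))
      ((hgc (k + i)).sub (hdc.const_mul h)).measurable
      (polyP_bdd (C := 4 * (1 + D) + h * (2 * (n * ((2 * D) * (2 * D))))) fun r => by
        simp only [Pi.sub_apply]
        refine (abs_sub _ _).trans (add_le_add (hgb _ r) ?_)
        rw [abs_mul, abs_of_pos hh]
        exact mul_le_mul_of_nonneg_left (hdb r) hh.le)
      (ε := E * (h * Real.sqrt h)) fun r => by
        obtain ⟨u1, u2⟩ := ulc_posts hb ht hτ (k + i) hki r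
        exact hs h hh hh1 (k + i) r _ _ u1 u2 a b
    simp only [Pi.sub_apply] at key
    rw [integral_sub (integrable_pair hσ hν hh k i p (hgc (k + i)).measurable
      (polyP_bdd (hgb _))).2 ((integrable_pair hσ hν hh k i p hdc.measurable
      (polyP_bdd hdb)).2.const_mul h), integral_const_mul] at key
    rw [Finset.sum_range_succ, mul_add]
    push_cast
    obtain ⟨k1, k2⟩ := abs_le.1 key
    obtain ⟨l1, l2⟩ := abs_le.1 ih
    rw [← add_assoc k i 1, abs_le]
    constructor <;> linarith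

/-- The barycentre moves with at most the posterior covariance. -/
theorem bary_move_var (hρ : Ulc η ρ) (hσ : Dens D ρ) (hν : Dens D ν) (hh : 0 < h) (k i : ℕ)
    (p : St n × St n) (u : St n) :
    ∫ r, dotp u (bary ρ ((k + i : ℕ) * h) r.1 - bary ρ (k * h) p.1) ^ 2 ∂pairFrom ρ ν h k i p
      ≤ ∑ a, ∑ b, u a * covMat ρ (k * h) p.1 a b * u b := by
  have hs : (0 : ℝ) ≤ k * h := by positivity
  rw [← covc_dotp_post hρ hs]
  rcases Nat.eq_zero_or_pos i with rfl | hi
  · simp [pairFrom_zero, dotp, covc_self_nonneg]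
  set c := dotp u (bary ρ (k * h) p.1)
  set F := fun x => (dotp u x - c) ^ 2
  set t := ((k + i : ℕ) : ℝ) * h
  have hFc : Continuous F := by fun_prop
  have hFP : PolyB F := polyB_pow_two (by
    simpa [sub_eq_add_neg] using polyB_add (polyB_dotp u) (polyB_const (-c)))
  set M := fun θ => mg ρ F t θ
  set Fb := ((n : ℝ) * ((1 + nsq u) * (1 + D)) + |c|) ^ 2
  have hdot : ∀ x : St n, nsq x ≤ D → |dotp u x - c| ≤ n * ((1 + nsq u) * (1 + D)) + |c| :=
    fun x hx => (abs_sub _ _).trans (add_le_add_left (abs_sum_le fun a => by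
      rw [abs_mul]
      exact mul_le_mul (abs_coord_le u a) (abs_coord_le_supp hx a) (abs_nonneg _)
        (by have := nsq_nonneg u; positivity)) _)
  have hMb : ∀ θ, |M θ| ≤ Fb := fun θ => abs_mg_le_supp hσ (fun x hx => by
    simp only [F, abs_pow]; exact pow_le_pow_left₀ (abs_nonneg _) (hdot x hx) 2) _ _
  have hMc : Continuous M := continuous_mg hσ hFc t
  set H := fun r : St n × St n => dotp u (bary ρ t r.1 - bary ρ (k * h) p.1) ^ 2
  have hHc : Continuous H := by
    have := (continuous_bary hσ t).comp (continuous_fst (X := St n) (Y := St n))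
    simp only [H, dotp_sub]
    exact (((continuous_dotp u).comp this).sub continuous_const).pow 2
  have hle : ∀ r, H r ≤ M r.1 := fun r => by
    simp only [H, M]
    have hd := dens_post hσ t r.1
    have := dens_isProb hd
    have e : ∫ x, dotp u x ∂law (post ρ t r.1) = dotp u (bary ρ t r.1) := by
      simp only [dotp]
      rw [integral_finsetSum _ fun a _ => (dens_integrable hd (continuous_apply a)).const_mul _]
      refine Finset.sum_congr rfl fun a _ => ?_
      rw [integral_const_mul, dens_integral_post hσ]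
      rfl
    have i1 := dens_integrable hd (continuous_dotp u)
    have i2 : Integrable (fun x => dotp u x ^ 2) (law (post ρ t r.1)) :=
      dens_integrable hd ((continuous_dotp u).pow 2)
    have h0 : 0 ≤ ∫ x, (dotp u x - dotp u (bary ρ t r.1)) ^ 2 ∂law (post ρ t r.1) :=
      integral_nonneg fun x => sq_nonneg _
    rw [integral_sub_const_sq i1 i2, e] at h0
    rw [← dens_integral_post hσ, dotp_sub]
    simp only [F]
    rw [integral_sub_const_sq i1 i2, e]
    linarith
  have hHb : ∀ r, |H r| ≤ Fb := fun r => by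
    rw [abs_of_nonneg (sq_nonneg _)]
    exact (hle r).trans ((le_abs_self _).trans (hMb _))
  refine (integral_mono (integrable_pair hσ hν hh k i p hHc.measurable (polyP_bdd hHb)).2
    (integrable_pair hσ hν hh k i p (hMc.comp continuous_fst).measurable
      (polyP_bdd fun r => hMb r.1)).2 hle).trans (le_of_eq ?_)
  simp only [Function.comp_apply]
  rw [pairFrom_fst hρ hσ hν hh k i p hMc.measurable (polyB_of_bounded hMb)]
  have hπ := post_ulc hρ hs p.1
  have hd : 0 < t - k * h := by
    simp only [t]; push_cast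
    have : (0 : ℝ) < i * h := by positivity
    linarith
  have hP2 : PolyB2 fun x _ => F x := by
    obtain ⟨A, m, hA⟩ := hFP
    refine ⟨|A|, m, fun x θ' => (hA x).trans (mul_le_mul (le_abs_self A) (pow_le_pow_left₀
      (by linarith [nsq_nonneg x]) (by linarith [nsq_nonneg θ']) m)
      (by have := nsq_nonneg x; positivity) (abs_nonneg A))⟩
  have hj := joint_mg hπ hd (Φ := fun x _ => F x) (hFc.measurable.comp measurable_fst) hP2
  have e1 : ∀ θ', mg (post ρ (k * h) p.1) F (t - k * h) θ' = M (p.1 + θ') := fun θ' => by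
    rw [dens_mg_post hσ, add_sub_cancel]
  simp only [Ep, e1] at hj
  rw [fut, ← hj]
  have := dens_isProb (dens_post hσ (k * h) p.1)
  rw [joint, integral_fun_fst (f := F), probReal_univ, one_smul]
  simp only [F, covc, ← sq]
  rw [show c = ∫ x, dotp u x ∂law (post ρ (k * h) p.1) from ?_]
  simp only [c, dotp]
  rw [integral_finsetSum _ fun a _ =>
    (dens_integrable (dens_post hσ _ _) (continuous_apply a)).const_mul _]
  refine Finset.sum_congr rfl fun a _ => ?_
  rw [integral_const_mul, dens_integral_post hσ]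
  rfl

end

end Vale.Agent.P245.Gen2
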