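import Vale.Agent.P245.Gen2.Chain
import Vale.Agent.P245.Gen2.StepInd

/-!
# P245, polylogarithmic bound: one step of the pair chain
-/

open MeasureTheory Matrix

namespace Vale.Agent.P245.Gen2

open General

variable {n : ℕ} {η D K τ h : ℝ} {σ ν ρ g ρ' : St n → ℝ}

theorem integrable_pairM (hσ : Dens D σ) (hν : Dens D ν) (hh : 0 < h) (k : ℕ)
    {F : St n × St n → ℝ} (hm : Measurable F) (hF : PolyP F) :
    Integrable F (pairM σ ν h k) :=
  (integrable_pair hσ hν hh k 0 (0, 0) hm hF).1

/-- One step of the second moment of the displacement and of its pairing with `wV`. -/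
theorem delta_step (hσ : Dens D σ) (hν : Dens D ν) (S : ℝ) : ∃ E : ℝ, 0 ≤ E ∧
    ∀ h : ℝ, 0 < h → h ≤ 1 → ∀ k : ℕ, k * h ≤ S →
      (let d2 := fun j => ∫ p, nsq (delta p) ∂pairM σ ν h j
       let dw := fun j => ∫ p, dotp (delta p) (wV σ ν h j p) ∂pairM σ ν h j
       |d2 (k + 1) - (d2 k + 2 * h * dw k)| ≤ E * h ^ 2 ∧
         |dw (k + 1) - (dw k + h * Zk σ ν h k)| ≤ E * h * Real.sqrt h) := by
  obtain ⟨E, hE, hs⟩ := step_delta hσ hν
  have hD := dens_nonneg hσ
  refine ⟨E, hE, fun h hh hh1 k _ => ?_⟩
  have c1 : Continuous fun p : St n × St n => nsq (delta p) :=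
    continuous_nsq.comp (continuous_snd.sub continuous_fst)
  have c2 : ∀ m, Continuous fun p : St n × St n => dotp (delta p) (wV σ ν h m p) := fun m =>
    continuous_dotp2.comp ((continuous_snd.sub continuous_fst).prodMk (continuous_wV hσ hν h m))
  have c3 : Continuous fun p : St n × St n => nsq (wV σ ν h k p) :=
    continuous_nsq.comp (continuous_wV hσ hν h k)
  have hb3 : ∀ p, |nsq (wV σ ν h k p)| ≤ n * (2 * (1 + D)) ^ 2 := fun p =>
    abs_sum_le fun a => by
      rw [abs_pow]; exact pow_le_pow_left₀ (abs_nonneg _) (abs_wV_le_supp hσ hν _ _ _ a) 2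
  have p1 : PolyP fun p : St n × St n => nsq (delta p) := polyP_lin (C := 2) fun q => by
    rw [abs_of_nonneg (nsq_nonneg _), delta]
    have : nsq (q.2 - q.1) ≤ 2 * nsq q.2 + 2 * nsq q.1 := by
      simp only [nsq, Finset.mul_sum, ← Finset.sum_add_distrib, Pi.sub_apply]
      exact Finset.sum_le_sum fun i _ => by nlinarith [sq_nonneg (q.2 i + q.1 i)]
    linarith
  have p2 : ∀ m, PolyP fun p : St n × St n => dotp (delta p) (wV σ ν h m p) := fun m =>
    polyP_lin (C := n * (2 * (2 * (1 + D)))) fun q => by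
      rw [mul_assoc]
      refine abs_sum_le fun a => ?_
      rw [abs_mul, mul_comm]
      refine (mul_le_mul (abs_wV_le_supp hσ hν _ _ _ a)
        (show |delta q a| ≤ 2 * (1 + nsq q.1 + nsq q.2) from (abs_sub _ _).trans (by
          linarith [abs_coord_le q.1 a, abs_coord_le q.2 a, nsq_nonneg q.1, nsq_nonneg q.2]))
        (abs_nonneg _) (by linarith)).trans (le_of_eq ?_)
      ring
  have add : ∀ {F G : St n × St n → ℝ}, PolyP F → (∃ C, ∀ p, |G p| ≤ C) →
      PolyP fun p => F p + G p := fun {F G} ⟨A, m, hA⟩ ⟨C, hC⟩ => by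
    refine ⟨|A| + |C|, m, fun p => (abs_add_le _ _).trans ?_⟩
    have h1 : 1 ≤ (1 + nsq p.1 + nsq p.2) ^ m :=
      one_le_pow₀ (by linarith [nsq_nonneg p.1, nsq_nonneg p.2])
    rw [add_mul]
    exact add_le_add ((hA p).trans (mul_le_mul_of_nonneg_right (le_abs_self A) (by linarith)))
      ((hC p).trans ((le_abs_self C).trans (le_mul_of_one_le_right (abs_nonneg C) h1)))
  have i1 := integrable_pairM hσ hν hh k c1.measurable p1
  have i2 := integrable_pairM hσ hν hh k (c2 k).measurable (p2 k)
  have i3 := integrable_pairM hσ hν hh k c3.measurable (polyP_bdd hb3)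
  refine ⟨?_, ?_⟩
  · have q2 : PolyP fun p : St n × St n =>
        nsq (delta p) + 2 * h * dotp (delta p) (wV σ ν h k p) := by
      obtain ⟨A, m, hA⟩ := p2 k
      obtain ⟨B, l, hB⟩ := p1
      refine ⟨|B| + 2 * h * |A|, l + m, fun p => (abs_add_le _ _).trans ?_⟩
      have h1 : 1 ≤ 1 + nsq p.1 + nsq p.2 := by linarith [nsq_nonneg p.1, nsq_nonneg p.2]
      rw [add_mul]
      refine add_le_add ((hB p).trans (mul_le_mul (le_abs_self B)
        (pow_le_pow_right₀ h1 (by omega)) (by positivity) (abs_nonneg B))) ?_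
      rw [abs_mul, abs_of_pos (show 0 < 2 * h by positivity), mul_assoc (2 * h)]
      exact mul_le_mul_of_nonneg_left ((hA p).trans (mul_le_mul (le_abs_self A)
        (pow_le_pow_right₀ h1 (by omega)) (by positivity) (abs_nonneg A))) (by positivity)
    have := pair_close hσ hν hh k c1.measurable p1 (c1.add ((c2 k).const_mul _)).measurable q2
      fun r => (hs h hh hh1 k r).1
    simp only [Pi.add_apply] at this
    rwa [integral_add i1 (i2.const_mul _), integral_const_mul] at this
  · have := pair_close hσ hν hh k (c2 (k + 1)).measurable (p2 _)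
      ((c2 k).add (c3.const_mul h)).measurable (add (p2 k) ⟨h * (n * (2 * (1 + D)) ^ 2), fun p => by
        rw [abs_mul, abs_of_pos hh]; exact mul_le_mul_of_nonneg_left (hb3 p) hh.le⟩)
      fun r => (hs h hh hh1 k r).2
    simp only [Pi.add_apply] at this
    rw [integral_add i2 (i3.const_mul _), integral_const_mul, ← mul_assoc] at this
    exact this

theorem abs_frob_gam_le (hσ : Dens D σ) (hν : Dens D ν) (h : ℝ) (k : ℕ) (p : St n × St n) :
    |frob (gam σ ν h k p)| ≤ n * (n * (4 * (1 + D)) ^ 2) :=
  abs_sum_le fun a => abs_sum_le fun b => by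
    rw [abs_pow]; exact pow_le_pow_left₀ (abs_nonneg _) (abs_gam_le hσ hν h k p a b) 2

theorem continuous_frob_gam (hσ : Dens D σ) (hν : Dens D ν) (h : ℝ) (k : ℕ) :
    Continuous fun p => frob (gam σ ν h k p) :=
  continuous_finsetSum _ fun a _ => continuous_finsetSum _ fun b _ =>
    (continuous_gam hσ hν h k a b).pow 2

theorem energy_step (hσ : Dens D σ) (hν : Dens D ν) (S : ℝ) : ∃ E : ℝ, 0 ≤ E ∧
    ∀ h : ℝ, 0 < h → h ≤ 1 → ∀ k : ℕ, k * h ≤ S →
      |Zk σ ν h (k + 1) - Zk σ ν h k - h * fk σ ν h k| ≤ E * h * Real.sqrt h := by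
  obtain ⟨E, hE, hs⟩ := step_sq hσ hν
  refine ⟨E, hE, fun h hh hh1 k _ => ?_⟩
  have c1 : ∀ m, Continuous fun p : St n × St n => nsq (wV σ ν h m p) := fun m =>
    continuous_nsq.comp (continuous_wV hσ hν h m)
  have b1 : ∀ m p, |nsq (wV σ ν h m p)| ≤ n * (2 * (1 + D)) ^ 2 := fun m p =>
    abs_sum_le fun a => by
      rw [abs_pow]; exact pow_le_pow_left₀ (abs_nonneg _) (abs_wV_le_supp hσ hν _ _ _ a) 2
  have c2 := continuous_frob_gam hσ hν h k
  have b2 := abs_frob_gam_le hσ hν h k
  have := pair_close hσ hν hh k (c1 (k + 1)).measurable (polyP_bdd (b1 _))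
    ((c1 k).add (c2.const_mul h)).measurable
    (polyP_bdd (C := n * (2 * (1 + D)) ^ 2 + h * (n * (n * (4 * (1 + D)) ^ 2))) fun p => by
      refine (abs_add_le _ _).trans (add_le_add (b1 k p) ?_)
      rw [abs_mul, abs_of_pos hh]; exact mul_le_mul_of_nonneg_left (b2 p) hh.le)
    fun r => hs h hh hh1 k r
  simp only [Pi.add_apply] at this
  rw [integral_add (integrable_pairM hσ hν hh k (c1 k).measurable (polyP_bdd (b1 k)))
    ((integrable_pairM hσ hν hh k c2.measurable (polyP_bdd b2)).const_mul _),
    integral_const_mul, ← mul_assoc, ← sub_sub] at this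
  exact this

/-- One step of the mean energy after `2τ`. -/
theorem fk_step (hb : Base η D K ρ) (ht : Tilted η D τ ρ g ρ') (hτ : 0 < τ) :
    ∃ E : ℝ, 0 ≤ E ∧ ∀ h : ℝ, 0 < h → h ≤ 1 → ∀ k : ℕ, 2 * τ ≤ k * h →
      ((k : ℝ) / (k + 1)) ^ 3 * Real.sqrt (fk ρ (fun x => g x * ρ x) h k)
        ≤ Real.sqrt (fk ρ (fun x => g x * ρ x) h (k + 1)) + E * (h * Real.sqrt h) := by
  have hσ := hb.dens
  have hν := dens_tilted hb ht
  have hD := dens_nonneg hσ
  obtain ⟨E0, hE0, hs⟩ := step_gam hσ hν
  refine ⟨n * E0 + 6 / (4 * τ ^ 2) * (n * (4 * (1 + D))), by positivity,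
    fun h hh hh1 k hk => ?_⟩
  set ν := fun x => g x * ρ x
  set e := (n * E0 + 6 / (4 * τ ^ 2) * (n * (4 * (1 + D)))) * (h * Real.sqrt h)
  have he : 0 ≤ e := by positivity
  set c := ((k : ℝ) / (k + 1)) ^ 3
  have hkh : 0 < (k : ℝ) * h := by linarith
  have hk0 : (0 : ℝ) < k := pos_of_mul_pos_left hkh hh.le
  have hc0 : 0 ≤ c := by positivity
  have hc : c ≤ 1 - 3 / k + 6 / (4 * τ ^ 2) * (h * Real.sqrt h) := by
    have h1 : c ≤ 1 - 3 / k + 6 / (k : ℝ) ^ 2 := by
      have e : 1 - 3 / (k : ℝ) + 6 / (k : ℝ) ^ 2 = ((k : ℝ) ^ 2 - 3 * k + 6) / (k : ℝ) ^ 2 := by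
        field_simp
      simp only [c, e, div_pow]
      rw [div_le_div_iff₀ (by positivity) (by positivity)]
      nlinarith [pow_pos hk0 2, pow_pos hk0 3, pow_pos hk0 4, hk0]
    have h2 : 6 / (k : ℝ) ^ 2 ≤ 6 / (4 * τ ^ 2) * (h * Real.sqrt h) := by
      have hsh : h ≤ Real.sqrt h := Real.le_sqrt_of_sq_le (by nlinarith)
      have h3 : 4 * τ ^ 2 ≤ (k : ℝ) ^ 2 * (h * Real.sqrt h) := by
        have h4 : (2 * τ) ^ 2 ≤ ((k : ℝ) * h) ^ 2 := pow_le_pow_left₀ (by positivity) hk 2
        have h5 := mul_le_mul_of_nonneg_left hsh (show 0 ≤ (k : ℝ) ^ 2 * h by positivity)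
        linarith
      rw [div_mul_eq_mul_div, div_le_div_iff₀ (by positivity) (by positivity)]
      linarith
    linarith
  set φ := fun p => ∫ q, frob (gam ρ ν h (k + 1) q) ∂pairFrom ρ ν h k 1 p
  have hgc := fun m a b => continuous_gam hσ hν h m a b
  have hφm : Measurable φ :=
    measurable_inner hσ hν hh k 1 (continuous_frob_gam hσ hν h (k + 1)).measurable
  have hφ0 : ∀ p, 0 ≤ φ p := fun p => integral_nonneg fun q => frob_nonneg_sum _
  have hφb : ∀ p, φ p ≤ n * (n * (4 * (1 + D)) ^ 2) := fun p => by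
    have := (isProb_pairFrom hσ hν hh k 1 p).1
    exact (le_abs_self _).trans (by
      simpa using norm_integral_le_of_norm_le_const (μ := pairFrom ρ ν h k 1 p)
        (f := fun q => frob (gam ρ ν h (k + 1) q))
        (Filter.Eventually.of_forall fun q => abs_frob_gam_le hσ hν h (k + 1) q))
  have hpt : ∀ p, c * Real.sqrt (frob (gam ρ ν h k p)) ≤ Real.sqrt (φ p) + e := fun p => by
    have := (isProb_pairFrom hσ hν hh k 1 p).1
    obtain ⟨u1, u2⟩ := ulc_posts hb ht hτ k hk p
    set M := Matrix.of fun a b => ∫ q, gam ρ ν h (k + 1) q a b ∂pairFrom ρ ν h k 1 p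
    set R := M - (gam ρ ν h k p - h • drift ρ ν h k p)
    have hR : Real.sqrt (frob R) ≤ n * (E0 * (h * Real.sqrt h)) :=
      sqrt_frob_le (by positivity) fun a b => hs h hh hh1 k p _ _ u1 u2 a b
    have hM : frob M ≤ φ p := by
      have i : ∀ a b, Integrable (fun q => gam ρ ν h (k + 1) q a b ^ 2)
          (pairFrom ρ ν h k 1 p) := fun a b =>
        (integrable_pair hσ hν hh k 1 p ((hgc _ a b).pow 2).measurable
          (polyP_bdd (C := (4 * (1 + D)) ^ 2) fun q => by
            rw [Pi.pow_apply, abs_pow]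
            exact pow_le_pow_left₀ (abs_nonneg _) (abs_gam_le hσ hν _ _ q a b) 2)).2
      simp only [φ, frob]
      rw [integral_finsetSum _ fun a _ => integrable_finsetSum _ fun b _ => i a b]
      refine Finset.sum_le_sum fun a _ => ?_
      rw [integral_finsetSum _ fun b _ => i a b]
      refine Finset.sum_le_sum fun b _ => ?_
      have := (cs_bdd (μ := pairFrom ρ ν h k 1 p) (v := fun _ => (1 : ℝ))
        (hgc (k + 1) a b).measurable measurable_const (fun q => abs_gam_le hσ hν _ _ q a b)
        (B := 1) fun _ => by simp).1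
      simpa [M] using this
    have e1 : gam ρ ν h k p = M + (h • drift ρ ν h k p + (-R)) := by simp only [R]; abel
    have h1 := sqrt_frob_add_le M (h • drift ρ ν h k p + (-R))
    rw [← e1] at h1
    have h2 := sqrt_frob_add_le (h • drift ρ ν h k p) (-R)
    rw [sqrt_frob_smul hh.le, show frob (-R) = frob R by simp [frob]] at h2
    have h3 := mul_le_mul_of_nonneg_left (sqrt_frob_drift_le hb ht hτ h k hk p) hh.le
    rw [← mul_assoc, show h * (3 / (k * h)) = 3 / (k : ℝ) by field_simp] at h3
    have h4 := mul_le_mul_of_nonneg_right hc (Real.sqrt_nonneg (frob (gam ρ ν h k p)))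
    have h5 := mul_le_mul_of_nonneg_left
      (sqrt_frob_le (M := gam ρ ν h k p) (by positivity) (abs_gam_le hσ hν h k p))
      (show 0 ≤ 6 / (4 * τ ^ 2) * (h * Real.sqrt h) by positivity)
    have h6 := Real.sqrt_le_sqrt hM
    simp only [e]
    linarith
  have := (isProb_pairFrom hσ hν hh k 0 (0, 0)).2
  have iφ := integrable_pairM hσ hν hh k hφm (polyP_bdd fun p => by
    rw [abs_of_nonneg (hφ0 p)]; exact hφb p)
  have hsm : Measurable fun p => Real.sqrt (φ p) := hφm.sqrt
  have hsb : ∀ p, |Real.sqrt (φ p)| ≤ Real.sqrt (n * (n * (4 * (1 + D)) ^ 2)) := fun p => by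
    rw [abs_of_nonneg (Real.sqrt_nonneg _)]; exact Real.sqrt_le_sqrt (hφb p)
  have is := integrable_pairM hσ hν hh k hsm (polyP_bdd hsb)
  have hnext : ∫ p, φ p ∂pairM ρ ν h k = fk ρ ν h (k + 1) :=
    (integral_pair_add hσ hν hh k 1 (continuous_frob_gam hσ hν h (k + 1)).measurable
      (polyP_bdd (abs_frob_gam_le hσ hν h (k + 1)))).symm
  set s := Real.sqrt (fk ρ ν h (k + 1))
  have hss : ∫ p, Real.sqrt (φ p) ∂pairM ρ ν h k ≤ s := by
    have := (cs_bdd (μ := pairM ρ ν h k) (v := fun _ => (1 : ℝ)) hsm measurable_const hsb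
      (B := 1) fun _ => by simp).2
    simpa [Real.sq_sqrt (hφ0 _), hnext, s] using this
  have hint : c ^ 2 * fk ρ ν h k ≤ (s + e) ^ 2 := by
    rw [fk, ← integral_const_mul]
    refine (integral_mono ((integrable_pairM hσ hν hh k (continuous_frob_gam hσ hν h k).measurable
      (polyP_bdd (abs_frob_gam_le hσ hν h k))).const_mul _)
      ((iφ.add (is.const_mul (2 * e))).add (integrable_const (e ^ 2))) fun p => ?_).trans ?_
    · have := pow_le_pow_left₀ (by positivity) (hpt p) 2
      rw [mul_pow, Real.sq_sqrt (frob_nonneg_sum _), add_sq, Real.sq_sqrt (hφ0 p)] at this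
      simp only [Pi.add_apply]
      linarith
    · simp only [Pi.add_apply]
      rw [integral_add (iφ.fun_add (is.const_mul (2 * e))) (integrable_const _),
        integral_add iφ (is.const_mul _), integral_const_mul, integral_const, probReal_univ,
        one_smul, hnext, add_sq,
        show s ^ 2 = fk ρ ν h (k + 1) from Real.sq_sqrt (integral_nonneg fun p => frob_nonneg_sum _)]
      have := mul_le_mul_of_nonneg_left hss (show 0 ≤ 2 * e by positivity)
      linarith
  have := Real.sqrt_le_sqrt hint
  rwa [Real.sqrt_mul (sq_nonneg c), Real.sqrt_sq hc0, Real.sqrt_sq (by positivity)] at this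

/-- After `2τ` the energy decreases at most like the inverse sixth power. -/
theorem fk_gronwall (hb : Base η D K ρ) (ht : Tilted η D τ ρ g ρ') (hτ : 0 < τ) (S : ℝ) :
    ∃ E : ℝ, 0 ≤ E ∧ ∀ h : ℝ, 0 < h → h ≤ 1 → ∀ k j : ℕ, k ≤ j → 2 * τ ≤ k * h → j * h ≤ S →
      ((k : ℝ) / j) ^ 3 * Real.sqrt (fk ρ (fun x => g x * ρ x) h k)
        ≤ Real.sqrt (fk ρ (fun x => g x * ρ x) h j) + E * Real.sqrt h := by
  obtain ⟨E, hE, hs⟩ := fk_step hb ht hτ
  refine ⟨|S| * E, by positivity, fun h hh hh1 k j hkj hk hj => ?_⟩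
  have hk0 : (0 : ℝ) < k := pos_of_mul_pos_left (by linarith : (0 : ℝ) < k * h) hh.le
  suffices H : ∀ m : ℕ, k ≤ m → ((k : ℝ) / m) ^ 3 * Real.sqrt (fk ρ (fun x => g x * ρ x) h k)
      ≤ Real.sqrt (fk ρ (fun x => g x * ρ x) h m) + m * (E * (h * Real.sqrt h)) by
    refine (H j hkj).trans ?_
    have := mul_le_mul_of_nonneg_right (hj.trans (le_abs_self S))
      (show 0 ≤ E * Real.sqrt h by positivity)
    linarith
  intro m hm
  induction m, hm using Nat.le_induction with
  | base =>
    rw [div_self hk0.ne', one_pow, one_mul]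
    exact le_add_of_nonneg_right (by positivity)
  | succ m hm ih =>
    have hm0 : (0 : ℝ) < m := hk0.trans_le (by exact_mod_cast hm)
    have h1 := hs h hh hh1 m (hk.trans (mul_le_mul_of_nonneg_right (by exact_mod_cast hm) hh.le))
    have hc : ((m : ℝ) / (m + 1)) ^ 3 ≤ 1 := by
      refine pow_le_one₀ (by positivity) ?_
      rw [div_le_one (by positivity)]; linarith
    have h2 := mul_le_mul_of_nonneg_left ih (show 0 ≤ ((m : ℝ) / (m + 1)) ^ 3 by positivity)
    have h3 := mul_le_mul_of_nonneg_right hc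
      (show 0 ≤ (m : ℝ) * (E * (h * Real.sqrt h)) by positivity)
    have e : ((k : ℝ) / (m + 1 : ℕ)) ^ 3 = ((m : ℝ) / (m + 1)) ^ 3 * ((k : ℝ) / m) ^ 3 := by
      push_cast; field_simp
    rw [e]
    push_cast
    linarith

/-- The pairing of `wV` with the linear piece frozen at index `k`. -/
theorem cross_piece (hb : Base η D K ρ) (ht : Tilted η D τ ρ g ρ') (hτ : 0 < τ) (S : ℝ) :
    ∃ E : ℝ, 0 ≤ E ∧ ∀ h : ℝ, 0 < h → h ≤ 1 → ∀ k j : ℕ, 2 * τ ≤ k * h → (k + j : ℕ) * h ≤ S →
      (let ν := fun x => g x * ρ x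
       let G := fun p => gam ρ ν h k p
       (j : ℝ) * h * fk ρ ν h k
          - h * ∑ i ∈ Finset.range j, ∑ l ∈ Finset.range i,
              3 / (((k + l : ℕ) : ℝ) * h) * h
                * (Real.sqrt (fk ρ ν h k) * Real.sqrt (fk ρ ν h (k + l)))
          - (j : ℝ) * h * Real.sqrt (Zk ρ ν h (k + j))
              * Real.sqrt (∫ p, (G p * covMat ρ (k * h) p.1 * G p).trace ∂pairM ρ ν h k)
          - E * Real.sqrt h
        ≤ ∫ p, ∫ q, dotp (wV ρ ν h (k + j) q)
              ((G p).mulVec (q.1 - p.1 - ((j : ℝ) * h) • bary ρ (k * h) p.1))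
            ∂pairFrom ρ ν h k j p ∂pairM ρ ν h k) := by
  have hσ := hb.dens
  have hν := dens_tilted hb ht
  have hD := dens_nonneg hσ
  obtain ⟨E1, hE1, hJ⟩ := cross_expand hσ hν
  obtain ⟨E2, hE2, hI⟩ := gam_expand hb ht hτ
  refine ⟨n * (n * (4 * (1 + D))) * (|S| * E1 + |S| * |S| * E2), by positivity,
    fun h hh hh1 k j hk hS => ?_⟩
  intro ν G
  have hjS : (j : ℝ) * h ≤ |S| :=
    (mul_le_mul_of_nonneg_right (by simp) hh.le).trans (hS.trans (le_abs_self S))
  set err := n * (n * (4 * (1 + D))) * (|S| * E1 + |S| * |S| * E2) * Real.sqrt h with herr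
  set A := fun p : St n × St n => (G p * covMat ρ (k * h) p.1 * G p).trace
  set X := fun m (r : St n × St n) => wV ρ ν h m r
  set φ := fun i p => ∫ r, nsq (X (k + i) r) ∂pairFrom ρ ν h k i p with hφ
  set ψ := fun l p => ∫ r, Real.sqrt (frob (gam ρ ν h (k + l) r)) ∂pairFrom ρ ν h k l p with hψ
  set Y := fun p => ∫ q, dotp (X (k + j) q)
    ((G p).mulVec (q.1 - p.1 - ((j : ℝ) * h) • bary ρ (k * h) p.1)) ∂pairFrom ρ ν h k j p with hY
  set B := fun p => j * h * frob (G p)
    - h * ∑ i ∈ Finset.range j, ∑ l ∈ Finset.range i,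
        3 / (((k + l : ℕ) : ℝ) * h) * h * (Real.sqrt (frob (G p)) * ψ l p)
    - h * ∑ i ∈ Finset.range j, Real.sqrt (φ i p) * Real.sqrt (A p) - err with hB
  -- continuity and bounds
  have hXc : ∀ m a, Continuous fun r => X m r a := fun m a =>
    (continuous_apply a).comp (continuous_wV hσ hν h m)
  have hgc := fun m a b => continuous_gam hσ hν h m a b
  have hbc : ∀ (s : ℝ) (a : Fin n), Continuous fun r : St n × St n => bary ρ s r.1 a := fun s a =>
    (continuous_apply a).comp ((continuous_bary hσ s).comp continuous_fst)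
  have hsc : ∀ m, Continuous fun r => Real.sqrt (frob (gam ρ ν h m r)) := fun m =>
    (continuous_frob_gam hσ hν h m).sqrt
  have hXb : ∀ m r, |nsq (X m r)| ≤ n * (2 * (1 + D)) ^ 2 := fun m r => abs_sum_le fun a => by
    rw [abs_pow]; exact pow_le_pow_left₀ (abs_nonneg _) (abs_wV_le_supp hσ hν _ _ _ a) 2
  have hXn : ∀ m, Continuous fun r => nsq (X m r) := fun m =>
    continuous_nsq.comp (continuous_wV hσ hν h m)
  have hsb : ∀ m r, |Real.sqrt (frob (gam ρ ν h m r))|
      ≤ Real.sqrt (n * (n * (4 * (1 + D)) ^ 2)) := fun m r => by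
    rw [abs_of_nonneg (Real.sqrt_nonneg _)]
    exact Real.sqrt_le_sqrt ((le_abs_self _).trans (abs_frob_gam_le hσ hν h m r))
  have hAc : Continuous A := by
    simp only [A, Matrix.trace, Matrix.diag, Matrix.mul_apply, Finset.sum_mul]
    exact continuous_finsetSum _ fun a _ => continuous_finsetSum _ fun b _ =>
      continuous_finsetSum _ fun c _ => ((hgc k a c).mul
        ((continuous_covMat_supp hσ _ c b).comp continuous_fst)).mul (hgc k b a)
  have hAb : ∀ p, |A p| ≤ n * (n * (n * (4 * (1 + D) * (2 * D) * (4 * (1 + D))))) := fun p => by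
    simp only [A, Matrix.trace, Matrix.diag, Matrix.mul_apply, Finset.sum_mul]
    refine abs_sum_le fun a => abs_sum_le fun b => abs_sum_le fun c => ?_
    rw [abs_mul, abs_mul]
    exact mul_le_mul (mul_le_mul (abs_gam_le hσ hν h k p a c) (abs_covMat_le hσ _ _ c b)
      (abs_nonneg _) (by positivity)) (abs_gam_le hσ hν h k p b a) (abs_nonneg _) (by positivity)
  -- the bound at each state
  have hpt : ∀ p, B p ≤ Y p ∧
      |Y p| ≤ n * (n * (4 * (1 + D) * (j * (E1 * (h * Real.sqrt h)) +
        j * h * (2 * (1 + D) * (1 + D) + 4 * (1 + D)) + j * h * (2 * (1 + D) * (1 + D))))) ∧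
      0 ≤ A p := by
    intro p
    have := fun m => (isProb_pairFrom hσ hν hh k m p).1
    set b0 := bary ρ (k * h) p.1
    set Jac := fun a c => ∫ q, X (k + j) q a * (q.1 c - p.1 c) ∂pairFrom ρ ν h k j p
    set Tac := fun (i : ℕ) a c => ∫ r, (X (k + i) r a * bary ρ ((k + i : ℕ) * h) r.1 c
      + gam ρ ν h (k + i) r a c) ∂pairFrom ρ ν h k i p
    have iX : ∀ m a, Integrable (fun r => X (k + m) r a) (pairFrom ρ ν h k m p) := fun m a =>
      (integrable_pair hσ hν hh k m p (hXc _ a).measurable
        (polyP_bdd fun r => abs_wV_le_supp hσ hν _ _ r a)).2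
    have iXq : ∀ a c, Integrable (fun q => X (k + j) q a * (q.1 c - p.1 c))
        (pairFrom ρ ν h k j p) := fun a c =>
      (integrable_pair hσ hν hh k j p ((hXc _ a).mul (by fun_prop)).measurable
        (polyP_lin (C := 2 * (1 + D) * (1 + |p.1 c|)) fun q => by
          rw [Pi.mul_apply, abs_mul, mul_assoc]
          refine mul_le_mul (abs_wV_le_supp hσ hν _ _ _ a) ?_ (abs_nonneg _) (by linarith)
          refine (abs_sub _ _).trans ?_
          nlinarith [abs_coord_le q.1 c, nsq_nonneg q.1, nsq_nonneg q.2, abs_nonneg (p.1 c)])).2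
    have hmart : ∀ m a, ∫ r, X (k + m) r a ∂pairFrom ρ ν h k m p = X k p a := fun m a =>
      wV_martingale hσ hν hh k m p a
    have hYeq : Y p = ∑ a, ∑ c, G p a c * (Jac a c - j * h * b0 c * X k p a) := by
      have e : ∀ q : St n × St n, dotp (X (k + j) q) ((G p).mulVec (q.1 - p.1 - ((j : ℝ) * h) • b0))
          = ∑ a, ∑ c, G p a c * (X (k + j) q a * (q.1 c - p.1 c)
            - j * h * b0 c * X (k + j) q a) := fun q => by
        simp only [dotp, Matrix.mulVec, dotProduct, Finset.mul_sum, Pi.sub_apply, Pi.smul_apply,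
          smul_eq_mul]
        exact Finset.sum_congr rfl fun a _ => Finset.sum_congr rfl fun c _ => by ring
      have i : ∀ a c, Integrable (fun q => G p a c * (X (k + j) q a * (q.1 c - p.1 c)
          - j * h * b0 c * X (k + j) q a)) (pairFrom ρ ν h k j p) := fun a c =>
        ((iXq a c).sub ((iX j a).const_mul _)).const_mul _
      simp only [Y, b0] at e ⊢
      simp only [e]
      rw [integral_finsetSum _ fun a _ => integrable_finsetSum _ fun c _ => i a c]
      refine Finset.sum_congr rfl fun a _ => ?_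
      rw [integral_finsetSum _ fun c _ => i a c]
      refine Finset.sum_congr rfl fun c _ => ?_
      rw [integral_const_mul, integral_sub (iXq a c) ((iX j a).const_mul _), integral_const_mul,
        hmart]
    have hTb : ∀ i a c, |Tac i a c| ≤ 2 * (1 + D) * (1 + D) + 4 * (1 + D) := fun i a c => by
      simpa [Tac] using norm_integral_le_of_norm_le_const (μ := pairFrom ρ ν h k i p)
        (f := fun r => X (k + i) r a * bary ρ ((k + i : ℕ) * h) r.1 c
          + gam ρ ν h (k + i) r a c) (Filter.Eventually.of_forall fun r =>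
        (abs_add_le _ _).trans (add_le_add ((abs_mul _ _).le.trans (mul_le_mul
          (abs_wV_le_supp hσ hν _ _ r a) (abs_mg_le_supp hσ (fun x hx => abs_coord_le_supp hx c) _ _)
          (abs_nonneg _) (by linarith))) (abs_gam_le hσ hν _ _ r a c)))
    have hJb : ∀ a c, |Jac a c - j * h * b0 c * X k p a|
        ≤ j * (E1 * (h * Real.sqrt h)) + j * h * (2 * (1 + D) * (1 + D) + 4 * (1 + D))
          + j * h * (2 * (1 + D) * (1 + D)) := fun a c => by
      have a1 := hJ h hh hh1 k j p a c
      have a2 : |h * ∑ i ∈ Finset.range j, Tac i a c|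
          ≤ j * h * (2 * (1 + D) * (1 + D) + 4 * (1 + D)) := by
        rw [abs_mul, abs_of_pos hh, mul_comm (j : ℝ) h, mul_assoc]
        refine mul_le_mul_of_nonneg_left ((Finset.abs_sum_le_sum_abs _ _).trans
          ((Finset.sum_le_sum fun i _ => hTb i a c).trans (le_of_eq (by simp [mul_add])))) hh.le
      have a3 : |j * h * b0 c * X k p a| ≤ j * h * (2 * (1 + D) * (1 + D)) := by
        rw [mul_assoc, abs_mul, abs_of_nonneg (by positivity : (0:ℝ) ≤ j * h), abs_mul,
          mul_comm |b0 c|]
        exact mul_le_mul_of_nonneg_left (mul_le_mul (abs_wV_le_supp hσ hν h k p a) (abs_mg_le_supp hσ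
          (fun x hx => abs_coord_le_supp hx c) _ _) (abs_nonneg _) (by linarith)) (by positivity)
      obtain ⟨p1, p2⟩ := abs_le.1 a1
      obtain ⟨q1, q2⟩ := abs_le.1 a2
      obtain ⟨r1, r2⟩ := abs_le.1 a3
      simp only [Jac, Tac, X] at *
      rw [abs_le]
      constructor <;> linarith
    have hbnd : |Y p| ≤ n * (n * (4 * (1 + D) * (j * (E1 * (h * Real.sqrt h)) +
        j * h * (2 * (1 + D) * (1 + D) + 4 * (1 + D)) + j * h * (2 * (1 + D) * (1 + D))))) := by
      rw [hYeq]
      refine abs_sum_le fun a => abs_sum_le fun c => ?_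
      rw [abs_mul]
      exact mul_le_mul (abs_gam_le hσ hν h k p a c) (hJb a c) (abs_nonneg _) (by positivity)
    -- the two main terms of each index
    set Sx := fun (i : ℕ) a c =>
      ∫ r, X (k + i) r a * (bary ρ ((k + i : ℕ) * h) r.1 c - b0 c) ∂pairFrom ρ ν h k i p
    set Sg := fun (i : ℕ) a c => ∫ r, gam ρ ν h (k + i) r a c ∂pairFrom ρ ν h k i p
    have iXb : ∀ i a c, Integrable (fun r => X (k + i) r a
        * bary ρ ((k + i : ℕ) * h) r.1 c) (pairFrom ρ ν h k i p) := fun i a c =>
      (integrable_pair hσ hν hh k i p ((hXc _ a).mul (hbc _ c)).measurable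
        (polyP_bdd fun r => (abs_mul _ _).le.trans (mul_le_mul (abs_wV_le_supp hσ hν _ _ r a)
          (abs_mg_le_supp hσ (fun x hx => abs_coord_le_supp hx c) _ _) (abs_nonneg _)
          (by linarith)))).2
    have iG : ∀ i a c, Integrable (fun r => gam ρ ν h (k + i) r a c) (pairFrom ρ ν h k i p) :=
      fun i a c => (integrable_pair hσ hν hh k i p (hgc _ a c).measurable
        (polyP_bdd fun r => abs_gam_le hσ hν _ _ r a c)).2
    have hTS : ∀ i a c, Tac i a c - b0 c * X k p a = Sx i a c + Sg i a c := fun i a c => by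
      simp only [Tac, Sx, Sg, mul_sub]
      rw [integral_add (iXb i a c) (iG i a c), integral_sub (iXb i a c) ((iX i a).mul_const _),
        integral_mul_const, hmart]
      ring
    have hmain : |Y p - h * ∑ i ∈ Finset.range j,
        ((∑ a, ∑ c, G p a c * Sx i a c) + ∑ a, ∑ c, G p a c * Sg i a c)|
        ≤ n * (n * (4 * (1 + D))) * (j * (E1 * (h * Real.sqrt h))) := by
      have e : h * ∑ i ∈ Finset.range j,
          ((∑ a, ∑ c, G p a c * Sx i a c) + ∑ a, ∑ c, G p a c * Sg i a c)
          = ∑ a, ∑ c, G p a c * (h * (∑ i ∈ Finset.range j, Tac i a c) - j * h * b0 c * X k p a) := by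
        have e2 : ∀ a c, h * (∑ i ∈ Finset.range j, Tac i a c) - j * h * b0 c * X k p a
            = h * ∑ i ∈ Finset.range j, (Sx i a c + Sg i a c) := fun a c => by
          simp only [← hTS]
          rw [Finset.sum_sub_distrib, Finset.sum_const, Finset.card_range, nsmul_eq_mul]
          ring
        simp only [e2]
        simp only [← Finset.sum_add_distrib, ← mul_add, Finset.mul_sum]
        rw [Finset.sum_comm]
        refine Finset.sum_congr rfl fun a _ => ?_
        rw [Finset.sum_comm]
        exact Finset.sum_congr rfl fun c _ => Finset.sum_congr rfl fun i _ => by ring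
      rw [e, hYeq, ← Finset.sum_sub_distrib]
      simp only [← Finset.sum_sub_distrib, ← mul_sub, sub_sub_sub_cancel_right]
      rw [mul_assoc (n : ℝ), mul_assoc (n : ℝ)]
      refine abs_sum_le fun a => abs_sum_le fun c => ?_
      rw [abs_mul]
      exact mul_le_mul (abs_gam_le hσ hν h k p a c) (hJ h hh hh1 k j p a c) (abs_nonneg _)
        (by positivity)
    have hvar : ∀ i, ∫ r, nsq ((G p).mulVec (bary ρ ((k + i : ℕ) * h) r.1 - b0))
        ∂pairFrom ρ ν h k i p ≤ A p := fun i => by
      have hc : ∀ a, Continuous fun r : St n × St n =>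
          ((G p).mulVec (bary ρ ((k + i : ℕ) * h) r.1 - b0)) a ^ 2 := fun a => by
        simp only [Matrix.mulVec, dotProduct, Pi.sub_apply]
        exact (continuous_finsetSum _ fun c _ =>
          continuous_const.mul ((hbc _ c).sub continuous_const)).pow 2
      have hi : ∀ a, Integrable (fun r : St n × St n =>
          ((G p).mulVec (bary ρ ((k + i : ℕ) * h) r.1 - b0)) a ^ 2) (pairFrom ρ ν h k i p) :=
        fun a => (integrable_pair hσ hν hh k i p (hc a).measurable
          (polyP_bdd (C := (n * (4 * (1 + D) * (2 * (1 + D)))) ^ 2) fun r => by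
            rw [abs_pow]
            refine pow_le_pow_left₀ (abs_nonneg _) (abs_sum_le fun c => ?_) 2
            rw [abs_mul]
            refine mul_le_mul (abs_gam_le hσ hν h k p a c) ((abs_sub _ _).trans ?_) (abs_nonneg _)
              (by positivity)
            have h1 : |bary ρ ((k + i : ℕ) * h) r.1 c| ≤ 1 + D :=
              abs_mg_le_supp hσ (fun x hx => abs_coord_le_supp hx c) _ _
            have h2 : |b0 c| ≤ 1 + D := abs_mg_le_supp hσ (fun x hx => abs_coord_le_supp hx c) _ _
            linarith)).2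
      simp only [nsq]
      rw [integral_finsetSum _ fun a _ => hi a]
      refine (Finset.sum_le_sum fun a _ =>
        bary_move_var hb.ulc hσ hν hh k i p (fun c => G p a c)).trans (le_of_eq ?_)
      simp only [A, Matrix.trace, Matrix.diag, Matrix.mul_apply, Finset.sum_mul]
      refine Finset.sum_congr rfl fun a _ => ?_
      rw [Finset.sum_comm]
      refine Finset.sum_congr rfl fun b _ => Finset.sum_congr rfl fun c _ => ?_
      exact congrArg _ ((gam_bounds hb ht hτ h k hk p).2.1.apply b a)
    have hA0 : 0 ≤ A p := le_trans (integral_nonneg fun r => nsq_nonneg _) (hvar 0)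
    have hSx : ∀ i, -(Real.sqrt (φ i p) * Real.sqrt (A p)) ≤ ∑ a, ∑ c, G p a c * Sx i a c := by
      intro i
      set d := fun r : St n × St n => (G p).mulVec (bary ρ ((k + i : ℕ) * h) r.1 - b0)
      have hdc : Continuous fun r => nsq (d r) := by
        simp only [d, nsq, Matrix.mulVec, dotProduct, Pi.sub_apply]
        exact continuous_finsetSum _ fun a _ => (continuous_finsetSum _ fun c _ =>
          continuous_const.mul ((hbc _ c).sub continuous_const)).pow 2
      have hdb : ∀ r, |nsq (d r)| ≤ n * (n * (4 * (1 + D) * (2 * (1 + D)))) ^ 2 := fun r => by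
        refine abs_sum_le fun a => ?_
        rw [abs_pow]
        refine pow_le_pow_left₀ (abs_nonneg _) (abs_sum_le fun c => ?_) 2
        rw [abs_mul]
        refine mul_le_mul (abs_gam_le hσ hν h k p a c) ((abs_sub _ _).trans ?_) (abs_nonneg _)
          (by positivity)
        have h1 : |bary ρ ((k + i : ℕ) * h) r.1 c| ≤ 1 + D :=
          abs_mg_le_supp hσ (fun x hx => abs_coord_le_supp hx c) _ _
        have h2 : |b0 c| ≤ 1 + D := abs_mg_le_supp hσ (fun x hx => abs_coord_le_supp hx c) _ _
        linarith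
      have i1 : ∀ a c, Integrable (fun r => G p a c * (X (k + i) r a
          * (bary ρ ((k + i : ℕ) * h) r.1 c - b0 c))) (pairFrom ρ ν h k i p) := fun a c =>
        (((iXb i a c).sub ((iX i a).mul_const (b0 c))).congr (Filter.Eventually.of_forall
          fun r => by simp only [Pi.sub_apply]; ring)).const_mul _
      have e : ∑ a, ∑ c, G p a c * Sx i a c
          = ∫ r, dotp (X (k + i) r) (d r) ∂pairFrom ρ ν h k i p := by
        have e' : ∀ r, dotp (X (k + i) r) (d r) = ∑ a, ∑ c, G p a c * (X (k + i) r a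
            * (bary ρ ((k + i : ℕ) * h) r.1 c - b0 c)) := fun r => by
          simp only [d, dotp, Matrix.mulVec, dotProduct, Finset.mul_sum, Pi.sub_apply]
          exact Finset.sum_congr rfl fun a _ => Finset.sum_congr rfl fun c _ => by ring
        simp only [e']
        rw [integral_finsetSum _ fun a _ => integrable_finsetSum _ fun c _ => i1 a c]
        refine Finset.sum_congr rfl fun a _ => ?_
        rw [integral_finsetSum _ fun c _ => i1 a c]
        simp only [Sx, integral_const_mul]
      have hcs := (cs_bdd (μ := pairFrom ρ ν h k i p) (hXn (k + i)).sqrt.measurable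
        hdc.sqrt.measurable (A := Real.sqrt (n * (2 * (1 + D)) ^ 2))
        (B := Real.sqrt (n * (n * (4 * (1 + D) * (2 * (1 + D)))) ^ 2))
        (fun r => by
          rw [abs_of_nonneg (Real.sqrt_nonneg _)]
          exact Real.sqrt_le_sqrt ((le_abs_self _).trans (hXb _ r)))
        (fun r => by
          rw [abs_of_nonneg (Real.sqrt_nonneg _)]
          exact Real.sqrt_le_sqrt ((le_abs_self _).trans (hdb r)))).2
      simp only [Real.sq_sqrt (nsq_nonneg _)] at hcs
      have i2 : Integrable (fun r => dotp (X (k + i) r) (d r)) (pairFrom ρ ν h k i p) :=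
        (integrable_finsetSum _ fun a _ => integrable_finsetSum _ fun c _ => i1 a c).congr
          (Filter.Eventually.of_forall fun r => by
            simp only [d, dotp, Matrix.mulVec, dotProduct, Finset.mul_sum, Pi.sub_apply]
            exact Finset.sum_congr rfl fun a _ => Finset.sum_congr rfl fun c _ => by ring)
      have i3 : Integrable (fun r => Real.sqrt (nsq (X (k + i) r)) * Real.sqrt (nsq (d r)))
          (pairFrom ρ ν h k i p) :=
        (integrable_pair hσ hν hh k i p ((hXn (k + i)).sqrt.mul hdc.sqrt).measurable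
          (polyP_bdd fun r => by
            rw [Pi.mul_apply, abs_mul, abs_of_nonneg (Real.sqrt_nonneg _),
              abs_of_nonneg (Real.sqrt_nonneg _)]
            exact mul_le_mul (Real.sqrt_le_sqrt ((le_abs_self _).trans (hXb _ r)))
              (Real.sqrt_le_sqrt ((le_abs_self _).trans (hdb r))) (Real.sqrt_nonneg _)
              (Real.sqrt_nonneg _))).2
      have hlow := integral_mono i3.neg i2 fun r => by
        simp only [Pi.neg_apply]
        have := Real.abs_le_sqrt (dotp_sq_le (X (k + i) r) (d r))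
        rw [Real.sqrt_mul (nsq_nonneg _)] at this
        linarith [(abs_le.1 this).1]
      simp only [Pi.neg_apply] at hlow
      rw [integral_neg] at hlow
      have h1 := hcs.trans (mul_le_mul_of_nonneg_left (Real.sqrt_le_sqrt (hvar i))
        (Real.sqrt_nonneg _))
      rw [e]
      simp only [φ]
      linarith
    have hSg : ∀ i ∈ Finset.range j, frob (G p) - (∑ l ∈ Finset.range i,
        3 / (((k + l : ℕ) : ℝ) * h) * h * (Real.sqrt (frob (G p)) * ψ l p))
        - n * (n * (4 * (1 + D))) * (|S| * (E2 * Real.sqrt h)) ≤ ∑ a, ∑ c, G p a c * Sg i a c := by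
      intro i hi
      set Dr := fun (l : ℕ) a c => ∫ r, drift ρ ν h (k + l) r a c ∂pairFrom ρ ν h k l p
      have hd : ∀ l, ∑ a, ∑ c, G p a c * Dr l a c
          ≤ 3 / (((k + l : ℕ) : ℝ) * h) * (Real.sqrt (frob (G p)) * ψ l p) := fun l => by
        have hl : 2 * τ ≤ (k + l : ℕ) * h :=
          hk.trans (mul_le_mul_of_nonneg_right (by simp) hh.le)
        have hl0 : (0 : ℝ) < (k + l : ℕ) * h := by linarith
        have hdc : ∀ a c, Continuous fun r => drift ρ ν h (k + l) r a c := fun a c => by
          have c1 : ∀ {τ' : St n → ℝ} {f : St n × St n → St n} (_ : Dens D τ') (_ : Continuous f)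
              (u v : Fin n), Continuous fun r => covMat τ' ((k + l : ℕ) * h) (f r) u v :=
            fun hd hf u v => (continuous_covMat_supp hd _ u v).comp hf
          simp only [drift, Matrix.sub_apply, Matrix.mul_apply]
          exact (continuous_finsetSum _ fun m _ => (c1 hν continuous_snd a m).mul
            (c1 hν continuous_snd m c)).sub (continuous_finsetSum _ fun m _ =>
            (c1 hσ continuous_fst a m).mul (c1 hσ continuous_fst m c))
        have i1 : ∀ a c, Integrable (fun r => G p a c * drift ρ ν h (k + l) r a c)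
            (pairFrom ρ ν h k l p) := fun a c =>
          ((integrable_pair hσ hν hh k l p (hdc a c).measurable
            (polyP_bdd (C := 3 / (((k + l : ℕ) : ℝ) * h)
              * Real.sqrt (n * (n * (4 * (1 + D)) ^ 2))) fun r => by
              refine le_trans ?_ ((sqrt_frob_drift_le hb ht hτ h (k + l) hl r).trans
                (mul_le_mul_of_nonneg_left ((le_abs_self _).trans (hsb _ r)) (by positivity)))
              rw [← Real.sqrt_sq_eq_abs]
              refine Real.sqrt_le_sqrt ?_
              refine le_trans ?_ (Finset.single_le_sum (f := fun a => ∑ b,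
                drift ρ ν h (k + l) r a b ^ 2) (fun _ _ => Finset.sum_nonneg fun _ _ => sq_nonneg _)
                (Finset.mem_univ a))
              exact Finset.single_le_sum (f := fun b => drift ρ ν h (k + l) r a b ^ 2)
                (fun _ _ => sq_nonneg _) (Finset.mem_univ c))).2).const_mul _
        have e : ∑ a, ∑ c, G p a c * Dr l a c
            = ∫ r, ∑ a, ∑ c, G p a c * drift ρ ν h (k + l) r a c ∂pairFrom ρ ν h k l p := by
          rw [integral_finsetSum _ fun a _ => integrable_finsetSum _ fun c _ => i1 a c]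
          refine Finset.sum_congr rfl fun a _ => ?_
          rw [integral_finsetSum _ fun c _ => i1 a c]
          simp only [Dr, integral_const_mul]
        rw [e]
        simp only [ψ]
        rw [← integral_const_mul, ← integral_const_mul]
        refine integral_mono (integrable_finsetSum _ fun a _ => integrable_finsetSum _ fun c _ =>
          i1 a c) (((integrable_pair hσ hν hh k l p (hsc _).measurable
            (polyP_bdd (hsb _))).2.const_mul _).const_mul _) fun r => ?_
        refine (frob_inner_le _ _).trans ?_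
        have := mul_le_mul_of_nonneg_left (sqrt_frob_drift_le hb ht hτ h (k + l) hl r)
          (Real.sqrt_nonneg (frob (G p)))
        linarith
      have e : ∑ a, ∑ c, G p a c * (G p a c - h * ∑ l ∈ Finset.range i, Dr l a c)
          = frob (G p) - h * ∑ l ∈ Finset.range i, ∑ a, ∑ c, G p a c * Dr l a c := by
        simp only [mul_sub, Finset.sum_sub_distrib, frob]
        congr 1
        · simp only [sq]
        · simp only [Finset.mul_sum]
          rw [Finset.sum_comm (s := Finset.range i)]
          refine Finset.sum_congr rfl fun a _ => ?_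
          rw [Finset.sum_comm (s := Finset.range i)]
          exact Finset.sum_congr rfl fun c _ => Finset.sum_congr rfl fun l _ => by ring
      have herr2 : |(∑ a, ∑ c, G p a c * Sg i a c)
          - ∑ a, ∑ c, G p a c * (G p a c - h * ∑ l ∈ Finset.range i, Dr l a c)|
          ≤ n * (n * (4 * (1 + D))) * (|S| * (E2 * Real.sqrt h)) := by
        simp only [← Finset.sum_sub_distrib, ← mul_sub]
        rw [mul_assoc (n : ℝ), mul_assoc (n : ℝ)]
        refine abs_sum_le fun a => abs_sum_le fun c => ?_
        rw [abs_mul]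
        refine mul_le_mul (abs_gam_le hσ hν h k p a c) ((hI h hh hh1 k i hk p a c).trans ?_)
          (abs_nonneg _) (by positivity)
        have h1 : (i : ℝ) * h ≤ |S| := le_trans (mul_le_mul_of_nonneg_right
          (by exact_mod_cast (Finset.mem_range.1 hi).le) hh.le) hjS
        have := mul_le_mul_of_nonneg_right h1 (show 0 ≤ E2 * Real.sqrt h by positivity)
        linarith
      have h2 : h * ∑ l ∈ Finset.range i, ∑ a, ∑ c, G p a c * Dr l a c
          ≤ ∑ l ∈ Finset.range i,
            3 / (((k + l : ℕ) : ℝ) * h) * h * (Real.sqrt (frob (G p)) * ψ l p) := by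
        rw [Finset.mul_sum]
        refine Finset.sum_le_sum fun l _ => (mul_le_mul_of_nonneg_left (hd l) hh.le).trans
          (le_of_eq ?_)
        ring
      obtain ⟨q1, q2⟩ := abs_le.1 herr2
      linarith
    refine ⟨?_, hbnd, hA0⟩
    have h1 := mul_le_mul_of_nonneg_left
      (Finset.sum_le_sum (s := Finset.range j) fun i hi => add_le_add (hSx i) (hSg i hi)) hh.le
    simp only [Finset.sum_add_distrib, Finset.sum_sub_distrib, Finset.sum_const,
      Finset.card_range, nsmul_eq_mul, Finset.sum_neg_distrib] at h1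
    obtain ⟨q1, q2⟩ := abs_le.1 hmain
    simp only [Finset.sum_add_distrib] at q1 q2
    have h2 := mul_le_mul_of_nonneg_left hjS
      (show 0 ≤ n * (n * (4 * (1 + D))) * (|S| * (E2 * Real.sqrt h)) by positivity)
    have h3 := mul_le_mul_of_nonneg_left hjS
      (show 0 ≤ n * (n * (4 * (1 + D))) * (E1 * Real.sqrt h) by positivity)
    simp only [B, herr]
    linarith
  -- integration
  have := (isProb_pairFrom hσ hν hh k 0 (0, 0)).2
  have hφm : ∀ i, Measurable (φ i) := fun i => measurable_inner hσ hν hh k i (hXn _).measurable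
  have hψm : ∀ l, Measurable (ψ l) := fun l => measurable_inner hσ hν hh k l (hsc _).measurable
  have hφb : ∀ i p, |φ i p| ≤ n * (2 * (1 + D)) ^ 2 := fun i p => by
    have := (isProb_pairFrom hσ hν hh k i p).1
    simpa using norm_integral_le_of_norm_le_const (μ := pairFrom ρ ν h k i p)
      (f := fun r => nsq (X (k + i) r)) (Filter.Eventually.of_forall (hXb (k + i)))
  have hψb : ∀ l p, |ψ l p| ≤ Real.sqrt (n * (n * (4 * (1 + D)) ^ 2)) := fun l p => by
    have := (isProb_pairFrom hσ hν hh k l p).1
    simpa using norm_integral_le_of_norm_le_const (μ := pairFrom ρ ν h k l p)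
      (f := fun r => Real.sqrt (frob (gam ρ ν h (k + l) r)))
      (Filter.Eventually.of_forall (hsb (k + l)))
  have hφs : ∀ i p, |Real.sqrt (φ i p)| ≤ Real.sqrt (n * (2 * (1 + D)) ^ 2) := fun i p => by
    rw [abs_of_nonneg (Real.sqrt_nonneg _)]
    exact Real.sqrt_le_sqrt ((le_abs_self _).trans (hφb i p))
  have hAs : ∀ p, |Real.sqrt (A p)|
      ≤ Real.sqrt (n * (n * (n * (4 * (1 + D) * (2 * D) * (4 * (1 + D)))))) := fun p => by
    rw [abs_of_nonneg (Real.sqrt_nonneg _)]
    exact Real.sqrt_le_sqrt ((le_abs_self _).trans (hAb p))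
  have iF := integrable_pairM hσ hν hh k (continuous_frob_gam hσ hν h k).measurable
    (polyP_bdd (abs_frob_gam_le hσ hν h k))
  have i1 : ∀ l, Integrable (fun p => Real.sqrt (frob (G p)) * ψ l p) (pairM ρ ν h k) := fun l =>
    integrable_pairM hσ hν hh k ((hsc k).measurable.mul (hψm l)) (polyP_bdd fun p => by
      rw [abs_mul]; exact mul_le_mul (hsb k p) (hψb l p) (abs_nonneg _) (Real.sqrt_nonneg _))
  have i2 : ∀ i, Integrable (fun p => Real.sqrt (φ i p) * Real.sqrt (A p)) (pairM ρ ν h k) :=
    fun i => integrable_pairM hσ hν hh k ((hφm i).sqrt.mul hAc.sqrt.measurable)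
      (polyP_bdd fun p => by
        rw [abs_mul]; exact mul_le_mul (hφs i p) (hAs p) (abs_nonneg _) (Real.sqrt_nonneg _))
  have hYm : Measurable Y := by
    have hq : ∀ a c, Measurable fun p : St n × St n =>
        ∫ q, X (k + j) q a * q.1 c ∂pairFrom ρ ν h k j p := fun a c =>
      measurable_inner hσ hν hh k j ((hXc _ a).mul (by fun_prop)).measurable
    have e : Y = fun p => ∑ a, ∑ c, G p a c * ((∫ q, X (k + j) q a * q.1 c ∂pairFrom ρ ν h k j p)
        - (p.1 c + j * h * bary ρ (k * h) p.1 c) * X k p a) := funext fun p => by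
      have iq : ∀ a c, Integrable (fun q => X (k + j) q a * q.1 c) (pairFrom ρ ν h k j p) :=
        fun a c => (integrable_pair hσ hν hh k j p ((hXc _ a).mul (by fun_prop)).measurable
          (polyP_lin (C := 2 * (1 + D)) fun q => by
            rw [Pi.mul_apply, abs_mul]
            exact mul_le_mul (abs_wV_le_supp hσ hν _ _ _ a) ((abs_coord_le q.1 c).trans
              (by linarith [nsq_nonneg q.2])) (abs_nonneg _) (by linarith))).2
      have iX : ∀ a, Integrable (fun q => X (k + j) q a) (pairFrom ρ ν h k j p) := fun a =>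
        (integrable_pair hσ hν hh k j p (hXc _ a).measurable
          (polyP_bdd fun r => abs_wV_le_supp hσ hν _ _ r a)).2
      have i : ∀ a c, Integrable (fun q => G p a c * (X (k + j) q a * q.1 c
          - (p.1 c + j * h * bary ρ (k * h) p.1 c) * X (k + j) q a))
          (pairFrom ρ ν h k j p) := fun a c =>
        ((iq a c).sub ((iX a).const_mul _)).const_mul _
      have e' : ∀ q : St n × St n, dotp (X (k + j) q)
          ((G p).mulVec (q.1 - p.1 - ((j : ℝ) * h) • bary ρ (k * h) p.1))
          = ∑ a, ∑ c, G p a c * (X (k + j) q a * q.1 c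
            - (p.1 c + j * h * bary ρ (k * h) p.1 c) * X (k + j) q a) := fun q => by
        simp only [dotp, Matrix.mulVec, dotProduct, Finset.mul_sum, Pi.sub_apply, Pi.smul_apply,
          smul_eq_mul]
        exact Finset.sum_congr rfl fun a _ => Finset.sum_congr rfl fun c _ => by ring
      simp only [Y, e']
      rw [integral_finsetSum _ fun a _ => integrable_finsetSum _ fun c _ => i a c]
      refine Finset.sum_congr rfl fun a _ => ?_
      rw [integral_finsetSum _ fun c _ => i a c]
      refine Finset.sum_congr rfl fun c _ => ?_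
      rw [integral_const_mul, integral_sub (iq a c) ((iX a).const_mul _), integral_const_mul]
      simp only [X]
      rw [wV_martingale hσ hν hh k j p a]
    rw [e]
    refine Finset.measurable_sum _ fun a _ => Finset.measurable_sum _ fun c _ => ?_
    exact (hgc k a c).measurable.mul ((hq a c).sub
      (((((measurable_pi_apply c).comp measurable_fst).add
        ((hbc _ c).measurable.const_mul _))).mul (hXc k a).measurable))
  have iY : Integrable Y (pairM ρ ν h k) :=
    integrable_pairM hσ hν hh k hYm (polyP_bdd fun p => (hpt p).2.1)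
  have j0 : Integrable (fun p => j * h * frob (G p)) (pairM ρ ν h k) := iF.const_mul _
  have j1 : Integrable (fun p => h * ∑ i ∈ Finset.range j, ∑ l ∈ Finset.range i,
      3 / (((k + l : ℕ) : ℝ) * h) * h * (Real.sqrt (frob (G p)) * ψ l p)) (pairM ρ ν h k) :=
    (integrable_finsetSum _ fun i _ => integrable_finsetSum _ fun l _ =>
      (i1 l).const_mul _).const_mul h
  have j2 : Integrable (fun p => h * ∑ i ∈ Finset.range j, Real.sqrt (φ i p) * Real.sqrt (A p))
      (pairM ρ ν h k) := (integrable_finsetSum _ fun i _ => i2 i).const_mul h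
  have j01 : Integrable (fun p => j * h * frob (G p) - h * ∑ i ∈ Finset.range j,
      ∑ l ∈ Finset.range i, 3 / (((k + l : ℕ) : ℝ) * h) * h * (Real.sqrt (frob (G p)) * ψ l p))
      (pairM ρ ν h k) := j0.sub j1
  have j012 : Integrable (fun p => j * h * frob (G p) - (h * ∑ i ∈ Finset.range j,
      ∑ l ∈ Finset.range i, 3 / (((k + l : ℕ) : ℝ) * h) * h * (Real.sqrt (frob (G p)) * ψ l p))
      - h * ∑ i ∈ Finset.range j, Real.sqrt (φ i p) * Real.sqrt (A p)) (pairM ρ ν h k) :=
    j01.sub j2
  refine le_trans ?_ (integral_mono (j012.sub (integrable_const err)) iY fun p => (hpt p).1)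
  simp only [Pi.sub_apply]
  rw [integral_sub j012 (integrable_const _), integral_sub j01 j2, integral_sub j0 j1,
    integral_const, probReal_univ, one_smul, integral_const_mul, integral_const_mul,
    integral_const_mul, integral_finsetSum _ fun i _ => i2 i,
    integral_finsetSum _ fun i _ => integrable_finsetSum _ fun l _ => (i1 l).const_mul _]
  simp only [integral_finsetSum _ fun l (_ : l ∈ Finset.range _) => (i1 l).const_mul _,
    integral_const_mul]
  have hψ2 : ∀ l, ∫ p, Real.sqrt (frob (G p)) * ψ l p ∂pairM ρ ν h k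
      ≤ Real.sqrt (fk ρ ν h k) * Real.sqrt (fk ρ ν h (k + l)) := fun l => by
    refine (cs_bdd (μ := pairM ρ ν h k) (hsc k).measurable (hψm l) (hsb k) (hψb l)).2.trans
      (mul_le_mul (le_of_eq ?_) (Real.sqrt_le_sqrt ?_) (Real.sqrt_nonneg _) (Real.sqrt_nonneg _))
    · simp only [Real.sq_sqrt (frob_nonneg_sum _)]; rfl
    · rw [fk, integral_pair_add hσ hν hh k l (continuous_frob_gam hσ hν h (k + l)).measurable
        (polyP_bdd (abs_frob_gam_le hσ hν h (k + l)))]
      have hu := measurable_inner hσ hν hh k l (continuous_frob_gam hσ hν h (k + l)).measurable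
      refine integral_mono (integrable_pairM hσ hν hh k ((hψm l).pow_const 2)
        (polyP_bdd fun p => by
          rw [abs_pow]; exact pow_le_pow_left₀ (abs_nonneg _) (hψb l p) 2))
        (integrable_pairM hσ hν hh k hu (polyP_bdd fun p => by
          have := (isProb_pairFrom hσ hν hh k l p).1
          simpa using norm_integral_le_of_norm_le_const (μ := pairFrom ρ ν h k l p)
            (f := fun r => frob (gam ρ ν h (k + l) r))
            (Filter.Eventually.of_forall (abs_frob_gam_le hσ hν h (k + l))))) fun p => ?_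
      have := (isProb_pairFrom hσ hν hh k l p).1
      have := (cs_bdd (μ := pairFrom ρ ν h k l p) (v := fun _ => (1 : ℝ)) (hsc _).measurable
        measurable_const (hsb (k + l)) (B := 1) fun _ => by simp).1
      simpa [Real.sq_sqrt (frob_nonneg_sum _), ψ] using this
  have hZ : ∀ i ∈ Finset.range j, ∫ p, Real.sqrt (φ i p) * Real.sqrt (A p) ∂pairM ρ ν h k
      ≤ Real.sqrt (Zk ρ ν h (k + j)) * Real.sqrt (∫ p, A p ∂pairM ρ ν h k) := fun i hi => by
    refine (cs_bdd (μ := pairM ρ ν h k) (hφm i).sqrt hAc.sqrt.measurable (hφs i) hAs).2.trans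
      (mul_le_mul (Real.sqrt_le_sqrt ?_) (le_of_eq ?_) (Real.sqrt_nonneg _) (Real.sqrt_nonneg _))
    · have e : ∀ p, Real.sqrt (φ i p) ^ 2 = φ i p := fun p =>
        Real.sq_sqrt (integral_nonneg fun r => nsq_nonneg _)
      simp only [e]
      refine le_trans (le_of_eq ?_) (Zk_mono hσ hν hh (k := k + i) (j := k + j)
        (by have := Finset.mem_range.1 hi; omega))
      exact (integral_pair_add hσ hν hh k i (hXn _).measurable (polyP_bdd (hXb _))).symm
    · simp only [fun p => Real.sq_sqrt (hpt p).2.2]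
  have hk0 : ∀ l : ℕ, 0 ≤ 3 / (((k + l : ℕ) : ℝ) * h) * h := fun l => by positivity
  have a1 := mul_le_mul_of_nonneg_left (Finset.sum_le_sum (s := Finset.range j) fun i _ =>
    Finset.sum_le_sum (s := Finset.range i) fun l _ =>
      mul_le_mul_of_nonneg_left (hψ2 l) (hk0 l)) hh.le
  have a2 := mul_le_mul_of_nonneg_left (Finset.sum_le_sum hZ) hh.le
  rw [Finset.sum_const, Finset.card_range, nsmul_eq_mul] at a2
  simp only [fk, herr, G, A] at a1 a2 ⊢
  linarith

end Vale.Agent.P245.Gen2
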