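import Vale.Agent.P245.Gen2.Rank
import Vale.Agent.P245.General.Guan
import Vale.Agent.P166W.Rotate

/-!
# P245, polylogarithmic bound: Gaussian averages of the log moment generating function along a matrix

For a symmetric matrix `M` of squared operator norm at most `R η`, the mean of `lmgf σ (M ξ)` is at
most `C R^3 η^(1/4) |M|_F^2 / η`: the small eigendirections by Jensen and Maurey's inequality, the
large ones by `gauss_tilt_bound`.
-/

open MeasureTheory Set Matrix

namespace Vale.Agent.P245.General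

noncomputable section

variable {n m : ℕ} {η : ℝ} {ρ : (Fin n → ℝ) → ℝ}

theorem integrable_exp_dotp_gauss (u : Fin m → ℝ) :
    ∫⁻ ξ, ENNReal.ofReal (Real.exp (dotp ξ u)) ∂law (gd m 1)
      = ENNReal.ofReal (Real.exp (nsq u / 2)) := by
  have h := lintegral_gd_shift (n := m) one_pos (F := fun _ => 1) measurable_const u
  have := isProb (gd_ulc (n := m) one_pos)
  simp only [one_mul, lintegral_const, measure_univ, mul_one] at h
  have e : ∀ ξ, ENNReal.ofReal (Real.exp (dotp ξ u))
      = ENNReal.ofReal (Real.exp (nsq u / 2)) * ENNReal.ofReal (wgt 1 ξ u) := fun ξ => by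
    rw [wgt, ← ENNReal.ofReal_mul (Real.exp_pos _).le, ← Real.exp_add]
    congr 2; ring
  simp only [e]
  rw [lintegral_const_mul' _ _ ENNReal.ofReal_ne_top, ← h, mul_one]

/-- Small operator norm: the mean is at most the mean squared length, by Maurey's inequality. -/
theorem low_band (h : Ulc η ρ) {c : ℝ} (hcov : CovLe ρ c) (w : Fin m → Fin n → ℝ)
    (hw : ∀ v, nsq (proj w v) ≤ η / 4 * nsq v) :
    Integrable (fun ξ => lmgf ρ (lin w ξ)) (law (gd m 1)) ∧
      ∫ ξ, lmgf ρ (lin w ξ) ∂law (gd m 1) ≤ c * ∑ i, nsq (w i) := by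
  have := isProb h
  have hg := gd_ulc (n := m) one_pos
  have := isProb hg
  set z := center ρ
  set f := fun x => nsq (proj w (x - z))
  have hfc : Continuous f :=
    continuous_nsq.comp ((continuous_proj w).comp (continuous_id.sub continuous_const))
  have hf1 : ∀ i, Integrable (fun x => dotp (w i) (x - z) ^ 2) (law ρ) ∧
      ∫ x, dotp (w i) (x - z) ^ 2 ∂law ρ = covc ρ (dotp (w i)) (dotp (w i)) := fun i => by
    have hp : PolyB fun x => dotp (w i) x + -dotp (w i) z :=
      polyB_add (polyB_dotp _) (polyB_const _)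
    have e : (fun x => dotp (w i) (x - z) ^ 2) = fun x => (dotp (w i) x + -dotp (w i) z) ^ 2 :=
      funext fun x => by rw [dotp_sub, sub_eq_add_neg]
    constructor
    · rw [e]; exact integrable_polyB h (by unfold dotp; fun_prop) (polyB_pow_two hp)
    · obtain ⟨hi, h0⟩ := integral_dotp_centred h (w i)
      simp only [dotp_sub] at h0
      rw [integral_sub (integrable_polyB h (by unfold dotp; fun_prop) (polyB_dotp _))
        (integrable_const _), integral_const, probReal_univ, one_smul, sub_eq_zero] at h0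
      simp only [covc, h0, dotp_sub, pow_two]
      rfl
  have hfi : Integrable f (law ρ) := integrable_finsetSum _ fun i _ => (hf1 i).1
  have hfle : ∫ x, f x ∂law ρ ≤ c * ∑ i, nsq (w i) := by
    simp only [f, nsq, proj]
    rw [integral_finsetSum _ fun i _ => (hf1 i).1, Finset.mul_sum]
    exact Finset.sum_le_sum fun i _ => (hf1 i).2 ▸ hcov (w i)
  have key := maurey h (F := fun x => f x / 2) (f := f) (hfc.measurable.div_const 2) hfc.measurable
    fun x y => by
      have h1 := hw (x - y)
      have e : proj w (x - z) = proj w (x - y) + proj w (y - z) := by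
        funext i; simp only [proj, Pi.add_apply, dotp_sub]; ring
      have h2 := nsq_add_le (proj w (x - y)) (proj w (y - z))
      simp only [f, e]
      linarith
  have hneg : ENNReal.ofReal (Real.exp (-∫ x, f x ∂law ρ))
      ≤ ∫⁻ x, ENNReal.ofReal (Real.exp (-f x)) ∂law ρ := by
    have hei : Integrable (fun x => Real.exp (-f x)) (law ρ) :=
      Integrable.of_bound (Real.continuous_exp.comp hfc.neg).aestronglyMeasurable 1
        (Filter.Eventually.of_forall fun x => by
          rw [Real.norm_eq_abs, abs_of_pos (Real.exp_pos _), Real.exp_le_one_iff, neg_nonpos]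
          exact nsq_nonneg _)
    rw [← ofReal_integral_eq_lintegral_ofReal hei
      (Filter.Eventually.of_forall fun x => (Real.exp_pos _).le), ← integral_neg]
    exact ENNReal.ofReal_le_ofReal (exp_integral_le h hfi.neg hei)
  set B := ∫ x, f x ∂law ρ
  have hexp : ∫⁻ x, ENNReal.ofReal (Real.exp (f x / 2)) ∂law ρ ≤ ENNReal.ofReal (Real.exp B) := by
    set I := ∫⁻ x, ENNReal.ofReal (Real.exp (f x / 2)) ∂law ρ
    calc I = I * ENNReal.ofReal (Real.exp (-B)) * ENNReal.ofReal (Real.exp B) := by
          rw [mul_assoc, ← ENNReal.ofReal_mul (Real.exp_pos _).le, ← Real.exp_add, neg_add_cancel,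
            Real.exp_zero, ENNReal.ofReal_one, mul_one]
      _ ≤ 1 * ENNReal.ofReal (Real.exp B) :=
          mul_le_mul' ((mul_le_mul' le_rfl hneg).trans key) le_rfl
      _ = _ := one_mul _
  set L := fun ξ => lmgf ρ (lin w ξ)
  have hLc : Continuous L := (continuous_lmgf h).comp (continuous_lin w)
  have hLexp : ∫⁻ ξ, ENNReal.ofReal (Real.exp (L ξ)) ∂law (gd m 1) ≤ ENNReal.ofReal (Real.exp B) := by
    refine le_trans (le_of_eq ?_) hexp
    have hmeas : Measurable fun p : (Fin m → ℝ) × (Fin n → ℝ) =>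
        ENNReal.ofReal (Real.exp (dotp p.1 (proj w (p.2 - z)))) :=
      (Real.continuous_exp.comp (continuous_dotp2.comp (continuous_fst.prodMk
        ((continuous_proj w).comp (continuous_snd.sub continuous_const))))).measurable.ennreal_ofReal
    calc ∫⁻ ξ, ENNReal.ofReal (Real.exp (L ξ)) ∂law (gd m 1)
        = ∫⁻ ξ, ∫⁻ x, ENNReal.ofReal (Real.exp (dotp ξ (proj w (x - z)))) ∂law ρ ∂law (gd m 1) := by
          refine lintegral_congr fun ξ => ?_
          simp only [L, ← dotp_lin]
          rw [exp_lmgf h, ofReal_integral_eq_lintegral_ofReal (integrable_linear_mgf h _)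
            (Filter.Eventually.of_forall fun x => (Real.exp_pos _).le)]
      _ = ∫⁻ x, ∫⁻ ξ, ENNReal.ofReal (Real.exp (dotp ξ (proj w (x - z)))) ∂law (gd m 1) ∂law ρ :=
          lintegral_lintegral_swap hmeas.aemeasurable
      _ = _ := lintegral_congr fun x => by rw [integrable_exp_dotp_gauss]
  have hei : Integrable (fun ξ => Real.exp (L ξ)) (law (gd m 1)) := by
    refine ⟨(Real.continuous_exp.comp hLc).aestronglyMeasurable, ?_⟩
    rw [hasFiniteIntegral_iff_ofReal (Filter.Eventually.of_forall fun p => (Real.exp_pos _).le)]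
    exact lt_of_le_of_lt hLexp ENNReal.ofReal_lt_top
  have hLi : Integrable L (law (gd m 1)) := hei.mono' hLc.aestronglyMeasurable
    (Filter.Eventually.of_forall fun ξ => by
      rw [Real.norm_eq_abs, abs_of_nonneg (lmgf_nonneg h _)]
      linarith [Real.add_one_le_exp (L ξ)])
  refine ⟨hLi, le_trans ?_ hfle⟩
  have h1 : ∫ ξ, Real.exp (L ξ) ∂law (gd m 1) ≤ Real.exp B := by
    rw [integral_eq_lintegral_of_nonneg_ae
      (Filter.Eventually.of_forall fun p => (Real.exp_pos _).le) hei.aestronglyMeasurable]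
    exact ENNReal.toReal_le_of_le_ofReal (Real.exp_pos _).le hLexp
  exact Real.exp_le_exp.1 ((exp_integral_le hg hLi hei).trans h1)

/-- Coordinates of a standard Gaussian vector along an injective map are standard Gaussian. -/
theorem map_gauss_inj {e : Fin m → Fin n} (he : Function.Injective e) :
    (P166W.gauss (Fin n)).map (fun g i => g (e i)) = P166W.gauss (Fin m) := by
  classical
  rw [P166W.gauss, P166W.gauss]
  refine (Measure.pi_eq fun A hA => ?_).symm
  rw [Measure.map_apply (by fun_prop) (MeasurableSet.univ_pi hA)]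
  have hpre : (fun g : Fin n → ℝ => fun i => g (e i)) ⁻¹' (Set.univ.pi A)
      = Set.univ.pi (Function.extend e A fun _ => Set.univ) := by
    ext g
    simp only [Set.mem_preimage, Set.mem_univ_pi]
    refine ⟨fun h j => ?_, fun h i => by simpa [he.extend_apply] using h (e i)⟩
    by_cases hj : ∃ i, e i = j
    · obtain ⟨i, rfl⟩ := hj; rw [he.extend_apply]; exact h i
    · rw [Function.extend_apply' _ _ _ hj]; trivial
  rw [hpre, Measure.pi_pi, ← Finset.prod_subset (Finset.subset_univ (Finset.univ.image e))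
    fun j _ hj => ?_, Finset.prod_image fun i _ j _ hij => he hij]
  · exact Finset.prod_congr rfl fun i _ => by rw [he.extend_apply]
  · rw [Function.extend_apply' _ _ _ fun ⟨i, hi⟩ => hj (hi ▸ Finset.mem_image_of_mem e
      (Finset.mem_univ i)), measure_univ]

/-- An orthonormal family stays a contraction after scaling by numbers at most one. -/
theorem nsq_lin_scaled {u : Fin m → Fin n → ℝ}
    (hu : ∀ i j, dotp (u i) (u j) = if i = j then 1 else 0) (s : Fin m → ℝ) (ξ : Fin m → ℝ) :
    nsq (lin (fun i => s i • u i) ξ) = ∑ i, s i ^ 2 * ξ i ^ 2 := by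
  have e : lin (fun i => s i • u i) ξ = lin u (fun i => ξ i * s i) := by simp [lin, smul_smul]
  rw [e, nsq_lin_orth hu, nsq]
  exact Finset.sum_congr rfl fun i _ => by ring

/-- **Gaussian tilts along a matrix.** -/
theorem lmgf_matrix_bound : ∃ C : ℝ, 1 ≤ C ∧ ∀ (n : ℕ) (η R : ℝ) (ρ : (Fin n → ℝ) → ℝ)
    (M : Matrix (Fin n) (Fin n) ℝ), Ulc η ρ → η ≤ 1 → CovLe ρ 3 → 1 ≤ R → M.IsSymm →
      (∀ v, nsq (M *ᵥ v) ≤ R * η * nsq v) →
        Integrable (fun ξ => lmgf ρ (M *ᵥ ξ)) (law (gd n 1)) ∧
          ∫ ξ, lmgf ρ (M *ᵥ ξ) ∂law (gd n 1)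
            ≤ C * R ^ 3 * Real.sqrt (Real.sqrt η) * ((∑ i, ∑ j, M i j ^ 2) / η) := by
  have hwC := one_le_wC
  set A := (15 * wC) ^ 4 with hA
  have hA1 : 1 ≤ A := one_le_pow₀ (by linarith)
  refine ⟨6 + 128 * 66 * A, by linarith, fun n η R ρ M h hη1 hcov hR hM hop => ?_⟩
  have hη := h.pos
  obtain ⟨U, lam, hU, hU', hpow⟩ := exists_eigen M hM
  set u := fun l i => U i l with hu_def
  have hu : ∀ i j, dotp (u i) (u j) = if i = j then 1 else 0 := fun i j => by
    have := congrFun (congrFun hU i) j
    simpa [Matrix.mul_apply, Matrix.one_apply, dotp, u] using this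
  have hMU : ∀ ξ, M *ᵥ ξ = lin (fun l => lam l • u l) (Uᵀ *ᵥ ξ) := fun ξ => by
    have h1 := hpow 1
    simp only [pow_one] at h1
    rw [h1, ← Matrix.mulVec_mulVec, ← Matrix.mulVec_mulVec]
    funext i
    simp only [lin, Matrix.mulVec, dotProduct, Finset.sum_apply, Pi.smul_apply, smul_eq_mul,
      Matrix.diagonal_apply, ite_mul, zero_mul, Finset.sum_ite_eq, Finset.mem_univ, if_true, u]
    exact Finset.sum_congr rfl fun l _ => by ring
  have hfrob : ∑ i, ∑ j, M i j ^ 2 = ∑ l, lam l ^ 2 := by
    have h1 : trace (M ^ 2) = ∑ l, lam l ^ 2 := by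
      rw [hpow 2, trace_mul_comm, ← Matrix.mul_assoc, hU, Matrix.one_mul, trace_diagonal]
    rw [← h1, pow_two, trace]
    refine Finset.sum_congr rfl fun i _ => ?_
    rw [diag, Matrix.mul_apply]
    exact Finset.sum_congr rfl fun j _ => by rw [pow_two, hM.apply i j]
  have hlam : ∀ l, lam l ^ 2 ≤ R * η := fun l => by
    have h1 := hop (u l)
    have h2 : Uᵀ *ᵥ u l = Pi.single l 1 := by
      funext i
      have := hu i l
      simp only [dotp, u] at this
      rw [Pi.single_apply]
      simpa [Matrix.mulVec, dotProduct, u] using this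
    have h3 : nsq (u l) = 1 := by simpa [nsq, dotp, pow_two] using hu l l
    rw [hMU, h2, nsq_lin_scaled hu, h3, mul_one] at h1
    simpa [Pi.single_apply] using h1
  set S : Finset (Fin n) := Finset.univ.filter fun l => η / 16 < lam l ^ 2 with hS
  set k := S.card
  set e : Fin k → Fin n := fun i => (S.equivFin.symm i : Fin n)
  have he : Function.Injective e := fun i j hij => S.equivFin.symm.injective (Subtype.ext hij)
  have hk : (k : ℝ) * η ≤ 16 * ∑ l, lam l ^ 2 := by
    have h1 : (k : ℝ) * (η / 16) ≤ ∑ l ∈ S, lam l ^ 2 := by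
      rw [← nsmul_eq_mul]
      exact Finset.card_nsmul_le_sum _ _ _ fun l hl => (Finset.mem_filter.1 hl).2.le
    have h2 := Finset.sum_le_sum_of_subset_of_nonneg (Finset.subset_univ S)
      fun l _ _ => sq_nonneg (lam l)
    linarith
  -- the small directions
  set wl := fun l => (if l ∈ S then 0 else 2 * lam l) • u l
  have hproj : ∀ v, nsq (proj wl v) ≤ η / 4 * nsq v := fun v => by
    have hv : nsq (fun l => dotp (u l) v) = nsq v := by
      have e1 : (fun l => dotp (u l) v) = Uᵀ *ᵥ v := by
        funext l; simp [dotp, Matrix.mulVec, dotProduct, u]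
      have h4 : (Uᵀ *ᵥ v) ⬝ᵥ (Uᵀ *ᵥ v) = v ⬝ᵥ v := by
        rw [dotProduct_mulVec, ← mulVec_transpose, transpose_transpose, mulVec_mulVec, hU',
          one_mulVec]
      rw [e1]
      simpa [nsq, dotProduct, pow_two] using h4
    rw [← hv, nsq, nsq, Finset.mul_sum]
    refine Finset.sum_le_sum fun l _ => ?_
    simp only [proj, wl, dotp_smul, mul_pow]
    refine mul_le_mul_of_nonneg_right ?_ (sq_nonneg _)
    by_cases hl : l ∈ S
    · rw [if_pos hl, zero_pow two_ne_zero]; positivity
    · rw [if_neg hl]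
      have : lam l ^ 2 ≤ η / 16 := le_of_not_gt fun h' => hl (by simp [hS, h'])
      rw [mul_pow]; linarith
  obtain ⟨hloi, hlo⟩ := low_band h hcov wl hproj
  have hlo2 : ∑ l, nsq (wl l) ≤ 4 * ∑ l, lam l ^ 2 := by
    rw [Finset.mul_sum]
    refine Finset.sum_le_sum fun l _ => ?_
    have h3 : nsq (u l) = 1 := by simpa [nsq, dotp, pow_two] using hu l l
    simp only [wl, nsq_smul_eq, h3, mul_one]
    by_cases hl : l ∈ S
    · rw [if_pos hl, zero_pow two_ne_zero]; positivity
    · rw [if_neg hl, mul_pow]; linarith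
  -- the large directions
  set a := 2 * Real.sqrt (R * η)
  have ha : 0 < a := by positivity
  have ha2 : a ^ 2 = 4 * (R * η) := by
    simp only [a]; rw [mul_pow, Real.sq_sqrt (by positivity)]; norm_num
  set wh := fun i => (2 * lam (e i) / a) • u (e i)
  have hwh : ∀ ζ, nsq (lin wh ζ) ≤ nsq ζ := fun ζ => by
    simp only [wh]
    rw [nsq_lin_scaled (u := fun i => u (e i)) (fun i j => by rw [hu]; simp [he.eq_iff]), nsq]
    refine Finset.sum_le_sum fun i _ => mul_le_of_le_one_left (sq_nonneg _) ?_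
    rw [div_pow, div_le_one (by positivity), ha2, mul_pow]
    linarith [hlam (e i)]
  set T := 16 * A * (Real.sqrt (4 * R) * Real.sqrt (Real.sqrt η) + (4 * R) ^ 3 * η)
  have hT0 : 0 ≤ T := by positivity
  have hhi : Integrable (fun ζ => lmgf ρ (a • lin wh ζ)) (law (gd k 1)) ∧
      ∫ ζ, lmgf ρ (a • lin wh ζ) ∂law (gd k 1) ≤ T * k := by
    rcases Nat.eq_zero_or_pos k with hk0 | hkp
    · have : ∀ ζ, lin wh ζ = 0 := fun ζ =>
        Finset.sum_eq_zero fun i _ => absurd i.2 (by omega)
      simp [this, lmgf_zero h, hk0]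
    · exact gauss_tilt_bound h hcov hkp hwh (R := 4 * R) (a := a) (by linarith) ha.le
        (le_of_eq (by rw [ha2]; ring))
  set sel := fun (g : Fin n → ℝ) (i : Fin k) => g (e i)
  have hselm : Measurable sel := by simp only [sel]; fun_prop
  set Fh := fun ζ => lmgf ρ (a • lin wh ζ)
  have hFhc : Continuous Fh := (continuous_lmgf h).comp ((continuous_lin wh).const_smul a)
  have hmap : (law (gd n 1)).map sel = law (gd k 1) := by
    rw [gd_one_eq, gd_one_eq]; exact map_gauss_inj he
  have hsi : Integrable (fun g => Fh (sel g)) (law (gd n 1)) := by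
    have := hhi.1
    rw [← hmap, integrable_map_measure hFhc.aestronglyMeasurable hselm.aemeasurable] at this
    exact this
  have hsv : ∫ g, Fh (sel g) ∂law (gd n 1) ≤ T * k := by
    refine le_trans (le_of_eq ?_) hhi.2
    rw [← hmap, integral_map hselm.aemeasurable hFhc.aestronglyMeasurable]
  -- assembly
  set Lg := fun g => lmgf ρ (lin (fun l => lam l • u l) g)
  have hLc : Continuous Lg := (continuous_lmgf h).comp (continuous_lin _)
  have hsplit : ∀ g, Lg g ≤ (1 / 2) * lmgf ρ (lin wl g) + (1 / 2) * Fh (sel g) := fun g => by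
    have e1 : lin (fun l => lam l • u l) g
        = (1 / 2 : ℝ) • lin wl g + (1 / 2 : ℝ) • (a • lin wh (sel g)) := by
      have e2 : a • lin wh (sel g) = ∑ l ∈ S, g l • ((2 * lam l) • u l) := by
        rw [lin, Finset.smul_sum, ← Finset.sum_coe_sort S]
        refine (Fintype.sum_equiv S.equivFin.symm _
          (fun l : S => g l • ((2 * lam l) • u l)) fun i => ?_)
        simp only [sel, wh, e, smul_smul]
        congr 1
        field_simp
      rw [e2, lin, lin, Finset.smul_sum, Finset.smul_sum, ← Finset.sum_filter_add_sum_filter_not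
        Finset.univ (fun l => l ∈ S) fun l => g l • lam l • u l, Finset.filter_mem_eq_inter,
        Finset.univ_inter, add_comm]
      congr 1
      · rw [Finset.sum_filter]
        refine Finset.sum_congr rfl fun l _ => ?_
        by_cases hl : l ∈ S
        · simp [wl, hl]
        · simp only [wl, hl, not_false_iff, if_true, if_false, smul_smul]
          congr 1; ring
      · refine Finset.sum_congr rfl fun l _ => ?_
        simp only [smul_smul]
        congr 1; ring
    simp only [Lg, e1]
    exact lmgf_convex h _ _ (by norm_num) (by norm_num) (by norm_num)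
  have hbi := (hloi.const_mul (1 / 2)).add (hsi.const_mul (1 / 2))
  have hLi : Integrable Lg (law (gd n 1)) := hbi.mono' hLc.aestronglyMeasurable
    (Filter.Eventually.of_forall fun g => by
      rw [Real.norm_eq_abs, abs_of_nonneg (lmgf_nonneg h _)]; exact hsplit g)
  have hgle := integral_mono hLi hbi hsplit
  simp only [Pi.add_apply] at hgle
  rw [integral_add (hloi.const_mul _) (hsi.const_mul _), integral_const_mul,
    integral_const_mul] at hgle
  have hrot : (law (gd n 1)).map (fun ξ => Uᵀ *ᵥ ξ) = law (gd n 1) := by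
    rw [gd_one_eq]
    exact P166W.map_gauss_mulVec _ (by rw [transpose_transpose]; exact hU')
  have hUm : Measurable fun ξ : Fin n → ℝ => Uᵀ *ᵥ ξ := by fun_prop
  have hfun : (fun ξ => lmgf ρ (M *ᵥ ξ)) = fun ξ => Lg (Uᵀ *ᵥ ξ) :=
    funext fun ξ => by rw [hMU]
  rw [hfun]
  have hint : Integrable (fun ξ => Lg (Uᵀ *ᵥ ξ)) (law (gd n 1)) := by
    rw [← hrot, integrable_map_measure hLc.aestronglyMeasurable hUm.aemeasurable] at hLi
    exact hLi
  refine ⟨hint, ?_⟩
  have eint : ∫ ξ, Lg (Uᵀ *ᵥ ξ) ∂law (gd n 1) = ∫ g, Lg g ∂law (gd n 1) := by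
    conv_rhs => rw [← hrot, integral_map hUm.aemeasurable hLc.aestronglyMeasurable]
  rw [eint, hfrob]
  set F := ∑ l, lam l ^ 2
  set q := Real.sqrt (Real.sqrt η)
  have hF : 0 ≤ F := Finset.sum_nonneg fun l _ => sq_nonneg _
  have hqη : η ≤ q := by
    refine Real.le_sqrt_of_sq_le (Real.le_sqrt_of_sq_le ?_)
    rw [← pow_mul]
    exact (pow_le_pow_of_le_one hη.le hη1 (show 1 ≤ 2 * 2 by norm_num)).trans_eq (pow_one η)
  have hR3 : 1 ≤ R ^ 3 := one_le_pow₀ hR
  have hs4 : Real.sqrt (4 * R) ≤ 2 * R ^ 3 := by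
    rw [Real.sqrt_le_iff]
    refine ⟨by positivity, ?_⟩
    nlinarith [pow_le_pow_right₀ hR (show 1 ≤ 6 by norm_num)]
  have hTle : T ≤ 16 * 66 * A * (R ^ 3 * q) := by
    have h1 := mul_le_mul_of_nonneg_right hs4 (show 0 ≤ q by positivity)
    have h2 := mul_le_mul_of_nonneg_left hqη (show 0 ≤ (4 * R) ^ 3 by positivity)
    have h3 := mul_le_mul_of_nonneg_left (add_le_add h1 h2) (show 0 ≤ 16 * A by positivity)
    linarith
  have hkF : (k : ℝ) ≤ 16 * (F / η) := by rw [← mul_div_assoc, le_div_iff₀ hη]; exact hk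
  have hTk := mul_le_mul hTle hkF (Nat.cast_nonneg k) (by positivity)
  have hFle : F ≤ R ^ 3 * q * (F / η) := by
    have h1 : 1 ≤ R ^ 3 * (q / η) :=
      one_le_mul_of_one_le_of_one_le hR3 ((one_le_div hη).2 hqη)
    have := mul_le_mul_of_nonneg_right h1 hF
    calc F = 1 * F := (one_mul F).symm
      _ ≤ _ := this
      _ = _ := by field_simp
  linarith

end

end Vale.Agent.P245.General

namespace Vale.Agent.P245.Gen2

open MeasureTheory General

/-- The averaged log moment generating function along a symmetric matrix. -/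
theorem band_bound (R : ℝ) (hR : 1 ≤ R) : ∃ C : ℝ, 0 < C ∧
    ∀ (n : ℕ) (η : ℝ) (σ : St n → ℝ), Ulc η σ → η ≤ 1 → CovLe σ 3 →
      ∀ M : Matrix (Fin n) (Fin n) ℝ, M.IsSymm → (∀ v, nsq (M.mulVec v) ≤ R * η * nsq v) →
        Integrable (fun ξ => lmgf σ (M.mulVec ξ)) (P166W.gauss (Fin n)) ∧
          ∫ ξ, lmgf σ (M.mulVec ξ) ∂P166W.gauss (Fin n)
            ≤ C * Real.sqrt (Real.sqrt η) * frob M / η := by
  obtain ⟨C, hC1, hC⟩ := lmgf_matrix_bound
  refine ⟨C * R ^ 3, by positivity, fun n η σ h hη hcov M hM hop => ?_⟩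
  have := hC n η R σ M h hη hcov hR hM hop
  rw [gd_one_eq] at this
  rw [frob, mul_div_assoc]
  exact this

end Vale.Agent.P245.Gen2
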