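import Vale.Agent.P245.Gen2.Bridge
import Vale.Agent.P245.Gen2.Support
import Vale.Agent.P166W.Rotate

/-!
# P245, polylogarithmic bound: two time steps seen from the later state
-/

open MeasureTheory Matrix

namespace Vale.Agent.P245.Gen2

open General

variable {n : ℕ} {η D : ℝ} {ρ σ : St n → ℝ}

/-- An orthogonal combination of two standard Gaussian vectors. -/
theorem map_gauss_pair (n : ℕ) {a b : ℝ} (hab : a ^ 2 + b ^ 2 = 1) :
    ((P166W.gauss (Fin n)).prod (P166W.gauss (Fin n))).map
        (fun p => (a • p.1 + b • p.2, b • p.1 - a • p.2))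
      = (P166W.gauss (Fin n)).prod (P166W.gauss (Fin n)) := by
  classical
  let e := MeasurableEquiv.sumPiEquivProdPi (fun _ : Fin n ⊕ Fin n => ℝ)
  have he : MeasurePreserving e (P166W.gauss (Fin n ⊕ Fin n))
      ((P166W.gauss (Fin n)).prod (P166W.gauss (Fin n))) := by
    simpa only [P166W.gauss] using
      measurePreserving_sumPiEquivProdPi (fun _ : Fin n ⊕ Fin n => ProbabilityTheory.gaussianReal 0 1)
  set O : Matrix (Fin n ⊕ Fin n) (Fin n ⊕ Fin n) ℝ :=
    fromBlocks (a • 1) (b • 1) (b • 1) (-(a • 1))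
  have hO : Oᵀ * O = 1 := by
    simp only [O, fromBlocks_transpose, fromBlocks_multiply, transpose_smul, transpose_one,
      transpose_neg, smul_mul_smul_comm, one_mul, neg_mul, mul_neg, neg_neg, ← add_smul]
    rw [← sq, ← sq, add_comm (b ^ 2), hab, mul_comm b a, add_neg_cancel, one_smul, fromBlocks_one]
  have hc : (fun p : St n × St n => (a • p.1 + b • p.2, b • p.1 - a • p.2)) ∘ e
      = e ∘ fun v => O *ᵥ v := by
    funext v
    simp only [Function.comp, O, fromBlocks_mulVec, smul_mulVec, one_mulVec, neg_mulVec, e,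
      MeasurableEquiv.coe_sumPiEquivProdPi, Equiv.sumPiEquivProdPi_apply]
    refine Prod.ext (funext fun i => ?_) (funext fun i => ?_) <;> simp [sub_eq_add_neg]
  rw [← he.map_eq, Measure.map_map (by fun_prop) e.measurable, hc,
    ← Measure.map_map e.measurable (by fun_prop), P166W.map_gauss_mulVec O hO]

theorem integral_dotp_sq_gauss (u : St n) :
    ∫ g, dotp u g ^ 2 ∂P166W.gauss (Fin n) = nsq u := by
  have hI : ∀ i j : Fin n, Integrable (fun g : St n => u i * g i * (u j * g j))
      (P166W.gauss (Fin n)) := fun i j =>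
    integrable_gauss (by fun_prop) (polyB_mul (polyB_smul (u i) (polyB_coord i))
      (polyB_smul (u j) (polyB_coord j)))
  have hpair : ∀ i j : Fin n, ∫ g, g i * g j ∂P166W.gauss (Fin n) = if j = i then 1 else 0 :=
    fun i j => by
      rw [gauss_ibp_c1p (c1p_coord j) i]
      simp [pd_coord]
  simp only [sq, dotp, Finset.sum_mul_sum, nsq]
  rw [integral_finsetSum _ fun i _ => integrable_finsetSum _ fun j _ => hI i j]
  refine Finset.sum_congr rfl fun i _ => ?_
  rw [integral_finsetSum _ fun j _ => hI i j]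
  calc ∑ j, ∫ g, u i * g i * (u j * g j) ∂P166W.gauss (Fin n)
      = ∑ j, u i * u j * ∫ g, g i * g j ∂P166W.gauss (Fin n) :=
        Finset.sum_congr rfl fun j _ => by
          rw [← integral_const_mul]
          exact integral_congr_ae (ae_of_all _ fun g => by ring)
    _ = u i * u i := by simp [hpair]

theorem integral_dotp_gauss (u : St n) : ∫ g, dotp u g ∂P166W.gauss (Fin n) = 0 := by
  have hmean : ∀ i : Fin n, ∫ g, g i ∂P166W.gauss (Fin n) = 0 := fun i => by
    have := gauss_ibp_c1p (c1p_const (n := n) 1) i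
    simpa [pd_const] using this
  simp only [dotp]
  rw [integral_finsetSum _ fun i _ => integrable_gauss (by fun_prop)
    (polyB_smul (u i) (polyB_coord i))]
  simp [integral_const_mul, hmean]

/-- The second moment of a linear image of a centred sum. -/
theorem second_moment (h : Ulc η σ) (G : Matrix (Fin n) (Fin n) ℝ) (a c : ℝ) :
    Integrable (fun z : St n × St n => nsq (G *ᵥ (a • (z.1 - center σ) + c • z.2)))
        ((law σ).prod (P166W.gauss (Fin n))) ∧
      ∫ z, nsq (G *ᵥ (a • (z.1 - center σ) + c • z.2)) ∂(law σ).prod (P166W.gauss (Fin n))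
        = a ^ 2 * ∑ i, covc σ (dotp (G i)) (dotp (G i)) + c ^ 2 * frob G := by
  have := isProb h
  set b := center σ
  have e : ∀ z : St n × St n, nsq (G *ᵥ (a • (z.1 - b) + c • z.2))
      = ∑ i, (a ^ 2 * (dotp (G i) (z.1 - b) ^ 2 * 1)
          + (2 * a * c * (dotp (G i) (z.1 - b) * dotp (G i) z.2)
            + c ^ 2 * (1 * dotp (G i) z.2 ^ 2))) := fun z => by
    have hl : ∀ (v w : St n) i,
        (G *ᵥ (a • v + c • w)) i = a * dotp (G i) v + c * dotp (G i) w := fun v w i => by
      rw [mulVec_add, mulVec_smul, mulVec_smul]; rfl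
    simp only [nsq, hl]
    exact Finset.sum_congr rfl fun i _ => by ring
  have h1 := fun i => integral_dotp_centred h (G i)
  have i2 : ∀ i, Integrable (fun x => dotp (G i) (x - b) ^ 2) (law σ) := fun i => by
    simp only [dotp_sub]
    simp only [sub_eq_add_neg]
    exact integrable_polyB h
      (((continuous_dotp (G i)).measurable.add_const _).pow_const 2)
      (polyB_pow_two (polyB_add (polyB_dotp _) (polyB_const _)))
  have i3 : ∀ i, Integrable (fun g => dotp (G i) g) (P166W.gauss (Fin n)) := fun i =>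
    integrable_gauss (continuous_dotp _) (polyB_dotp _)
  have i4 : ∀ i, Integrable (fun g => dotp (G i) g ^ 2) (P166W.gauss (Fin n)) := fun i =>
    integrable_gauss ((continuous_dotp _).pow 2) (polyB_pow_two (polyB_dotp _))
  have j1 := fun i => ((i2 i).mul_prod
    (integrable_const (μ := P166W.gauss (Fin n)) (1 : ℝ))).const_mul (a ^ 2)
  have j2 := fun i => ((h1 i).1.mul_prod (i3 i)).const_mul (2 * a * c)
  have j3 := fun i => ((integrable_const (μ := law σ) (1 : ℝ)).mul_prod (i4 i)).const_mul (c ^ 2)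
  have hcov : ∀ i, ∫ x, dotp (G i) (x - b) ^ 2 ∂law σ = covc σ (dotp (G i)) (dotp (G i)) :=
    fun i => by
      have hm : ∫ x, dotp (G i) x ∂law σ = dotp (G i) b := by
        have h0 := (h1 i).2
        simp only [dotp_sub] at h0
        rw [integral_sub (integrable_polyB h (continuous_dotp _).measurable (polyB_dotp _))
          (integrable_const _), integral_const, probReal_univ, one_smul, sub_eq_zero] at h0
        exact h0
      simp only [covc, hm, dotp_sub, sq, b]
  refine ⟨(integrable_congr (ae_of_all _ e)).2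
    (integrable_finsetSum _ fun i _ => (j1 i).add ((j2 i).add (j3 i))), ?_⟩
  rw [integral_congr_ae (ae_of_all _ e)]
  refine (integral_finsetSum _ fun i _ => (j1 i).add ((j2 i).add (j3 i))).trans ?_
  rw [frob, Finset.mul_sum, Finset.mul_sum, ← Finset.sum_add_distrib]
  refine Finset.sum_congr rfl fun i _ => ?_
  refine (integral_add (j1 i) ((j2 i).add (j3 i))).trans ?_
  simp only [Pi.add_apply]
  rw [integral_add (j2 i) (j3 i)]
  rw [integral_const_mul, integral_const_mul, integral_const_mul,
    integral_prod_mul (μ := law σ) (ν := P166W.gauss (Fin n))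
      (fun x => dotp (G i) (x - b) ^ 2) (fun _ => (1 : ℝ)),
    integral_prod_mul (μ := law σ) (ν := P166W.gauss (Fin n))
      (fun x => dotp (G i) (x - center σ)) (fun g => dotp (G i) g),
    integral_prod_mul (μ := law σ) (ν := P166W.gauss (Fin n))
      (fun _ => (1 : ℝ)) (fun g => dotp (G i) g ^ 2),
    (h1 i).2, hcov, integral_dotp_sq_gauss, integral_const, integral_const, probReal_univ,
    probReal_univ, one_smul]
  simp [nsq]

/-- Two time steps as one average over the point and the two noises. -/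
theorem two_step (h : Ulc η ρ) {q Δ t : ℝ} (hq : 0 ≤ q) (hΔ : 0 < Δ)
    {Φ : St n → St n → ℝ} (hm : Measurable (Function.uncurry Φ)) {B : ℝ}
    (hB : ∀ a b, |Φ a b| ≤ B) (θ : St n) :
    fut ρ q (q + Δ) (fun θ' => fut ρ (q + Δ) t (Φ θ') θ') θ =
      ∫ z, Φ (θ + (Δ • z.1 + Real.sqrt Δ • z.2.1))
          (θ + ((t - q) • z.1 + (Real.sqrt Δ • z.2.1 + Real.sqrt (t - (q + Δ)) • z.2.2)))
        ∂(law (post ρ q θ)).prod ((P166W.gauss (Fin n)).prod (P166W.gauss (Fin n))) := by
  set s' := t - (q + Δ) with hs'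
  set σ := post ρ q θ
  have hσ : Ulc (η + q) σ := post_ulc h hq θ
  have := isProb hσ
  set Ψ : St n → St n → ℝ := fun x y =>
    ∫ g, Φ (θ + y) (θ + (y + (s' • x + Real.sqrt s' • g))) ∂P166W.gauss (Fin n) with hΨ
  have hm0 : Measurable fun p : (St n × St n) × St n =>
      Φ (θ + p.1.2) (θ + (p.1.2 + (s' • p.1.1 + Real.sqrt s' • p.2))) :=
    hm.comp (f := fun p : (St n × St n) × St n =>
      (θ + p.1.2, θ + (p.1.2 + (s' • p.1.1 + Real.sqrt s' • p.2)))) (by fun_prop)
  have hΨm : Measurable (Function.uncurry Ψ) :=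
    (hm0.stronglyMeasurable.integral_prod_right' (ν := P166W.gauss (Fin n))).measurable
  have hΨB : ∀ x y, |Ψ x y| ≤ B := fun x y => by
    refine (Real.norm_eq_abs (Ψ x y)).symm.trans_le
      ((norm_integral_le_of_norm_le_const (C := B) (ae_of_all _ fun g => ?_)).trans ?_)
    · exact (Real.norm_eq_abs _).trans_le (hB _ _)
    · simp
  have hΨP : PolyB2 Ψ := ⟨B, 0, fun x y => by simpa using hΨB x y⟩
  have hinner : ∀ y, fut ρ (q + Δ) t (Φ (θ + y)) (θ + y) = mg σ (fun x => Ψ x y) Δ y := fun y => by
    have hp := post_ulc h (show 0 ≤ q + Δ by linarith) (θ + y)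
    have := isProb hp
    rw [mg_post h hq hΔ.le, ← integral_post h (by linarith), fut, ← hs', joint, integral_prod]
    · refine integral_congr_ae (ae_of_all _ fun x => integral_congr_ae (ae_of_all _ fun g => ?_))
      simp only [add_assoc]
    · exact Integrable.of_bound (hm.comp (f := fun p : St n × St n =>
        (θ + y, θ + y + (s' • p.1 + Real.sqrt s' • p.2))) (by fun_prop)).aestronglyMeasurable B
        (ae_of_all _ fun z => hB _ _)
  have e1 : joint σ Δ (fun _ y => fut ρ (q + Δ) t (Φ (θ + y)) (θ + y)) = joint σ Δ Ψ := by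
    rw [joint_mg hσ hΔ hΨm hΨP]
    simp only [Ep, hinner]
  have hI : Integrable (fun z : St n × (St n × St n) => Φ (θ + (Δ • z.1 + Real.sqrt Δ • z.2.1))
      (θ + ((t - q) • z.1 + (Real.sqrt Δ • z.2.1 + Real.sqrt s' • z.2.2))))
      ((law σ).prod ((P166W.gauss (Fin n)).prod (P166W.gauss (Fin n)))) :=
    Integrable.of_bound (hm.comp (f := fun z : St n × (St n × St n) =>
      (θ + (Δ • z.1 + Real.sqrt Δ • z.2.1),
        θ + ((t - q) • z.1 + (Real.sqrt Δ • z.2.1 + Real.sqrt s' • z.2.2))))
      (by fun_prop)).aestronglyMeasurable B (ae_of_all _ fun z => hB _ _)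
  rw [fut, add_sub_cancel_left, e1, joint, integral_prod _ hI,
    integral_prod _ (integrable_joint hσ hΨm hΨP hΔ.le)]
  refine integral_congr_ae (ae_of_all _ fun x => ?_)
  simp only [hΨ]
  rw [integral_prod]
  · refine integral_congr_ae (ae_of_all _ fun g => integral_congr_ae (ae_of_all _ fun g' =>
      congrArg (Φ _) ?_))
    simp only [hs']
    module
  · exact Integrable.of_bound (hm.comp (f := fun p : St n × St n =>
      (θ + (Δ • x + Real.sqrt Δ • p.1),
        θ + ((t - q) • x + (Real.sqrt Δ • p.1 + Real.sqrt s' • p.2))))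
      (by fun_prop)).aestronglyMeasurable B (ae_of_all _ fun z => hB _ _)

/-- The average over the channel at the later time of a later average. -/
theorem integral_fut (h : Ulc η ρ) {q t : ℝ} (hq : 0 < q) (ht : q ≤ t) {F : St n → ℝ}
    (hm : Measurable F) {B : ℝ} (hB : ∀ x, |F x| ≤ B) :
    Measurable (fut ρ q t F) ∧ (∀ θ, |fut ρ q t F θ| ≤ B) ∧
      ∫ θ, fut ρ q t F θ ∂chanM ρ q = Ep ρ t F := by
  have := isProb h
  set s := t - q
  set Ψ : St n → St n → ℝ := fun x θ =>
    ∫ g, F (θ + (s • x + Real.sqrt s • g)) ∂P166W.gauss (Fin n) with hΨ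
  have hm0 : Measurable fun p : (St n × St n) × St n =>
      F (p.1.2 + (s • p.1.1 + Real.sqrt s • p.2)) := hm.comp (by fun_prop)
  have hΨm : Measurable (Function.uncurry Ψ) :=
    (hm0.stronglyMeasurable.integral_prod_right' (ν := P166W.gauss (Fin n))).measurable
  have e : ∀ θ, fut ρ q t F θ = mg ρ (fun x => Ψ x θ) q θ := fun θ => by
    have := isProb (post_ulc h hq.le θ)
    rw [← integral_post h hq.le, fut, joint, integral_prod]
    exact Integrable.of_bound (hm.comp (by fun_prop)).aestronglyMeasurable B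
      (ae_of_all _ fun z => hB _)
  have hb : ∀ θ, |fut ρ q t F θ| ≤ B := fun θ => by
    have := isProb (post_ulc h hq.le θ)
    refine (Real.norm_eq_abs (fut ρ q t F θ)).symm.trans_le
      ((norm_integral_le_of_norm_le_const (C := B) (ae_of_all _ fun z => ?_)).trans ?_)
    · exact (Real.norm_eq_abs _).trans_le (hB _)
    · simp
  have hmeas : Measurable (fut ρ q t F) := by
    rw [show fut ρ q t F = fun θ => mg ρ (fun x => Ψ x θ) q θ from funext e]
    exact measurable_mg h hΨm q
  refine ⟨hmeas, hb, ?_⟩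
  rw [chanM, integral_map (by fun_prop) hmeas.aestronglyMeasurable]
  have hs := joint_split h hq (sub_nonneg.2 ht) (Φ := fun _ θ => F θ) (hm.comp measurable_snd)
    ⟨B, 0, fun x θ => by simpa using hB θ⟩
  rw [add_sub_cancel] at hs
  exact hs.symm

end Vale.Agent.P245.Gen2
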