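import Vale.Agent.P245.Gen2.Good
import Vale.Agent.P245.Gen2.PieceBand
import Vale.Agent.P245.Gen2.PieceLem

/-!
# P245, polylogarithmic bound: a fresh linear piece is not followed
-/

open MeasureTheory Matrix

namespace Vale.Agent.P245.Gen2

open General

noncomputable section

/-- The linear piece over `[q, q + Δ]`. -/
def piece {n : ℕ} (ρ : St n → ℝ) (q Δ : ℝ) (G : Matrix (Fin n) (Fin n) ℝ) (θ θ' : St n) : St n :=
  G.mulVec (θ' - θ - Δ • bary ρ q θ)

/-- The variance of the barycentre seen through `G`. -/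
def gag {n : ℕ} (ρ : St n → ℝ) (q : ℝ) (G : Matrix (Fin n) (Fin n) ℝ) (θ : St n) : ℝ :=
  (G * covMat ρ q θ * G).trace

variable {n : ℕ} {η D K q Δ t R : ℝ} {ρ : St n → ℝ} {G : Matrix (Fin n) (Fin n) ℝ}

theorem frob_eq' (G : Matrix (Fin n) (Fin n) ℝ) : frob G = ∑ i, nsq (G i) := rfl

theorem frob_nonneg' (G : Matrix (Fin n) (Fin n) ℝ) : 0 ≤ frob G :=
  Finset.sum_nonneg fun i _ => Finset.sum_nonneg fun j _ => sq_nonneg _

theorem frob_smul' (c : ℝ) (G : Matrix (Fin n) (Fin n) ℝ) : frob (c • G) = c ^ 2 * frob G := by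
  simp [frob, Finset.mul_sum, mul_pow]

theorem frob_le_card {c : ℝ} (hG : ∀ v, nsq (G *ᵥ v) ≤ c * nsq v) : frob G ≤ n * c := by
  rw [frob, Finset.sum_comm]
  refine (Finset.sum_le_card_nsmul _ _ c fun j _ => ?_).trans (le_of_eq (by simp))
  have h := hG (Pi.single j 1)
  simpa [nsq, Pi.single_apply] using h

theorem gag_eq (h : Ulc η ρ) (hq : 0 ≤ q) (hG : G.IsSymm) (θ : St n) :
    gag ρ q G θ = ∑ i, covc (post ρ q θ) (dotp (G i)) (dotp (G i)) := by
  simp only [gag, Matrix.trace, Matrix.diag, covc_dotp_post h hq, Matrix.mul_apply,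
    Finset.sum_mul]
  refine Finset.sum_congr rfl fun i _ => ?_
  rw [Finset.sum_comm]
  exact Finset.sum_congr rfl fun j _ => Finset.sum_congr rfl fun k _ => by rw [hG.apply i k]

theorem gag_bounds (h : Ulc η ρ) (hq : 0 < q) (hG : G.IsSymm) (θ : St n) :
    0 ≤ gag ρ q G θ ∧ gag ρ q G θ ≤ (3 + bad ρ q 3 θ / q) * frob G := by
  rw [gag_eq h hq.le hG, frob_eq', Finset.mul_sum]
  refine ⟨Finset.sum_nonneg fun i _ => covc_self_nonneg _, Finset.sum_le_sum fun i _ => ?_⟩
  by_cases hθ : θ ∈ badSet ρ q 3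
  · have hb : bad ρ q 3 θ = 1 := Set.indicator_of_mem hθ _
    rw [hb]
    refine (covLe_inv (post_ulc h hq.le θ) (G i)).trans (mul_le_mul_of_nonneg_right ?_ (nsq_nonneg _))
    have : 1 / (η + q) ≤ 1 / q := one_div_le_one_div_of_le hq (by linarith [h.pos])
    linarith
  · have hb : bad ρ q 3 θ = 0 := Set.indicator_of_notMem hθ _
    rw [hb, zero_div, add_zero]
    exact covLe_of_not_bad hθ (G i)

theorem piece_second (h : Ulc η ρ) (hq : 0 ≤ q) (hΔ : 0 ≤ Δ) (hG : G.IsSymm) (θ : St n) :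
    fut ρ q (q + Δ) (fun θ' => nsq (piece ρ q Δ G θ θ')) θ
      = Δ ^ 2 * gag ρ q G θ + Δ * frob G := by
  have e := (second_moment (post_ulc h hq θ) G Δ (Real.sqrt Δ)).2
  rw [center_post h hq, Real.sq_sqrt hΔ] at e
  rw [fut, add_sub_cancel_left, joint, gag_eq h hq hG, ← e]
  refine integral_congr_ae (ae_of_all _ fun z => congrArg nsq (congrArg (G *ᵥ ·) ?_))
  module

theorem nsq_dBary_le_div (h : Ulc η ρ) (ht : 0 < t) (θ v : St n) :
    nsq (dBary ρ t θ v) ≤ nsq v / t ^ 2 := by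
  refine (dBary_coco h ht.le θ v).2.2.1.trans (div_le_div_of_nonneg_left (nsq_nonneg v)
    (by positivity) ?_)
  exact pow_le_pow_left₀ ht.le (by linarith [h.pos]) 2

theorem nsq_dBary_add (h : Ulc η ρ) (ht : 0 < t) (θ u v : St n) :
    nsq (dBary ρ t θ (u + v)) ≤ 2 * nsq (dBary ρ t θ u) + 2 * (nsq v / t ^ 2) := by
  have e : dBary ρ t θ (u + v) = dBary ρ t θ u + dBary ρ t (θ + u) v := by
    simp only [dBary, ← add_assoc]; abel
  rw [e]
  linarith [nsq_add_le (dBary ρ t θ u) (dBary ρ t (θ + u) v), nsq_dBary_le_div h ht (θ + u) v]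

theorem integral_nsq_mulVec_gauss (M : Matrix (Fin n) (Fin n) ℝ) :
    Integrable (fun w => nsq (M *ᵥ w)) (P166W.gauss (Fin n)) ∧
      ∫ w, nsq (M *ᵥ w) ∂P166W.gauss (Fin n) = frob M := by
  have hi : ∀ i, Integrable (fun w => dotp (M i) w ^ 2) (P166W.gauss (Fin n)) := fun i =>
    integrable_gauss ((continuous_dotp _).pow 2) (polyB_pow_two (polyB_dotp _))
  have e : ∀ w : St n, nsq (M *ᵥ w) = ∑ i, dotp (M i) w ^ 2 := fun _ => rfl
  simp only [e, frob_eq']
  refine ⟨integrable_finsetSum _ fun i _ => hi i, ?_⟩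
  rw [integral_finsetSum _ fun i _ => hi i]
  exact Finset.sum_congr rfl fun i _ => integral_dotp_sq_gauss _

/-- The response to a Gaussian vector drawn afresh. -/
theorem fresh_response (h : Ulc η ρ) (ht : 0 < t) (ht1 : t ≤ 1) (hG : G.IsSymm)
    {Cb : ℝ} (hCb : 0 ≤ Cb)
    (hband : ∀ (η : ℝ) (σ : St n → ℝ), Ulc η σ → η ≤ 1 → CovLe σ 3 →
      ∀ M : Matrix (Fin n) (Fin n) ℝ, M.IsSymm → (∀ v, nsq (M.mulVec v) ≤ R * η * nsq v) →
        Integrable (fun ξ => lmgf σ (M.mulVec ξ)) (P166W.gauss (Fin n)) ∧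
          ∫ ξ, lmgf σ (M.mulVec ξ) ∂P166W.gauss (Fin n)
            ≤ Cb * Real.sqrt (Real.sqrt η) * frob M / η)
    {c : ℝ} (hc : ∀ v, nsq (((2 * (t * c)) • G) *ᵥ v) ≤ R * t * nsq v) (θ : St n) :
    ∫ w, nsq (dBary ρ t θ ((t * c) • (G *ᵥ w))) ∂P166W.gauss (Fin n)
      ≤ (4 * Cb * Real.sqrt (Real.sqrt t) + bad ρ t 3 θ) * (c ^ 2 * frob G) := by
  have h0 : ∀ᵐ w ∂P166W.gauss (Fin n), 0 ≤ nsq (dBary ρ t θ ((t * c) • (G *ᵥ w))) :=
    ae_of_all _ fun _ => nsq_nonneg _
  have hcF : 0 ≤ c ^ 2 * frob G := mul_nonneg (sq_nonneg c) (frob_nonneg' G)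
  by_cases hθ : θ ∈ badSet ρ t 3
  · have hb : bad ρ t 3 θ = 1 := Set.indicator_of_mem hθ _
    obtain ⟨hi, he⟩ := integral_nsq_mulVec_gauss (c • G)
    refine (integral_mono_of_nonneg h0 hi (ae_of_all _ fun w => ?_)).trans ?_
    · refine (nsq_dBary_le_div h ht θ _).trans (le_of_eq ?_)
      simp only [smul_mulVec, nsq_smul_eq]
      field_simp
    · rw [he, frob_smul', hb, add_mul, one_mul]
      exact le_add_of_nonneg_left (by positivity)
  · have hb : bad ρ t 3 θ = 0 := Set.indicator_of_notMem hθ _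
    obtain ⟨hi, hle⟩ := hband t (post ρ t θ)
      (ulc_mono (post_ulc h ht.le θ) ht (by linarith [h.pos])) ht1 (covLe_of_not_bad hθ)
      ((2 * (t * c)) • G) (hG.smul _) hc
    refine (integral_mono_of_nonneg h0 (hi.div_const t) (ae_of_all _ fun w => ?_)).trans ?_
    · obtain ⟨h1, -, -, -, h5⟩ := dBary_coco h ht.le θ ((t * c) • (G *ᵥ w))
      rw [le_div_iff₀ ht, smul_mulVec, ← smul_smul]
      have hn := nsq_nonneg (dBary ρ t θ ((t * c) • (G *ᵥ w)))
      have := mul_nonneg h.pos.le hn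
      linarith
    · rw [integral_div, hb, add_zero]
      refine (div_le_div_of_nonneg_right hle ht.le).trans (le_of_eq ?_)
      rw [frob_smul']
      field_simp
      ring

/-- The response to the piece at the later time, at one state. -/
theorem piece_response (hb : Base η D K ρ) (hq : 0 < q) (hΔ : 0 < Δ) (htq : q + Δ ≤ t) (ht1 : t ≤ 1)
    (hG : G.IsSymm) {Cb : ℝ} (hCb : 0 ≤ Cb)
    (hband : ∀ (η : ℝ) (σ : St n → ℝ), Ulc η σ → η ≤ 1 → CovLe σ 3 →
      ∀ M : Matrix (Fin n) (Fin n) ℝ, M.IsSymm → (∀ v, nsq (M.mulVec v) ≤ R * η * nsq v) →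
        Integrable (fun ξ => lmgf σ (M.mulVec ξ)) (P166W.gauss (Fin n)) ∧
          ∫ ξ, lmgf σ (M.mulVec ξ) ∂P166W.gauss (Fin n)
            ≤ Cb * Real.sqrt (Real.sqrt η) * frob M / η)
    (hc : ∀ v, 4 * t ^ 2 * Δ * nsq (G *ᵥ v) ≤ R * t * nsq v) (θ : St n) :
    fut ρ q (q + Δ) (fun θ' => fut ρ (q + Δ) t
        (fun θ'' => nsq (dBary ρ t θ'' (t • piece ρ q Δ G θ θ'))) θ') θ
      ≤ 8 * Cb * Real.sqrt (Real.sqrt t) * (Δ * frob G)
        + 2 * (Δ * frob G) * fut ρ q t (bad ρ t 3) θ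
        + 2 * (Δ ^ 2 * gag ρ q G θ + Δ ^ 2 / (t - q) * frob G) := by
  have h := hb.ulc
  have ht : 0 < t := by linarith
  have hs : 0 < t - q := by linarith
  set b := bary ρ q θ
  set σ := post ρ q θ
  have hσ : Ulc (η + q) σ := post_ulc h hq.le θ
  have := isProb hσ
  have hbc : Continuous (bary ρ t) := continuous_bary hb.dens t
  set Φ : St n → St n → ℝ := fun θ' θ'' => nsq (dBary ρ t θ'' (t • piece ρ q Δ G θ θ')) with hΦ
  have hD := dens_nonneg hb.dens
  have hdB : ∀ θ v, nsq (dBary ρ t θ v) ≤ 4 * D := fun θ v => by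
    have h1 := nsq_add_le (bary ρ t (θ + v)) (-bary ρ t θ)
    have h2 : nsq (-bary ρ t θ) = nsq (bary ρ t θ) := by simp [nsq]
    have h3 := nsq_bary_le_supp hb.dens t θ
    have h4 := nsq_bary_le_supp hb.dens t (θ + v)
    rw [← sub_eq_add_neg] at h1
    simp only [dBary]
    linarith
  have hB : ∀ a b, |Φ a b| ≤ 4 * D := fun a b => (abs_of_nonneg (nsq_nonneg _)).trans_le (hdB _ _)
  have hmul : Continuous fun v : St n => G *ᵥ v := Continuous.matrix_mulVec continuous_const
    continuous_id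
  have hΦc : Continuous (Function.uncurry Φ) := by
    simp only [hΦ, Function.uncurry_def, piece, dBary]
    exact continuous_nsq.comp ((hbc.comp (continuous_snd.add
      ((hmul.comp ((continuous_fst.sub continuous_const).sub continuous_const)).const_smul t))).sub
      (hbc.comp continuous_snd))
  rw [two_step h hq.le hΔ hΦc.measurable hB θ]
  -- rotate the two noises so that one is the noise of the later state
  set β := Δ / (t - q)
  have hβ : 0 ≤ β := by positivity
  have hβ1 : 0 ≤ 1 - β := by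
    rw [sub_nonneg, div_le_one hs]; linarith
  set a := Real.sqrt β
  set b₁ := Real.sqrt (1 - β)
  have hab : a ^ 2 + b₁ ^ 2 = 1 := by rw [Real.sq_sqrt hβ, Real.sq_sqrt hβ1]; ring
  have hΔa : Real.sqrt Δ = a * Real.sqrt (t - q) := by
    rw [← Real.sqrt_mul hβ, div_mul_cancel₀ _ hs.ne']
  have hs'b : Real.sqrt (t - (q + Δ)) = b₁ * Real.sqrt (t - q) := by
    rw [← Real.sqrt_mul hβ1]
    congr 1
    rw [sub_mul, one_mul, div_mul_cancel₀ _ hs.ne']; ring
  have hsf : SFinite ((P166W.gauss (Fin n)).prod (P166W.gauss (Fin n))) := inferInstance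
  have hsf' : SFinite ((law σ).prod (P166W.gauss (Fin n))) := inferInstance
  set T : (St n × St n) × St n → St n × (St n × St n) := fun y =>
    (y.1.1, (a • y.1.2 + b₁ • y.2, b₁ • y.1.2 - a • y.2)) with hT
  have hTm : Measurable T := by simp only [hT]; fun_prop
  have hmap : (((law σ).prod (P166W.gauss (Fin n))).prod (P166W.gauss (Fin n))).map T = (law σ).prod ((P166W.gauss (Fin n)).prod (P166W.gauss (Fin n))) := by
    rw [show T = Prod.map id (fun p => (a • p.1 + b₁ • p.2, b₁ • p.1 - a • p.2)) ∘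
        MeasurableEquiv.prodAssoc from rfl,
      ← Measure.map_map (by fun_prop) MeasurableEquiv.prodAssoc.measurable,
      (measurePreserving_prodAssoc (law σ) (P166W.gauss (Fin n)) (P166W.gauss (Fin n))).map_eq,
      ← Measure.map_prod_map _ _ measurable_id (by fun_prop), Measure.map_id, map_gauss_pair n hab]
  set S : St n × St n → St n := fun y => θ + ((t - q) • y.1 + Real.sqrt (t - q) • y.2) with hS
  set V : St n × St n → St n := fun y =>
    G *ᵥ ((t - q) • (y.1 - b) + Real.sqrt (t - q) • y.2) with hV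
  set c := Real.sqrt Δ * b₁ with hc0
  have key : ∀ x u w : St n,
      Φ (θ + (Δ • x + Real.sqrt Δ • (a • u + b₁ • w)))
        (θ + ((t - q) • x + (Real.sqrt Δ • (a • u + b₁ • w)
          + Real.sqrt (t - (q + Δ)) • (b₁ • u - a • w))))
      = nsq (dBary ρ t (S (x, u)) ((t * c) • (G *ᵥ w) + (t * β) • V (x, u))) := fun x u w => by
    have e1 : θ + ((t - q) • x + (Real.sqrt Δ • (a • u + b₁ • w)
          + Real.sqrt (t - (q + Δ)) • (b₁ • u - a • w))) = S (x, u) := by
      have : θ + ((t - q) • x + (Real.sqrt Δ • (a • u + b₁ • w)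
          + Real.sqrt (t - (q + Δ)) • (b₁ • u - a • w)))
          = θ + ((t - q) • x + ((a ^ 2 + b₁ ^ 2) * Real.sqrt (t - q)) • u) := by
        rw [hΔa, hs'b]; module
      rw [this, hab, one_mul]
    have e2 : t • piece ρ q Δ G θ (θ + (Δ • x + Real.sqrt Δ • (a • u + b₁ • w)))
        = (t * c) • (G *ᵥ w) + (t * β) • V (x, u) := by
      have hba : β = a ^ 2 := (Real.sq_sqrt hβ).symm
      have hΔ2 : Δ = a ^ 2 * (t - q) := by rw [← hba, div_mul_cancel₀ _ hs.ne']
      rw [hV, piece]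
      simp only [← mulVec_smul, ← mulVec_add]
      rw [hc0, hΔa, hba]
      congr 1
      conv_lhs => rw [hΔ2]
      module
    simp only [hΦ, e1, e2]
  have hfm : Measurable fun z : St n × (St n × St n) =>
      Φ (θ + (Δ • z.1 + Real.sqrt Δ • z.2.1))
        (θ + ((t - q) • z.1 + (Real.sqrt Δ • z.2.1 + Real.sqrt (t - (q + Δ)) • z.2.2))) :=
    hΦc.measurable.comp (f := fun z : St n × (St n × St n) =>
      (θ + (Δ • z.1 + Real.sqrt Δ • z.2.1),
        θ + ((t - q) • z.1 + (Real.sqrt Δ • z.2.1 + Real.sqrt (t - (q + Δ)) • z.2.2))))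
      (by fun_prop)
  rw [← hmap, integral_map hTm.aemeasurable hfm.aestronglyMeasurable]
  simp only [hT, key]
  have hSc : Continuous S := by simp only [hS]; fun_prop
  have hVc : Continuous V := hmul.comp (by fun_prop)
  have hin : Integrable (fun y : (St n × St n) × St n =>
      nsq (dBary ρ t (S y.1) ((t * c) • (G *ᵥ y.2) + (t * β) • V y.1)))
      (((law σ).prod (P166W.gauss (Fin n))).prod (P166W.gauss (Fin n))) :=
    Integrable.of_bound (continuous_nsq.comp ((hbc.comp ((hSc.comp continuous_fst).add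
        (((hmul.comp continuous_snd).const_smul (t * c)).add
          ((hVc.comp continuous_fst).const_smul (t * β))))).sub
      (hbc.comp (hSc.comp continuous_fst)))).aestronglyMeasurable (4 * D)
      (ae_of_all _ fun y => by
        rw [Real.norm_eq_abs, abs_of_nonneg (nsq_nonneg _)]; exact hdB _ _)
  rw [integral_prod _ hin]
  obtain ⟨hVi, hVe⟩ := second_moment hσ G (t - q) (Real.sqrt (t - q))
  rw [center_post h hq.le, Real.sq_sqrt hs.le, ← gag_eq h hq.le hG] at hVe
  rw [center_post h hq.le] at hVi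
  have hbm : Integrable (fun y => bad ρ t 3 (S y)) ((law σ).prod (P166W.gauss (Fin n))) :=
    Integrable.of_bound ((measurable_bad h ht.le 3).comp hSc.measurable).aestronglyMeasurable 1
      (ae_of_all _ fun y => by
        rw [Real.norm_eq_abs, abs_of_nonneg (bad_nonneg ρ t 3 _)]; exact bad_le_one ρ t 3 _)
  have hb1 : b₁ ^ 2 ≤ 1 := by linarith [sq_nonneg a, hab]
  have hcΔ : c ^ 2 ≤ Δ := by
    rw [hc0, mul_pow, Real.sq_sqrt hΔ.le]
    exact mul_le_of_le_one_right hΔ.le hb1
  set L := Real.sqrt (Real.sqrt t) with hL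
  have hc' : ∀ v, nsq (((2 * (t * c)) • G) *ᵥ v) ≤ R * t * nsq v := fun v => by
    refine le_trans ?_ (hc v)
    rw [smul_mulVec, nsq_smul_eq]
    refine mul_le_mul_of_nonneg_right ?_ (nsq_nonneg _)
    have := mul_le_mul_of_nonneg_left hcΔ (show 0 ≤ 4 * t ^ 2 by positivity)
    linarith
  calc ∫ y, ∫ w, nsq (dBary ρ t (S y) ((t * c) • (G *ᵥ w) + (t * β) • V y)) ∂(P166W.gauss (Fin n)) ∂(law σ).prod (P166W.gauss (Fin n))
      ≤ ∫ y, 2 * (4 * Cb * L * (Δ * frob G)) + 2 * (Δ * frob G) * bad ρ t 3 (S y)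
          + 2 * β ^ 2 * nsq (V y) ∂(law σ).prod (P166W.gauss (Fin n)) := by
        refine integral_mono_of_nonneg (ae_of_all _ fun y => integral_nonneg fun w => nsq_nonneg _)
          (((integrable_const _).add (hbm.const_mul _)).add (hVi.const_mul _))
          (ae_of_all _ fun y => ?_)
        have hi1 : Integrable (fun w => nsq (dBary ρ t (S y) ((t * c) • (G *ᵥ w)))) (P166W.gauss (Fin n)) :=
          Integrable.of_bound (continuous_nsq.comp ((hbc.comp (continuous_const.add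
            (hmul.const_smul (t * c)))).sub continuous_const)).aestronglyMeasurable (4 * D)
            (ae_of_all _ fun w => by
              rw [Real.norm_eq_abs, abs_of_nonneg (nsq_nonneg _)]; exact hdB _ _)
        refine (integral_mono_of_nonneg (ae_of_all _ fun w => nsq_nonneg _)
          ((hi1.const_mul 2).add (integrable_const _))
          (ae_of_all _ fun w => nsq_dBary_add h ht (S y) _ _)).trans ?_
        simp only [Pi.add_apply]
        rw [integral_add (hi1.const_mul 2) (integrable_const _), integral_const_mul,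
          integral_const, probReal_univ, one_smul, nsq_smul_eq]
        have hf := fresh_response h ht ht1 hG hCb hband hc' (S y)
        have hn := bad_nonneg ρ t 3 (S y)
        have h2 := mul_le_mul_of_nonneg_left (mul_le_mul_of_nonneg_right hcΔ (frob_nonneg' G))
          (show 0 ≤ 4 * Cb * L + bad ρ t 3 (S y) by positivity)
        have e : 2 * ((t * β) ^ 2 * nsq (V y) / t ^ 2) = 2 * β ^ 2 * nsq (V y) := by
          field_simp
        linarith
    _ = _ := by
        have i1 : Integrable (fun y => 2 * (4 * Cb * L * (Δ * frob G))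
            + 2 * (Δ * frob G) * bad ρ t 3 (S y)) ((law σ).prod (P166W.gauss (Fin n))) :=
          (integrable_const _).add (hbm.const_mul _)
        have i2 : Integrable (fun y => 2 * β ^ 2 * nsq (V y))
            ((law σ).prod (P166W.gauss (Fin n))) := hVi.const_mul _
        rw [integral_add i1 i2, integral_add (integrable_const _) (hbm.const_mul _), integral_const,
          probReal_univ, one_smul, integral_const_mul, integral_const_mul,
          show ∫ y, nsq (V y) ∂(law σ).prod (P166W.gauss (Fin n)) = _ from hVe,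
          show ∫ y, bad ρ t 3 (S y) ∂(law σ).prod (P166W.gauss (Fin n)) = fut ρ q t (bad ρ t 3) θ from rfl]
        simp only [β]
        field_simp
        ring

/-- An average bounded by the energy and the bad events. -/
theorem integral_le_bad {α : Type} [MeasurableSpace α] (h : Ulc η ρ) (hq : 0 < q) (hqt : q ≤ t)
    (π : Measure (St n × α)) [IsProbabilityMeasure π] (hπ : π.map Prod.fst = chanM ρ q)
    {G : St n × α → Matrix (Fin n) (Fin n) ℝ} (hGm : ∀ i j, Measurable fun p => G p i j)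
    {B : ℝ} (hGB : ∀ p, frob (G p) ≤ B) {δ : ℝ} (hδ : Ep ρ q (bad ρ q 3) ≤ δ)
    (hδ' : Ep ρ t (bad ρ t 3) ≤ δ) {f : St n × α → ℝ} (hf : ∀ p, 0 ≤ f p) {k₁ k₂ k₃ : ℝ}
    (hk₂ : 0 ≤ k₂) (hk₃ : 0 ≤ k₃)
    (hle : ∀ p, f p ≤ k₁ * frob (G p) + k₂ * bad ρ q 3 p.1 + k₃ * fut ρ q t (bad ρ t 3) p.1) :
    ∫ p, f p ∂π ≤ k₁ * (∫ p, frob (G p) ∂π) + (k₂ + k₃) * δ := by
  have habs : ∀ s θ, |bad ρ s 3 θ| ≤ (1 : ℝ) := fun s θ =>
    (abs_of_nonneg (bad_nonneg ρ s 3 θ)).trans_le (bad_le_one ρ s 3 θ)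
  obtain ⟨hFm, hFb, hFe⟩ := integral_fut h hq hqt (measurable_bad h (hq.le.trans hqt) 3) (habs t)
  have i1 : Integrable (fun p => frob (G p)) π := by
    refine Integrable.of_bound (Finset.measurable_sum _ fun i _ => Finset.measurable_sum _
      fun j _ => (hGm i j).pow_const 2).aestronglyMeasurable B (ae_of_all _ fun p => ?_)
    exact (Real.norm_eq_abs _).trans_le ((abs_of_nonneg (frob_nonneg' _)).trans_le (hGB p))
  have i2 : Integrable (fun p => bad ρ q 3 p.1) π := Integrable.of_bound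
    ((measurable_bad h hq.le 3).comp measurable_fst).aestronglyMeasurable 1
    (ae_of_all _ fun p => (Real.norm_eq_abs _).trans_le (habs q _))
  have i3 : Integrable (fun p => fut ρ q t (bad ρ t 3) p.1) π := Integrable.of_bound
    (hFm.comp measurable_fst).aestronglyMeasurable 1
    (ae_of_all _ fun p => (Real.norm_eq_abs _).trans_le (hFb _))
  have i23 := (i1.const_mul k₁).add (i2.const_mul k₂)
  refine (integral_mono_of_nonneg (ae_of_all _ hf) (i23.add (i3.const_mul k₃))
    (ae_of_all _ hle)).trans ?_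
  refine le_of_eq_of_le (integral_add i23 (i3.const_mul k₃)) ?_
  simp only [Pi.add_apply]
  rw [integral_add (i1.const_mul k₁) (i2.const_mul k₂), integral_const_mul, integral_const_mul,
    integral_const_mul]
  have e2 : ∫ p, bad ρ q 3 p.1 ∂π = Ep ρ q (bad ρ q 3) := by
    rw [← integral_map (φ := Prod.fst) (f := bad ρ q 3) measurable_fst.aemeasurable
      (measurable_bad h hq.le 3).aestronglyMeasurable, hπ, chanM,
      integral_map (by fun_prop) (measurable_bad h hq.le 3).aestronglyMeasurable]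
    rfl
  have e3 : ∫ p, fut ρ q t (bad ρ t 3) p.1 ∂π = Ep ρ t (bad ρ t 3) := by
    rw [← integral_map (φ := Prod.fst) (f := fut ρ q t (bad ρ t 3)) measurable_fst.aemeasurable
      hFm.aestronglyMeasurable, hπ, hFe]
  rw [e2, e3]
  linarith [mul_le_mul_of_nonneg_left hδ hk₂, mul_le_mul_of_nonneg_left hδ' hk₃]

theorem piece_bound : ∃ C : ℝ, 1 ≤ C ∧ ∀ ε : ℝ, 0 < ε → ε ≤ 1 / 4 →
    ∀ R : ℝ, 1 ≤ R → ∃ K₀ : ℝ, 1 ≤ K₀ ∧
    ∀ (n : ℕ) (η D K : ℝ) (ρ : St n → ℝ), Base η D K ρ → K₀ * (1 + Real.log n) ^ 2 ≤ K →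
      ∀ q Δ t, 128 / K ≤ q → 0 < Δ → Δ ≤ q → q ≤ ε * t → t ≤ R / K →
        ∀ (α : Type) [MeasurableSpace α] (π : Measure (St n × α)) [IsProbabilityMeasure π],
          π.map Prod.fst = chanM ρ q →
          ∀ G : St n × α → Matrix (Fin n) (Fin n) ℝ, (∀ i j, Measurable fun p => G p i j) →
            (∀ p, (G p).IsSymm) → (∀ p v, nsq ((G p).mulVec v) ≤ (3 / q) ^ 2 * nsq v) →
            let F := ∫ p, frob (G p) ∂π
            Δ ^ 2 * (∫ p, gag ρ q (G p) p.1 ∂π) ≤ C * ε * (Δ * F + K) ∧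
            (∫ p, fut ρ q (q + Δ) (fun θ' => nsq (piece ρ q Δ (G p) p.1 θ')) p.1 ∂π)
                ≤ (1 + C * ε) * Δ * F + C * ε * K ∧
            (∫ p, fut ρ q (q + Δ) (fun θ' => fut ρ (q + Δ) t
                (fun θ'' => nsq (dBary ρ t θ'' (t • piece ρ q Δ (G p) p.1 θ'))) θ') p.1 ∂π)
                ≤ C * ε * (Δ * F + K) := by
  refine ⟨20, by norm_num, fun ε hε hε4 R hR => ?_⟩
  obtain ⟨Cb, hCb, hband⟩ := band_bound R hR
  obtain ⟨K₁, hK₁, hgood⟩ := bad_le R hR ε hε
  refine ⟨max K₁ (max R (R * (Cb / ε) ^ 4)), hK₁.trans (le_max_left _ _),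
    fun n η D K ρ hb hK q Δ t hq128 hΔ hΔq hqt htK α _ π _ hπ G hGm hGs hGop => ?_⟩
  intro F
  have h := hb.ulc
  have hK0 := hb.posK
  have hR0 : (0 : ℝ) < R := by linarith
  have hn := Real.log_natCast_nonneg n
  have hK' : max K₁ (max R (R * (Cb / ε) ^ 4)) ≤ K :=
    le_trans (le_mul_of_one_le_right (le_max_of_le_left (by linarith))
      (one_le_pow₀ (by linarith))) hK
  simp only [max_le_iff] at hK'
  obtain ⟨hKK₁, hKR, hKC⟩ := hK'
  have hK1 : K₁ * (1 + Real.log n) ^ 2 ≤ K :=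
    le_trans (mul_le_mul_of_nonneg_right (le_max_left _ _) (sq_nonneg _)) hK
  have hq : 0 < q := lt_of_lt_of_le (by positivity) hq128
  have ht : 0 < t := by
    by_contra hc
    have := mul_nonpos_of_nonneg_of_nonpos hε.le (not_lt.1 hc)
    linarith
  have hqt4 : q ≤ t / 4 := hqt.trans (by rw [div_eq_mul_one_div t 4, mul_comm t];
                                          exact mul_le_mul_of_nonneg_right hε4 ht.le)
  have ht1 : t ≤ 1 := htK.trans ((div_le_one hK0).2 hKR)
  have hqε : q ≤ ε := hqt.trans (mul_le_of_le_one_right hε.le ht1)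
  have htq : q + Δ ≤ t := by linarith
  have hroot : Cb * Real.sqrt (Real.sqrt t) ≤ ε := by
    have h1 : t ≤ (ε / Cb) ^ 4 := by
      refine htK.trans ((div_le_iff₀ hK0).2 ?_)
      calc R = (ε / Cb) ^ 4 * (R * (Cb / ε) ^ 4) := by field_simp
        _ ≤ _ := mul_le_mul_of_nonneg_left hKC (by positivity)
    have h2 : Real.sqrt (Real.sqrt t) ≤ ε / Cb := by
      rw [Real.sqrt_le_left (by positivity), Real.sqrt_le_left (by positivity), ← pow_mul]
      exact h1
    rwa [le_div_iff₀' hCb] at h2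
  -- the bad events
  set δ := ε / ((n : ℝ) + 1) ^ 20 with hδdef
  have hδq := hgood n η D K ρ hb hK1 q hq (by linarith)
  have hδt := hgood n η D K ρ hb hK1 t ht htK
  set N := (n : ℝ) * (3 / q) ^ 2
  have hN : ∀ p, frob (G p) ≤ N := fun p => frob_le_card (hGop p)
  have hN0 : 0 ≤ N := by positivity
  have hNδ : Δ * N * δ ≤ ε * K := by
    have h1 : (n : ℝ) * δ ≤ ε := by
      rw [hδdef, ← mul_div_assoc, div_le_iff₀ (by positivity), mul_comm (n : ℝ)]
      refine mul_le_mul_of_nonneg_left ?_ hε.le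
      calc (n : ℝ) ≤ ((n : ℝ) + 1) ^ 1 := by linarith [pow_one ((n : ℝ) + 1)]
        _ ≤ _ := pow_le_pow_right₀ (by linarith [Nat.cast_nonneg (α := ℝ) n]) (by norm_num)
    have h2 : Δ * (3 / q) ^ 2 ≤ K := by
      calc Δ * (3 / q) ^ 2 ≤ q * (3 / q) ^ 2 := mul_le_mul_of_nonneg_right hΔq (by positivity)
        _ = 9 / q := by field_simp; ring
        _ ≤ 9 / (128 / K) := div_le_div_of_nonneg_left (by norm_num) (by positivity) hq128
        _ ≤ K := by rw [div_div_eq_mul_div, div_le_iff₀ (by norm_num)]; linarith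
    calc Δ * N * δ = (n : ℝ) * δ * (Δ * (3 / q) ^ 2) := by ring
      _ ≤ ε * K := mul_le_mul h1 h2 (by positivity) hε.le
  have hNq : Δ ^ 2 * (1 / q) * N * δ ≤ ε * K := by
    refine le_trans (mul_le_mul_of_nonneg_right (mul_le_mul_of_nonneg_right ?_ hN0)
      (by positivity)) hNδ
    rw [mul_one_div, div_le_iff₀ hq, sq]
    exact mul_le_mul_of_nonneg_left hΔq hΔ.le
  have hF : 0 ≤ F := integral_nonneg fun p => frob_nonneg' _
  have hgag : ∀ p, Δ ^ 2 * gag ρ q (G p) p.1
      ≤ 3 * ε * Δ * frob (G p) + Δ ^ 2 * (1 / q) * N * bad ρ q 3 p.1 := fun p => by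
    refine (mul_le_mul_of_nonneg_left (gag_bounds h hq (hGs p) p.1).2 (sq_nonneg Δ)).trans ?_
    rw [add_mul, mul_add]
    refine add_le_add ?_ ?_
    · have := mul_le_mul_of_nonneg_right (mul_le_mul_of_nonneg_left (hΔq.trans hqε)
        (show 0 ≤ 3 * Δ by positivity)) (frob_nonneg' (G p))
      linarith
    · have := mul_le_mul_of_nonneg_left (hN p)
        (show 0 ≤ Δ ^ 2 * (1 / q) * bad ρ q 3 p.1 by have := bad_nonneg ρ q 3 p.1; positivity)
      rw [div_eq_mul_one_div]
      linarith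
  have hk2 : 0 ≤ Δ ^ 2 * (1 / q) * N := by positivity
  have hfut : ∀ p : St n × α, 0 ≤ fut ρ q t (bad ρ t 3) p.1 := fun p =>
    integral_nonneg fun z => bad_nonneg ρ t 3 _
  refine ⟨?_, ?_, ?_⟩
  · rw [← integral_const_mul]
    refine (integral_le_bad h hq (by linarith) π hπ hGm hN hδq hδt
      (fun p => mul_nonneg (sq_nonneg Δ) (gag_bounds h hq (hGs p) p.1).1) hk2 le_rfl
      (k₁ := 3 * ε * Δ) fun p => by rw [zero_mul, add_zero]; exact hgag p).trans ?_
    have := mul_nonneg (mul_nonneg hε.le hΔ.le) hF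
    linarith [mul_nonneg hε.le hK0.le]
  · refine (integral_le_bad h hq (by linarith) π hπ hGm hN hδq hδt
      (fun p => integral_nonneg fun z => nsq_nonneg _) hk2 le_rfl
      (k₁ := (1 + 3 * ε) * Δ) fun p => ?_).trans ?_
    · change fut ρ q (q + Δ) (fun θ' => nsq (piece ρ q Δ (G p) p.1 θ')) p.1 ≤ _
      rw [piece_second h hq.le hΔ.le (hGs p), zero_mul, add_zero]
      linarith [hgag p]
    · have := mul_nonneg (mul_nonneg hε.le hΔ.le) hF
      linarith [mul_nonneg hε.le hK0.le]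
  · refine (integral_le_bad h hq (by linarith) π hπ hGm hN hδq hδt
      (fun p => integral_nonneg fun z => integral_nonneg fun z' => nsq_nonneg _)
      (show 0 ≤ 2 * (Δ ^ 2 * (1 / q) * N) by positivity) (show 0 ≤ 2 * (Δ * N) by positivity)
      (k₁ := 20 * ε * Δ) fun p => ?_).trans ?_
    · have hc : ∀ v, 4 * t ^ 2 * Δ * nsq ((G p) *ᵥ v) ≤ R * t * nsq v := fun v => by
        refine (mul_le_mul_of_nonneg_left (hGop p v) (by positivity)).trans ?_
        rw [← mul_assoc]
        refine mul_le_mul_of_nonneg_right ?_ (nsq_nonneg v)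
        have h1 : Δ * (3 / q) ^ 2 ≤ 9 * K / 128 := by
          calc Δ * (3 / q) ^ 2 ≤ q * (3 / q) ^ 2 := mul_le_mul_of_nonneg_right hΔq (by positivity)
            _ = 9 / q := by field_simp; ring
            _ ≤ 9 / (128 / K) := div_le_div_of_nonneg_left (by norm_num) (by positivity) hq128
            _ = _ := by field_simp
        have h2 : t * K ≤ R := (le_div_iff₀ hK0).1 htK
        have h3 := mul_le_mul_of_nonneg_left h1 (show 0 ≤ 4 * t ^ 2 by positivity)
        have h4 := mul_le_mul_of_nonneg_left h2 (show 0 ≤ 36 / 128 * t by positivity)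
        have h5 := mul_pos hR0 ht
        linarith
      refine (piece_response hb hq hΔ htq ht1 (hGs p) hCb.le (hband n) hc p.1).trans ?_
      have h0 := frob_nonneg' (G p)
      have a1 := mul_le_mul_of_nonneg_right hroot (show 0 ≤ Δ * frob (G p) by positivity)
      have a2 := mul_le_mul_of_nonneg_left (hN p)
        (show 0 ≤ 2 * Δ * fut ρ q t (bad ρ t 3) p.1 by have := hfut p; positivity)
      have a3 : Δ ^ 2 / (t - q) * frob (G p) ≤ 2 * ε * Δ * frob (G p) := by
        refine mul_le_mul_of_nonneg_right ?_ h0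
        rw [div_le_iff₀ (by linarith)]
        have b1 := mul_le_mul_of_nonneg_left (hΔq.trans hqt) hΔ.le
        have b2 := mul_le_mul_of_nonneg_left (show t ≤ 2 * (t - q) by linarith)
          (show 0 ≤ ε * Δ by positivity)
        linarith
      have a4 := mul_nonneg (mul_nonneg hε.le hΔ.le) h0
      linarith [hgag p]
    · linarith [mul_nonneg hε.le hK0.le]

end

end Vale.Agent.P245.Gen2
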