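import Vale.Agent.P245.Gen2.CoupleDefs
import Vale.Agent.P245.Gen2.ChainStep
import Vale.Agent.P245.Gen2.MultiInt
import Vale.Agent.P245.Gen2.Piece

/-!
# P245, polylogarithmic bound: a piece of the window carries part of the response
-/

open MeasureTheory Filter

namespace Vale.Agent.P245.Gen2

open General

variable {n : ℕ} {η D h : ℝ} {σ ν ρ : St n → ℝ}

theorem measurable_gam (hσ : Dens D σ) (hν : Dens D ν) (k : ℕ) (i j : Fin n) :
    Measurable fun p => gam σ ν h k p i j :=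
  ((measurable_covMat hν _ i j).comp measurable_snd).sub
    ((measurable_covMat hσ _ i j).comp measurable_fst)

theorem nsq_piece_le (hσ : Dens D σ) {c : ℝ} (hc : 0 ≤ c) {G : Matrix (Fin n) (Fin n) ℝ}
    (hG : ∀ v, nsq (G.mulVec v) ≤ c * nsq v) (q Δ : ℝ) (θ θ' : St n) :
    nsq (piece σ q Δ G θ θ') ≤ c * (4 * nsq θ' + 4 * nsq θ + 2 * Δ ^ 2 * D) := by
  refine (hG _).trans (mul_le_mul_of_nonneg_left ?_ hc)
  have h1 := nsq_sub_le (θ' - θ) (Δ • bary σ q θ)
  have h2 := nsq_sub_le θ' θ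
  have h3 : nsq (Δ • bary σ q θ) ≤ Δ ^ 2 * D := by
    rw [nsq_smul']
    exact mul_le_mul_of_nonneg_left (nsq_bary_le_supp hσ q θ) (sq_nonneg Δ)
  linarith

theorem measurable_piece {α : Type*} [MeasurableSpace α] (hσ : Dens D σ)
    {G : α → Matrix (Fin n) (Fin n) ℝ} (hG : ∀ i j, Measurable fun a => G a i j) (q Δ : ℝ)
    {a b : α → St n} (ha : Measurable a) (hb : Measurable b) :
    Measurable fun x => piece σ q Δ (G x) (a x) (b x) := by
  refine measurable_pi_lambda _ fun i => ?_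
  have hv : Measurable fun x => b x - a x - Δ • bary σ q (a x) :=
    (hb.sub ha).sub (((measurable_bary hσ q).comp ha).const_smul Δ)
  show Measurable fun x => ∑ j, G x i j * (b x - a x - Δ • bary σ q (a x)) j
  exact Finset.measurable_fun_sum Finset.univ fun j _ =>
    (hG i j).mul ((measurable_pi_apply j).comp hv)

/-- The response to a vector is nearly that to another one. -/
theorem nsq_dBary_le_weighted (hρ : Ulc η ρ) {T : ℝ} (hT : 0 < T) (θ a b : St n) {c : ℝ}
    (hc : 0 < c) :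
    nsq (dBary ρ T θ (T • a)) ≤
      (1 + c) * nsq (a - b) + (1 + 1 / c) * nsq (dBary ρ T θ (T • b)) := by
  have h1 := nsq_le_weighted (dBary ρ T θ (T • a))
    (dBary ρ T θ (T • a) - dBary ρ T θ (T • b)) hc
  rw [sub_sub_cancel] at h1
  have e : dBary ρ T θ (T • a) - dBary ρ T θ (T • b)
      = dBary ρ T (θ + T • b) (T • (a - b)) := by
    simp only [dBary]
    rw [add_assoc, smul_sub, add_sub_cancel]
    abel
  have h2 := (dBary_coco hρ hT.le (θ + T • b) (T • (a - b))).2.2.1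
  rw [← e, nsq_smul'] at h2
  have h3 : T ^ 2 * nsq (a - b) / (η + T) ^ 2 ≤ nsq (a - b) := by
    have := hρ.pos
    rw [div_le_iff₀ (by positivity), mul_comm]
    exact mul_le_mul_of_nonneg_left (pow_le_pow_left₀ hT.le (by linarith) 2) (nsq_nonneg _)
  have h4 := mul_le_mul_of_nonneg_left (h2.trans h3) (show 0 ≤ 1 + c by linarith)
  linarith

/-- The double sum in `cross_piece`. -/
theorem cross_sum_le {f : ℕ → ℝ} (hf : ∀ k, 0 ≤ f k) {h : ℝ} (hh : 0 < h) {q j : ℕ}
    (hq : 100 * j ≤ q) (hj : 1 ≤ j)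
    (hmax : ∀ l ≤ j, ((q + l : ℕ) : ℝ) * f (q + l) ≤ (q : ℝ) * f q) :
    h * ∑ i ∈ Finset.range j, ∑ l ∈ Finset.range i,
        3 / (((q + l : ℕ) : ℝ) * h) * h * (Real.sqrt (f q) * Real.sqrt (f (q + l)))
      ≤ 3 / 100 * ((j : ℝ) * h * f q) := by
  have hq0 : (0 : ℝ) < q := Nat.cast_pos.2 (by omega)
  have hterm : ∀ i ∈ Finset.range j, ∑ l ∈ Finset.range i,
      3 / (((q + l : ℕ) : ℝ) * h) * h * (Real.sqrt (f q) * Real.sqrt (f (q + l)))
        ≤ (j : ℝ) * (3 / q * f q) := fun i hi => by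
    rw [Finset.mem_range] at hi
    have := Finset.sum_le_card_nsmul (Finset.range i)
      (fun l => 3 / (((q + l : ℕ) : ℝ) * h) * h * (Real.sqrt (f q) * Real.sqrt (f (q + l))))
      (3 / q * f q) fun l hl => by
        rw [Finset.mem_range] at hl
        have hql : (q : ℝ) ≤ ((q + l : ℕ) : ℝ) := by exact_mod_cast Nat.le_add_right q l
        have hle : f (q + l) ≤ f q := by
          refine le_of_mul_le_mul_left ((mul_le_mul_of_nonneg_right hql (hf _)).trans ?_) hq0
          exact hmax l (by omega)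
        rw [show 3 / (((q + l : ℕ) : ℝ) * h) * h = 3 / ((q + l : ℕ) : ℝ) by field_simp]
        refine mul_le_mul (div_le_div_of_nonneg_left (by norm_num) hq0 hql) ?_ (by positivity)
          (by positivity)
        calc Real.sqrt (f q) * Real.sqrt (f (q + l)) ≤ Real.sqrt (f q) * Real.sqrt (f q) :=
              mul_le_mul_of_nonneg_left (Real.sqrt_le_sqrt hle) (Real.sqrt_nonneg _)
          _ = f q := Real.mul_self_sqrt (hf q)
    rw [Finset.card_range, nsmul_eq_mul] at this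
    refine this.trans (mul_le_mul_of_nonneg_right (Nat.cast_le.2 hi.le) ?_)
    have := hf q
    positivity
  have h1 := Finset.sum_le_card_nsmul (Finset.range j) _ _ hterm
  rw [Finset.card_range, nsmul_eq_mul] at h1
  refine (mul_le_mul_of_nonneg_left h1 hh.le).trans ?_
  have h2 : (j : ℝ) / q ≤ 1 / 100 := by
    rw [div_le_div_iff₀ hq0 (by norm_num)]
    have : ((100 * j : ℕ) : ℝ) ≤ q := Nat.cast_le.2 hq
    push_cast at this
    linarith
  have h3 := mul_le_mul_of_nonneg_right h2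
    (show 0 ≤ 3 * ((j : ℝ) * h * f q) by have := hf q; positivity)
  calc h * ((j : ℝ) * ((j : ℝ) * (3 / q * f q))) = (j : ℝ) / q * (3 * ((j : ℝ) * h * f q)) := by
        ring
    _ ≤ _ := h3.trans_eq (by ring)

/-- A function of the first two pairs is integrable against the law of three pairs. -/
theorem integrable_of_law2 (hσ : Dens D σ) (hν : Dens D ν) (hh : 0 < h) (k i j : ℕ)
    {F : (St n × St n) × (St n × St n) → ℝ} (hm : Measurable F)
    (hF : Integrable F (law2 hσ hν hh k i)) :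
    Integrable (fun x => F x.1) (law3 hσ hν hh k i j) := by
  rw [← fst_law3 hσ hν hh k i j] at hF
  exact (integrable_map_measure hm.aestronglyMeasurable measurable_fst.aemeasurable).1 hF

theorem measurable_dBary {α : Type*} [MeasurableSpace α] (hd : Dens D ρ) (T : ℝ) {a b : α → St n}
    (ha : Measurable a) (hb : Measurable b) :
    Measurable fun x => nsq (dBary ρ T (a x) (b x)) := by
  have h1 : Measurable fun x => dBary ρ T (a x) (b x) :=
    ((measurable_bary hd T).comp (ha.add hb)).sub ((measurable_bary hd T).comp ha)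
  exact measurable_nsq'.comp h1

/-- The response at a late time against a vector known at an earlier one. -/
theorem mB2_split (hρ : Ulc η ρ) (hd : Dens D ρ) (hν : Dens D ν) (hh : 0 < h) (q j i : ℕ)
    (hqji : 0 < q + j + i) {V : (St n × St n) × (St n × St n) → St n} (hVm : Measurable V)
    (hV : Integrable (fun y => nsq (V y)) (law2 hd hν hh q j)) {c : ℝ} (hc : 0 < c) :
    mB2 ρ ν h (q + j + i) ≤
      (1 + c) * (Zk ρ ν h (q + j + i)
        - 2 * (∫ y, dotp (V y) (wV ρ ν h (q + j) y.2) ∂law2 hd hν hh q j)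
        + ∫ y, nsq (V y) ∂law2 hd hν hh q j)
      + (1 + 1 / c) * ∫ x, nsq (dBary ρ (((q + j + i : ℕ) : ℝ) * h) x.2.1
          ((((q + j + i : ℕ) : ℝ) * h) • V x.1)) ∂law3 hd hν hh q j i := by
  have := isProb_law3 hd hν hh q j i
  set L3 := law3 hd hν hh q j i
  set T := ((q + j + i : ℕ) : ℝ) * h
  have hT0 : 0 < T := mul_pos (Nat.cast_pos.2 hqji) hh
  set w := fun x : ((St n × St n) × (St n × St n)) × (St n × St n) => wV ρ ν h (q + j + i) x.2
  have hwm : Measurable w := (measurable_wV hd hν _).comp measurable_snd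
  have hwb : ∀ x, nsq (w x) ≤ 4 * D := fun x => nsq_wV_le hd hν _ _
  have hnw : Measurable fun x => nsq (w x) := measurable_nsq'.comp hwm
  have hnV : Measurable fun y => nsq (V y) := measurable_nsq'.comp hVm
  have hV3 : Integrable (fun x => nsq (V x.1)) L3 := integrable_of_law2 hd hν hh q j i hnV hV
  have hww : Integrable (fun x => nsq (w x)) L3 :=
    Integrable.of_bound hnw.aestronglyMeasurable (4 * D) (Eventually.of_forall fun x => by
      rw [Real.norm_eq_abs, abs_of_nonneg (nsq_nonneg _)]; exact hwb x)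
  have hdot : Measurable fun x => dotp (V x.1) (w x) :=
    continuous_dotp2.measurable.comp ((hVm.comp measurable_fst).prodMk hwm)
  have hwV : Integrable (fun x => dotp (V x.1) (w x)) L3 :=
    ((hV3.add hww).div_const 2).mono' hdot.aestronglyMeasurable
      (Eventually.of_forall fun x => abs_dotp_le _ _)
  have hsub : Measurable fun x => nsq (w x - V x.1) :=
    measurable_nsq'.comp (hwm.sub (hVm.comp measurable_fst))
  have hdiff : Integrable (fun x => nsq (w x - V x.1)) L3 :=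
    ((hww.const_mul 2).add (hV3.const_mul 2)).mono' hsub.aestronglyMeasurable
      (Eventually.of_forall fun x => by
        rw [Real.norm_eq_abs, abs_of_nonneg (nsq_nonneg _)]; exact nsq_sub_le _ _)
  have hdb : Measurable fun x : ((St n × St n) × (St n × St n)) × (St n × St n) =>
      nsq (dBary ρ T x.2.1 (T • V x.1)) :=
    measurable_dBary (a := fun x : ((St n × St n) × (St n × St n)) × (St n × St n) => x.2.1)
      (b := fun x => T • V x.1) hd T (measurable_fst.comp measurable_snd)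
      ((hVm.comp measurable_fst).const_smul T)
  have hΔi : Integrable (fun x => nsq (dBary ρ T x.2.1 (T • V x.1))) L3 :=
    Integrable.of_bound hdb.aestronglyMeasurable (4 * D) (Eventually.of_forall fun x => by
      rw [Real.norm_eq_abs, abs_of_nonneg (nsq_nonneg _)]; exact nsq_dBary_le hd _ _ _)
  have hm : Measurable fun p : St n × St n =>
      nsq (dBary ρ T p.1 (T • wV ρ ν h (q + j + i) p)) :=
    measurable_dBary (a := fun p : St n × St n => p.1)
      (b := fun p => T • wV ρ ν h (q + j + i) p) hd T measurable_fst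
      ((measurable_wV hd hν _).const_smul T)
  have hmB : mB2 ρ ν h (q + j + i) = ∫ x, nsq (dBary ρ T x.2.1 (T • w x)) ∂L3 :=
    (integral_law3_snd hd hν hh q j i hm).symm
  have hZ : ∫ x, nsq (w x) ∂L3 = Zk ρ ν h (q + j + i) :=
    integral_law3_snd hd hν hh q j i (P := fun p => nsq (wV ρ ν h (q + j + i) p))
      (measurable_nsq'.comp (measurable_wV hd hν _))
  have hexp : ∫ x, nsq (w x - V x.1) ∂L3 = Zk ρ ν h (q + j + i)
      - 2 * (∫ y, dotp (V y) (wV ρ ν h (q + j) y.2) ∂law2 hd hν hh q j)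
      + ∫ y, nsq (V y) ∂law2 hd hν hh q j := by
    have e : ∀ x, nsq (w x - V x.1) = nsq (w x) - 2 * dotp (V x.1) (w x) + nsq (V x.1) := fun x => by
      simp only [nsq, dotp, Pi.sub_apply, Finset.mul_sum, ← Finset.sum_sub_distrib,
        ← Finset.sum_add_distrib]
      exact Finset.sum_congr rfl fun l _ => by ring
    simp only [e]
    rw [integral_add (f := fun x => nsq (w x) - 2 * dotp (V x.1) (w x))
      (hww.sub (hwV.const_mul 2)) hV3, integral_sub hww (hwV.const_mul 2), integral_const_mul, hZ,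
      law3_martingale hd hν hh q j i hVm hV, integral_law3_fst hd hν hh q j i hnV]
  rw [hmB, ← hexp, ← integral_const_mul, ← integral_const_mul,
    ← integral_add (hdiff.const_mul _) (hΔi.const_mul _)]
  exact integral_mono_of_nonneg (Eventually.of_forall fun x => nsq_nonneg _)
    ((hdiff.const_mul _).add (hΔi.const_mul _))
    (Eventually.of_forall fun x => nsq_dBary_le_weighted hρ hT0 x.2.1 (w x) (V x.1) hc)

/-- The response at a late time against a linear piece frozen at an early one. -/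
theorem mB2_piece (hρ : Ulc η ρ) (hd : Dens D ρ) (hν : Dens D ν) (hh : 0 < h) (q j i : ℕ)
    (hqji : 0 < q + j + i) {G : St n × St n → Matrix (Fin n) (Fin n) ℝ}
    (hGm : ∀ a b, Measurable fun p => G p a b) {c₀ : ℝ} (hc₀ : 0 ≤ c₀)
    (hG : ∀ p v, nsq ((G p).mulVec v) ≤ c₀ * nsq v) {c : ℝ} (hc : 0 < c) :
    mB2 ρ ν h (q + j + i) ≤
      (1 + c) * (Zk ρ ν h (q + j + i)
        - 2 * (∫ p, ∫ z, dotp (wV ρ ν h (q + j) z)
            ((G p).mulVec (z.1 - p.1 - ((j : ℝ) * h) • bary ρ ((q : ℝ) * h) p.1))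
          ∂pairFrom ρ ν h q j p ∂pairM ρ ν h q)
        + ∫ p, fut ρ ((q : ℝ) * h) ((q : ℝ) * h + (j : ℝ) * h)
            (fun θ' => nsq (piece ρ ((q : ℝ) * h) ((j : ℝ) * h) (G p) p.1 θ')) p.1
          ∂pairM ρ ν h q)
      + (1 + 1 / c) * ∫ p, fut ρ ((q : ℝ) * h) ((q : ℝ) * h + (j : ℝ) * h)
            (fun θ' => fut ρ ((q : ℝ) * h + (j : ℝ) * h) (((q + j + i : ℕ) : ℝ) * h)
              (fun θ'' => nsq (dBary ρ (((q + j + i : ℕ) : ℝ) * h) θ''
                ((((q + j + i : ℕ) : ℝ) * h) • piece ρ ((q : ℝ) * h) ((j : ℝ) * h) (G p) p.1 θ')))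
              θ') p.1
          ∂pairM ρ ν h q := by
  set P := fun (p : St n × St n) (θ' : St n) =>
    piece ρ ((q : ℝ) * h) ((j : ℝ) * h) (G p) p.1 θ'
  have hPb : ∀ p θ', nsq (P p θ') ≤ c₀ * (4 * nsq θ' + 4 * nsq p.1 + 2 * ((j : ℝ) * h) ^ 2 * D) :=
    fun p θ' => nsq_piece_le hd hc₀ (hG p) _ _ _ _
  have hPm : Measurable fun y : (St n × St n) × (St n × St n) => P y.1 y.2.1 :=
    measurable_piece hd (fun a b => (hGm a b).comp measurable_fst) _ _
      (measurable_fst.comp measurable_fst) (measurable_fst.comp measurable_snd)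
  have hD : 0 ≤ D := dens_nonneg hd
  have := isProb_law2 hd hν hh q j
  have hjcast : ((q + j : ℕ) : ℝ) * h = (q : ℝ) * h + (j : ℝ) * h := by push_cast; ring
  have hPP : Integrable (fun y => nsq (P y.1 y.2.1)) (law2 hd hν hh q j) :=
    integrable_law2 hd hν hh q j (measurable_nsq'.comp hPm)
      (P := fun p => c₀ * 4 * nsq p.1 + c₀ * (2 * ((j : ℝ) * h) ^ 2 * D))
      (Q := fun p => c₀ * 4 * nsq p.1)
      (((measurable_nsq'.comp measurable_fst).const_mul _).add_const _)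
      (polyP_add (polyP_mul_const polyP_nsq_fst _) (polyP_const _))
      ((measurable_nsq'.comp measurable_fst).const_mul _) (polyP_mul_const polyP_nsq_fst _)
      fun y => by
        rw [abs_of_nonneg (nsq_nonneg _)]
        exact (hPb y.1 y.2.1).trans_eq (by ring)
  have hgood : ∀ p : St n × St n, Measurable (fun θ' => nsq (P p θ')) ∧
      PolyB fun θ' => nsq (P p θ') := fun p => by
    have hm : Measurable fun θ' => P p θ' :=
      measurable_piece (G := fun _ : St n => G p) hd (fun _ _ => measurable_const) _ _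
        measurable_const measurable_id
    refine ⟨measurable_nsq'.comp hm, polyB_mono (polyB_add (polyB_smul (c₀ * 4) polyB_nsq)
      (polyB_const (c₀ * (4 * nsq p.1 + 2 * ((j : ℝ) * h) ^ 2 * D)))) fun θ' => ?_⟩
    rw [abs_of_nonneg (nsq_nonneg _), abs_of_nonneg (by
      have := nsq_nonneg θ'; have := nsq_nonneg p.1; positivity)]
    exact (hPb p θ').trans_eq (by ring)
  have hE2 : ∫ y, nsq (P y.1 y.2.1) ∂law2 hd hν hh q j
      = ∫ p, fut ρ ((q : ℝ) * h) ((q : ℝ) * h + (j : ℝ) * h) (fun θ' => nsq (P p θ')) p.1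
          ∂pairM ρ ν h q := by
    rw [law2_fut hρ hd hν hh q j (G := fun p θ' => nsq (P p θ')) hgood hPP, hjcast]
  set T := ((q + j + i : ℕ) : ℝ) * h
  have hm3 : Measurable fun z : ((St n × St n) × St n) × St n =>
      nsq (dBary ρ T z.2 (T • P z.1.1 z.1.2)) :=
    measurable_dBary (a := fun z : ((St n × St n) × St n) × St n => z.2)
      (b := fun z => T • P z.1.1 z.1.2) hd T measurable_snd
      ((measurable_piece (a := fun z : ((St n × St n) × St n) × St n => z.1.1.1)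
        (b := fun z => z.1.2) hd (fun a b => (hGm a b).comp (measurable_fst.comp measurable_fst)) _ _
        (measurable_fst.comp (measurable_fst.comp measurable_fst))
        (measurable_snd.comp measurable_fst)).const_smul T)
  have hE3 : ∫ x, nsq (dBary ρ T x.2.1 (T • P x.1.1 x.1.2.1)) ∂law3 hd hν hh q j i
      = ∫ p, fut ρ ((q : ℝ) * h) ((q : ℝ) * h + (j : ℝ) * h) (fun θ' =>
          fut ρ ((q : ℝ) * h + (j : ℝ) * h) T
            (fun θ'' => nsq (dBary ρ T θ'' (T • P p θ'))) θ') p.1 ∂pairM ρ ν h q := by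
    rw [law3_fut hρ hd hν hh q j i (fun p a b => nsq (dBary ρ T b (T • P p a))) hm3 (B := 4 * D)
      (fun p a b => by rw [abs_of_nonneg (nsq_nonneg _)]; exact nsq_dBary_le hd _ _ _), hjcast]
  have hwm : Measurable fun y : (St n × St n) × (St n × St n) => wV ρ ν h (q + j) y.2 :=
    (measurable_wV hd hν _).comp measurable_snd
  have hdot : Measurable fun y : (St n × St n) × (St n × St n) =>
      dotp (P y.1 y.2.1) (wV ρ ν h (q + j) y.2) :=
    continuous_dotp2.measurable.comp (hPm.prodMk hwm)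
  have hc2 : Integrable (fun y => dotp (P y.1 y.2.1) (wV ρ ν h (q + j) y.2))
      (law2 hd hν hh q j) :=
    ((hPP.add (integrable_const (4 * D))).div_const 2).mono' hdot.aestronglyMeasurable
      (Eventually.of_forall fun y => (abs_dotp_le _ _).trans (by
        simp only [Pi.add_apply]
        linarith [nsq_wV_le (h := h) hd hν (q + j) y.2]))
  have hW : ∫ y, dotp (P y.1 y.2.1) (wV ρ ν h (q + j) y.2) ∂law2 hd hν hh q j
      = ∫ p, ∫ z, dotp (wV ρ ν h (q + j) z)
          ((G p).mulVec (z.1 - p.1 - ((j : ℝ) * h) • bary ρ ((q : ℝ) * h) p.1))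
        ∂pairFrom ρ ν h q j p ∂pairM ρ ν h q := by
    rw [integral_law2 hd hν hh q j hc2]
    refine integral_congr_ae (Eventually.of_forall fun p => integral_congr_ae
      (Eventually.of_forall fun z => ?_))
    simp only [P, piece, dotp, mul_comm]
  have key := mB2_split hρ hd hν hh q j i hqji (V := fun y => P y.1 y.2.1) hPm hPP hc
  rw [hW, hE2, hE3] at key
  exact key

/-- The arithmetic of `pieceB`. -/
theorem piece_arith {A C₁ e₀ K X Zt W PP DP Z₁ S I V : ℝ} (hA : 2 ≤ A) (hC : 1 ≤ C₁)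
    (he : 0 ≤ e₀) (heA : e₀ ≤ C₁ / A ^ 3) (hX : 0 ≤ X) (hX4 : X ≤ 4 * Z₁) (hK : K ≤ 32 * Z₁)
    (hK0 : 0 ≤ K) (hS : S ≤ 3 / 100 * X) (hI : I ≤ Real.sqrt Z₁ * Real.sqrt (e₀ * (X + K)))
    (hV : V ≤ Z₁ / A) (hW : X - S - I - V ≤ W) (hPP : PP ≤ (1 + e₀) * X + e₀ * K)
    (hDP : DP ≤ e₀ * (X + K)) (hZt : Zt ≤ Z₁) :
    (1 + 1 / A) * (Zt - 2 * W + PP) + (1 + A) * DP ≤ Z₁ - X / 2 + 400 * C₁ / A * Z₁ := by
  have hA0 : 0 < A := by linarith
  have hA1 : 1 ≤ A := by linarith
  have hZ : 0 ≤ Z₁ := by linarith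
  have hsum : X + K ≤ 36 * Z₁ := by linarith
  have he1 : e₀ ≤ C₁ / A := heA.trans
    (div_le_div_of_nonneg_left (by linarith) hA0 (le_self_pow₀ hA1 (by norm_num)))
  have hsq : Real.sqrt (e₀ * (X + K)) ≤ 6 * C₁ / A * Real.sqrt Z₁ := by
    rw [Real.sqrt_le_iff]
    refine ⟨by positivity, ?_⟩
    rw [mul_pow, Real.sq_sqrt hZ]
    have h1 : e₀ ≤ C₁ ^ 2 / A ^ 2 := heA.trans
      (div_le_div₀ (by positivity) (by nlinarith) (by positivity)
        (pow_le_pow_right₀ hA1 (by norm_num)))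
    calc e₀ * (X + K) ≤ C₁ ^ 2 / A ^ 2 * (36 * Z₁) :=
          mul_le_mul h1 hsum (by linarith) (by positivity)
      _ = _ := by ring
  have hI' : I ≤ 6 * C₁ * (Z₁ / A) := by
    refine hI.trans ((mul_le_mul_of_nonneg_left hsq (Real.sqrt_nonneg _)).trans_eq ?_)
    calc Real.sqrt Z₁ * (6 * C₁ / A * Real.sqrt Z₁)
        = 6 * C₁ / A * (Real.sqrt Z₁ * Real.sqrt Z₁) := by ring
      _ = _ := by rw [Real.mul_self_sqrt hZ]; ring
  have hZA : 0 ≤ Z₁ / A := div_nonneg hZ hA0.le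
  have e1 : C₁ / A * Z₁ = C₁ * (Z₁ / A) := by ring
  have k2 := mul_le_mul_of_nonneg_right he1 hZ
  have k3 := mul_le_mul_of_nonneg_right hC hZA
  have k0 := mul_le_mul_of_nonneg_left hsum he
  have hU : Zt - 2 * W + PP ≤ Z₁ - 47 / 50 * X + 50 * C₁ * (Z₁ / A) := by linarith
  have he2 : e₀ * (1 + A) ≤ 2 * C₁ / A := by
    refine (mul_le_mul_of_nonneg_right heA (by linarith)).trans ?_
    rw [div_mul_eq_mul_div, div_le_div_iff₀ (by positivity) hA0]
    have h2 : (1 + A) * A ≤ 2 * A ^ 3 := by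
      nlinarith [pow_le_pow_right₀ hA1 (show 2 ≤ 3 by norm_num)]
    nlinarith [mul_le_mul_of_nonneg_left h2 (show 0 ≤ C₁ by linarith)]
  have h2' : (1 + A) * DP ≤ 72 * C₁ * (Z₁ / A) := by
    have k1 := mul_le_mul_of_nonneg_left (hDP.trans k0) (show 0 ≤ 1 + A by linarith)
    have k2' := mul_le_mul_of_nonneg_right he2 (show 0 ≤ 36 * Z₁ by positivity)
    calc (1 + A) * DP ≤ e₀ * (1 + A) * (36 * Z₁) := k1.trans_eq (by ring)
      _ ≤ 2 * C₁ / A * (36 * Z₁) := k2'
      _ = _ := by ring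
  have hfin := mul_le_mul_of_nonneg_left hU (show 0 ≤ 1 + 1 / A by positivity)
  have k4 := mul_le_mul_of_nonneg_right ((div_le_one hA0).2 hA1)
    (show 0 ≤ 50 * C₁ * (Z₁ / A) by positivity)
  have k5 : 0 ≤ 1 / A * (47 / 50 * X) := by positivity
  have e2 : 400 * C₁ / A * Z₁ = 400 * C₁ * (Z₁ / A) := by ring
  have e3 : 1 / A * Z₁ = Z₁ / A := by ring
  linarith

/-- The times of the piece. -/
theorem piece_times {K : ℝ} (hK : 0 < K) {A N q t j : ℕ} (hA : 2 ≤ A) (hN1 : 1 ≤ N)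
    (hq : 128 * N ≤ q) (hqA : q ≤ A * N) (hjq : 100 * j ≤ q) (htl : A ^ 4 * N ≤ t)
    (htu : t ≤ 2 * A ^ 4 * N) :
    q + j ≤ t ∧ 0 < hN K N ∧ 128 / K ≤ (q : ℝ) * hN K N ∧
      (j : ℝ) * hN K N ≤ (q : ℝ) * hN K N ∧
      (t : ℝ) * hN K N ≤ 2 * (A : ℝ) ^ 4 / K ∧
      (q : ℝ) * hN K N ≤ 1 / (A : ℝ) ^ 3 * ((t : ℝ) * hN K N) := by
  set h := hN K N with hdef
  have hNp : (0 : ℝ) < N := Nat.cast_pos.2 hN1
  have hh : 0 < h := by rw [hdef, Gen2.hN]; positivity
  have hNh : (N : ℝ) * h = 1 / K := by rw [hdef, Gen2.hN]; field_simp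
  refine ⟨?_, hh, ?_, mul_le_mul_of_nonneg_right (Nat.cast_le.2 (by omega)) hh.le, ?_, ?_⟩
  · have h1 : 2 * A ≤ A ^ 4 := by
      calc 2 * A ≤ A * A := by gcongr
        _ = A ^ 2 := (pow_two A).symm
        _ ≤ A ^ 4 := Nat.pow_le_pow_right (by omega) (by norm_num)
    have h2 : 2 * (A * N) ≤ A ^ 4 * N := by rw [← mul_assoc]; exact Nat.mul_le_mul_right N h1
    omega
  · have : ((128 * N : ℕ) : ℝ) * h ≤ (q : ℝ) * h :=
      mul_le_mul_of_nonneg_right (Nat.cast_le.2 hq) hh.le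
    push_cast at this
    rwa [mul_assoc, hNh, mul_one_div] at this
  · have : (t : ℝ) * h ≤ ((2 * A ^ 4 * N : ℕ) : ℝ) * h :=
      mul_le_mul_of_nonneg_right (Nat.cast_le.2 htu) hh.le
    push_cast at this
    rwa [mul_assoc _ _ h, hNh, mul_one_div] at this
  · have hA0 : (0 : ℝ) < A := Nat.cast_pos.2 (by omega)
    have h1 : (q : ℝ) * (A : ℝ) ^ 3 ≤ t := by
      have h2 : ((q * A ^ 3 : ℕ) : ℝ) ≤ (t : ℝ) := Nat.cast_le.2 (by
        calc q * A ^ 3 ≤ A * N * A ^ 3 := Nat.mul_le_mul_right _ hqA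
          _ = A ^ 4 * N := by ring
          _ ≤ t := htl)
      push_cast at h2
      exact h2
    calc (q : ℝ) * h ≤ (t : ℝ) / (A : ℝ) ^ 3 * h :=
          mul_le_mul_of_nonneg_right ((le_div_iff₀ (by positivity)).2 h1) hh.le
      _ = _ := by ring

theorem pieceB : ∃ C A₀ : ℝ, 1 ≤ C ∧ 1 ≤ A₀ ∧ ∀ A : ℕ, A₀ ≤ A → ∃ K₀ : ℝ, 1 ≤ K₀ ∧
    ∀ (n : ℕ) (η D K : ℝ) (ρ g ρ' : St n → ℝ), Base η D K ρ →
      K₀ * (1 + Real.log n) ^ 2 ≤ K → Tilted η D (64 / K) ρ g ρ' → ∀ᶠ N : ℕ in atTop,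
        (let h := hN K N
         let Z := Zk ρ (nu ρ g) h
         let f := fk ρ (nu ρ g) h
         let Z₁ := Z (2 * A ^ 4 * N)
         K / 32 ≤ Z₁ → ∀ q j t : ℕ, 128 * N ≤ q → q ≤ A * N → 1 ≤ j → 100 * j ≤ q →
          A ^ 4 * N ≤ t → t ≤ 2 * A ^ 4 * N → (j : ℝ) * h * f q ≤ 4 * Z₁ →
          (∀ l ≤ j, ((q + l : ℕ) : ℝ) * f (q + l) ≤ (q : ℝ) * f q) →
            mB2 ρ (nu ρ g) h t ≤ Z₁ - (j : ℝ) * h * f q / 2 + C / A * Z₁) := by
  obtain ⟨C₁, hC₁, hpb⟩ := piece_bound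
  refine ⟨400 * C₁, 2, by linarith, one_le_two, fun A hA => ?_⟩
  have hA2 : (2 : ℝ) ≤ (A : ℝ) := hA
  have hA3 : (4 : ℝ) ≤ (A : ℝ) ^ 3 := by
    have := pow_le_pow_left₀ (by norm_num) hA2 3
    linarith
  obtain ⟨K₀, hK₀, hpb'⟩ := hpb (1 / (A : ℝ) ^ 3) (by positivity)
    (one_div_le_one_div_of_le (by norm_num) hA3) (2 * (A : ℝ) ^ 4)
    (by have := one_le_pow₀ (show (1 : ℝ) ≤ A by linarith) (n := 4); linarith)
  refine ⟨K₀, hK₀, fun n η D K ρ g ρ' hb hK ht => ?_⟩
  have hKp := hb.posK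
  obtain ⟨E, -, hcross⟩ := cross_piece hb ht (show (0 : ℝ) < 64 / K by positivity)
    (2 * (A : ℝ) ^ 4 / K)
  have hsmall : ∀ᶠ h in nhds (0 : ℝ), h < 1 ∧ E * Real.sqrt h < K / (32 * A) := by
    refine (gt_mem_nhds one_pos).and ?_
    have hc : Tendsto (fun h => E * Real.sqrt h) (nhds 0) (nhds (E * Real.sqrt 0)) :=
      (continuous_const.mul Real.continuous_sqrt).tendsto 0
    rw [Real.sqrt_zero, mul_zero] at hc
    exact hc.eventually (gt_mem_nhds (by positivity))
  have hlim : Tendsto (fun N : ℕ => hN K N) atTop (nhds 0) := by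
    have h0 : Tendsto (fun N : ℕ => 1 / K * (1 / (N : ℝ))) atTop (nhds (1 / K * 0)) :=
      tendsto_one_div_atTop_nhds_zero_nat.const_mul _
    rw [mul_zero] at h0
    exact h0.congr fun N => by rw [hN, one_div_mul_one_div]
  filter_upwards [hlim.eventually hsmall, eventually_ge_atTop 1] with N hN' hN1
  intro h Z f Z₁ hKZ q j t hq hqA hj hjq htl htu hjf hmax
  obtain ⟨hqt, hh, hqh, hjq', hth, hqte⟩ :=
    piece_times hKp (by exact_mod_cast hA2) hN1 hq hqA hjq htl htu
  obtain ⟨i, rfl⟩ : ∃ i, t = q + j + i := ⟨t - (q + j), by omega⟩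
  have hν : Dens D (nu ρ g) := dens_tilted hb ht
  have hd := hb.dens
  have hτ2 : 2 * (64 / K) ≤ (q : ℝ) * h := le_of_eq_of_le (by ring) hqh
  have hGb := fun p => gam_bounds hb ht (show (0 : ℝ) < 64 / K by positivity) h q hτ2 p
  have hGm : ∀ a b, Measurable fun p => gam ρ (nu ρ g) h q p a b :=
    fun a b => measurable_gam hd hν q a b
  have hjh : 0 < (j : ℝ) * h := mul_pos (Nat.cast_pos.2 hj) hh
  have := isProb_pairM hd hν hh q
  obtain ⟨hp1, hp2, hp3⟩ := hpb' n η D K ρ hb hK ((q : ℝ) * h) ((j : ℝ) * h)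
    (((q + j + i : ℕ) : ℝ) * h) hqh hjh hjq' hqte hth (St n) (pairM ρ (nu ρ g) h q)
    (pair_marginals hd hν hh q).1 (fun p => gam ρ (nu ρ g) h q p) hGm
    (fun p => (hGb p).2.1) (fun p => (hGb p).2.2)
  have hlow := hcross h hh hN'.1.le q j hτ2 (le_trans
    (mul_le_mul_of_nonneg_right (Nat.cast_le.2 (Nat.le_add_right _ _)) hh.le) hth)
  have hmain := mB2_piece hb.ulc hd hν hh q j i (by omega) hGm (sq_nonneg _)
    (fun p => (hGb p).2.2) (show 0 < 1 / (A : ℝ) by positivity)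
  rw [one_div_one_div] at hmain
  have hf0 : ∀ k, 0 ≤ f k := fun k =>
    integral_nonneg fun p => Finset.sum_nonneg fun a _ => Finset.sum_nonneg fun b _ => sq_nonneg _
  have hsum := cross_sum_le hf0 hh hjq hj hmax
  have hZ : ∀ k, k ≤ 2 * A ^ 4 * N → Z k ≤ Z₁ := fun k hk => Zk_mono hd hν hh hk
  set I := ∫ p, (gam ρ (nu ρ g) h q p * covMat ρ ((q : ℝ) * h) p.1 * gam ρ (nu ρ g) h q p).trace
    ∂pairM ρ (nu ρ g) h q
  have hI : (j : ℝ) * h * Real.sqrt (Z (q + j)) * Real.sqrt I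
      ≤ Real.sqrt Z₁ * Real.sqrt (C₁ * (1 / (A : ℝ) ^ 3) * ((j : ℝ) * h * f q + K)) := by
    have e : (j : ℝ) * h * Real.sqrt I = Real.sqrt (((j : ℝ) * h) ^ 2 * I) := by
      rw [Real.sqrt_mul (sq_nonneg _), Real.sqrt_sq hjh.le]
    rw [mul_right_comm, e, mul_comm]
    exact mul_le_mul (Real.sqrt_le_sqrt (hZ _ (le_trans (Nat.le_add_right _ _) htu)))
      (Real.sqrt_le_sqrt hp1) (Real.sqrt_nonneg _) (Real.sqrt_nonneg _)
  have hV : E * Real.sqrt h ≤ Z₁ / A := by
    refine hN'.2.le.trans ?_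
    rw [show K / (32 * (A : ℝ)) = K / 32 / A by ring]
    exact div_le_div_of_nonneg_right hKZ (by linarith)
  refine hmain.trans (piece_arith (K := K) (Z₁ := Z₁) hA2 hC₁ (by positivity)
    (le_of_eq (mul_one_div _ _)) (mul_nonneg hjh.le (hf0 q)) hjf (by linarith) hKp.le hsum hI hV
    hlow ?_ hp3 (hZ _ htu))
  exact hp2.trans_eq (by simp only [mul_assoc]; rfl)

end Vale.Agent.P245.Gen2
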