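import Vale.Agent.P245.Gen2.Chain

/-!
# P245, polylogarithmic bound: the chain rule for the entropy

The entropy of the tilted channel law relative to the pure one is nondecreasing in time, bounded
by the entropy of the tilt, and each step adds at least the squared mismatch of the two
barycentres (Gibbs' inequality with linear test functions).
-/

open MeasureTheory ProbabilityTheory Filter

namespace Vale.Agent.P245.Gen2

open General

noncomputable section

variable {n : ℕ} {η D K τ h : ℝ} {σ ν ρ g ρ' : St n → ℝ}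

namespace ChainKL

/-- The linear Laplace transform of the standard Gaussian. -/
lemma gauss_mgf (v : St n) :
    Integrable (fun g => Real.exp (dotp v g)) (P166W.gauss (Fin n)) ∧
      ∫ g, Real.exp (dotp v g) ∂P166W.gauss (Fin n) = Real.exp (nsq v / 2) := by
  have e : (fun g : St n => Real.exp (dotp v g)) = fun g => ∏ i, Real.exp (v i * g i) := by
    funext g
    simp only [dotp, Real.exp_sum]
  rw [e, P166W.gauss]
  refine ⟨Integrable.fintype_prod (f := fun i t => Real.exp (v i * t))
    fun i => integrable_exp_mul_gaussianReal (v i), ?_⟩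
  rw [integral_fintype_prod_eq_prod (f := fun i t => Real.exp (v i * t))]
  have h1 : ∀ c : ℝ, ∫ t, Real.exp (c * t) ∂gaussianReal 0 1 = Real.exp (c ^ 2 / 2) := fun c => by
    have := congrFun (mgf_id_gaussianReal (μ := (0 : ℝ)) (v := (1 : NNReal))) c
    simpa [mgf] using this
  simp only [h1, ← Real.exp_sum, nsq, Finset.sum_div]

/-- Gibbs' inequality at one value. -/
lemma young {W y : ℝ} (hW : 0 < W) : W * y ≤ W * Real.log W - W + Real.exp y := by
  have h1 := mul_le_mul_of_nonneg_left (Real.add_one_le_exp (y - Real.log W)) hW.le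
  have h2 : W * Real.exp (y - Real.log W) = Real.exp y := by
    rw [Real.exp_sub, Real.exp_log hW, mul_div_assoc', mul_div_cancel_left₀ _ hW.ne']
  rw [h2] at h1
  linarith [mul_add W (y - Real.log W) 1, mul_sub W y (Real.log W), mul_one W]

/-- Bounds and measurability of the posterior mean of a bounded tilt. -/
lemma mean_facts (hρ : Ulc η ρ) (hgm : Measurable g) {lo hi : ℝ} (hlo : 0 < lo)
    (hgb : ∀ x, lo ≤ g x ∧ g x ≤ hi) {r : ℝ} (hr : 0 ≤ r) :
    Measurable (mg ρ g r) ∧ Measurable (fun θ => mg ρ g r θ * Real.log (mg ρ g r θ)) ∧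
      (∀ θ, 0 < mg ρ g r θ) ∧
      ∀ θ, |mg ρ g r θ * Real.log (mg ρ g r θ)| ≤ hi * (|Real.log lo| + |Real.log hi|) := by
  have hm : Measurable (mg ρ g r) :=
    measurable_mg hρ (Φ := fun x _ => g x) (hgm.comp measurable_fst) r
  refine ⟨hm, hm.mul hm.log, fun θ => hlo.trans_le (mean_basic hρ hr hgm hlo hgb θ).1, fun θ => ?_⟩
  have hb := mean_basic hρ hr hgm hlo hgb θ
  exact abs_mul_log_le hlo hb.1 hb.2.1

/-- One step: the entropy of the tilt gains at least the squared shift of the barycentre. -/
lemma step_dv {s : ℝ} (hσ : Ulc η σ) (hs : 0 < s) (hgm : Measurable g) {lo hi : ℝ} (hlo : 0 < lo)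
    (hgb : ∀ x, lo ≤ g x ∧ g x ≤ hi) (u : St n)
    (hu : ∀ i, ∫ x, g x * (x i - center σ i) ∂law σ = (∫ x, g x ∂law σ) * u i) :
    s / (2 * (1 + 2 * s / η)) * ((∫ x, g x ∂law σ) * nsq u) ≤
      Ep σ s (fun θ => mg σ g s θ * Real.log (mg σ g s θ))
        - (∫ x, g x ∂law σ) * Real.log (∫ x, g x ∂law σ) := by
  have := isProb hσ
  have hη := hσ.pos
  have hg0 : ∀ x, 0 < g x := fun x => hlo.trans_le (hgb x).1
  have hgP : PolyB g := polyB_of_bounded (C := hi) fun x => by
    rw [abs_of_pos (hg0 x)]; exact (hgb x).2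
  obtain ⟨hm, hml, hpos, hbd⟩ := mean_facts hσ hgm hlo hgb hs.le
  have hub : ∀ θ, |mg σ g s θ| ≤ hi := fun θ => by
    rw [abs_of_pos (hpos θ)]; exact (mean_basic hσ hs.le hgm hlo hgb θ).2.1
  set G := ∫ x, g x ∂law σ with hGdef
  have hG : 0 < G := hlo.trans_le (bounded_ent hσ hgm hlo hgb).1
  set a := 1 + 2 * s / η with hadef
  have ha : 0 < a := by positivity
  set l := (1 / a) • u with hldef
  set c₀ := nsq l * (s ^ 2 / η + s / 2) with hc₀
  -- the state and the test function on the point and the noise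
  set μ := (law σ).prod (P166W.gauss (Fin n)) with hμdef
  set lin := fun θ : St n => dotp l (θ - s • center σ) with hlin
  have hlinc : Continuous lin := (continuous_dotp l).comp (continuous_id.sub continuous_const)
  have hlinP : PolyB lin := by
    simp only [hlin, dotp_sub]
    simp only [sub_eq_add_neg]
    exact polyB_add (polyB_dotp l) (polyB_const _)
  have hsplitlin : ∀ z : St n × St n, lin (s • z.1 + Real.sqrt s • z.2) =
      dotp (s • l) (z.1 - center σ) + dotp (Real.sqrt s • l) z.2 := fun z => by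
    simp only [hlin, dotp, ← Finset.sum_add_distrib, Pi.smul_apply, Pi.sub_apply, Pi.add_apply,
      smul_eq_mul]
    exact Finset.sum_congr rfl fun i _ => by ring
  have hθm : Measurable fun z : St n × St n => s • z.1 + Real.sqrt s • z.2 := by fun_prop
  -- integrability
  have hint : ∀ F : St n → ℝ, Measurable F → PolyB F →
      Integrable (fun z : St n × St n => F (s • z.1 + Real.sqrt s • z.2)) μ := fun F hF hP =>
    integrable_joint hσ (Φ := fun _ θ => F θ) (hF.comp measurable_snd)
      (polyB2_state hP) hs.le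
  have iexp : Integrable (fun z => Real.exp (lin (s • z.1 + Real.sqrt s • z.2))) μ := by
    simp only [hsplitlin, Real.exp_add]
    exact (integrable_linear_mgf hσ _).mul_prod (gauss_mgf _).1
  -- Bayes: a posterior mean integrates as the tilt itself
  have hb1 : ∀ F : St n → ℝ, Measurable F → PolyB F →
      joint σ s (fun x θ => g x * F θ) = Ep σ s fun θ => mg σ g s θ * F θ := by
    intro F hF hP
    rw [joint_mg hσ hs (Φ := fun x θ => g x * F θ)
      ((hgm.comp measurable_fst).mul (hF.comp measurable_snd))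
      (polyB2_mul (polyB2_point hgP) (polyB2_state hP))]
    refine congrArg (Ep σ s) (funext fun θ => ?_)
    simp only [mg, num]
    rw [div_mul_eq_mul_div, ← integral_mul_const]
    congr 1
    exact integral_congr_ae (Eventually.of_forall fun x => by ring)
  have hone : Ep σ s (mg σ g s) = G := by
    have h1 := hb1 (fun _ => 1) measurable_const (polyB_const 1)
    simp only [mul_one] at h1
    rw [← h1, joint, integral_fun_fst g, probReal_univ, one_smul]
  -- the test function against the tilt
  have hL : Ep σ s (fun θ => mg σ g s θ * lin θ) = G * (s * dotp l u) := by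
    rw [← hb1 lin hlinc.measurable hlinP, joint]
    have ig : Integrable g (law σ) := integrable_polyB hσ hgm hgP
    have i1 : Integrable (fun z : St n × St n => g z.1 * dotp (s • l) (z.1 - center σ)) μ :=
      ((integral_dotp_centred hσ (s • l)).1.bdd_mul hgm.aestronglyMeasurable (c := hi)
        (Eventually.of_forall fun x => by
          rw [Real.norm_eq_abs, abs_of_pos (hg0 x)]; exact (hgb x).2)).comp_fst _
    have i2 : Integrable (fun z : St n × St n => g z.1 * dotp (Real.sqrt s • l) z.2) μ :=
      ig.mul_prod (integrable_gauss (continuous_dotp _) (polyB_dotp _))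
    have e2 : ∫ z, g z.1 * dotp (Real.sqrt s • l) z.2 ∂μ = 0 := by
      rw [hμdef, integral_prod_mul g fun v => dotp (Real.sqrt s • l) v, gauss_dotp, mul_zero]
    simp only [hsplitlin, mul_add]
    rw [← hμdef, integral_add i1 i2, e2, add_zero, hμdef,
      integral_fun_fst fun x => g x * dotp (s • l) (x - center σ), probReal_univ, one_smul]
    have e : (fun x => g x * dotp (s • l) (x - center σ)) =
        fun x => ∑ i, s * l i * (g x * (x i - center σ i)) := by
      funext x
      simp only [dotp, Pi.smul_apply, smul_eq_mul, Pi.sub_apply, Finset.mul_sum]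
      exact Finset.sum_congr rfl fun i _ => by ring
    have ii : ∀ i, Integrable (fun x => s * l i * (g x * (x i - center σ i))) (law σ) := fun i => by
      refine (integrable_polyB hσ (hgm.mul ((measurable_pi_apply i).sub_const _))
        (polyB_mul hgP ?_)).const_mul _
      simp only [sub_eq_add_neg]
      exact polyB_add (polyB_coord _) (polyB_const _)
    rw [e, integral_finsetSum _ fun i _ => ii i, dotp, Finset.mul_sum, Finset.mul_sum]
    refine Finset.sum_congr rfl fun i _ => ?_
    rw [integral_const_mul, hu i]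
    ring
  have hE : Ep σ s (fun θ => Real.exp (lin θ)) ≤ Real.exp c₀ := by
    simp only [Ep, joint, hsplitlin, Real.exp_add]
    rw [integral_prod_mul (fun x => Real.exp (dotp (s • l) (x - center σ)))
      fun v => Real.exp (dotp (Real.sqrt s • l) v), (gauss_mgf _).2]
    refine (mul_le_mul_of_nonneg_right (linear_mgf hσ _) (Real.exp_pos _).le).trans (le_of_eq ?_)
    rw [← Real.exp_add]
    congr 1
    simp only [nsq_smul', Real.sq_sqrt hs.le, hc₀]
    ring
  -- Gibbs' inequality at each state
  have hpt : ∀ θ, mg σ g s θ * lin θ - c₀ * mg σ g s θ ≤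
      mg σ g s θ * Real.log (mg σ g s θ) - (Real.log G + 1) * mg σ g s θ +
        G * Real.exp (-c₀) * Real.exp (lin θ) := fun θ => by
    have h1 := young (y := lin θ - c₀ + Real.log G) (hpos θ)
    rw [Real.exp_add, Real.exp_log hG, sub_eq_add_neg (lin θ), Real.exp_add] at h1
    linarith
  have iA : Integrable (fun z : St n × St n => mg σ g s (s • z.1 + Real.sqrt s • z.2)) μ :=
    hint _ hm (polyB_of_bounded hub)
  have iAl : Integrable (fun z : St n × St n =>
      mg σ g s (s • z.1 + Real.sqrt s • z.2) * lin (s • z.1 + Real.sqrt s • z.2)) μ :=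
    hint (fun θ => mg σ g s θ * lin θ) (hm.mul hlinc.measurable)
      (polyB_mul (polyB_of_bounded hub) hlinP)
  have iAlog : Integrable (fun z : St n × St n => mg σ g s (s • z.1 + Real.sqrt s • z.2) *
      Real.log (mg σ g s (s • z.1 + Real.sqrt s • z.2))) μ :=
    hint (fun θ => mg σ g s θ * Real.log (mg σ g s θ)) hml (polyB_of_bounded hbd)
  have hmain := integral_mono (iAl.sub (iA.const_mul c₀))
    ((iAlog.sub (iA.const_mul (Real.log G + 1))).add (iexp.const_mul (G * Real.exp (-c₀))))
    fun z => hpt _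
  simp only [Pi.sub_apply, Pi.add_apply] at hmain
  rw [integral_sub iAl (iA.const_mul c₀), integral_add
      (show Integrable (fun z : St n × St n => mg σ g s (s • z.1 + Real.sqrt s • z.2) *
        Real.log (mg σ g s (s • z.1 + Real.sqrt s • z.2))
          - (Real.log G + 1) * mg σ g s (s • z.1 + Real.sqrt s • z.2)) μ from
        iAlog.sub (iA.const_mul _)) (iexp.const_mul _),
    integral_sub iAlog (iA.const_mul _), integral_const_mul, integral_const_mul,
    integral_const_mul] at hmain
  simp only [Ep, joint] at hL hone hE ⊢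
  rw [← hμdef] at hL hone hE ⊢
  rw [hL, hone] at hmain
  have hlast : G * Real.exp (-c₀) *
      ∫ z, Real.exp (lin (s • z.1 + Real.sqrt s • z.2)) ∂μ ≤ G := by
    refine (mul_le_mul_of_nonneg_left hE (mul_nonneg hG.le (Real.exp_pos _).le)).trans (le_of_eq ?_)
    rw [mul_assoc, ← Real.exp_add, neg_add_cancel, Real.exp_zero, mul_one]
  have hfin : s / (2 * a) * (G * nsq u) = G * (s * dotp l u) - c₀ * G := by
    have h1 : dotp l u = nsq u / a := by
      simp only [hldef, dotp, nsq, Pi.smul_apply, smul_eq_mul, Finset.sum_div]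
      exact Finset.sum_congr rfl fun i _ => by ring
    have h2 : s ^ 2 / η + s / 2 = s * a / 2 := by
      simp only [hadef]; field_simp; ring
    rw [h1, hc₀, hldef, nsq_smul', h2]
    field_simp
    ring
  rw [hfin]
  linarith

/-- Bayes' formula for the tilt at every time. -/
lemma chan_bayes (hρ : Ulc η ρ) (hgm : Measurable g) {lo hi : ℝ} (hlo : 0 < lo)
    (hgb : ∀ x, lo ≤ g x ∧ g x ≤ hi) (hg1 : ∫ x, g x ∂law ρ = 1) {r : ℝ} (hr : 0 ≤ r)
    {F : St n → ℝ} (hF : Measurable F) {C : ℝ} (hC : ∀ θ, |F θ| ≤ C) :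
    ∫ z, g z.1 * F (r • z.1 + Real.sqrt r • z.2) ∂(law ρ).prod (P166W.gauss (Fin n)) =
      Ep ρ r fun θ => mg ρ g r θ * F θ := by
  have := isProb hρ
  have hgP : PolyB g := polyB_of_bounded (C := hi) fun x => by
    rw [abs_of_pos (hlo.trans_le (hgb x).1)]; exact (hgb x).2
  rcases hr.eq_or_lt with rfl | hr0
  · simp only [zero_smul, Real.sqrt_zero, add_zero, integral_mul_const]
    rw [integral_fun_fst g, probReal_univ, one_smul, hg1, Ep_zero hρ, mg_zero hρ, hg1]
  · have hΦ : PolyB2 fun x θ => g x * F θ :=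
      polyB2_mul (polyB2_point hgP) (polyB2_state (polyB_of_bounded hC))
    rw [show (∫ z, g z.1 * F (r • z.1 + Real.sqrt r • z.2) ∂(law ρ).prod (P166W.gauss (Fin n)))
        = joint ρ r (fun x θ => g x * F θ) from rfl,
      joint_mg hρ hr0 (Φ := fun x θ => g x * F θ)
        ((hgm.comp measurable_fst).mul (hF.comp measurable_snd)) hΦ]
    refine congrArg (Ep ρ r) (funext fun θ => ?_)
    simp only [mg, num]
    rw [div_mul_eq_mul_div, ← integral_mul_const]
    congr 1
    exact integral_congr_ae (Eventually.of_forall fun x => by ring)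

/-- The tilted channel averages are pure averages of the posterior mean times the function. -/
lemma integral_chan_tilt (hρ : Ulc η ρ) (hgm : Measurable g) {lo hi : ℝ} (hlo : 0 < lo)
    (hgb : ∀ x, lo ≤ g x ∧ g x ≤ hi) (hg1 : ∫ x, g x ∂law ρ = 1) {r : ℝ} (hr : 0 ≤ r)
    {F : St n → ℝ} (hF : Measurable F) {C : ℝ} (hC : ∀ θ, |F θ| ≤ C) :
    ∫ θ, F θ ∂chanM (fun x => g x * ρ x) r = Ep ρ r fun θ => mg ρ g r θ * F θ := by
  have := isProb hρ
  have hg0 : ∀ x, 0 < g x := fun x => hlo.trans_le (hgb x).1
  have hνm : Measurable fun x => g x * ρ x := hgm.mul hρ.meas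
  have hν0 : ∀ x, 0 ≤ g x * ρ x := fun x => mul_nonneg (hg0 x).le (hρ.nonneg x)
  have hgP : PolyB g := polyB_of_bounded (C := hi) fun x => by
    rw [abs_of_pos (hg0 x)]; exact (hgb x).2
  have hν : IsProbabilityMeasure (law fun x => g x * ρ x) := by
    refine ⟨?_⟩
    rw [law, withDensity_apply _ MeasurableSet.univ, setLIntegral_univ]
    calc ∫⁻ x, ENNReal.ofReal (g x * ρ x)
        = ∫⁻ x, ENNReal.ofReal (ρ x) * ENNReal.ofReal (g x) := lintegral_congr fun x => by
          rw [mul_comm, ENNReal.ofReal_mul (hρ.nonneg x)]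
      _ = ∫⁻ x, ENNReal.ofReal (g x) ∂law ρ := (lintegral_law hρ.meas hgm.ennreal_ofReal).symm
      _ = 1 := by
          rw [← ofReal_integral_eq_lintegral_ofReal (integrable_polyB hρ hgm hgP)
            (Eventually.of_forall fun x => (hg0 x).le), hg1, ENNReal.ofReal_one]
  have hθm : Measurable fun z : St n × St n => r • z.1 + Real.sqrt r • z.2 := by fun_prop
  rw [← chan_bayes hρ hgm hlo hgb hg1 hr hF hC]
  have hFb : ∀ z : St n × St n, ‖F (r • z.1 + Real.sqrt r • z.2)‖ ≤ C := fun z => hC _
  have hi1 : Integrable (fun z : St n × St n => F (r • z.1 + Real.sqrt r • z.2))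
      ((law fun x => g x * ρ x).prod (P166W.gauss (Fin n))) :=
    (integrable_const C).mono' (hF.comp hθm).aestronglyMeasurable (Eventually.of_forall hFb)
  have hi2 : Integrable (fun z : St n × St n => g z.1 * F (r • z.1 + Real.sqrt r • z.2))
      ((law ρ).prod (P166W.gauss (Fin n))) := by
    refine (integrable_const (hi * C)).mono'
      ((hgm.comp measurable_fst).mul (hF.comp hθm)).aestronglyMeasurable
      (Eventually.of_forall fun z => ?_)
    rw [norm_mul, Real.norm_eq_abs, abs_of_pos (hg0 _)]
    exact mul_le_mul (hgb _).2 (hFb z) (norm_nonneg _) ((hg0 z.1).le.trans (hgb _).2)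
  have e : ∫ θ, F θ ∂chanM (fun x => g x * ρ x) r =
      ∫ z, g z.1 * F (r • z.1 + Real.sqrt r • z.2) ∂(law ρ).prod (P166W.gauss (Fin n)) := by
    rw [chanM, integral_map hθm.aemeasurable hF.aestronglyMeasurable, integral_prod _ hi1,
      integral_prod _ hi2, integral_law hνm hν0, integral_law hρ.meas hρ.nonneg]
    refine integral_congr_ae (Eventually.of_forall fun x => ?_)
    simp only [integral_const_mul]
    ring
  exact e

/-- One step of the chain at time `r`. -/
lemma step_budget (hρ : Ulc η ρ) (hgm : Measurable g) {lo hi : ℝ} (hlo : 0 < lo)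
    (hgb : ∀ x, lo ≤ g x ∧ g x ≤ hi) {r : ℝ} (hr : 0 ≤ r) (hh : 0 < h) :
    h / (2 * (1 + 2 * h / η)) *
        Ep ρ r (fun θ => mg ρ g r θ * nsq (tbary ρ g r θ - bary ρ r θ)) ≤
      Ep ρ (r + h) (fun θ => mg ρ g (r + h) θ * Real.log (mg ρ g (r + h) θ))
        - Ep ρ r (fun θ => mg ρ g r θ * Real.log (mg ρ g r θ)) := by
  have := isProb hρ
  have hη := hρ.pos
  obtain ⟨hm, hml, hpos, hbd⟩ := mean_facts hρ hgm hlo hgb hr
  obtain ⟨hm', hml', hpos', hbd'⟩ := mean_facts hρ hgm hlo hgb (add_nonneg hr hh.le)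
  set κ := h / (2 * (1 + 2 * h / η)) with hκdef
  set M := fun θ => mg ρ g r θ * Real.log (mg ρ g r θ) with hMdef
  set M' := fun θ => mg ρ g (r + h) θ * Real.log (mg ρ g (r + h) θ) with hM'def
  set Q := fun θ => Ep (post ρ r θ) h fun θ' => M' (θ + θ') with hQdef
  have hpt : ∀ θ, κ * (mg ρ g r θ * nsq (tbary ρ g r θ - bary ρ r θ)) ≤ Q θ - M θ := fun θ => by
    have hp := post_ulc hρ hr θ
    have e1 : ∫ x, g x ∂law (post ρ r θ) = mg ρ g r θ := integral_post hρ hr θ g
    have := isProb hp
    have hgP : PolyB g := polyB_of_bounded (C := hi) fun x => by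
      rw [abs_of_pos (hlo.trans_le (hgb x).1)]; exact (hgb x).2
    have hu : ∀ i, ∫ x, g x * (x i - center (post ρ r θ) i) ∂law (post ρ r θ) =
        (∫ x, g x ∂law (post ρ r θ)) * (tbary ρ g r θ - bary ρ r θ) i := fun i => by
      simp only [center_post hρ hr θ, mul_sub, Pi.sub_apply]
      rw [integral_sub (integrable_polyB hp (g := fun x => g x * x i)
          (hgm.mul (measurable_pi_apply i)) (polyB_mul hgP (polyB_coord i)))
        ((integrable_polyB hp hgm hgP).mul_const _), integral_mul_const,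
        integral_post hρ hr θ, integral_post hρ hr θ]
      have h1 := (mean_basic hρ hr hgm hlo hgb θ).2.2.2.ne'
      simp only [mg, tbary]
      field_simp
    have hdv := step_dv hp hh hgm hlo hgb _ hu
    have hη' : 0 < η + r := by linarith
    have hκle : κ ≤ h / (2 * (1 + 2 * h / (η + r))) := by
      rw [hκdef]
      refine div_le_div_of_nonneg_left hh.le (by positivity) ?_
      have : 2 * h / (η + r) ≤ 2 * h / η :=
        div_le_div_of_nonneg_left (by linarith) hη (by linarith)
      linarith
    rw [e1] at hdv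
    refine le_trans ?_ (hdv.trans (le_of_eq ?_))
    · exact mul_le_mul_of_nonneg_right hκle (mul_nonneg (hpos θ).le (nsq_nonneg _))
    · simp only [hQdef, hMdef, hM'def, mg_post hρ hr hh.le θ]
  -- bounds for integrability
  set L := hi * (|Real.log lo| + |Real.log hi|) with hLdef
  set B := hi * (4 * (Real.log hi - Real.log lo) / (η + r)) with hBdef
  have hQm : Measurable Q := by
    have : Measurable fun θ => mg ρ (fun x => ∫ v, M' (θ + (h • x + Real.sqrt h • v))
        ∂P166W.gauss (Fin n)) r θ :=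
      measurable_mg hρ (Φ := fun x θ => ∫ v, M' (θ + (h • x + Real.sqrt h • v))
        ∂P166W.gauss (Fin n))
        ((hml'.comp (f := fun p : (St n × St n) × St n =>
          p.1.2 + (h • p.1.1 + Real.sqrt h • p.2)) (by fun_prop)).stronglyMeasurable
            |>.integral_prod_right').measurable r
    refine (congrArg Measurable (funext fun θ => ?_)).mp this
    have := isProb (post_ulc hρ hr θ)
    rw [← integral_post hρ hr θ]
    simp only [hQdef, Ep, joint]
    rw [integral_prod]
    exact (integrable_const L).mono' ((hml'.comp (by fun_prop)).aestronglyMeasurable)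
      (Eventually.of_forall fun z => hbd' _)
  have hQb : ∀ θ, |Q θ| ≤ L := fun θ => by
    have := isProb (post_ulc hρ hr θ)
    simp only [hQdef, Ep, joint]
    refine (norm_integral_le_of_norm_le (μ := (law (post ρ r θ)).prod (P166W.gauss (Fin n)))
      (f := fun z => M' (θ + (h • z.1 + Real.sqrt h • z.2))) (integrable_const L)
      (Eventually.of_forall fun z => hbd' _)).trans (le_of_eq (by simp))
  have hum : Measurable fun θ => mg ρ g r θ * nsq (tbary ρ g r θ - bary ρ r θ) :=
    hm.mul (continuous_nsq.measurable.comp ((measurable_tbary hρ hgm r).sub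
      (measurable_pi_iff.2 fun i => measurable_mg hρ (Φ := fun x _ => x i)
        ((measurable_pi_apply i).comp measurable_fst) r)))
  have hubd : ∀ θ, |mg ρ g r θ * nsq (tbary ρ g r θ - bary ρ r θ)| ≤ B := fun θ => by
    rw [abs_mul, abs_of_pos (hpos θ), abs_of_nonneg (nsq_nonneg _)]
    exact mul_le_mul (mean_basic hρ hr hgm hlo hgb θ).2.1 (tbary_bound hρ hr hgm hlo hgb θ).2.1
      (nsq_nonneg _) ((hpos θ).le.trans (mean_basic hρ hr hgm hlo hgb θ).2.1)
  have hθm : Measurable fun z : St n × St n => r • z.1 + Real.sqrt r • z.2 := by fun_prop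
  have hI : ∀ {F : St n → ℝ}, Measurable F → ∀ {C : ℝ}, (∀ θ, |F θ| ≤ C) →
      Integrable (fun z : St n × St n => F (r • z.1 + Real.sqrt r • z.2))
        ((law ρ).prod (P166W.gauss (Fin n))) := fun {F} hF {C} hC =>
    (integrable_const C).mono' (hF.comp hθm).aestronglyMeasurable
      (Eventually.of_forall fun z => hC _)
  have hsum : Ep ρ (r + h) M' = Ep ρ r Q := by
    rcases hr.eq_or_lt with rfl | hr0
    · rw [Ep_zero hρ, zero_add]
      simp only [hQdef]
      rw [Ep, Ep, joint, joint]
      simp only [zero_add]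
      rw [show post ρ 0 0 = ρ from funext fun x => by
        simp [post, part_zero hρ, wgt, dotp]]
    · exact joint_split hρ hr0 hh.le (Φ := fun _ θ => M' θ) (hml'.comp measurable_snd)
        (polyB2_state (polyB_of_bounded hbd'))
  rw [hsum]
  simp only [Ep, joint]
  rw [← integral_const_mul, ← integral_sub (hI hQm hQb) (hI hml hbd)]
  exact integral_mono ((hI hum hubd).const_mul κ) ((hI hQm hQb).sub (hI hml hbd)) fun z => hpt _

/-- The entropy of the channel is at most the entropy of the tilt. -/
lemma channel_ent_le (hρ : Ulc η ρ) (hgm : Measurable g) {lo hi : ℝ} (hlo : 0 < lo)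
    (hgb : ∀ x, lo ≤ g x ∧ g x ≤ hi) (hg1 : ∫ x, g x ∂law ρ = 1) {r : ℝ} (hr : 0 ≤ r) :
    Ep ρ r (fun θ => mg ρ g r θ * Real.log (mg ρ g r θ)) ≤ ent (law ρ) g := by
  have := isProb hρ
  have hg0 : ∀ x, 0 < g x := fun x => hlo.trans_le (hgb x).1
  obtain ⟨hm, hml, hpos, hbd⟩ := mean_facts hρ hgm hlo hgb hr
  have hlm : Measurable fun θ => Real.log (mg ρ g r θ) := hm.log
  have hlb : ∀ θ, |Real.log (mg ρ g r θ)| ≤ |Real.log lo| + |Real.log hi| := fun θ =>
    abs_log_le hlo (mean_basic hρ hr hgm hlo hgb θ).1 (mean_basic hρ hr hgm hlo hgb θ).2.1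
  have hθm : Measurable fun z : St n × St n => r • z.1 + Real.sqrt r • z.2 := by fun_prop
  have hI : ∀ {Φ : St n × St n → ℝ}, Measurable Φ → ∀ {C : ℝ}, (∀ z, |Φ z| ≤ C) →
      Integrable Φ ((law ρ).prod (P166W.gauss (Fin n))) := fun {Φ} hΦ {C} hC =>
    (integrable_const C).mono' hΦ.aestronglyMeasurable (Eventually.of_forall hC)
  rw [← integral_chan_tilt hρ hgm hlo hgb hg1 hr hlm hlb]
  have e : ∫ θ, Real.log (mg ρ g r θ) ∂chanM (fun x => g x * ρ x) r =
      ∫ z, g z.1 * Real.log (mg ρ g r (r • z.1 + Real.sqrt r • z.2))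
        ∂(law ρ).prod (P166W.gauss (Fin n)) := by
    rw [integral_chan_tilt hρ hgm hlo hgb hg1 hr hlm hlb]
    exact (chan_bayes hρ hgm hlo hgb hg1 hr hlm hlb).symm
  rw [e]
  have i1 : Integrable (fun z : St n × St n =>
      g z.1 * Real.log (mg ρ g r (r • z.1 + Real.sqrt r • z.2)))
      ((law ρ).prod (P166W.gauss (Fin n))) := by
    refine hI ((hgm.comp measurable_fst).mul (hlm.comp hθm))
      (C := hi * (|Real.log lo| + |Real.log hi|)) fun z => ?_
    rw [abs_mul, abs_of_pos (hg0 _)]
    exact mul_le_mul (hgb _).2 (hlb _) (abs_nonneg _) ((hg0 z.1).le.trans (hgb _).2)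
  have i2 : Integrable (fun z : St n × St n => g z.1 * Real.log (g z.1))
      ((law ρ).prod (P166W.gauss (Fin n))) :=
    hI ((hgm.comp measurable_fst).mul (hgm.comp measurable_fst).log)
      fun z => abs_mul_log_le hlo (hgb _).1 (hgb _).2
  have i3 : Integrable (fun z : St n × St n => g z.1) ((law ρ).prod (P166W.gauss (Fin n))) :=
    hI (hgm.comp measurable_fst) (C := hi) fun z => by
      rw [abs_of_pos (hg0 _)]; exact (hgb _).2
  have i4 : Integrable (fun z : St n × St n => mg ρ g r (r • z.1 + Real.sqrt r • z.2))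
      ((law ρ).prod (P166W.gauss (Fin n))) :=
    hI (hm.comp hθm) (C := hi) fun z => by
      rw [abs_of_pos (hpos _)]; exact (mean_basic hρ hr hgm hlo hgb _).2.1
  have hmono := integral_mono i1 ((i2.sub i3).add i4) fun z => by
    have h1 := young (W := g z.1) (y := Real.log (mg ρ g r (r • z.1 + Real.sqrt r • z.2))) (hg0 _)
    rw [Real.exp_log (hpos _)] at h1
    exact h1
  simp only [Pi.add_apply, Pi.sub_apply] at hmono
  rw [integral_add (show Integrable (fun z : St n × St n => g z.1 * Real.log (g z.1) - g z.1) _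
      from i2.sub i3) i4, integral_sub i2 i3,
    integral_fun_fst fun x => g x * Real.log (g x), integral_fun_fst g] at hmono
  have e4 : ∫ z, mg ρ g r (r • z.1 + Real.sqrt r • z.2) ∂(law ρ).prod (P166W.gauss (Fin n)) = 1 := by
    have h1 := chan_bayes hρ hgm hlo hgb hg1 hr (F := fun _ => 1) measurable_const
      (C := 1) (fun _ => by simp)
    simp only [mul_one, Ep, joint] at h1
    rw [← h1, integral_fun_fst g, probReal_univ, one_smul, hg1]
  simp only [e4, probReal_univ, one_smul, hg1] at hmono
  simp only [ent, hg1, Real.log_one, mul_zero, sub_zero]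
  linarith

end ChainKL

/-- The chain rule bounds the mismatch of the two barycentres by the entropy. -/
theorem u_budget (hb : Base η D K ρ) (ht : Tilted η D τ ρ g ρ') (S : ℝ) : ∃ E : ℝ, 0 ≤ E ∧
    ∀ h : ℝ, 0 < h → h ≤ 1 → ∀ N : ℕ, N * h ≤ S →
      h * ∑ k ∈ Finset.range N,
          ∫ p, nsq (uV ρ (fun x => g x * ρ x) h k p) ∂pairM ρ (fun x => g x * ρ x) h k
        ≤ 2 * ent (law ρ) g + E * Real.sqrt h := by
  have hρ := hb.ulc
  have := isProb hρ
  obtain ⟨lo, hi, hlo, hgb⟩ := ht.bdd
  have hgm := ht.gmeas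
  have hg1 := ht.gmass
  have hg0 : ∀ x, 0 < g x := fun x => hlo.trans_le (hgb x).1
  have hgP : PolyB g := polyB_of_bounded (C := hi) fun x => by
    rw [abs_of_pos (hg0 x)]; exact (hgb x).2
  have hν : Dens D fun x => g x * ρ x :=
    { meas := hgm.mul hρ.meas
      nonneg := fun x => mul_nonneg (hg0 x).le (hρ.nonneg x)
      mass := by
        calc ∫⁻ x, ENNReal.ofReal (g x * ρ x)
            = ∫⁻ x, ENNReal.ofReal (ρ x) * ENNReal.ofReal (g x) := lintegral_congr fun x => by
              rw [mul_comm, ENNReal.ofReal_mul (hρ.nonneg x)]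
          _ = ∫⁻ x, ENNReal.ofReal (g x) ∂law ρ :=
              (lintegral_law hρ.meas hgm.ennreal_ofReal).symm
          _ = 1 := by
              rw [← ofReal_integral_eq_lintegral_ofReal (integrable_polyB hρ hgm hgP)
                (Eventually.of_forall fun x => (hg0 x).le), hg1, ENNReal.ofReal_one]
      supp := fun x hx => by rw [hb.dens.supp x hx, mul_zero] }
  have hη := hρ.pos
  set Φ := fun r : ℝ => Ep ρ r fun θ => mg ρ g r θ * Real.log (mg ρ g r θ) with hΦdef
  have hΦ0 : Φ 0 = 0 := by
    simp [hΦdef, Ep_zero hρ, mg_zero hρ, hg1]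
  have hent : 0 ≤ ent (law ρ) g := hΦ0 ▸ ChainKL.channel_ent_le hρ hgm hlo hgb hg1 le_rfl
  refine ⟨4 * ent (law ρ) g / η, by positivity, fun h hh hh1 N _ => ?_⟩
  set a := 1 + 2 * h / η with hadef
  have ha : 0 < a := by positivity
  -- the mismatch seen on the tilted channel
  have hbary : ∀ r θ, bary (fun x => g x * ρ x) r θ = tbary ρ g r θ := fun r θ => funext fun i => by
    simp only [bary, tbary, mg, num, part]
    rw [integral_law hν.meas hν.nonneg, integral_law hν.meas hν.nonneg,
      integral_law hρ.meas hρ.nonneg, integral_law hρ.meas hρ.nonneg]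
    congr 1 <;> exact integral_congr_ae (Eventually.of_forall fun x => by simp; ring)
  have hU : ∀ k : ℕ, ∫ p, nsq (uV ρ (fun x => g x * ρ x) h k p) ∂pairM ρ (fun x => g x * ρ x) h k =
      Ep ρ (k * h) fun θ =>
        mg ρ g (k * h) θ * nsq (tbary ρ g (k * h) θ - bary ρ (k * h) θ) := fun k => by
    have hr : (0 : ℝ) ≤ k * h := by positivity
    have hm : Measurable fun θ => nsq (tbary ρ g (k * h) θ - bary ρ (k * h) θ) :=
      continuous_nsq.measurable.comp ((measurable_tbary hρ hgm _).sub
        (measurable_pi_iff.2 fun i => measurable_mg hρ (Φ := fun x _ => x i)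
          ((measurable_pi_apply i).comp measurable_fst) _))
    have hbd : ∀ θ, |nsq (tbary ρ g (k * h) θ - bary ρ (k * h) θ)| ≤
        4 * (Real.log hi - Real.log lo) / (η + k * h) := fun θ => by
      rw [abs_of_nonneg (nsq_nonneg _)]
      exact (tbary_bound hρ hr hgm hlo hgb θ).2.1
    rw [← ChainKL.integral_chan_tilt hρ hgm hlo hgb hg1 hr hm hbd,
      ← (pair_marginals hb.dens hν hh k).2,
      integral_map measurable_snd.aemeasurable hm.aestronglyMeasurable]
    exact integral_congr_ae (Eventually.of_forall fun p => by simp only [uV, hbary])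
  have hstep : ∀ k : ℕ, h / (2 * a) *
      ∫ p, nsq (uV ρ (fun x => g x * ρ x) h k p) ∂pairM ρ (fun x => g x * ρ x) h k ≤
        Φ ((k + 1 : ℕ) * h) - Φ (k * h) := fun k => by
    rw [hU, show ((k + 1 : ℕ) : ℝ) * h = k * h + h by push_cast; ring]
    exact ChainKL.step_budget hρ hgm hlo hgb (by positivity) hh
  have hsum := Finset.sum_le_sum (s := Finset.range N) fun k _ => hstep k
  rw [← Finset.mul_sum, Finset.sum_range_sub fun k : ℕ => Φ (k * h), Nat.cast_zero, zero_mul,
    hΦ0, sub_zero] at hsum
  have hN : Φ (N * h) ≤ ent (law ρ) g :=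
    ChainKL.channel_ent_le hρ hgm hlo hgb hg1 (by positivity)
  set T := ∑ k ∈ Finset.range N,
    ∫ p, nsq (uV ρ (fun x => g x * ρ x) h k p) ∂pairM ρ (fun x => g x * ρ x) h k
  have h1 : h * T ≤ 2 * a * ent (law ρ) g := by
    have h2 := hsum.trans hN
    rw [div_mul_eq_mul_div, div_le_iff₀ (by positivity)] at h2
    linarith
  refine h1.trans ?_
  have h3 : h ≤ Real.sqrt h := Real.le_sqrt_self_iff.2 hh1
  have h4 := mul_le_mul_of_nonneg_left h3 (show 0 ≤ 4 * ent (law ρ) g / η by positivity)
  have h5 : 2 * a * ent (law ρ) g = 2 * ent (law ρ) g + 4 * ent (law ρ) g / η * h := by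
    simp only [hadef]; field_simp; ring
  linarith

end

end Vale.Agent.P245.Gen2
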