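import Mathlib

/-!
# P245, polylogarithmic bound: real sequences of the coupling

`d2`, `dw`, `Z`, `U` stand for the mean squares of the displacement, its pairing with the difference
of the barycentres, the mean square of the latter and of the mismatch at equal states.
-/

namespace Vale.Agent.P245.Gen2.Seq

/-- The recursions satisfied up to index `N`. -/
structure Rec (h E : ℝ) (N : ℕ) (d2 dw Z : ℕ → ℝ) : Prop where
  hpos : 0 < h
  epos : 0 ≤ E
  d2zero : d2 0 = 0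
  dwzero : dw 0 = 0
  d2nonneg : ∀ k, 0 ≤ d2 k
  Znonneg : ∀ k, 0 ≤ Z k
  Zmono : ∀ k j, k ≤ j → j ≤ N → Z k ≤ Z j
  step1 : ∀ k, k < N → |d2 (k + 1) - (d2 k + 2 * h * dw k)| ≤ E * h ^ 2
  step2 : ∀ k, k < N → |dw (k + 1) - (dw k + h * Z k)| ≤ E * h * Real.sqrt h

variable {h E : ℝ} {N : ℕ} {d2 dw Z : ℕ → ℝ}

/-- The pairing is the running sum of `Z`. -/
theorem dw_sum (hr : Rec h E N d2 dw Z) : ∀ k, k ≤ N →
    |dw k - h * ∑ i ∈ Finset.range k, Z i| ≤ E * ((k : ℝ) * h) * Real.sqrt h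
  | 0, _ => by simp [hr.dwzero]
  | k + 1, hk => by
    have ih := dw_sum hr k (by omega)
    have hs := hr.step2 k (by omega)
    rw [Finset.sum_range_succ]
    rw [abs_le] at ih hs ⊢
    push_cast
    constructor <;> linarith

/-- The displacement is twice the running sum of the pairing. -/
theorem d2_sum (hr : Rec h E N d2 dw Z) : ∀ k, k ≤ N →
    |d2 k - 2 * h * ∑ i ∈ Finset.range k, dw i| ≤ E * ((k : ℝ) * h) * h
  | 0, _ => by simp [hr.d2zero]
  | k + 1, hk => by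
    have ih := d2_sum hr k (by omega)
    have hs := hr.step1 k (by omega)
    rw [Finset.sum_range_succ]
    rw [abs_le] at ih hs ⊢
    push_cast
    constructor <;> linarith

theorem time_nonneg (hr : Rec h E N d2 dw Z) (k : ℕ) : 0 ≤ (k : ℝ) * h :=
  mul_nonneg k.cast_nonneg hr.hpos.le

theorem time_le (hr : Rec h E N d2 dw Z) {S : ℝ} (hS : (N : ℝ) * h ≤ S) {k : ℕ} (hk : k ≤ N) :
    (k : ℝ) * h ≤ S :=
  le_trans (mul_le_mul_of_nonneg_right (Nat.cast_le.2 hk) hr.hpos.le) hS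

theorem S_nonneg (hr : Rec h E N d2 dw Z) {S : ℝ} (hS : (N : ℝ) * h ≤ S) : 0 ≤ S :=
  (time_nonneg hr N).trans hS

theorem dw_le (hr : Rec h E N d2 dw Z) {S : ℝ} (hS : (N : ℝ) * h ≤ S) {i k : ℕ} (hik : i ≤ k)
    (hk : k ≤ N) : dw i ≤ (i : ℝ) * h * Z k + E * S * Real.sqrt h := by
  have h1 := (abs_le.1 (dw_sum hr i (hik.trans hk))).2
  have h2 : ∑ l ∈ Finset.range i, Z l ≤ (i : ℝ) * Z k := by
    have := Finset.sum_le_card_nsmul (Finset.range i) Z (Z k) fun l hl =>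
      hr.Zmono l k (by rw [Finset.mem_range] at hl; omega) hk
    simpa using this
  have h3 := mul_le_mul_of_nonneg_left h2 hr.hpos.le
  have h4 : E * ((i : ℝ) * h) * Real.sqrt h ≤ E * S * Real.sqrt h :=
    mul_le_mul_of_nonneg_right (mul_le_mul_of_nonneg_left (time_le hr hS (hik.trans hk)) hr.epos)
      (Real.sqrt_nonneg h)
  linarith

theorem dw_ge (hr : Rec h E N d2 dw Z) {S : ℝ} (hS : (N : ℝ) * h ≤ S) (k : ℕ) {i : ℕ}
    (hi : i ≤ N) : ((i - k : ℕ) : ℝ) * h * Z k - E * S * Real.sqrt h ≤ dw i := by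
  have h1 := (abs_le.1 (dw_sum hr i hi)).1
  have h2 : ((i - k : ℕ) : ℝ) * Z k ≤ ∑ l ∈ Finset.range i, Z l := by
    refine le_trans ?_ (Finset.sum_le_sum_of_subset_of_nonneg (s := Finset.Ico k i)
      (fun l hl => Finset.mem_range.2 (Finset.mem_Ico.1 hl).2) fun l _ _ => hr.Znonneg l)
    have := Finset.card_nsmul_le_sum (Finset.Ico k i) Z (Z k) fun l hl =>
      hr.Zmono k l (Finset.mem_Ico.1 hl).1 (by have := (Finset.mem_Ico.1 hl).2; omega)
    simpa using this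
  have h3 := mul_le_mul_of_nonneg_left h2 hr.hpos.le
  have h4 : E * ((i : ℝ) * h) * Real.sqrt h ≤ E * S * Real.sqrt h :=
    mul_le_mul_of_nonneg_right (mul_le_mul_of_nonneg_left (time_le hr hS hi) hr.epos)
      (Real.sqrt_nonneg h)
  linarith

theorem h_le_sqrt (hr : Rec h E N d2 dw Z) (h1 : h ≤ 1) : h ≤ Real.sqrt h := by
  have := hr.hpos
  rw [Real.le_sqrt this.le this.le]
  nlinarith

theorem sum_range_id_real : ∀ k : ℕ, 2 * ∑ i ∈ Finset.range k, (i : ℝ) = (k : ℝ) ^ 2 - k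
  | 0 => by simp
  | k + 1 => by
    have := sum_range_id_real k
    rw [Finset.sum_range_succ]
    push_cast
    linarith

theorem d2_le (hr : Rec h E N d2 dw Z) (h1 : h ≤ 1) {S : ℝ} (hS : (N : ℝ) * h ≤ S) {k : ℕ}
    (hk : k ≤ N) : d2 k ≤ ((k : ℝ) * h) ^ 2 * Z k + 3 * E * (1 + S) ^ 2 * Real.sqrt h := by
  have hh := hr.hpos
  have hE := hr.epos
  have hS0 := S_nonneg hr hS
  have hkS := time_le hr hS hk
  have hk0 := time_nonneg hr k
  have a1 := (abs_le.1 (d2_sum hr k hk)).2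
  have a2 : ∑ i ∈ Finset.range k, dw i ≤
      ∑ i ∈ Finset.range k, ((i : ℝ) * (h * Z k) + E * S * Real.sqrt h) :=
    Finset.sum_le_sum fun i hi => by
      have := dw_le hr hS (i := i) (k := k) (by rw [Finset.mem_range] at hi; omega) hk
      linarith
  rw [Finset.sum_add_distrib, ← Finset.sum_mul, Finset.sum_const, Finset.card_range,
    nsmul_eq_mul] at a2
  have a3 : 2 * h * ((∑ i ∈ Finset.range k, (i : ℝ)) * (h * Z k))
      ≤ ((k : ℝ) * h) ^ 2 * Z k := by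
    have e : 2 * h * ((∑ i ∈ Finset.range k, (i : ℝ)) * (h * Z k))
        = ((k : ℝ) ^ 2 - k) * (h ^ 2 * Z k) := by
      rw [← sum_range_id_real k]; ring
    have : 0 ≤ (k : ℝ) * (h ^ 2 * Z k) := by have := hr.Znonneg k; positivity
    rw [e]; linarith
  have a4 : 2 * h * ((k : ℝ) * (E * S * Real.sqrt h)) ≤ 2 * E * S ^ 2 * Real.sqrt h := by
    have := mul_le_mul_of_nonneg_right hkS (show 0 ≤ E * S * Real.sqrt h by positivity)
    linarith
  have a5 : E * ((k : ℝ) * h) * h ≤ E * S * Real.sqrt h :=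
    mul_le_mul (mul_le_mul_of_nonneg_left hkS hE) (h_le_sqrt hr h1) hh.le (by positivity)
  have a6 : 2 * E * S ^ 2 * Real.sqrt h + E * S * Real.sqrt h
      ≤ 3 * E * (1 + S) ^ 2 * Real.sqrt h := by
    have : 0 ≤ (S ^ 2 + 5 * S + 3) * (E * Real.sqrt h) := by positivity
    linarith
  have a7 := mul_le_mul_of_nonneg_left a2 (show 0 ≤ 2 * h by positivity)
  linarith

theorem d2_ge (hr : Rec h E N d2 dw Z) (h1 : h ≤ 1) {S : ℝ} (hS : (N : ℝ) * h ≤ S) {k m : ℕ}
    (hkm : k < m) (hm : m ≤ N) :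
    ((((m - k - 1 : ℕ) : ℝ)) * h) ^ 2 * Z k ≤ d2 m + 3 * E * (1 + S) ^ 2 * Real.sqrt h := by
  have hh := hr.hpos
  have hE := hr.epos
  have hS0 := S_nonneg hr hS
  have hmS := time_le hr hS hm
  have a1 := (abs_le.1 (d2_sum hr m hm)).1
  have a2 : ∑ i ∈ Finset.range m, (((i - k : ℕ) : ℝ) * (h * Z k) - E * S * Real.sqrt h)
      ≤ ∑ i ∈ Finset.range m, dw i :=
    Finset.sum_le_sum fun i hi => by
      have := dw_ge hr hS k (i := i) (by rw [Finset.mem_range] at hi; omega)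
      linarith
  rw [Finset.sum_sub_distrib, ← Finset.sum_mul, Finset.sum_const, Finset.card_range,
    nsmul_eq_mul] at a2
  have a3 : ∑ i ∈ Finset.range m, ((i - k : ℕ) : ℝ) = ∑ j ∈ Finset.range (m - k), (j : ℝ) := by
    have e : m = k + (m - k) := by omega
    conv_lhs => rw [e, Finset.sum_range_add]
    have z : ∑ i ∈ Finset.range k, ((i - k : ℕ) : ℝ) = 0 :=
      Finset.sum_eq_zero fun i hi => by
        rw [Finset.mem_range] at hi
        simp [show i - k = 0 by omega]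
    rw [z, zero_add]
    exact Finset.sum_congr rfl fun j _ => by simp
  have a3' : (((m - k - 1 : ℕ) : ℝ) * h) ^ 2 * Z k
      ≤ 2 * h * ((∑ i ∈ Finset.range m, ((i - k : ℕ) : ℝ)) * (h * Z k)) := by
    have e : 2 * h * ((∑ i ∈ Finset.range m, ((i - k : ℕ) : ℝ)) * (h * Z k))
        = (((m - k : ℕ) : ℝ) ^ 2 - ((m - k : ℕ) : ℝ)) * (h ^ 2 * Z k) := by
      rw [a3, ← sum_range_id_real (m - k)]; ring
    have e2 : ((m - k : ℕ) : ℝ) = ((m - k - 1 : ℕ) : ℝ) + 1 := by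
      rw [show m - k = m - k - 1 + 1 by omega]
      simp
    have : 0 ≤ ((m - k - 1 : ℕ) : ℝ) * (h ^ 2 * Z k) := by have := hr.Znonneg k; positivity
    rw [e, e2]; linarith
  have a4 : 2 * h * ((m : ℝ) * (E * S * Real.sqrt h)) ≤ 2 * E * S ^ 2 * Real.sqrt h := by
    have := mul_le_mul_of_nonneg_right hmS (show 0 ≤ E * S * Real.sqrt h by positivity)
    linarith
  have a5 : E * ((m : ℝ) * h) * h ≤ E * S * Real.sqrt h :=
    mul_le_mul (mul_le_mul_of_nonneg_left hmS hE) (h_le_sqrt hr h1) hh.le (by positivity)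
  have a6 : 2 * E * S ^ 2 * Real.sqrt h + E * S * Real.sqrt h
      ≤ 3 * E * (1 + S) ^ 2 * Real.sqrt h := by
    have : 0 ≤ (S ^ 2 + 5 * S + 3) * (E * Real.sqrt h) := by positivity
    linarith
  have a7 := mul_le_mul_of_nonneg_left a2 (show 0 ≤ 2 * h by positivity)
  linarith

theorem gap_le (hr : Rec h E N d2 dw Z) (h1 : h ≤ 1) {S : ℝ} (hS : (N : ℝ) * h ≤ S) {r t : ℕ}
    (hrt : r ≤ t) (ht : t ≤ N) :
    d2 t - 2 * ((t : ℝ) * h) * dw t + ((t : ℝ) * h) ^ 2 * Z t ≤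
      2 * ((t : ℝ) * h) ^ 2 * (Z t - Z r) + 2 * ((t : ℝ) * h) * ((r : ℝ) * h) * Z t
        + 9 * E * (1 + S) ^ 2 * Real.sqrt h := by
  have hE := hr.epos
  have hS0 := S_nonneg hr hS
  have hT := time_le hr hS ht
  have hT0 := time_nonneg hr t
  have a1 := d2_le hr h1 hS ht
  have a2 := dw_ge hr hS r ht
  rw [Nat.cast_sub hrt] at a2
  have a3 : 2 * ((t : ℝ) * h) * (E * S * Real.sqrt h) ≤ 2 * E * S ^ 2 * Real.sqrt h := by
    have := mul_le_mul_of_nonneg_right hT (show 0 ≤ E * S * Real.sqrt h by positivity)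
    linarith
  have a4 : 2 * ((t : ℝ) * h) * ((r : ℝ) * h) * Z r ≤ 2 * ((t : ℝ) * h) * ((r : ℝ) * h) * Z t :=
    mul_le_mul_of_nonneg_left (hr.Zmono r t hrt ht)
      (mul_nonneg (by positivity) (time_nonneg hr r))
  have a5 : 0 ≤ (4 * S ^ 2 + 12 * S + 6) * (E * Real.sqrt h) := by positivity
  have a7 := mul_le_mul_of_nonneg_left a2 (show 0 ≤ 2 * ((t : ℝ) * h) by positivity)
  linarith

theorem sum_inv_sq_le {q : ℕ} (hq : 0 < q) : ∀ {m : ℕ}, q ≤ m →
    ∑ k ∈ Finset.Ico q m, (1 / ((k : ℝ) + 1)) ^ 2 ≤ 1 / (q : ℝ) - 1 / m := by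
  intro m hm
  induction m, hm using Nat.le_induction with
  | base => simp
  | succ m hm ih =>
    rw [Finset.sum_Ico_succ_top hm]
    have hm0 : (0 : ℝ) < m := Nat.cast_pos.2 (hq.trans_le hm)
    push_cast
    have : (1 / ((m : ℝ) + 1)) ^ 2 ≤ 1 / (m : ℝ) - 1 / ((m : ℝ) + 1) := by
      rw [div_sub_div _ _ hm0.ne' (by positivity), div_pow, one_pow,
        show (1 : ℝ) * ((m : ℝ) + 1) - (m : ℝ) * 1 = 1 by ring]
      exact one_div_le_one_div_of_le (by positivity) (by nlinarith)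
    linarith

/-- One step, with the floor `√h` on the displacement. -/
theorem hardy_step (hr : Rec h E N d2 dw Z) {k : ℕ} (hk0 : 0 < k) (hk : k < N) {u : ℝ} (hu : 0 ≤ u)
    (hdw : dw k ≤ Real.sqrt (d2 k) * u + d2 k / ((k : ℝ) * h)) :
    max (Real.sqrt (d2 (k + 1))) (Real.sqrt h) / (((k + 1 : ℕ) : ℝ) * h) ≤
      max (Real.sqrt (d2 k)) (Real.sqrt h) / ((k : ℝ) * h)
        + u * (1 / ((k : ℝ) + 1)) + E / 2 * Real.sqrt h * (1 / ((k : ℝ) + 1)) := by
  have hh := hr.hpos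
  have hE := hr.epos
  have hk' : (0 : ℝ) < k := Nat.cast_pos.2 hk0
  set d := Real.sqrt (d2 k) with hd
  set s := Real.sqrt h with hs
  have hd0 : 0 ≤ d := Real.sqrt_nonneg _
  have hs0 : 0 < s := Real.sqrt_pos.2 hh
  have hdd : d * d = d2 k := Real.mul_self_sqrt (hr.d2nonneg k)
  have hss : s * s = h := Real.mul_self_sqrt hh.le
  set D := max d s
  have hD0 : s ≤ D := le_max_right _ _
  have hdD : d ≤ D := le_max_left _ _
  set a := D * (1 + 1 / (k : ℝ)) + h * u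
  have hk1 : 0 ≤ 1 / (k : ℝ) := by positivity
  have haD : D ≤ a := by
    have h1' : 0 ≤ D * (1 / (k : ℝ)) := mul_nonneg (hs0.le.trans hD0) hk1
    have h2' : 0 ≤ h * u := mul_nonneg hh.le hu
    simp only [a]
    linarith
  have key : d2 (k + 1) ≤ a ^ 2 + E * h ^ 2 := by
    have a1 := (abs_le.1 (hr.step1 k hk)).2
    have a2 : 2 * h * (d2 k / ((k : ℝ) * h)) = 2 * (1 / (k : ℝ)) * (d * d) := by
      rw [hdd]; field_simp
    have a3 := mul_le_mul_of_nonneg_left hdw (show 0 ≤ 2 * h by positivity)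
    have a4 : (d * (1 + 1 / (k : ℝ)) + h * u) ^ 2 ≤ a ^ 2 := by
      refine pow_le_pow_left₀ (by positivity) ?_ 2
      simp only [a]
      linarith [mul_le_mul_of_nonneg_right hdD (show 0 ≤ 1 + 1 / (k : ℝ) by positivity)]
    have a5 : 0 ≤ d ^ 2 * (1 / (k : ℝ)) ^ 2 + (h * u) ^ 2 + 2 * h * d * u * (1 / (k : ℝ)) := by
      positivity
    linarith
  have hapos : 0 < a := hs0.trans_le (hD0.trans haD)
  set b := E / 2 * h * s
  have hb0 : 0 ≤ b := by positivity
  have hsqrt : Real.sqrt (d2 (k + 1)) ≤ a + b := by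
    rw [Real.sqrt_le_iff]
    refine ⟨by positivity, key.trans ?_⟩
    have : E * h ^ 2 ≤ 2 * a * b := by
      have := mul_le_mul_of_nonneg_right (hD0.trans haD) (show 0 ≤ E * h * s by positivity)
      have e : s * (E * h * s) = E * h ^ 2 := by
        rw [show s * (E * h * s) = E * h * (s * s) by ring, hss]; ring
      simp only [b]
      linarith
    linarith [sq_nonneg b]
  have hmax : max (Real.sqrt (d2 (k + 1))) s ≤ a + b :=
    max_le hsqrt ((hD0.trans haD).trans (le_add_of_nonneg_right hb0))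
  refine (div_le_div_of_nonneg_right hmax (by positivity)).trans_eq ?_
  simp only [a, b]
  push_cast
  field_simp

/-- The Hardy recursion: if the pairing is at most the product with `U` plus the contracting term,
the displacement over time grows only by the budget. -/
theorem hardy (hr : Rec h E N d2 dw Z) (h1 : h ≤ 1) {S r₀ : ℝ} (hS : (N : ℝ) * h ≤ S)
    (hr₀ : 0 < r₀) (hr₁ : r₀ ≤ 1) {U : ℕ → ℝ} (hU : ∀ k, 0 ≤ U k) {B : ℝ}
    (hB : h * ∑ k ∈ Finset.range N, U k ≤ B) {q m : ℕ} (hq : r₀ ≤ (q : ℝ) * h) (hqm : q ≤ m)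
    (hm : m ≤ N)
    (hdw : ∀ k, q ≤ k → k < N → dw k ≤ Real.sqrt (d2 k) * Real.sqrt (U k) + d2 k / ((k : ℝ) * h)) :
    Real.sqrt (d2 m) / ((m : ℝ) * h) ≤
      Real.sqrt (Z q) + Real.sqrt (B / ((q : ℝ) * h))
        + 10 * (1 + E) * (1 + S) ^ 2 / r₀ * Real.sqrt (Real.sqrt h) := by
  have hh := hr.hpos
  have hE := hr.epos
  have hS0 := S_nonneg hr hS
  have hq0 : 0 < q := by
    rcases Nat.eq_zero_or_pos q with h0 | h0
    · subst h0; simp at hq; linarith
    · exact h0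
  set Y := fun k => max (Real.sqrt (d2 k)) (Real.sqrt h) / ((k : ℝ) * h) with hY
  have step : ∀ j, q ≤ j → j ≤ m → Y j ≤ Y q
      + ∑ k ∈ Finset.Ico q j, Real.sqrt (U k) * (1 / ((k : ℝ) + 1))
      + E / 2 * Real.sqrt h * ∑ k ∈ Finset.Ico q j, (1 / ((k : ℝ) + 1)) := by
    intro j hj
    induction j, hj using Nat.le_induction with
    | base => simp
    | succ j hj ih =>
      intro hjm
      have := hardy_step hr (hq0.trans_le hj) (by omega) (Real.sqrt_nonneg (U j))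
        (hdw j hj (by omega))
      have := ih (by omega)
      rw [Finset.sum_Ico_succ_top hj, Finset.sum_Ico_succ_top hj]
      simp only [hY] at *
      linarith
  have hY1 := step m hqm le_rfl
  -- the sum against the budget
  have hsum1 : ∑ k ∈ Finset.Ico q m, Real.sqrt (U k) * (1 / ((k : ℝ) + 1))
      ≤ Real.sqrt (B / ((q : ℝ) * h)) := by
    refine Real.le_sqrt_of_sq_le ?_
    refine (Finset.sum_mul_sq_le_sq_mul_sq _ _ _).trans ?_
    have b1 : ∑ k ∈ Finset.Ico q m, Real.sqrt (U k) ^ 2 ≤ B / h := by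
      rw [le_div_iff₀ hh, Finset.sum_congr rfl fun k _ => Real.sq_sqrt (hU k), mul_comm]
      refine le_trans (mul_le_mul_of_nonneg_left ?_ hh.le) hB
      exact Finset.sum_le_sum_of_subset_of_nonneg
        (fun l hl => Finset.mem_range.2 (by have := (Finset.mem_Ico.1 hl).2; omega))
        fun l _ _ => hU l
    have b2 := (sum_inv_sq_le hq0 hqm).trans (sub_le_self _ (by positivity : (0 : ℝ) ≤ 1 / (m : ℝ)))
    refine (mul_le_mul b1 b2 (Finset.sum_nonneg fun _ _ => sq_nonneg _)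
      ((Finset.sum_nonneg fun _ _ => sq_nonneg _).trans b1)).trans_eq ?_
    rw [div_mul_div_comm, mul_one, mul_comm h]
  -- the harmonic sum
  have hqT : r₀ ≤ (q : ℝ) * h := hq
  have hsum2 : ∑ k ∈ Finset.Ico q m, (1 / ((k : ℝ) + 1)) ≤ S / r₀ := by
    have c1 : ∑ k ∈ Finset.Ico q m, (1 / ((k : ℝ) + 1)) ≤ (m : ℝ) / q := by
      refine (Finset.sum_le_card_nsmul _ _ (1 / (q : ℝ)) fun k hk => ?_).trans ?_
      · refine one_div_le_one_div_of_le (Nat.cast_pos.2 hq0) ?_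
        have : (q : ℝ) ≤ k := Nat.cast_le.2 (Finset.mem_Ico.1 hk).1
        linarith
      · rw [Nat.card_Ico, nsmul_eq_mul, mul_one_div]
        exact div_le_div_of_nonneg_right (Nat.cast_le.2 (Nat.sub_le m q)) q.cast_nonneg
    refine c1.trans ?_
    rw [← mul_div_mul_right (m : ℝ) (q : ℝ) hh.ne']
    exact div_le_div₀ hS0 (time_le hr hS hm) hr₀ hqT
  -- the start
  have hqh : 0 < (q : ℝ) * h := hr₀.trans_le hqT
  have hstart : Y q ≤ Real.sqrt (Z q)
      + (Real.sqrt (3 * E * (1 + S) ^ 2 * Real.sqrt h) + Real.sqrt h) / r₀ := by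
    have d1 : Real.sqrt (d2 q) ≤
        (q : ℝ) * h * Real.sqrt (Z q) + Real.sqrt (3 * E * (1 + S) ^ 2 * Real.sqrt h) := by
      rw [Real.sqrt_le_iff]
      refine ⟨by positivity, (d2_le hr h1 hS (hqm.trans hm)).trans ?_⟩
      have e1 := Real.sq_sqrt (hr.Znonneg q)
      have e2 := Real.sq_sqrt (show 0 ≤ 3 * E * (1 + S) ^ 2 * Real.sqrt h by positivity)
      have e3 : 0 ≤ 2 * ((q : ℝ) * h * Real.sqrt (Z q))
          * Real.sqrt (3 * E * (1 + S) ^ 2 * Real.sqrt h) := by positivity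
      rw [add_sq ((q : ℝ) * h * Real.sqrt (Z q)), mul_pow ((q : ℝ) * h) (Real.sqrt (Z q)), e1, e2]
      linarith
    have d3 : max (Real.sqrt (d2 q)) (Real.sqrt h) ≤ (q : ℝ) * h * Real.sqrt (Z q)
        + (Real.sqrt (3 * E * (1 + S) ^ 2 * Real.sqrt h) + Real.sqrt h) := by
      refine max_le (by linarith [Real.sqrt_nonneg h]) ?_
      have : 0 ≤ (q : ℝ) * h * Real.sqrt (Z q) := by positivity
      linarith [Real.sqrt_nonneg (3 * E * (1 + S) ^ 2 * Real.sqrt h)]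
    refine (div_le_div_of_nonneg_right d3 hqh.le).trans ?_
    rw [add_div, mul_div_cancel_left₀ _ hqh.ne']
    have := div_le_div_of_nonneg_left
      (show 0 ≤ Real.sqrt (3 * E * (1 + S) ^ 2 * Real.sqrt h) + Real.sqrt h by positivity) hr₀ hqT
    linarith
  -- the error
  set q4 := Real.sqrt (Real.sqrt h) with hq4
  have hq40 : 0 ≤ q4 := Real.sqrt_nonneg _
  have hh4 : Real.sqrt h ≤ q4 :=
    Real.sqrt_le_sqrt (h_le_sqrt hr h1)
  have f1 : Real.sqrt (3 * E * (1 + S) ^ 2 * Real.sqrt h) ≤ 2 * (1 + E) * (1 + S) * q4 := by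
    rw [Real.sqrt_le_iff]
    refine ⟨by positivity, ?_⟩
    rw [mul_pow, Real.sq_sqrt (Real.sqrt_nonneg h)]
    refine mul_le_mul_of_nonneg_right ?_ (Real.sqrt_nonneg h)
    rw [mul_pow, mul_pow]
    exact mul_le_mul_of_nonneg_right (by nlinarith) (sq_nonneg _)
  have hfin : (Real.sqrt (3 * E * (1 + S) ^ 2 * Real.sqrt h) + Real.sqrt h) / r₀
      + E / 2 * Real.sqrt h * ∑ k ∈ Finset.Ico q m, (1 / ((k : ℝ) + 1))
      ≤ 10 * (1 + E) * (1 + S) ^ 2 / r₀ * q4 := by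
    have g1 := mul_le_mul_of_nonneg_left hsum2 (show 0 ≤ E / 2 * Real.sqrt h by positivity)
    have g2 : Real.sqrt (3 * E * (1 + S) ^ 2 * Real.sqrt h) + Real.sqrt h + E / 2 * Real.sqrt h * S
        ≤ 10 * (1 + E) * (1 + S) ^ 2 * q4 := by
      have g3 : E / 2 * Real.sqrt h * S ≤ E / 2 * q4 * S := by gcongr
      have g4 : 0 ≤ q4 * (10 * (1 + E) * (1 + S) ^ 2 - 2 * (1 + E) * (1 + S) - 1 - E / 2 * S) := by
        refine mul_nonneg hq40 ?_
        have p1 := mul_nonneg hE hS0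
        have p2 := mul_nonneg hE (mul_nonneg hS0 hS0)
        have p3 := mul_nonneg hS0 hS0
        linarith
      linarith
    calc (Real.sqrt (3 * E * (1 + S) ^ 2 * Real.sqrt h) + Real.sqrt h) / r₀
          + E / 2 * Real.sqrt h * ∑ k ∈ Finset.Ico q m, (1 / ((k : ℝ) + 1))
        ≤ (Real.sqrt (3 * E * (1 + S) ^ 2 * Real.sqrt h) + Real.sqrt h) / r₀
          + E / 2 * Real.sqrt h * (S / r₀) := by linarith
      _ = (Real.sqrt (3 * E * (1 + S) ^ 2 * Real.sqrt h) + Real.sqrt h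
          + E / 2 * Real.sqrt h * S) / r₀ := by ring
      _ ≤ (10 * (1 + E) * (1 + S) ^ 2 * q4) / r₀ := div_le_div_of_nonneg_right g2 hr₀.le
      _ = _ := by ring
  have hlast : Real.sqrt (d2 m) / ((m : ℝ) * h) ≤ Y m :=
    div_le_div_of_nonneg_right (le_max_left _ _) (time_nonneg hr m)
  linarith

theorem sum_inv_le {a b : ℕ} (ha : 0 < a) (hab : a ≤ b) :
    ∑ k ∈ Finset.Ico a b, (1 : ℝ) / k ≤ 1 / a + Real.log ((b : ℝ) / a) := by
  refine (Finset.sum_le_sum_of_subset_of_nonneg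
    (Finset.Ico_subset_Ico_right (Nat.le_succ b)) fun k _ _ => by positivity).trans ?_
  induction b, hab using Nat.le_induction with
  | base => simp
  | succ b hb ih =>
    rw [Finset.sum_Ico_succ_top (by omega)]
    have hb0 : (0 : ℝ) < b := Nat.cast_pos.2 (ha.trans_le hb)
    have ha0 : (0 : ℝ) < a := Nat.cast_pos.2 ha
    have hl := Real.log_le_sub_one_of_pos (show (0 : ℝ) < (b : ℝ) / (b + 1) by positivity)
    rw [Real.log_div hb0.ne' (by positivity)] at hl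
    have e : (b : ℝ) / (b + 1) - 1 = -(1 / ((b : ℝ) + 1)) := by field_simp; ring
    rw [e] at hl
    push_cast
    rw [Real.log_div (by positivity) ha0.ne']
    rw [Real.log_div hb0.ne' ha0.ne'] at ih
    linarith

end Vale.Agent.P245.Gen2.Seq
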