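import Vale.Agent.P245.Gen2.CoupleDefs
import Vale.Agent.P245.Gen2.ChainStep
import Vale.Agent.P245.Gen2.ChainKL
import Vale.Agent.P245.Gen2.Bridge
import Vale.Agent.P245.Gen2.Vec
import Vale.Agent.P245.Gen2.Seq

/-!
# P245, polylogarithmic bound: the recursions of the coupling
-/

open MeasureTheory

namespace Vale.Agent.P245.Gen2

open General

/-- The Cauchy-Schwarz inequality for integrals, from the one-parameter bounds. -/
private theorem le_sqrt_mul_sqrt {x a b : ℝ} (ha : 0 ≤ a) (hb : 0 ≤ b)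
    (H : ∀ l : ℝ, 0 < l → x ≤ l / 2 * a + 1 / (2 * l) * b) :
    x ≤ Real.sqrt a * Real.sqrt b := by
  have key : ∀ e : ℝ, 0 < e → x ≤ Real.sqrt (a + e) * Real.sqrt (b + e) := by
    intro e he
    have hA : 0 < Real.sqrt (a + e) := Real.sqrt_pos.2 (by linarith)
    have hB : 0 < Real.sqrt (b + e) := Real.sqrt_pos.2 (by linarith)
    have eA := Real.sq_sqrt (show 0 ≤ a + e by linarith)
    have eB := Real.sq_sqrt (show 0 ≤ b + e by linarith)
    have := H (Real.sqrt (b + e) / Real.sqrt (a + e)) (by positivity)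
    have h1 : Real.sqrt (b + e) / Real.sqrt (a + e) / 2 * a
        ≤ Real.sqrt (b + e) / Real.sqrt (a + e) / 2 * Real.sqrt (a + e) ^ 2 := by
      rw [eA]; exact mul_le_mul_of_nonneg_left (by linarith) (by positivity)
    have h2 : 1 / (2 * (Real.sqrt (b + e) / Real.sqrt (a + e))) * b
        ≤ 1 / (2 * (Real.sqrt (b + e) / Real.sqrt (a + e))) * Real.sqrt (b + e) ^ 2 := by
      rw [eB]; exact mul_le_mul_of_nonneg_left (by linarith) (by positivity)
    have h3 : Real.sqrt (b + e) / Real.sqrt (a + e) / 2 * Real.sqrt (a + e) ^ 2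
        + 1 / (2 * (Real.sqrt (b + e) / Real.sqrt (a + e))) * Real.sqrt (b + e) ^ 2
        = Real.sqrt (a + e) * Real.sqrt (b + e) := by
      field_simp
      ring
    linarith
  have hc : Continuous fun e : ℝ => Real.sqrt (a + e) * Real.sqrt (b + e) := by fun_prop
  have ht : Filter.Tendsto (fun e : ℝ => Real.sqrt (a + e) * Real.sqrt (b + e))
      (nhdsWithin 0 (Set.Ioi 0)) (nhds (Real.sqrt a * Real.sqrt b)) := by
    simpa using (hc.tendsto 0).mono_left nhdsWithin_le_nhds
  exact ge_of_tendsto ht (by filter_upwards [self_mem_nhdsWithin] with e he using key e he)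

private theorem dotp_le_weighted {n : ℕ} (x y : St n) {l : ℝ} (hl : 0 < l) :
    dotp x y ≤ l / 2 * nsq x + 1 / (2 * l) * nsq y := by
  simp only [nsq, dotp, Finset.mul_sum, ← Finset.sum_add_distrib]
  refine Finset.sum_le_sum fun i _ => ?_
  have h : 0 ≤ (l * x i - y i) ^ 2 / (2 * l) := by positivity
  have e : (l * x i - y i) ^ 2 / (2 * l)
      = l / 2 * x i ^ 2 - x i * y i + 1 / (2 * l) * y i ^ 2 := by field_simp; ring
  linarith

variable {n : ℕ} {η D h : ℝ} {σ ν : St n → ℝ}

/-- The pairing is at most the product with the mismatch plus the contracting term. -/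
theorem mDw_le (hρ : Ulc η σ) (hσ : Dens D σ) (hν : Dens D ν) (hh : 0 < h) {k : ℕ} (hk : 1 ≤ k) :
    mDw σ ν h k ≤ Real.sqrt (mD2 σ ν h k) * Real.sqrt (mU σ ν h k)
      + mD2 σ ν h k / ((k : ℝ) * h) := by
  have hk0 : (0 : ℝ) < k := Nat.cast_pos.2 (by omega)
  have hs : 0 < (k : ℝ) * h := mul_pos hk0 hh
  have hd : Measurable (delta : St n × St n → St n) := measurable_snd.sub measurable_fst
  have iD : Integrable (fun p => nsq (delta p)) (pairM σ ν h k) :=
    (integrable_pair hσ hν hh k 0 (0, 0) (measurable_nsq'.comp hd) polyP_nsq_delta).1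
  have iU : Integrable (fun p => nsq (uV σ ν h k p)) (pairM σ ν h k) :=
    (integrable_pair hσ hν hh k 0 (0, 0) (measurable_nsq'.comp (measurable_uV hσ hν k))
      (polyP_of_le (c := 4 * D) fun p => by
        simp only [Function.comp]; rw [abs_of_nonneg (nsq_nonneg _)]
        exact nsq_uV_le hσ hν k p)).1
  have hP : PolyP fun p => dotp (delta p) (wV σ ν h k p) := by
    obtain ⟨A, m, hA⟩ := polyP_add (polyP_mul_const (polyP_nsq_delta (n := n)) (1 / 2))
      (polyP_const (n := n) (2 * D))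
    refine ⟨A, m, fun p => le_trans ?_ (hA p)⟩
    refine (abs_dotp_le _ _).trans (le_trans ?_ (le_abs_self _))
    have := nsq_wV_le (h := h) hσ hν k p
    linarith
  have iW : Integrable (fun p => dotp (delta p) (wV σ ν h k p)) (pairM σ ν h k) :=
    (integrable_pair hσ hν hh k 0 (0, 0)
      (continuous_dotp2.measurable.comp (hd.prodMk (measurable_wV hσ hν k))) hP).1
  have pt : ∀ p l, 0 < l → dotp (delta p) (wV σ ν h k p) ≤
      (l / 2 * nsq (delta p) + 1 / (2 * l) * nsq (uV σ ν h k p))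
        + 1 / ((k : ℝ) * h) * nsq (delta p) := by
    intro p l hl
    have e1 : wV σ ν h k p = uV σ ν h k p + dBary σ ((k : ℝ) * h) p.1 (delta p) := by
      simp only [wV, uV, dBary, delta, add_sub_cancel]
      abel
    have e2 : dotp (delta p) (wV σ ν h k p) = dotp (delta p) (uV σ ν h k p)
        + dotp (delta p) (dBary σ ((k : ℝ) * h) p.1 (delta p)) := by
      rw [e1]; simp only [dotp, Pi.add_apply, mul_add, Finset.sum_add_distrib]
    have e3 := (dBary_coco hρ hs.le p.1 (delta p)).2.1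
    have e4 : nsq (delta p) / (η + (k : ℝ) * h) ≤ 1 / ((k : ℝ) * h) * nsq (delta p) := by
      rw [div_mul_eq_mul_div, one_mul]
      exact div_le_div_of_nonneg_left (nsq_nonneg _) hs (by linarith [hρ.pos])
    linarith [dotp_le_weighted (delta p) (uV σ ν h k p) hl]
  have key := le_sqrt_mul_sqrt (x := mDw σ ν h k - mD2 σ ν h k / ((k : ℝ) * h))
    (a := mD2 σ ν h k) (b := mU σ ν h k) (integral_nonneg fun p => nsq_nonneg _)
    (integral_nonneg fun p => nsq_nonneg _) fun l hl => by
      have := integral_mono iW (((iD.const_mul (l / 2)).add (iU.const_mul (1 / (2 * l)))).add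
        (iD.const_mul (1 / ((k : ℝ) * h)))) fun p => pt p l hl
      rw [integral_add' ((iD.const_mul _).add (iU.const_mul _)) (iD.const_mul _),
        integral_add' (iD.const_mul _) (iU.const_mul _), integral_const_mul, integral_const_mul,
        integral_const_mul] at this
      simp only [mDw, mD2, mU] at *
      rw [one_div_mul_eq_div ((k : ℝ) * h)] at this
      linarith
  linarith

theorem rec_bounds {n : ℕ} {η D K τ : ℝ} {ρ g ρ' : St n → ℝ} (hb : Base η D K ρ)
    (ht : Tilted η D τ ρ g ρ') (S : ℝ) : ∃ E : ℝ, 0 ≤ E ∧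
    ∀ h : ℝ, 0 < h → h ≤ 1 → ∀ M : ℕ, (M : ℝ) * h ≤ S →
      Seq.Rec h E M (mD2 ρ (nu ρ g) h) (mDw ρ (nu ρ g) h) (Zk ρ (nu ρ g) h) ∧
      h * ∑ k ∈ Finset.range M, mU ρ (nu ρ g) h k ≤ 2 * ent (law ρ) g + E * Real.sqrt h ∧
      ∀ k, 1 ≤ k → k ≤ M → mDw ρ (nu ρ g) h k ≤
        Real.sqrt (mD2 ρ (nu ρ g) h k) * Real.sqrt (mU ρ (nu ρ g) h k)
          + mD2 ρ (nu ρ g) h k / ((k : ℝ) * h) := by
  have hν : Dens D (nu ρ g) := dens_tilted hb ht
  obtain ⟨E₁, hE₁, hstep⟩ := delta_step hb.dens hν S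
  obtain ⟨E₂, hE₂, hbud⟩ := u_budget hb ht S
  refine ⟨E₁ + E₂, by linarith, fun h hh h1 M hM => ⟨?_, ?_, fun k hk _ =>
    mDw_le hb.ulc hb.dens hν hh hk⟩⟩
  · have hs : ∀ k, k < M → (k : ℝ) * h ≤ S := fun k hk =>
      le_trans (mul_le_mul_of_nonneg_right (Nat.cast_le.2 hk.le) hh.le) hM
    constructor
    · exact hh
    · linarith
    · simp [mD2, pairM, iterM, delta, nsq]
    · simp [mDw, pairM, iterM, delta, dotp]
    · exact fun k => integral_nonneg fun p => nsq_nonneg _
    · exact fun k => integral_nonneg fun p => nsq_nonneg _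
    · exact fun k j hkj _ => Zk_mono hb.dens hν hh hkj
    · intro k hk
      refine ((hstep h hh h1 k (hs k hk)).1).trans ?_
      exact mul_le_mul_of_nonneg_right (by linarith) (sq_nonneg h)
    · intro k hk
      refine ((hstep h hh h1 k (hs k hk)).2).trans ?_
      exact mul_le_mul_of_nonneg_right (mul_le_mul_of_nonneg_right (by linarith) hh.le)
        (Real.sqrt_nonneg h)
  · refine (hbud h hh h1 M hM).trans ?_
    have : 0 ≤ E₁ * Real.sqrt h := by positivity
    linarith

end Vale.Agent.P245.Gen2
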