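import Vale.Agent.P245.Gen2.CoupleDefs
import Vale.Agent.P245.Gen2.ChainStep
import Vale.Agent.P245.Gen2.Seq

/-!
# P245, polylogarithmic bound: the choice of the window

The index `q` maximises `k f k` on `[128 N, 2 A N]`; the growth bound of `f` shows that it lies
below `A N`, as the energy above `A N` is negligible.
-/

open MeasureTheory Filter

namespace Vale.Agent.P245.Gen2

open General

/-- The increments of the energy add up to the integral of `f`. -/
theorem energy_sum {Z f : ℕ → ℝ} {h E : ℝ} {M : ℕ}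
    (hs : ∀ k, k < M → |Z (k + 1) - Z k - h * f k| ≤ E * h * Real.sqrt h) {a b : ℕ} (hab : a ≤ b)
    (hb : b ≤ M) :
    |Z b - Z a - h * ∑ k ∈ Finset.Ico a b, f k| ≤ ((b : ℝ) - a) * (E * h * Real.sqrt h) := by
  induction b, hab using Nat.le_induction with
  | base => simp
  | succ b hab ih =>
    have h1 := ih (by omega)
    have h2 := hs b (by omega)
    rw [Finset.sum_Ico_succ_top hab]
    rw [abs_le] at h1 h2 ⊢
    push_cast
    constructor <;> linarith

/-- A lower bound on square roots squared. -/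
theorem sq_of_sqrt_le {a x y e : ℝ} (ha : 0 ≤ a) (hx : 0 ≤ x) (hy : 0 ≤ y)
    (h : a * Real.sqrt x ≤ Real.sqrt y + e) : a ^ 2 * x ≤ 2 * y + 2 * e ^ 2 := by
  have h1 := pow_le_pow_left₀ (by positivity) h 2
  rw [mul_pow, Real.sq_sqrt hx] at h1
  have h2 := sq_nonneg (Real.sqrt y - e)
  have h3 := Real.sq_sqrt hy
  linarith

/-- A window on which `f` stays comparable to its initial value. -/
theorem window_le {Z f : ℕ → ℝ} {h E₁ E₂ S a : ℝ} {M q m : ℕ} (hh : 0 < h) (hh1 : h ≤ 1)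
    (hE₁ : 0 ≤ E₁) (ha : 0 < a) (hqm : q + m ≤ M) (hMS : (M : ℝ) * h ≤ S) (hf : ∀ k, 0 ≤ f k)
    (hs : ∀ k, k < M → |Z (k + 1) - Z k - h * f k| ≤ E₁ * h * Real.sqrt h)
    (hg : ∀ l, l < m → a * Real.sqrt (f q) ≤ Real.sqrt (f (q + l)) + E₂ * Real.sqrt h) :
    a ^ 2 * ((m : ℝ) * h * f q)
      ≤ 2 * (Z (q + m) - Z q) + 2 * (S * (E₁ + E₂ ^ 2)) * Real.sqrt h := by
  have h1 := abs_le.1 (energy_sum hs (Nat.le_add_right q m) hqm)
  have h2 : ∀ l ∈ Finset.range m, a ^ 2 * f q ≤ 2 * f (q + l) + 2 * (E₂ ^ 2 * h) := fun l hl => by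
    have := sq_of_sqrt_le ha.le (hf q) (hf (q + l)) (hg l (Finset.mem_range.1 hl))
    rwa [mul_pow E₂, Real.sq_sqrt hh.le] at this
  have h3 := Finset.sum_le_sum h2
  rw [Finset.sum_add_distrib, Finset.sum_const, Finset.sum_const, Finset.card_range, nsmul_eq_mul,
    nsmul_eq_mul, ← Finset.mul_sum] at h3
  have e : ∑ l ∈ Finset.range m, f (q + l) = ∑ k ∈ Finset.Ico q (q + m), f k := by
    rw [Finset.sum_Ico_eq_sum_range, Nat.add_sub_cancel_left]
  rw [e] at h3
  have h4 := mul_le_mul_of_nonneg_left h3 hh.le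
  push_cast at h1
  have hm : (m : ℝ) * h ≤ S :=
    (mul_le_mul_of_nonneg_right (by exact_mod_cast le_trans (by omega) hqm) hh.le).trans hMS
  have hsh : h ≤ Real.sqrt h := Real.le_sqrt_of_sq_le (by nlinarith)
  have h5 : (m : ℝ) * h * (E₁ * Real.sqrt h) ≤ S * (E₁ * Real.sqrt h) :=
    mul_le_mul_of_nonneg_right hm (by positivity)
  have h6 : (m : ℝ) * h * (E₂ ^ 2 * h) ≤ S * (E₂ ^ 2 * Real.sqrt h) :=
    mul_le_mul hm (mul_le_mul_of_nonneg_left hsh (sq_nonneg _)) (by positivity)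
      (le_trans (by positivity) hm)
  linarith [h1.1, h1.2]

theorem select (δ C' : ℝ) (hδ : 0 < δ) (hC' : 0 ≤ C') : ∃ c A₀ : ℝ, 0 < c ∧ 1 ≤ A₀ ∧
    ∀ A : ℕ, A₀ ≤ A → ∀ (n : ℕ) (η D K : ℝ) (ρ g ρ' : St n → ℝ), Base η D K ρ → (A : ℝ) ^ 6 ≤ K →
      Tilted η D (64 / K) ρ g ρ' → ∀ᶠ N : ℕ in atTop,
        (let h := hN K N
         let Z := Zk ρ (nu ρ g) h
         let f := fk ρ (nu ρ g) h
         let Z₁ := Z (2 * A ^ 4 * N)
         K / 32 ≤ Z₁ → Z₁ - Z (A * N) ≤ C' / Real.sqrt A * Z₁ →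
          δ * Z₁ ≤ Z (A * N) - Z (128 * N) →
          ∃ q j : ℕ, 128 * N ≤ q ∧ q ≤ A * N ∧ 1 ≤ j ∧ 100 * j ≤ q ∧
            c / (1 + Real.log A) * Z₁ ≤ (j : ℝ) * h * f q ∧ (j : ℝ) * h * f q ≤ 4 * Z₁ ∧
            ∀ l ≤ j, ((q + l : ℕ) : ℝ) * f (q + l) ≤ (q : ℝ) * f q) := by
  set X := 1024 * C' / δ + 1 with hX
  have hX1 : 1 ≤ X := le_add_of_nonneg_left (by positivity)
  refine ⟨δ / 400, X ^ 4 + 128, by positivity, by linarith [pow_nonneg (zero_le_one.trans hX1) 4],
    fun A hA n η D K ρ g ρ' hb hK ht => ?_⟩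
  have hX4 : 0 ≤ X ^ 4 := by positivity
  have hA128 : 128 ≤ (A : ℝ) := by linarith
  have hA128' : 128 ≤ A := by exact_mod_cast hA128
  have hKp := hb.posK
  have hσ := hb.dens
  have hν : Dens D (nu ρ g) := dens_tilted hb ht
  set S := 2 * (A : ℝ) ^ 4 / K
  obtain ⟨E₁, hE₁, hen⟩ := energy_step (σ := ρ) (ν := nu ρ g) hσ hν S
  obtain ⟨E₂, hE₂, hgr⟩ := fk_gronwall hb ht (by positivity : 0 < 64 / K) S
  set L := 1 + Real.log A
  have hlog : 0 ≤ Real.log (A : ℝ) := Real.log_nonneg (by linarith)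
  have hL : 1 ≤ L := le_add_of_nonneg_right hlog
  set W := S * (E₁ + E₂ ^ 2)
  have hW : 0 ≤ W := by positivity
  set θ := min (δ / (4 * L)) (1 / 4) * (K / 32)
  have hθ : 0 < θ := mul_pos (lt_min (by positivity) (by norm_num)) (by positivity)
  -- the root of `A`
  set r := Real.sqrt (Real.sqrt A)
  have hrX : X ≤ r := Real.le_sqrt_of_sq_le (Real.le_sqrt_of_sq_le (by rw [← pow_mul]; norm_num; linarith))
  have hrp : 0 < r := by linarith
  have hr2 : Real.sqrt A = r ^ 2 := (Real.sq_sqrt (Real.sqrt_nonneg _)).symm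
  have hLr : L ≤ 4 * r := by
    have h1 : Real.log (A : ℝ) = 4 * Real.log r := by
      rw [show (A : ℝ) = r ^ 4 by
        rw [show (4 : ℕ) = 2 * 2 from rfl, pow_mul, ← hr2, Real.sq_sqrt (by linarith)],
        Real.log_pow]
      norm_num
    have h2 := Real.log_le_sub_one_of_pos hrp
    linarith
  -- small steps
  have hh0 : Tendsto (fun N : ℕ => (256 * W) * Real.sqrt (hN K N)) atTop (nhds 0) := by
    have h1 : Tendsto (fun N : ℕ => hN K N) atTop (nhds 0) :=
      (tendsto_natCast_atTop_atTop.const_mul_atTop hKp).inv_tendsto_atTop.congr fun N => by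
        simp [hN]
    simpa using ((Real.continuous_sqrt.tendsto 0).comp h1).const_mul (256 * W)
  filter_upwards [hh0.eventually (eventually_le_nhds hθ), eventually_ge_atTop 1] with N hNθ hN1
  intro h Z f Z₁ hZ1 hlate hdel
  have hNr : (1 : ℝ) ≤ N := by exact_mod_cast hN1
  have hK1 : 1 ≤ K := le_trans (one_le_pow₀ (by linarith)) hK
  have hh : 0 < h := by simp only [h, hN]; positivity
  have hh1 : h ≤ 1 := by
    simp only [h, hN]
    rw [div_le_one (by positivity)]
    exact one_le_mul_of_one_le_of_one_le hK1 hNr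
  have hf : ∀ k, 0 ≤ f k := fun k => integral_nonneg fun p =>
    Finset.sum_nonneg fun i _ => Finset.sum_nonneg fun l _ => sq_nonneg _
  have hmono : ∀ {a b : ℕ}, a ≤ b → Z a ≤ Z b := fun hab => Zk_mono hσ hν hh hab
  have hZn : ∀ k, 0 ≤ Z k := fun k => integral_nonneg fun p => nsq_nonneg _
  set M := 2 * A ^ 4 * N
  have hMS : (M : ℝ) * h ≤ S := le_of_eq (by simp only [M, h, hN, S]; push_cast; field_simp)
  have htime : ∀ {k : ℕ}, k ≤ M → (k : ℝ) * h ≤ S := fun hk =>
    (mul_le_mul_of_nonneg_right (by exact_mod_cast hk) hh.le).trans hMS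
  have hs : ∀ k, k < M → |Z (k + 1) - Z k - h * f k| ≤ E₁ * h * Real.sqrt h := fun k hk =>
    hen h hh hh1 k (htime hk.le)
  have hgr' : ∀ {k m : ℕ}, 128 * N ≤ k → k ≤ m → m ≤ M →
      ((k : ℝ) / m) ^ 3 * Real.sqrt (f k) ≤ Real.sqrt (f m) + E₂ * Real.sqrt h := by
    intro k m hk hkm hmM
    refine hgr h hh hh1 k m hkm ?_ (htime hmM)
    have hkr : (128 * N : ℝ) ≤ k := by exact_mod_cast hk
    refine le_trans (le_of_eq ?_) (mul_le_mul_of_nonneg_right hkr hh.le)
    simp only [h, hN]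
    field_simp
    norm_num
  have hA4 : 4 * A ≤ 2 * A ^ 4 := by
    have h8 : 2 * A ≤ A * A := Nat.mul_le_mul_right A (by omega)
    have h9 : A * A ≤ A ^ 4 := by
      rw [← pow_two]; exact Nat.pow_le_pow_right (by omega) (by norm_num)
    omega
  have hAN : 4 * (A * N) ≤ M := by
    calc 4 * (A * N) = 4 * A * N := (mul_assoc _ _ _).symm
      _ ≤ _ := Nat.mul_le_mul_right N hA4
  have h128 : 128 * N ≤ A * N := Nat.mul_le_mul_right N hA128'
  -- the maximiser
  obtain ⟨q, hq, hmax⟩ := Finset.exists_max_image (Finset.Icc (128 * N) (2 * (A * N)))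
    (fun k => (k : ℝ) * f k) (Finset.nonempty_Icc.2 (by omega))
  obtain ⟨hqlo, hqhi⟩ := Finset.mem_Icc.1 hq
  set P := (q : ℝ) * h * f q with hP
  have hP0 : 0 ≤ P := mul_nonneg (by positivity) (hf q)
  -- the error
  have herr : 256 * W * Real.sqrt h ≤ θ := hNθ
  have hθ1 : θ ≤ δ / (4 * L) * Z₁ :=
    mul_le_mul (min_le_left _ _) hZ1 (by positivity) (by positivity)
  have hθ2 : θ ≤ 1 / 4 * Z₁ :=
    mul_le_mul (min_le_right _ _) hZ1 (by positivity) (by norm_num)
  have hWh : 0 ≤ W * Real.sqrt h := by positivity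
  -- the maximum is not small
  have hlow : 7 / 8 * δ * Z₁ ≤ L * P := by
    have h1 := abs_le.1 (energy_sum hs h128 (by omega))
    have h2 : h * ∑ k ∈ Finset.Ico (128 * N) (A * N), f k
        ≤ P * ∑ k ∈ Finset.Ico (128 * N) (A * N), (1 : ℝ) / k := by
      rw [Finset.mul_sum, Finset.mul_sum]
      refine Finset.sum_le_sum fun k hk => ?_
      obtain ⟨hk1, hk2⟩ := Finset.mem_Ico.1 hk
      have hk0 : (0 : ℝ) < k := Nat.cast_pos.2 (by omega)
      rw [hP, mul_one_div, le_div_iff₀ hk0]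
      have := mul_le_mul_of_nonneg_left (hmax k (Finset.mem_Icc.2 ⟨hk1, by omega⟩)) hh.le
      linarith
    have h3 : ∑ k ∈ Finset.Ico (128 * N) (A * N), (1 : ℝ) / k ≤ L := by
      refine (Seq.sum_inv_le (by omega) h128).trans ?_
      push_cast
      have e : (A : ℝ) * N / (128 * N) = A / 128 := by field_simp
      rw [e, Real.log_div (by linarith) (by norm_num)]
      have : 1 / (128 * (N : ℝ)) ≤ 1 := by
        rw [div_le_one (by positivity)]; linarith
      have := Real.log_nonneg (show (1 : ℝ) ≤ 128 by norm_num)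
      simp only [L]
      linarith
    have h4 := mul_le_mul_of_nonneg_left h3 hP0
    have h5 : (((A * N : ℕ) : ℝ) - (128 * N : ℕ)) * (E₁ * h * Real.sqrt h)
        ≤ W * Real.sqrt h := by
      have hle : ((A * N : ℕ) : ℝ) - (128 * N : ℕ) ≤ M := by
        have : ((A * N : ℕ) : ℝ) ≤ M := by exact_mod_cast (show A * N ≤ M by omega)
        linarith [(128 * N).cast_nonneg (α := ℝ)]
      refine (mul_le_mul_of_nonneg_right hle (by positivity)).trans ?_
      calc (M : ℝ) * (E₁ * h * Real.sqrt h) = (M : ℝ) * h * (E₁ * Real.sqrt h) := by ring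
        _ ≤ S * (E₁ * Real.sqrt h) := mul_le_mul_of_nonneg_right hMS (by positivity)
        _ ≤ _ := by
          have : 0 ≤ S * E₂ ^ 2 * Real.sqrt h := by positivity
          simp only [W]; linarith
    have h6 : δ / (4 * L) * Z₁ ≤ δ / 4 * Z₁ := by
      refine mul_le_mul_of_nonneg_right ?_ (hZn _)
      exact div_le_div_of_nonneg_left hδ.le (by norm_num) (by linarith)
    linarith [h1.1, h1.2]
  -- the maximiser lies below `A N`
  have hqA : q ≤ A * N := by
    by_contra hlt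
    rw [not_le] at hlt
    have hg : ∀ l, l < q → 1 / 8 * Real.sqrt (f q) ≤ Real.sqrt (f (q + l)) + E₂ * Real.sqrt h :=
      fun l hl => by
      refine le_trans (mul_le_mul_of_nonneg_right ?_ (Real.sqrt_nonneg _))
        (hgr' hqlo (Nat.le_add_right q l) (by omega))
      have hq0 : (0 : ℝ) < q := Nat.cast_pos.2 (by omega)
      have hlr : (l : ℝ) ≤ q := by exact_mod_cast hl.le
      have : (1 / 2 : ℝ) ≤ (q : ℝ) / (q + l : ℕ) := by
        push_cast
        rw [le_div_iff₀ (by positivity)]; linarith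
      refine le_trans (by norm_num) (pow_le_pow_left₀ (by norm_num) this 3)
    have h1 := window_le hh hh1 hE₁ (by norm_num) (by omega : q + q ≤ M) hMS hf hs hg
    have h2 : Z (q + q) - Z q ≤ C' / Real.sqrt A * Z₁ := by
      have := hmono (show q + q ≤ M by omega)
      have := hmono hlt.le
      linarith
    have h3 : P ≤ 128 * (C' / Real.sqrt A * Z₁) + δ / (4 * L) * Z₁ := by
      simp only [W] at herr hWh
      linarith
    have h4 := mul_le_mul_of_nonneg_left h3 (zero_le_one.trans hL)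
    have h5 : 128 * C' / r ^ 2 * L ≤ δ / 2 * 1 := by
      rw [mul_one, div_mul_eq_mul_div, div_le_iff₀ (by positivity)]
      have h6 : 1024 * C' ≤ δ * r := by
        rw [mul_comm δ, ← div_le_iff₀ hδ]; linarith
      have h7 := mul_le_mul_of_nonneg_left hLr (show 0 ≤ 128 * C' by positivity)
      have h8 := mul_le_mul_of_nonneg_right h6 hrp.le
      have h9 : 0 ≤ δ * r ^ 2 := by positivity
      linarith
    have h6 : 0 < δ * Z₁ := mul_pos hδ (lt_of_lt_of_le (by positivity) hZ1)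
    have h7 : 128 * C' / r ^ 2 * L * Z₁ ≤ δ / 2 * 1 * Z₁ := mul_le_mul_of_nonneg_right h5 (hZn M)
    have e : L * (δ / (4 * L) * Z₁) = δ / 4 * Z₁ := by field_simp
    rw [hr2] at h4
    rw [mul_add L, e] at h4
    have e2 : L * (128 * (C' / r ^ 2 * Z₁)) = 128 * C' / r ^ 2 * L * Z₁ := by ring
    rw [e2] at h4
    linarith
  -- the window
  refine ⟨q, q / 100, hqlo, hqA, by omega, by omega, ?_, ?_, fun l hl => ?_⟩
  · have hj : (q : ℝ) ≤ 200 * (q / 100 : ℕ) := by
      exact_mod_cast (show q ≤ 200 * (q / 100) by omega)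
    have h1 : P ≤ 200 * ((q / 100 : ℕ) * h * f q) := by
      rw [hP]
      have := mul_le_mul_of_nonneg_right hj (mul_nonneg hh.le (hf q))
      linarith
    rw [div_mul_eq_mul_div, div_le_iff₀ (show 0 < L by linarith)]
    have h2 := mul_le_mul_of_nonneg_left h1 (zero_le_one.trans hL)
    have : 0 ≤ δ * Z₁ := mul_nonneg hδ.le (hZn _)
    linarith
  · have hj : (100 : ℝ) * (q / 100 : ℕ) ≤ q := by
      exact_mod_cast (show 100 * (q / 100) ≤ q by omega)
    have hg : ∀ l, l < q / 100 →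
        (100 / 101 : ℝ) ^ 3 * Real.sqrt (f q) ≤ Real.sqrt (f (q + l)) + E₂ * Real.sqrt h :=
      fun l hl => by
      refine le_trans (mul_le_mul_of_nonneg_right ?_ (Real.sqrt_nonneg _))
        (hgr' hqlo (Nat.le_add_right q l) (by omega))
      refine pow_le_pow_left₀ (by norm_num) ?_ 3
      have hlr : (l : ℝ) ≤ (q / 100 : ℕ) := by exact_mod_cast hl.le
      have : (0 : ℝ) < q := Nat.cast_pos.2 (by omega)
      push_cast
      rw [le_div_iff₀ (by positivity)]; linarith
    have h1 := window_le hh hh1 hE₁ (by norm_num) (by omega : q + q / 100 ≤ M) hMS hf hs hg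
    have h2 := hmono (show q + q / 100 ≤ M by omega)
    have h3 := hZn q
    have h4 : 0 ≤ ((q / 100 : ℕ) : ℝ) * h * f q := mul_nonneg (by positivity) (hf q)
    simp only [W] at herr hWh
    have h5 : (3 / 4 : ℝ) * ((q / 100 : ℕ) * h * f q)
        ≤ ((100 / 101 : ℝ) ^ 3) ^ 2 * ((q / 100 : ℕ) * h * f q) :=
      mul_le_mul_of_nonneg_right (by norm_num) h4
    linarith
  · exact hmax (q + l) (Finset.mem_Icc.2 ⟨by omega, by omega⟩)

end Vale.Agent.P245.Gen2
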