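import Vale.Agent.P245.Gen2.Basic

/-!
# P245, polylogarithmic bound: the posteriors of a semiconcave change
-/

open MeasureTheory Matrix

namespace Vale.Agent.P245.Gen2

open General

variable {n : ℕ} {η D K τ r : ℝ} {σ ρ g ρ' : St n → ℝ}

theorem mg_eq_integral (hm : Measurable σ) (h0 : ∀ x, 0 ≤ σ x) (G : St n → ℝ) (r : ℝ) (θ : St n) :
    mg σ G r θ = ∫ x, G x ∂law (post σ r θ) := by
  have hw : Measurable (wgt r θ) := (continuous_wgt r θ).measurable
  have hp : 0 ≤ part σ r θ := by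
    refine integral_nonneg fun x => ?_
    simp only [one_mul, wgt]; positivity
  have h1 : Measurable (post σ r θ) := (hm.mul hw).div_const _
  have h2 : ∀ x, 0 ≤ post σ r θ x := fun x =>
    div_nonneg (mul_nonneg (h0 x) (Real.exp_pos _).le) hp
  rw [integral_law h1 h2, mg, show num σ G r θ = _ from integral_law hm h0 _, ← integral_div]
  exact integral_congr_ae (Filter.Eventually.of_forall fun x => by simp only [post]; ring)

theorem meas_mul (hb : Base η D K ρ) (ht : Tilted η D τ ρ g ρ') :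
    Measurable (fun x => g x * ρ x) ∧ ∀ x, 0 ≤ g x * ρ x := by
  obtain ⟨lo, hi, hlo, hg⟩ := ht.bdd
  exact ⟨ht.gmeas.mul hb.ulc.meas, fun x => mul_nonneg (hlo.le.trans (hg x).1) (hb.ulc.nonneg x)⟩

theorem mg_shift (hb : Base η D K ρ) (ht : Tilted η D τ ρ g ρ') (G : St n → ℝ) (r : ℝ)
    (θ : St n) : mg (fun x => g x * ρ x) G r θ = mg ρ' G (r - τ) θ := by
  obtain ⟨hm, h0⟩ := meas_mul hb ht
  rw [mg_eq_integral hm h0, ht.shift, mg_eq_integral ht.ulc'.meas ht.ulc'.nonneg]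

theorem bary_shift (hb : Base η D K ρ) (ht : Tilted η D τ ρ g ρ') (r : ℝ) (θ : St n) :
    bary (fun x => g x * ρ x) r θ = bary ρ' (r - τ) θ := funext fun _ => mg_shift hb ht _ r θ

theorem covMat_shift (hb : Base η D K ρ) (ht : Tilted η D τ ρ g ρ') (r : ℝ) (θ : St n) :
    covMat (fun x => g x * ρ x) r θ = covMat ρ' (r - τ) θ := by
  ext i j
  simp only [covMat, of_apply, pcov, mg_shift hb ht]

theorem covMat_form (h : Ulc η σ) (hr : 0 < r) (θ u : St n) :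
    0 ≤ u ⬝ᵥ (covMat σ r θ *ᵥ u) ∧ u ⬝ᵥ (covMat σ r θ *ᵥ u) ≤ 1 / r * nsq u := by
  rw [← dotProduct_covMat h hr.le]
  refine ⟨covc_self_nonneg _, (covLe_inv (post_ulc h hr.le θ) u).trans ?_⟩
  refine mul_le_mul_of_nonneg_right ?_ (nsq_nonneg u)
  exact one_div_le_one_div_of_le hr (by linarith [h.pos])

theorem nsq_mulVec_le {M : Matrix (Fin n) (Fin n) ℝ} (hM : M.IsSymm) {c : ℝ}
    (hc : ∀ u : St n, |u ⬝ᵥ (M *ᵥ u)| ≤ c * nsq u) (v : St n) :
    nsq (M *ᵥ v) ≤ c ^ 2 * nsq v := by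
  obtain ⟨U, lam, h1, h2, hp⟩ := exists_eigen M hM
  have hA : M = U * diagonal lam * Uᵀ := by simpa using hp 1
  have hcol : ∀ l, |lam l| ≤ c := fun l => by
    have hu : (Uᵀ *ᵥ fun j => U j l) = Pi.single l 1 := by
      funext i
      have := congrFun (congrFun h1 i) l
      simpa [Matrix.mul_apply, Matrix.mulVec, dotProduct, Matrix.one_apply, Pi.single_apply]
        using this
    have h3 : nsq (fun j => U j l) = 1 := by
      have := congrFun (congrFun h1 l) l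
      simpa [Matrix.mul_apply, nsq, pow_two] using this
    have h4 := hc fun j => U j l
    rw [hA, quad_eigen, hu, h3, mul_one] at h4
    simpa [Pi.single_apply] using h4
  have hn : ∀ x : St n, nsq x = x ⬝ᵥ x := fun x => by simp [nsq, dotProduct, pow_two]
  have e1 : nsq (M *ᵥ v) = v ⬝ᵥ ((M ^ 2) *ᵥ v) := by
    rw [hn, pow_two, ← mulVec_mulVec, dotProduct_mulVec v M, ← mulVec_transpose, hM.eq]
  have e2 : nsq v = ∑ l, (Uᵀ *ᵥ v) l ^ 2 := by
    have := quad_eigen (U := U) (fun _ => 1) v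
    simpa [h2, diagonal_one, dotProduct, nsq, pow_two] using this
  rw [e1, hp 2, quad_eigen, e2, Finset.mul_sum]
  refine Finset.sum_le_sum fun l _ => mul_le_mul_of_nonneg_right ?_ (sq_nonneg _)
  rw [← sq_abs]; exact pow_le_pow_left₀ (abs_nonneg _) (hcol l) 2

/-- After `2τ` both covariance matrices are at most a multiple of the inverse time. -/
theorem gam_bounds (hb : Base η D K ρ) (ht : Tilted η D τ ρ g ρ') (hτ : 0 < τ) (h : ℝ) (k : ℕ)
    (hk : 2 * τ ≤ k * h) (p : St n × St n) :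
    (∀ u : St n, 0 ≤ u ⬝ᵥ (covMat (fun x => g x * ρ x) (k * h) p.2 *ᵥ u) ∧
        u ⬝ᵥ (covMat (fun x => g x * ρ x) (k * h) p.2 *ᵥ u) ≤ 2 / (k * h) * nsq u) ∧
      (gam ρ (fun x => g x * ρ x) h k p).IsSymm ∧
      ∀ v, nsq (gam ρ (fun x => g x * ρ x) h k p *ᵥ v) ≤ (3 / (k * h)) ^ 2 * nsq v := by
  have hr : 0 < (k : ℝ) * h := by linarith
  have hr' : 0 < (k : ℝ) * h - τ := by linarith
  have hB : ∀ u : St n, 0 ≤ u ⬝ᵥ (covMat (fun x => g x * ρ x) (k * h) p.2 *ᵥ u) ∧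
      u ⬝ᵥ (covMat (fun x => g x * ρ x) (k * h) p.2 *ᵥ u) ≤ 2 / (k * h) * nsq u := fun u => by
    rw [covMat_shift hb ht]
    obtain ⟨h1, h2⟩ := covMat_form ht.ulc' hr' p.2 u
    refine ⟨h1, h2.trans (mul_le_mul_of_nonneg_right ?_ (nsq_nonneg u))⟩
    rw [div_le_div_iff₀ hr' hr]; linarith
  have hS : (gam ρ (fun x => g x * ρ x) h k p).IsSymm := (covMat_symm _ _).sub (covMat_symm _ _)
  refine ⟨hB, hS, nsq_mulVec_le hS fun u => ?_⟩
  obtain ⟨a1, a2⟩ := hB u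
  obtain ⟨b1, b2⟩ := covMat_form hb.ulc hr p.1 u
  have e : u ⬝ᵥ (gam ρ (fun x => g x * ρ x) h k p *ᵥ u) =
      u ⬝ᵥ (covMat (fun x => g x * ρ x) (k * h) p.2 *ᵥ u) - u ⬝ᵥ (covMat ρ (k * h) p.1 *ᵥ u) := by
    rw [gam, sub_mulVec, dotProduct_sub]
  have hn := nsq_nonneg u
  have : 3 / ((k : ℝ) * h) * nsq u = 2 / (k * h) * nsq u + 1 / (k * h) * nsq u := by ring
  have h0 : 0 ≤ 1 / ((k : ℝ) * h) * nsq u := by positivity
  have h0' : 0 ≤ 2 / ((k : ℝ) * h) * nsq u := by positivity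
  rw [e, abs_le]; constructor <;> linarith

end Vale.Agent.P245.Gen2
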