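import Vale.Agent.P245.Gen2.Chain
import Vale.Agent.P245.Gen2.Support
import Vale.Agent.P245.Gen2.Facts

/-!
# P245, polylogarithmic bound: the scalar quantities of the coupling argument

Time is measured in units of `1 / K` with `N` steps in each.
-/

open MeasureTheory

namespace Vale.Agent.P245.Gen2

open General

noncomputable section

variable {n : ℕ}

/-- The changed density. -/
abbrev nu (ρ g : St n → ℝ) : St n → ℝ := fun x => g x * ρ x

/-- The step with `N` steps in a unit `1 / K`. -/
def hN (K : ℝ) (N : ℕ) : ℝ := 1 / (K * N)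

/-- The mean squared displacement. -/
def mD2 (σ ν : St n → ℝ) (h : ℝ) (k : ℕ) : ℝ := ∫ p, nsq (delta p) ∂pairM σ ν h k

/-- The mean pairing of the displacement with the difference of the barycentres. -/
def mDw (σ ν : St n → ℝ) (h : ℝ) (k : ℕ) : ℝ :=
  ∫ p, dotp (delta p) (wV σ ν h k p) ∂pairM σ ν h k

/-- The mean squared mismatch at equal states. -/
def mU (σ ν : St n → ℝ) (h : ℝ) (k : ℕ) : ℝ := ∫ p, nsq (uV σ ν h k p) ∂pairM σ ν h k

/-- The mean squared response of the pure barycentre to the shift predicted by the martingale. -/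
def mB2 (σ ν : St n → ℝ) (h : ℝ) (k : ℕ) : ℝ :=
  ∫ p, nsq (dBary σ (k * h) p.1 (((k : ℝ) * h) • wV σ ν h k p)) ∂pairM σ ν h k

end

end Vale.Agent.P245.Gen2
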