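import Vale.Agent.P245.Gen2.CLate
import Vale.Agent.P245.Gen2.CCaseA
import Vale.Agent.P245.Gen2.CSelect
import Vale.Agent.P245.Gen2.CPiece

/-!
# P245, polylogarithmic bound: the coupling bound
-/

open MeasureTheory Filter Topology

namespace Vale.Agent.P245.Gen2

open General

theorem ent_change_nonneg {n : ℕ} {η D K τ : ℝ} {ρ g ρ' : St n → ℝ} (hb : Base η D K ρ)
    (ht : Tilted η D τ ρ g ρ') : 0 ≤ ent (law ρ) g := by
  have := isProb hb.ulc
  obtain ⟨lo, hi, hlo, hg⟩ := ht.bdd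
  have hi1 : Integrable g (law ρ) :=
    Integrable.of_bound ht.gmeas.aestronglyMeasurable hi (ae_of_all _ fun x => by
      rw [Real.norm_eq_abs, abs_of_pos (hlo.trans_le (hg x).1)]; exact (hg x).2)
  have hi2 : Integrable (fun x => g x * Real.log (g x)) (law ρ) := by
    refine Integrable.of_bound (ht.gmeas.mul (Real.measurable_log.comp ht.gmeas)).aestronglyMeasurable
      (hi * (|Real.log lo| + |Real.log hi|)) (ae_of_all _ fun x => ?_)
    rw [Real.norm_eq_abs]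
    exact abs_mul_log_le hlo (hg x).1 (hg x).2
  have h : ∫ x, (g x - 1) ∂law ρ ≤ ∫ x, g x * Real.log (g x) ∂law ρ := by
    refine integral_mono (hi1.sub (integrable_const 1)) hi2 fun x => ?_
    have hp : 0 < g x := hlo.trans_le (hg x).1
    have := Real.one_sub_inv_le_log_of_pos hp
    have e : g x * (1 - (g x)⁻¹) = g x - 1 := by field_simp
    nlinarith [mul_le_mul_of_nonneg_left this hp.le]
  rw [integral_sub hi1 (integrable_const 1), ht.gmass, integral_const, probReal_univ, one_smul] at h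
  rw [ent, ht.gmass, Real.log_one, mul_zero, sub_zero]
  linarith

theorem tendsto_hN {K : ℝ} (hK : 0 < K) : Tendsto (fun N : ℕ => hN K N) atTop (𝓝 0) := by
  have h := (tendsto_natCast_atTop_atTop (R := ℝ)).const_mul_atTop hK
  simpa [hN, one_div, Function.comp_def] using tendsto_inv_atTop_zero.comp h

theorem exists_scale (sl CA CL CP c : ℝ) (hsl : 0 < sl) (hc : 0 < c) (A₀ : ℝ) :
    ∃ A : ℕ, A₀ ≤ (A : ℝ) ∧ 16 ≤ A ∧
      CA * 32 / (A : ℝ) ^ 4 + CL / Real.sqrt (Real.sqrt A) < sl / 2 ∧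
      CL / Real.sqrt A ≤ sl ^ 2 / 128 ∧
      CP / A + CL / Real.sqrt (Real.sqrt A) < c / (2 * (1 + Real.log A)) := by
  have hA : Tendsto (fun A : ℕ => (A : ℝ)) atTop atTop := tendsto_natCast_atTop_atTop
  have hsq : Tendsto (fun A : ℕ => Real.sqrt A) atTop atTop :=
    Real.tendsto_sqrt_atTop.comp hA
  have hqu : Tendsto (fun A : ℕ => Real.sqrt (Real.sqrt A)) atTop atTop :=
    Real.tendsto_sqrt_atTop.comp hsq
  have h4 : Tendsto (fun A : ℕ => (A : ℝ) ^ 4) atTop atTop :=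
    (tendsto_pow_atTop (by norm_num : 4 ≠ 0)).comp hA
  have hdiv : ∀ (a : ℝ) {f : ℕ → ℝ}, Tendsto f atTop atTop →
      Tendsto (fun A => a / f A) atTop (𝓝 0) := fun a f hf => tendsto_const_nhds.div_atTop hf
  have e1 : ∀ᶠ A : ℕ in atTop, CA * 32 / (A : ℝ) ^ 4 + CL / Real.sqrt (Real.sqrt A) < sl / 2 := by
    have := (hdiv (CA * 32) h4).add (hdiv CL hqu)
    rw [add_zero] at this
    exact this.eventually_lt_const (by positivity)
  have e2 : ∀ᶠ A : ℕ in atTop, CL / Real.sqrt A ≤ sl ^ 2 / 128 :=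
    ((hdiv CL hsq).eventually_lt_const (by positivity)).mono fun _ h => h.le
  have e3 : ∀ᶠ A : ℕ in atTop,
      CP / A + CL / Real.sqrt (Real.sqrt A) < c / (2 * (1 + Real.log A)) := by
    have hl : Tendsto (fun A : ℕ => (1 + Real.log A) / Real.sqrt (Real.sqrt A)) atTop (𝓝 0) := by
      have h1 := (isLittleO_log_rpow_atTop (show (0 : ℝ) < 1 / 4 by norm_num)).tendsto_div_nhds_zero
      have h2 := (h1.comp hA).add (hdiv 1 hqu)
      rw [add_zero] at h2
      refine h2.congr fun A => ?_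
      have : (A : ℝ) ^ (1 / 4 : ℝ) = Real.sqrt (Real.sqrt A) := by
        rw [Real.sqrt_eq_rpow, Real.sqrt_eq_rpow, ← Real.rpow_mul (Nat.cast_nonneg A)]; norm_num
      simp only [Function.comp, this]; ring
    have h3 := hl.const_mul (|CP| + |CL|)
    rw [mul_zero] at h3
    filter_upwards [h3.eventually_lt_const (show 0 < c / 2 by positivity), eventually_ge_atTop 1]
      with A hlt hA1
    have hA1' : (1 : ℝ) ≤ A := by exact_mod_cast hA1
    have hq0 : 0 < Real.sqrt (Real.sqrt A) := by positivity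
    have hL : 0 < 1 + Real.log A := by linarith [Real.log_nonneg hA1']
    have hq : Real.sqrt (Real.sqrt A) ≤ A := by
      have hs : Real.sqrt A ≤ A := Real.sqrt_le_self_iff.2 (Or.inr hA1')
      exact (Real.sqrt_le_sqrt hs).trans hs
    have hb : CP / A + CL / Real.sqrt (Real.sqrt A) ≤ (|CP| + |CL|) / Real.sqrt (Real.sqrt A) := by
      rw [add_div]
      gcongr
      · exact le_abs_self CP
      · exact le_abs_self CL
    refine hb.trans_lt ?_
    rw [lt_div_iff₀ (by positivity)]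
    calc (|CP| + |CL|) / Real.sqrt (Real.sqrt A) * (2 * (1 + Real.log A))
        = 2 * ((|CP| + |CL|) * ((1 + Real.log A) / Real.sqrt (Real.sqrt A))) := by ring
      _ < c := by linarith
  obtain ⟨A, h1, h2, h3, h4', h5⟩ := ((hA.eventually_ge_atTop A₀).and
    ((eventually_ge_atTop 16).and (e1.and (e2.and e3)))).exists
  exact ⟨A, h1, h2, h3, h4', h5⟩

theorem early_absurd {sl CA CL K A4 qA Z B : ℝ} (hCA : 0 ≤ CA) (hA4 : 0 < A4) (hZ : 0 < Z)
    (hKZ : K / 32 ≤ Z) (g1 : CA * 32 / A4 + CL / qA < sl / 2)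
    (hlow : (1 - CL / qA) * Z ≤ B) (hup : B ≤ (1 - sl / 2) * Z + CA * K / A4) : False := by
  have h32 : CA * K / A4 ≤ CA * 32 / A4 * Z := by
    rw [div_mul_eq_mul_div, div_le_div_iff_of_pos_right hA4]
    nlinarith [mul_le_mul_of_nonneg_left hKZ (by linarith : (0 : ℝ) ≤ CA * 32)]
  nlinarith [mul_lt_mul_of_pos_right g1 hZ]

theorem window_absurd {CP CL c L A qA Z B x : ℝ} (hZ : 0 < Z)
    (g3 : CP / A + CL / qA < c / (2 * L)) (hx : c / L * Z ≤ x)
    (hlow : (1 - CL / qA) * Z ≤ B) (hup : B ≤ Z - x / 2 + CP / A * Z) : False := by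
  have e : c / (2 * L) * Z = c / L * Z / 2 := by ring
  nlinarith [mul_lt_mul_of_pos_right g3 hZ]

theorem gap_rest {sl q Z Zr Zs : ℝ} (hZ : 0 ≤ Z) (g2 : q ≤ sl ^ 2 / 128)
    (hgap : Z - Zr ≤ q * Z) (hcase : Zs < (1 - sl ^ 2 / 64) * Z) :
    sl ^ 2 / 128 * Z ≤ Zr - Zs := by
  nlinarith [mul_le_mul_of_nonneg_right g2 hZ]

/-- At time `32 / K` the synchronous coupling has small cost for every semiconcave change. -/
theorem coupling : ∃ K₀ : ℝ, 32 ≤ K₀ ∧ ∀ (n : ℕ) (η D K : ℝ) (ρ g ρ' : St n → ℝ),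
    Base η D K ρ → K₀ * (1 + Real.log n) ^ 2 ≤ K → Tilted η D (64 / K) ρ g ρ' →
      ∀ ε : ℝ, 0 < ε → ∃ π : Measure (St n × St n), IsProbabilityMeasure π ∧
        π.map Prod.fst = chanM ρ (32 / K) ∧
        π.map Prod.snd = chanM (fun x => g x * ρ x) (32 / K) ∧
        Integrable (fun p => nsq (delta p)) π ∧
        ∫ p, nsq (delta p) ∂π ≤ 32 * (ent (law ρ) g + 1) / K + ε := by
  obtain ⟨sl, CA, A₁, hsl, hsl1, hCA, hA₁, hA⟩ := caseA
  obtain ⟨CL, A₂, hCL, hA₂, hL⟩ := late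
  obtain ⟨c, A₃, hc, hA₃, hS⟩ := select (sl ^ 2 / 128) CL (by positivity) (by linarith)
  obtain ⟨CP, A₄, hCP, hA₄, hP⟩ := pieceB
  obtain ⟨A, hAge, hA16, g1, g2, g3⟩ :=
    exists_scale sl CA CL CP c hsl hc (max (max A₁ A₂) (max A₃ A₄))
  simp only [max_le_iff] at hAge
  obtain ⟨KA, hKA, hA'⟩ := hA A hAge.1.1
  obtain ⟨KP, hKP, hP'⟩ := hP A hAge.2.2
  refine ⟨max (max 32 ((A : ℝ) ^ 6)) (max KA KP), le_trans (le_max_left _ _) (le_max_left _ _),
    fun n η D K ρ g ρ' hb hK ht ε hε => ?_⟩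
  have hl : 1 ≤ (1 + Real.log n) ^ 2 :=
    one_le_pow₀ (le_add_of_nonneg_right (Real.log_natCast_nonneg n))
  have hK' : ∀ a, 0 ≤ a → a ≤ max (max 32 ((A : ℝ) ^ 6)) (max KA KP) →
      a * (1 + Real.log n) ^ 2 ≤ K ∧ a ≤ K := fun a ha0 ha => by
    have h1 : a * (1 + Real.log n) ^ 2 ≤ K :=
      (mul_le_mul_of_nonneg_right ha (by positivity)).trans hK
    exact ⟨h1, (le_mul_of_one_le_right ha0 hl).trans h1⟩
  have hK32 : (32 : ℝ) ≤ K :=
    (hK' 32 (by norm_num) (le_trans (le_max_left _ _) (le_max_left _ _))).2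
  have hK6 : (A : ℝ) ^ 6 ≤ K :=
    (hK' _ (by positivity) (le_trans (le_max_right _ _) (le_max_left _ _))).2
  have hKa := (hK' KA (by linarith) (le_trans (le_max_left _ _) (le_max_right _ _))).1
  have hKp := (hK' KP (by linarith) (le_trans (le_max_right _ _) (le_max_right _ _))).1
  have hK0 : (0 : ℝ) < K := by linarith
  have hd := hb.dens
  have hν := dens_tilted hb ht
  have hp := ent_change_nonneg hb ht
  set P := ent (law ρ) g + 1 with hPdef
  have key : ∀ᶠ N : ℕ in atTop, Zk ρ (nu ρ g) (hN K N) (32 * N) ≤ K / 32 * P := by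
    filter_upwards [hA' n η D K ρ g ρ' hb hKa ht, hL A hAge.1.2 n η D K ρ g ρ' hb hK6 ht,
      hS A hAge.2.1 n η D K ρ g ρ' hb hK6 ht, hP' n η D K ρ g ρ' hb hKp ht,
      eventually_ge_atTop 1] with N hNA hNL hNS hNP hN1
    by_contra hcon
    push Not at hcon
    have hh : 0 < hN K N := by
      have : (1 : ℝ) ≤ N := by exact_mod_cast hN1
      exact one_div_pos.2 (by positivity)
    obtain ⟨hgap, t, ht0, ht1, hlow⟩ := hNL hcon
    set Z₁ := Zk ρ (nu ρ g) (hN K N) (2 * A ^ 4 * N)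
    have hAle : 32 * N ≤ 2 * A ^ 4 * N := by
      refine Nat.mul_le_mul_right N ?_
      have : 16 ≤ A ^ 4 := hA16.trans (Nat.le_self_pow (by norm_num) A)
      omega
    have hmono := Zk_mono (σ := ρ) (ν := nu ρ g) hd hν hh hAle
    have hKP32 : K / 32 ≤ K / 32 * P := le_mul_of_one_le_right (by positivity) (by linarith)
    have hZ1 : K / 32 ≤ Z₁ := hKP32.trans (hcon.le.trans hmono)
    have hZpos : 0 < Z₁ := lt_of_lt_of_le (by positivity) hZ1
    rcases le_or_gt ((1 - sl ^ 2 / 64) * Z₁) (Zk ρ (nu ρ g) (hN K N) (128 * N)) with hcase | hcase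
    · exact early_absurd (by linarith) (by positivity) hZpos hZ1 g1 hlow (hNA t ht0 ht1 hcase)
    · have hδ := gap_rest hZpos.le g2 hgap hcase
      obtain ⟨q, j, hq0, hq1, hj1, hjq, hjlow, hjup, hdec⟩ := hNS hZ1 hgap hδ
      exact window_absurd hZpos g3 hjlow hlow
        (hNP hZ1 q j t hq0 hq1 hj1 hjq ht0 ht1 hjup hdec)
  obtain ⟨E, hE0, hE⟩ := rec_bounds hb ht (32 / K)
  have herr : ∀ᶠ N : ℕ in atTop, 3 * E * (1 + 32 / K) ^ 2 * Real.sqrt (hN K N) ≤ ε := by
    have h1 := (((Real.continuous_sqrt.tendsto 0).comp (tendsto_hN hK0)).const_mul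
      (3 * E * (1 + 32 / K) ^ 2))
    simp only [Real.sqrt_zero, mul_zero] at h1
    exact (h1.eventually_lt_const hε).mono fun _ h => h.le
  obtain ⟨N, hkey, hN', hN1⟩ := (key.and (herr.and (eventually_ge_atTop 1))).exists
  set h := hN K N with hh_def
  have hN1' : (1 : ℝ) ≤ N := by exact_mod_cast hN1
  have hh : 0 < h := one_div_pos.2 (by positivity)
  have hh1 : h ≤ 1 := by
    rw [hh_def, hN, div_le_one (by positivity)]; nlinarith
  have htime : ((32 * N : ℕ) : ℝ) * h = 32 / K := by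
    rw [hh_def, hN, Nat.cast_mul]; field_simp; norm_num
  obtain ⟨hrec, -, -⟩ := hE h hh hh1 (32 * N) htime.le
  obtain ⟨hm1, hm2⟩ := pair_marginals (σ := ρ) (ν := nu ρ g) hd hν hh (32 * N)
  refine ⟨pairM ρ (nu ρ g) h (32 * N), (isProb_pairFrom hd hν hh (32 * N) 0 (0, 0)).2,
    by rw [hm1, htime], by rw [hm2, htime],
    (integrable_pair hd hν hh (32 * N) 0 (0, 0)
      (measurable_nsq'.comp (measurable_snd.sub measurable_fst)) polyP_nsq_delta).1, ?_⟩
  have h2 := Seq.d2_le hrec hh1 htime.le le_rfl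
  rw [htime] at h2
  have h3 : (32 / K) ^ 2 * Zk ρ (nu ρ g) h (32 * N) ≤ 32 * P / K := by
    refine (mul_le_mul_of_nonneg_left hkey (sq_nonneg _)).trans (le_of_eq ?_)
    field_simp
  change mD2 ρ (nu ρ g) h (32 * N) ≤ _
  linarith

end Vale.Agent.P245.Gen2
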