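import Vale.Agent.P245.Gen2.TiltCore
import Vale.Agent.P245.Gen2.TiltGauss

/-!
# Gaussian tilts of a log-concave law: the mean width with a radius gain

`width_bound`: the Gaussian mean width of the tilts of entropy `m` in `m` directions is at most
`C m η^(-1/4)`.  `gauss_tilt_bound`: the expected log moment generating function at Gaussian tilts.
-/

open MeasureTheory Set

namespace Vale.Agent.P245.General

noncomputable section

variable {n m k : ℕ} {η : ℝ} {ρ : (Fin n → ℝ) → ℝ}

/-- The linear map with columns `w`. -/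
def lin (w : Fin m → Fin n → ℝ) (ξ : Fin m → ℝ) : Fin n → ℝ := ∑ i, ξ i • w i

theorem lin_sub (w : Fin m → Fin n → ℝ) (a b : Fin m → ℝ) : lin w (a - b) = lin w a - lin w b := by
  simp [lin, sub_smul, Finset.sum_sub_distrib]

theorem lin_add (w : Fin m → Fin n → ℝ) (a b : Fin m → ℝ) : lin w (a + b) = lin w a + lin w b := by
  simp [lin, add_smul, Finset.sum_add_distrib]

theorem lin_smul (w : Fin m → Fin n → ℝ) (c : ℝ) (a : Fin m → ℝ) : lin w (c • a) = c • lin w a := by
  simp [lin, smul_smul, Finset.smul_sum]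

theorem continuous_lin (w : Fin m → Fin n → ℝ) : Continuous (lin w) := by
  unfold lin; fun_prop

theorem continuous_lmgf (h : Ulc η ρ) : Continuous (lmgf ρ) := by
  have : ConvexOn ℝ univ (lmgf ρ) :=
    ⟨convex_univ, fun u _ v _ a b ha hb hab => lmgf_convex h u v ha hb hab⟩
  exact continuousOn_univ.1 (this.continuousOn isOpen_univ)

theorem integral_nsq_gauss (m : ℕ) :
    Integrable nsq (law (gd m 1)) ∧ ∫ x, nsq x ∂law (gd m 1) ≤ m := by
  obtain ⟨hi, hle⟩ := integral_nsq_le (gd_ulc (n := m) one_pos) (covLe_inv (gd_ulc one_pos))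
  simp only [center_gd one_pos, sub_zero, one_div_one_div, mul_one] at hi hle
  exact ⟨hi, hle⟩

theorem integral_sqrt_nsq_gauss (m : ℕ) :
    Integrable (fun x => Real.sqrt (nsq x)) (law (gd m 1)) ∧
      ∫ x, Real.sqrt (nsq x) ∂law (gd m 1) ≤ Real.sqrt m := by
  have := isProb (gd_ulc (n := m) one_pos)
  obtain ⟨hi, hle⟩ := integral_nsq_gauss m
  rcases Nat.eq_zero_or_pos m with rfl | hm
  · simp [nsq]
  have hm' : 0 < Real.sqrt m := by positivity
  have hpt : ∀ x : Fin m → ℝ, Real.sqrt (nsq x) ≤ nsq x / (2 * Real.sqrt m) + Real.sqrt m / 2 := by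
    intro x
    rw [div_add_div _ _ (by positivity) two_ne_zero, le_div_iff₀ (by positivity)]
    nlinarith [sq_nonneg (Real.sqrt (nsq x) - Real.sqrt m), Real.mul_self_sqrt (nsq_nonneg x)]
  have hb := (hi.div_const (2 * Real.sqrt m)).add (integrable_const (Real.sqrt m / 2))
  have hs : Integrable (fun x => Real.sqrt (nsq x)) (law (gd m 1)) :=
    hb.mono' (Real.continuous_sqrt.comp continuous_nsq).aestronglyMeasurable
      (Filter.Eventually.of_forall fun x => by
        rw [Real.norm_eq_abs, abs_of_nonneg (Real.sqrt_nonneg _)]; exact hpt x)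
  refine ⟨hs, (integral_mono hs hb hpt).trans ?_⟩
  simp only [Pi.add_apply]
  rw [integral_add (hi.div_const _) (integrable_const _), integral_div, integral_const,
    probReal_univ, one_smul]
  have h1 : (m : ℝ) / (2 * Real.sqrt m) = Real.sqrt m / 2 := by
    rw [div_eq_div_iff (by positivity) two_ne_zero]
    nlinarith [Real.mul_self_sqrt (Nat.cast_nonneg (α := ℝ) m)]
  have h2 := div_le_div_of_nonneg_right hle (show 0 ≤ 2 * Real.sqrt m by positivity)
  linarith

/-- The width constant. -/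
def wC : ℝ := 16 * Real.exp 14

theorem one_le_wC : 1 ≤ wC := by
  have := Real.add_one_le_exp (14 : ℝ)
  rw [wC]; linarith

section

variable {w : Fin m → Fin n → ℝ} (h : Ulc η ρ) (hcov : CovLe ρ 3) (hm : 1 ≤ m)
  (hw : ∀ ξ, nsq (lin w ξ) ≤ nsq ξ)

include h in
theorem wid_scale (u : Fin n → ℝ) {p q : ℝ} (hp : 0 ≤ p) (hpq : p ≤ q) (hq : 0 < q) :
    p / q * wid ρ q u ≤ wid ρ p u := by
  refine le_wid fun s hs => ?_
  refine (mul_le_mul_of_nonneg_left (wid_le h hq.le u hs) (by positivity)).trans ?_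
  rw [← mul_div_assoc, mul_add, div_mul_cancel₀ _ hq.ne']
  refine div_le_div_of_nonneg_right (add_le_add_right ?_ _) hs.le
  exact mul_le_of_le_one_left (lmgf_nonneg h _) ((div_le_one hq).2 hpq)

include h hm hw in
theorem lip_width (a b : Fin m → ℝ) :
    |wid ρ m (lin w a) - wid ρ m (lin w b)|
      ≤ 2 * Real.sqrt (m / η) * Real.sqrt (nsq (a - b)) := by
  refine (abs_wid_sub_le h (by exact_mod_cast hm) _ _).trans
    (mul_le_mul_of_nonneg_left ?_ (by positivity))
  rw [← lin_sub]
  exact Real.sqrt_le_sqrt (hw _)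

include h hcov hm hw in
theorem width_le_linear (ξ : Fin m → ℝ) :
    wid ρ m (lin w ξ) ≤ wC * m * Real.sqrt (nsq ξ) := by
  have hm' : (1 : ℝ) ≤ m := by exact_mod_cast hm
  have h1 := wid_scale h (lin w ξ) zero_le_one hm' (by linarith)
  rw [one_div_mul_eq_div, div_le_iff₀ (by linarith)] at h1
  have h2 := wid_one_le h hcov (lin w ξ)
  have h3 : wid ρ 1 (lin w ξ) ≤ wC * Real.sqrt (nsq ξ) :=
    h2.trans (mul_le_mul_of_nonneg_left (Real.sqrt_le_sqrt (hw ξ)) (by positivity))
  calc _ ≤ wid ρ 1 (lin w ξ) * m := h1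
    _ ≤ wC * Real.sqrt (nsq ξ) * m := mul_le_mul_of_nonneg_right h3 (by linarith)
    _ = _ := by ring

include h hcov hm hw in
/-- The Gaussian mean width of the tilts. -/
theorem width_bound :
    ∫ ξ, wid ρ m (lin w ξ) ∂law (gd m 1) ≤ 15 * wC * m / Real.sqrt (Real.sqrt η) := by
  have := isProb (gd_ulc (n := m) one_pos)
  have hm' : (1 : ℝ) ≤ m := by exact_mod_cast hm
  have hη := h.pos
  set H := fun ξ => wid ρ m (lin w ξ)
  set W := ∫ ξ, H ξ ∂law (gd m 1) with hWdef
  set L := 2 * Real.sqrt ((m : ℝ) / η) with hLdef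
  have hL : 0 < L := by positivity
  have hHc : Continuous H := (continuous_wid h (by linarith)).comp (continuous_lin w)
  have hlip : ∀ a b, |H a - H b| ≤ L * Real.sqrt (nsq (a - b)) := lip_width h hm hw
  have hH0 : ∀ ξ, 0 ≤ H ξ := fun ξ => wid_nonneg h (by linarith) _
  have hHi := (gauss_lip_integrable hHc hlip 0).1
  have hW0 : 0 ≤ W := integral_nonneg hH0
  obtain ⟨hsi, hsle⟩ := integral_sqrt_nsq_gauss m
  have hWL : W ≤ L * Real.sqrt m := by
    refine (integral_mono hHi (hsi.const_mul L) fun ξ => ?_).trans ?_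
    · exact (wid_le_norm h (by linarith) _).trans
        (mul_le_mul_of_nonneg_left (Real.sqrt_le_sqrt (hw ξ)) hL.le)
    · rw [integral_const_mul]; exact mul_le_mul_of_nonneg_left hsle hL.le
  have hW1 : W ≤ wC * m * Real.sqrt m := by
    have hC := one_le_wC
    refine (integral_mono hHi (hsi.const_mul (wC * m)) fun ξ => width_le_linear h hcov hm hw ξ).trans ?_
    rw [integral_const_mul]; exact mul_le_mul_of_nonneg_left hsle (by positivity)
  have hL2 : L ^ 2 = 4 * m / η := by
    rw [hLdef, mul_pow, Real.sq_sqrt (by positivity)]; ring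
  suffices H4 : W ^ 4 ≤ 40960 * wC ^ 2 * m ^ 4 / η by
    refine le_of_pow_le_pow_left₀ (n := 4) (by norm_num) (by have := one_le_wC; positivity) ?_
    rw [div_pow, show Real.sqrt (Real.sqrt η) ^ 4 = η by
      rw [show (4 : ℕ) = 2 * 2 from rfl, pow_mul, Real.sq_sqrt (Real.sqrt_nonneg _), Real.sq_sqrt hη.le]]
    refine H4.trans (div_le_div_of_nonneg_right ?_ hη.le)
    rw [mul_pow, mul_pow]
    refine mul_le_mul_of_nonneg_right ?_ (by positivity)
    have h2 : wC ^ 2 ≤ wC ^ 4 := pow_le_pow_right₀ one_le_wC (by norm_num)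
    nlinarith [sq_nonneg wC]
  set Θ := W ^ 2 / (64 * L ^ 2) with hΘdef
  have hWΘ : W ^ 2 = 256 * m * Θ / η := by
    rw [hΘdef, hL2]; field_simp; ring
  rcases lt_or_ge Θ 16 with hΘ | hΘ
  · have h1 : W ^ 2 ≤ 4096 * m / η := by
      rw [hWΘ]; refine div_le_div_of_nonneg_right ?_ hη.le; nlinarith
    have h2 : W ^ 2 ≤ wC ^ 2 * m ^ 3 := by
      refine (pow_le_pow_left₀ hW0 hW1 2).trans_eq ?_
      rw [mul_pow, Real.sq_sqrt (by positivity)]; ring
    have h3 := mul_le_mul h1 h2 (sq_nonneg W) (by positivity)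
    have e : 4096 * (m : ℝ) / η * (wC ^ 2 * m ^ 3) = 4096 * (wC ^ 2 * m ^ 4 / η) := by ring
    have h4 : (0 : ℝ) ≤ wC ^ 2 * m ^ 4 / η := by positivity
    rw [show W ^ 4 = W ^ 2 * W ^ 2 by ring, show 40960 * wC ^ 2 * (m : ℝ) ^ 4 / η
      = 40960 * (wC ^ 2 * m ^ 4 / η) by ring]
    linarith
  have hWpos : 0 < W := by
    rcases eq_or_lt_of_le hW0 with h0 | h0
    · rw [hΘdef, ← h0] at hΘ; norm_num at hΘ
    · exact h0
  set k := ⌊Θ / 5⌋₊ with hkdef
  have hk5 : (k : ℝ) ≤ Θ / 5 := Nat.floor_le (by positivity)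
  have hk10 : Θ / 10 ≤ (k : ℝ) := by
    have := Nat.lt_floor_add_one (Θ / 5)
    rw [← hkdef] at this
    linarith
  have hk1 : 1 ≤ k := Nat.le_floor (by push_cast; linarith)
  have hk0 : (0 : ℝ) < k := by exact_mod_cast hk1
  have hkm : (k : ℝ) ≤ m := by
    have : Θ ≤ m / 64 := by
      rw [hΘdef, div_le_div_iff₀ (by positivity) (by norm_num)]
      have h2 := pow_le_pow_left₀ hW0 hWL 2
      rw [mul_pow, Real.sq_sqrt (by positivity)] at h2
      linarith
    linarith
  -- a good matrix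
  obtain ⟨N, hNc, hN1, hNd⟩ := exists_net k
  set P := Measure.pi fun _ : Fin m => P166W.gauss (Fin k)
  have : IsProbabilityMeasure (P166W.gauss (Fin k)) := by rw [P166W.gauss]; infer_instance
  set gmul := fun (g : Fin m → Fin k → ℝ) (e : Fin k → ℝ) => fun i => ∑ j, e j * g i j
  have hbad : ∀ e ∈ N, P.real {g | W / 4 ≤ |H (gmul g e) - W|} ≤ 2 * Real.exp (-Θ) := fun e he => by
    have hmeas : MeasurableSet {x : Fin m → ℝ | W / 4 ≤ |H x - W|} :=
      measurableSet_le measurable_const ((hHc.sub continuous_const).abs).measurable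
    have hgm : Measurable fun g => gmul g e := by simp only [gmul]; fun_prop
    have := gauss_tail_two hHc hL hlip (show 0 ≤ W / 4 by linarith)
    rw [← hWdef, ← map_matrix (hN1 e he), map_measureReal_apply hgm hmeas] at this
    refine this.trans_eq ?_
    rw [hΘdef]; congr 3; field_simp; ring
  obtain ⟨hFi, hFle⟩ := integral_frobenius (m := m) (k := k)
  have hfrob : P.real {g | 4 * (m * k : ℝ) ≤ ∑ i, nsq (g i)} ≤ 1 / 4 := by
    have h1 := mul_meas_ge_le_integral_of_nonneg (μ := P) (Filter.Eventually.of_forall fun g =>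
      Finset.sum_nonneg fun i _ => nsq_nonneg (g i)) hFi (4 * (m * k : ℝ))
    have hmk : 0 < (m : ℝ) * k := by positivity
    nlinarith
  have hnet : (N.card : ℝ) * (2 * Real.exp (-Θ)) ≤ 1 / 4 := by
    have h1 : (N.card : ℝ) ≤ Real.exp (4 * k) := by
      refine (Nat.cast_le.2 hNc).trans ?_
      push_cast
      rw [mul_comm, Real.exp_nat_mul]
      refine pow_le_pow_left₀ (by norm_num) ?_ k
      rw [show (4 : ℝ) = ((4 : ℕ) : ℝ) * 1 by norm_num, Real.exp_nat_mul]
      calc (21 : ℝ) ≤ (2.7 : ℝ) ^ 4 := by norm_num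
        _ ≤ _ := pow_le_pow_left₀ (by norm_num) (by linarith [Real.exp_one_gt_d9]) 4
    refine (mul_le_mul_of_nonneg_right h1 (by positivity)).trans ?_
    rw [mul_left_comm, ← Real.exp_add]
    have h2 : Real.exp (4 * k + -Θ) ≤ Real.exp (-3) := Real.exp_le_exp.2 (by linarith)
    have h3 : Real.exp (-3 : ℝ) ≤ 1 / 8 := by
      rw [Real.exp_neg, inv_le_comm₀ (Real.exp_pos _) (by norm_num), show (3 : ℝ) = ((3 : ℕ) : ℝ) * 1 by norm_num,
        Real.exp_nat_mul]
      calc (1 / 8 : ℝ)⁻¹ = 2 ^ 3 := by norm_num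
        _ ≤ _ := pow_le_pow_left₀ (by norm_num) (by linarith [Real.exp_one_gt_d9]) 3
    linarith
  obtain ⟨g, hgN, hgF⟩ : ∃ g, (∀ e ∈ N, |H (gmul g e) - W| < W / 4) ∧
      ∑ i, nsq (g i) < 4 * (m * k : ℝ) := by
    by_contra hno
    push Not at hno
    have hu : (univ : Set (Fin m → Fin k → ℝ)) ⊆
        (⋃ e ∈ N, {g | W / 4 ≤ |H (gmul g e) - W|}) ∪ {g | 4 * (m * k : ℝ) ≤ ∑ i, nsq (g i)} := by
      intro g _
      by_cases hg : ∀ e ∈ N, |H (gmul g e) - W| < W / 4
      · exact Or.inr (hno g hg)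
      · push Not at hg
        obtain ⟨e, he, hge⟩ := hg
        exact Or.inl (mem_iUnion₂.2 ⟨e, he, hge⟩)
    have h1 := (measureReal_mono (μ := P) hu (measure_ne_top _ _)).trans (measureReal_union_le _ _)
    rw [probReal_univ] at h1
    have h2 := (measureReal_biUnion_finset_le (μ := P) N
      fun e => {g | W / 4 ≤ |H (gmul g e) - W|}).trans (Finset.sum_le_card_nsmul _ _ _ hbad)
    rw [nsmul_eq_mul] at h2
    linarith
  -- all directions
  have hB : ∀ e, nsq e = 1 → Real.sqrt (nsq (gmul g e)) ≤ Real.sqrt (∑ i, nsq (g i)) := fun e he => by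
    refine Real.sqrt_le_sqrt (Finset.sum_le_sum fun i _ => ?_)
    refine (Finset.sum_mul_sq_le_sq_mul_sq _ _ _).trans_eq ?_
    rw [show ∑ j, e j ^ 2 = nsq e from rfl, he, one_mul, nsq]
  have hH0' : H 0 ≤ 0 := by
    have := wid_le_norm h (show (0 : ℝ) < m by linarith) (lin w 0)
    simpa [H, lin, nsq] using this
  have hpos : ∀ (x : Fin m → ℝ) (c : ℝ), 0 < c → H (c • x) ≤ c * H x := fun x c hc => by
    simp only [H, lin_smul]; exact wid_smul_le h (by linarith) _ hc
  have hsubH : ∀ x y : Fin m → ℝ, H (x + y) ≤ H x + H y := fun x y => by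
    simp only [H, lin_add]; exact wid_add_le h (by linarith) _ _
  set e1 : Fin k → ℝ := Pi.single ⟨0, hk1⟩ 1
  have he1 : nsq e1 = 1 := by simp [e1, nsq, Pi.single_apply]
  set Ts := (fun e => H (gmul g e)) '' {e | nsq e = 1}
  have hTb : BddAbove Ts := ⟨L * Real.sqrt (∑ i, nsq (g i)), by
    rintro _ ⟨e, he, rfl⟩
    refine (wid_le_norm h (by linarith) _).trans ?_
    exact mul_le_mul_of_nonneg_left ((Real.sqrt_le_sqrt (hw _)).trans (hB e he)) hL.le⟩
  set M := sSup Ts
  have hTle : ∀ e, nsq e = 1 → H (gmul g e) ≤ M := fun e he => le_csSup hTb ⟨e, he, rfl⟩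
  have hM0 : 0 ≤ M := (hH0 _).trans (hTle e1 he1)
  have hdiff : ∀ d : Fin k → ℝ, nsq d ≤ 1 / 100 → H (gmul g d) ≤ M / 10 := fun d hd => by
    rcases eq_or_lt_of_le (nsq_nonneg d) with h0 | h0
    · have hd0 : d = 0 := funext fun j => by
        have := (Finset.sum_eq_zero_iff_of_nonneg fun i _ => sq_nonneg (d i)).1 h0.symm j (Finset.mem_univ j)
        simpa using this
      have : gmul g d = 0 := by funext i; simp [gmul, hd0]
      rw [this]
      linarith
    · set r := Real.sqrt (nsq d)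
      have hr : 0 < r := Real.sqrt_pos.2 h0
      have he : nsq (r⁻¹ • d) = 1 := by
        rw [nsq_smul_eq, inv_pow, Real.sq_sqrt (nsq_nonneg d), inv_mul_cancel₀ h0.ne']
      have e : gmul g d = r • gmul g (r⁻¹ • d) := by
        funext i
        simp only [gmul, Pi.smul_apply, smul_eq_mul, Finset.mul_sum]
        refine Finset.sum_congr rfl fun j _ => ?_
        field_simp
      rw [e]
      refine (hpos _ r hr).trans ((mul_le_mul_of_nonneg_left (hTle _ he) hr.le).trans ?_)
      have : r ≤ 1 / 10 := Real.sqrt_le_iff.2 ⟨by norm_num, hd.trans (by norm_num)⟩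
      have := mul_le_mul_of_nonneg_right this hM0
      linarith
  have hadd : ∀ a b : Fin k → ℝ, gmul g (a + b) = gmul g a + gmul g b := fun a b => by
    funext i; simp [gmul, add_mul, Finset.sum_add_distrib]
  have hnear : ∀ e, nsq e = 1 → H (gmul g e) ≤ 5 / 4 * W + M / 10 ∧
      3 / 4 * W - M / 10 ≤ H (gmul g e) := fun e he => by
    obtain ⟨e', he', hd⟩ := hNd e he
    have h1 := abs_lt.1 (hgN e' he')
    have h2 := hsubH (gmul g e') (gmul g (e - e'))
    have h3 := hsubH (gmul g e) (gmul g (e' - e))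
    rw [← hadd, add_sub_cancel] at h2 h3
    have h4 := hdiff _ hd
    have h5 := hdiff _ (by rw [nsq_sub_comm]; exact hd)
    constructor <;> linarith
  have hMle : M ≤ 5 / 4 * W + M / 10 :=
    csSup_le ⟨_, mem_image_of_mem _ he1⟩ (by rintro _ ⟨e, he, rfl⟩; exact (hnear e he).1)
  set v := fun j => lin w (fun i => g i j)
  have hv : ∑ j, nsq (v j) ≤ 4 * ((m : ℝ) * k) := by
    refine le_trans ((Finset.sum_le_sum fun j _ => hw fun i => g i j).trans_eq ?_) hgF.le
    simp only [nsq]
    exact Finset.sum_comm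
  have hcore := core h hcov hk1 (show 0 < 4 * ((m : ℝ) * k) by positivity) hv
    (R := (k : ℝ) / m * (W / 2)) fun e he => by
      have e2 : ∑ j, e j • v j = lin w (gmul g e) := by
        simp only [v, lin, gmul, Finset.smul_sum, smul_smul, Finset.sum_smul]
        exact Finset.sum_comm
      rw [e2]
      refine le_trans ?_ (wid_scale h _ hk0.le hkm (by linarith))
      refine mul_le_mul_of_nonneg_left ?_ (by positivity)
      have := (hnear e he).2
      show W / 2 ≤ H (gmul g e)
      linarith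
  have hsqrt : Real.sqrt (4 * ((m : ℝ) * k)) ^ 2 = 4 * (m * k) := Real.sq_sqrt (by positivity)
  have h1 := pow_le_pow_left₀ (by positivity) hcore 2
  rw [mul_pow _ (Real.sqrt _), hsqrt, show (16 * Real.exp 14) = wC from rfl] at h1
  have h2 : W ^ 2 * k ≤ 16 * wC ^ 2 * m ^ 3 := by
    rw [mul_pow, div_pow, div_pow, div_mul_div_comm, div_le_iff₀ (by positivity)] at h1
    refine le_of_mul_le_mul_left ?_ hk0
    linarith
  have h3 : W ^ 2 * (Θ / 10) ≤ 16 * wC ^ 2 * m ^ 3 :=
    (mul_le_mul_of_nonneg_left hk10 (sq_nonneg W)).trans h2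
  rw [le_div_iff₀ hη]
  have hΘW : Θ * (256 * m) = W ^ 2 * η := by rw [hWΘ]; field_simp
  have h4 := mul_le_mul_of_nonneg_right h3 (show (0 : ℝ) ≤ 2560 * m by positivity)
  have h5 : W ^ 2 * (Θ / 10) * (2560 * m) = W ^ 2 * (Θ * (256 * m)) := by ring
  rw [h5, hΘW] at h4
  linarith

include h hcov hm hw in
/-- **Gaussian tilts of a log-concave law.** -/
theorem gauss_tilt_bound {R a : ℝ} (hR : 1 ≤ R) (ha : 0 ≤ a) (ha2 : a ^ 2 ≤ R * η) :
    Integrable (fun ξ => lmgf ρ (a • lin w ξ)) (law (gd m 1)) ∧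
      ∫ ξ, lmgf ρ (a • lin w ξ) ∂law (gd m 1)
        ≤ 16 * (15 * wC) ^ 4 * (Real.sqrt R * Real.sqrt (Real.sqrt η) + R ^ 3 * η) * m := by
  have := isProb (gd_ulc (n := m) one_pos)
  have hm' : (1 : ℝ) ≤ m := by exact_mod_cast hm
  have hη := h.pos
  have hC := one_le_wC
  set H := fun ξ => wid ρ m (lin w ξ)
  set W := ∫ ξ, H ξ ∂law (gd m 1) with hWdef
  set X := fun ξ => lmgf ρ (a • lin w ξ)
  have hXc : Continuous X := (continuous_lmgf h).comp ((continuous_lin w).const_smul a)
  have hX0 : ∀ ξ, 0 ≤ X ξ := fun ξ => lmgf_nonneg h _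
  have hXR : ∀ ξ, X ξ ≤ R * nsq ξ := fun ξ => by
    refine (lmgf_le h _).trans ?_
    rw [nsq_smul_eq, div_le_iff₀ hη]
    calc a ^ 2 * nsq (lin w ξ) ≤ R * η * nsq ξ :=
          mul_le_mul ha2 (hw ξ) (nsq_nonneg _) (by positivity)
      _ = _ := by ring
  obtain ⟨hni, hnle⟩ := integral_nsq_gauss m
  have hXi : Integrable X (law (gd m 1)) := (hni.const_mul R).mono' hXc.aestronglyMeasurable
    (Filter.Eventually.of_forall fun ξ => by
      rw [Real.norm_eq_abs, abs_of_nonneg (hX0 ξ)]; exact hXR ξ)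
  refine ⟨hXi, ?_⟩
  set A := 15 * wC with hA
  have hA1 : 1 ≤ A := by linarith
  have hW := width_bound h hcov hm hw
  rw [← hA] at hW
  set q := Real.sqrt (Real.sqrt η) with hq
  have hqp : 0 < q := by positivity
  have hq4 : q ^ 4 = η := by
    rw [hq, show (4 : ℕ) = 2 * 2 from rfl, pow_mul, Real.sq_sqrt (Real.sqrt_nonneg _),
      Real.sq_sqrt hη.le]
  have haq : a ≤ Real.sqrt R * q ^ 2 := by
    rw [hq, Real.sq_sqrt (Real.sqrt_nonneg _), ← Real.sqrt_mul (by linarith)]
    exact Real.le_sqrt_of_sq_le ha2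
  have haW : a * W ≤ A * (Real.sqrt R * q) * m := by
    have hW0 : 0 ≤ A * m / q := by positivity
    calc a * W ≤ a * (A * m / q) := mul_le_mul_of_nonneg_left hW ha
      _ ≤ Real.sqrt R * q ^ 2 * (A * m / q) := mul_le_mul_of_nonneg_right haq hW0
      _ = _ := by field_simp
  have hA4 : A ≤ A ^ 4 := by simpa using pow_le_pow_right₀ hA1 (show 1 ≤ 4 by norm_num)
  have hT : 0 ≤ Real.sqrt R * q := by positivity
  rcases lt_or_ge ((m : ℝ) / 2) (a * W) with hbig | hsmall
  · refine (integral_mono hXi (hni.const_mul R) hXR).trans ?_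
    rw [integral_const_mul]
    have h1 : 1 / 2 < A * (Real.sqrt R * q) := by
      by_contra hc
      have := mul_le_mul_of_nonneg_right (not_lt.1 hc) (show (0 : ℝ) ≤ m by linarith)
      linarith
    have h2 : 1 ≤ 2 ^ 4 * A ^ 4 * (R ^ 2 * η) := by
      have : (1 : ℝ) ≤ (2 * (A * (Real.sqrt R * q))) ^ 4 := one_le_pow₀ (by linarith)
      have hs4 : Real.sqrt R ^ 4 = R ^ 2 := by
        rw [show (4 : ℕ) = 2 * 2 from rfl, pow_mul, Real.sq_sqrt (by linarith)]
      have e : (2 * (A * (Real.sqrt R * q))) ^ 4 = 2 ^ 4 * A ^ 4 * (R ^ 2 * η) := by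
        rw [← hq4, ← hs4]; ring
      rw [e] at this
      exact this
    have h3 : R ≤ 16 * A ^ 4 * (R ^ 3 * η) := by
      have := mul_le_mul_of_nonneg_left h2 (show (0 : ℝ) ≤ R by linarith)
      linarith
    calc R * ∫ ξ, nsq ξ ∂law (gd m 1) ≤ 16 * A ^ 4 * (R ^ 3 * η) * m :=
          mul_le_mul h3 hnle (integral_nonneg nsq_nonneg) (by positivity)
      _ ≤ _ := by
          refine mul_le_mul_of_nonneg_right (mul_le_mul_of_nonneg_left ?_ (by positivity)) (by linarith)
          linarith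
  -- the exceptional event
  have hHc : Continuous H := (continuous_wid h (by linarith)).comp (continuous_lin w)
  have hlip := lip_width h hm hw
  have hHi := (gauss_lip_integrable hHc hlip 0).1
  have hmain : ∀ ξ, a * H ξ < m → X ξ ≤ a * H ξ := fun ξ hlt => by
    rcases eq_or_lt_of_le ha with h0 | h0
    · simp [X, ← h0, lmgf_zero h]
    have key : min (X ξ) m ≤ a * H ξ := by
      rw [← div_le_iff₀' h0]
      refine le_wid fun s hs => ?_
      rw [div_le_div_iff₀ h0 hs]
      rcases le_or_gt a s with has | hsa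
      · have h1 := lmgf_smul_le h (s • lin w ξ) (a := a / s) (by positivity) ((div_le_one hs).2 has)
        rw [smul_smul, div_mul_cancel₀ _ hs.ne', div_mul_eq_mul_div, le_div_iff₀ hs] at h1
        have h2 := mul_le_mul_of_nonneg_right (min_le_left (X ξ) m) hs.le
        have h3 : 0 ≤ (m : ℝ) * a := by positivity
        linarith
      · have h2 := mul_le_mul_of_nonneg_right (min_le_right (X ξ) (m : ℝ)) hs.le
        have h3 := mul_le_mul_of_nonneg_left hsa.le (show (0 : ℝ) ≤ m by linarith)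
        have h4 := mul_nonneg (lmgf_nonneg h (s • lin w ξ)) ha
        linarith
    rcases min_choice (X ξ) (m : ℝ) with e | e <;> rw [e] at key <;> linarith
  set Bad := {ξ | (m : ℝ) ≤ a * H ξ}
  have hBm : MeasurableSet Bad := measurableSet_le measurable_const (hHc.measurable.const_mul a)
  set D := 1 / (256 * wC ^ 2 * R ^ 2 * η) with hD
  have hD0 : 0 < D := by positivity
  have hPB : (law (gd m 1)).real Bad ≤ Real.exp (-D) := by
    rcases eq_or_lt_of_le ha with h0 | h0
    · have : Bad = ∅ := by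
        ext ξ; simp only [Bad, mem_ofPred_eq, mem_empty_iff_false, iff_false, ← h0]; linarith
      rw [this, measureReal_empty]; positivity
    set Y := 1 / (wC ^ 2 * R * η) with hY
    rcases le_or_gt (m : ℝ) (Y / 4) with hmY | hmY
    · have hsub : Bad ⊆ {ξ | Real.exp (1 / 8 * Y) ≤ Real.exp (1 / 8 * nsq ξ)} := fun ξ hξ => by
        refine Real.exp_le_exp.2 (mul_le_mul_of_nonneg_left ?_ (by norm_num))
        have h1 := width_le_linear h hcov hm hw ξ
        have h2 : (m : ℝ) ≤ a * (wC * m * Real.sqrt (nsq ξ)) :=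
          le_trans hξ (mul_le_mul_of_nonneg_left h1 ha)
        have h3 : 1 ≤ a * wC * Real.sqrt (nsq ξ) := by
          refine le_of_mul_le_mul_left ?_ (show (0 : ℝ) < m by linarith)
          linarith
        have h4 := one_le_pow₀ (n := 2) h3
        rw [mul_pow, mul_pow, Real.sq_sqrt (nsq_nonneg ξ)] at h4
        rw [hY, div_le_iff₀ (by positivity)]
        have h5 := mul_le_mul_of_nonneg_right ha2 (mul_nonneg (sq_nonneg wC) (nsq_nonneg ξ))
        linarith
      obtain ⟨hgi, hgle⟩ := integral_exp_nsq_gauss (n := m) (show (0 : ℝ) ≤ 1 / 8 by norm_num)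
        (by norm_num)
      rw [← gd_one_eq] at hgi hgle
      have h1 := mul_meas_ge_le_integral_of_nonneg (μ := law (gd m 1))
        (Filter.Eventually.of_forall fun x => (Real.exp_pos _).le) hgi (Real.exp (1 / 8 * Y))
      have h2 := ((mul_le_mul_of_nonneg_left (measureReal_mono hsub) (Real.exp_pos _).le).trans
        h1).trans hgle
      rw [← le_div_iff₀' (Real.exp_pos _), ← Real.exp_sub] at h2
      refine h2.trans (Real.exp_le_exp.2 ?_)
      have hDY : D ≤ Y / 256 := by
        rw [hD, hY, div_div]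
        refine one_div_le_one_div_of_le (by positivity) ?_
        have h1 : R ≤ R ^ 2 := by nlinarith
        have := mul_le_mul_of_nonneg_left h1 (show 0 ≤ 256 * wC ^ 2 * η by positivity)
        linarith
      linarith
    · have hsub : Bad ⊆ {ξ | W + m / (2 * a) ≤ H ξ} := fun ξ hξ => by
        have h1 : (m : ℝ) ≤ a * H ξ := hξ
        show W + m / (2 * a) ≤ H ξ
        refine le_of_mul_le_mul_left ?_ h0
        have : a * ((m : ℝ) / (2 * a)) = m / 2 := by field_simp
        rw [mul_add, this]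
        linarith
      refine (measureReal_mono hsub).trans ((gauss_tail hHc (by positivity) hlip (by positivity)).trans ?_)
      refine Real.exp_le_exp.2 (neg_le_neg ?_)
      rw [mul_pow, Real.sq_sqrt (by positivity)]
      have e : ((m : ℝ) / (2 * a)) ^ 2 / (4 * (2 ^ 2 * (m / η))) = m * η / (64 * a ^ 2) := by
        field_simp; ring
      rw [e]
      have h1 : m / (64 * R) ≤ (m : ℝ) * η / (64 * a ^ 2) := by
        rw [div_le_div_iff₀ (by positivity) (by positivity)]
        have := mul_le_mul_of_nonneg_left ha2 (show (0 : ℝ) ≤ 64 * m by positivity)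
        linarith
      refine le_trans ?_ h1
      have e2 : D = Y / 4 / (64 * R) := by rw [hD, hY]; field_simp; ring
      rw [e2]
      exact div_le_div_of_nonneg_right hmY.le (by positivity)
  set E := Real.exp (D / 2)
  have hE : 0 < E := Real.exp_pos _
  have hpt : ∀ ξ, X ξ ≤ a * H ξ + R * (4 * m) *
      (E * Bad.indicator (fun _ => (1 : ℝ)) ξ + Real.exp (1 / (4 * m) * nsq ξ) / E) := fun ξ => by
    have hH0 : 0 ≤ a * H ξ := mul_nonneg ha (wid_nonneg h (by linarith) _)
    by_cases hξ : ξ ∈ Bad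
    · rw [indicator_of_mem hξ, mul_one]
      set y := Real.exp (1 / (8 * (m : ℝ)) * nsq ξ)
      have h1 : nsq ξ ≤ 8 * m * y := by
        have := Real.add_one_le_exp (1 / (8 * (m : ℝ)) * nsq ξ)
        have e : nsq ξ = 8 * m * (1 / (8 * (m : ℝ)) * nsq ξ) := by field_simp
        calc nsq ξ = 8 * m * (1 / (8 * (m : ℝ)) * nsq ξ) := e
          _ ≤ _ := mul_le_mul_of_nonneg_left (by linarith) (by positivity)
      have h2 : Real.exp (1 / (4 * (m : ℝ)) * nsq ξ) = y ^ 2 := by
        rw [pow_two, ← Real.exp_add]; congr 1; field_simp; ring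
      have h3 : 2 * y ≤ E + y ^ 2 / E := by
        rw [← sub_nonneg, show E + y ^ 2 / E - 2 * y = (E - y) ^ 2 / E by field_simp; ring]
        positivity
      rw [h2]
      have h4 := hXR ξ
      have h5 := mul_le_mul_of_nonneg_left h1 (show (0 : ℝ) ≤ R by linarith)
      have h6 := mul_le_mul_of_nonneg_left h3 (show (0 : ℝ) ≤ R * (4 * m) by positivity)
      linarith
    · rw [indicator_of_notMem hξ, mul_zero, zero_add]
      refine (hmain ξ (not_le.1 hξ)).trans (le_add_of_nonneg_right ?_)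
      positivity
  obtain ⟨hgi, hgle⟩ := integral_exp_nsq_gauss (n := m) (show (0 : ℝ) ≤ 1 / (4 * m) by positivity)
    (by rw [div_le_div_iff₀ (by positivity) (by norm_num)]; linarith)
  rw [← gd_one_eq] at hgi hgle
  have hg2 : ∫ g, Real.exp (1 / (4 * m) * nsq g) ∂law (gd m 1) ≤ 2 := by
    refine hgle.trans ?_
    rw [show 2 * (1 / (4 * (m : ℝ))) * m = 1 / 2 by field_simp; ring, Real.exp_half,
      Real.sqrt_le_iff]
    exact ⟨by norm_num, by linarith [Real.exp_one_lt_d9]⟩
  have hi1 : Integrable (fun ξ => E * Bad.indicator (fun _ => (1 : ℝ)) ξ) (law (gd m 1)) :=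
    ((integrable_const (1 : ℝ)).indicator hBm).const_mul E
  have hi2 := hgi.div_const E
  have hi3 : Integrable (fun ξ => R * (4 * m) *
      (E * Bad.indicator (fun _ => (1 : ℝ)) ξ + Real.exp (1 / (4 * m) * nsq ξ) / E))
      (law (gd m 1)) := (hi1.add hi2).const_mul _
  refine (integral_mono hXi ((hHi.const_mul a).add hi3) hpt).trans ?_
  simp only [Pi.add_apply]
  rw [integral_add (hHi.const_mul a) hi3, integral_const_mul, integral_const_mul]
  rw [integral_add hi1 hi2, integral_const_mul, integral_indicator hBm, integral_div,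
    setIntegral_const, smul_eq_mul, mul_one]
  have h1 : E * (law (gd m 1)).real Bad ≤ 1 / E := by
    refine (mul_le_mul_of_nonneg_left hPB hE.le).trans (le_of_eq ?_)
    simp only [E]
    rw [← Real.exp_add, one_div, ← Real.exp_neg]
    congr 1; ring
  have h2 : (∫ g, Real.exp (1 / (4 * m) * nsq g) ∂law (gd m 1)) / E ≤ 2 / E :=
    div_le_div_of_nonneg_right hg2 hE.le
  have h3 : 1 / E ≤ 512 * wC ^ 2 * R ^ 2 * η := by
    have := Real.add_one_le_exp (D / 2)
    refine (one_div_le_one_div_of_le (show 0 < D / 2 by positivity) (by linarith)).trans (le_of_eq ?_)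
    rw [hD]; field_simp; ring
  have h4 : E * (law (gd m 1)).real Bad
      + (∫ g, Real.exp (1 / (4 * m) * nsq g) ∂law (gd m 1)) / E ≤ 1536 * wC ^ 2 * R ^ 2 * η := by
    have e : (2 : ℝ) / E = 2 * (1 / E) := by ring
    linarith
  refine (add_le_add haW (mul_le_mul_of_nonneg_left h4 (by positivity))).trans ?_
  have hw2 : 384 * wC ^ 2 ≤ A ^ 4 := by
    rw [hA, mul_pow]
    have := pow_le_pow_right₀ hC (show 2 ≤ 4 by norm_num)
    nlinarith [sq_nonneg wC]
  have h5 := mul_le_mul_of_nonneg_right hA4 (show 0 ≤ Real.sqrt R * q * m by positivity)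
  have h6 := mul_le_mul_of_nonneg_right hw2 (show 0 ≤ R ^ 3 * η * m by positivity)
  have h7 : 0 ≤ A ^ 4 * (Real.sqrt R * q * m) := by positivity
  linarith

end

end

end Vale.Agent.P245.General
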