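import Vale.Agent.P245.Gen2.Basic
import Vale.Agent.P245.Gen2.Tilt
import Vale.Agent.P245.General.EpBasic

/-!
# The excited-rank lemma

A tilt of a uniformly log-concave law of bounded covariance has few directions of variance of order
`1/η`: `η * tr (Cov of the tilt in m directions) ≤ C η^(1/6) (m + |a|^2/η)`.
-/

open MeasureTheory Set

namespace Vale.Agent.P245.General

noncomputable section

variable {n m : ℕ} {η : ℝ} {ρ : (Fin n → ℝ) → ℝ}

/-- The coordinates of a point along the columns `w`. -/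
def proj (w : Fin m → Fin n → ℝ) (z : Fin n → ℝ) : Fin m → ℝ := fun i => dotp (w i) z

theorem dotp_lin (w : Fin m → Fin n → ℝ) (v : Fin m → ℝ) (z : Fin n → ℝ) :
    dotp (lin w v) z = dotp v (proj w z) := by
  simp only [dotp, lin, proj, Finset.sum_apply, Pi.smul_apply, smul_eq_mul, Finset.sum_mul,
    Finset.mul_sum, mul_assoc]
  exact Finset.sum_comm

theorem continuous_proj (w : Fin m → Fin n → ℝ) : Continuous (proj w) :=
  continuous_pi fun i => continuous_dotp (w i)

theorem ulc_mono (h : Ulc η ρ) {η' : ℝ} (h0 : 0 < η') (hle : η' ≤ η) : Ulc η' ρ where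
  pos := h0
  meas := h.meas
  nonneg := h.nonneg
  mass := h.mass
  conc x y a b ha hb hab := by
    refine le_trans (mul_le_mul_of_nonneg_left (Real.exp_le_exp.2 ?_)
      (mul_nonneg (Real.rpow_nonneg (h.nonneg x) a) (Real.rpow_nonneg (h.nonneg y) b)))
      (h.conc x y a b ha hb hab)
    exact mul_le_mul_of_nonneg_right (by gcongr) (nsq_nonneg _)

theorem ulc_tilt0 (h : Ulc η ρ) (a : Fin n → ℝ) : Ulc η (post ρ 0 a) := by
  simpa using post_ulc h le_rfl a

/-- The log moment generating function of a tilt. -/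
theorem lmgf_tilt (h : Ulc η ρ) (a v : Fin n → ℝ) :
    lmgf (post ρ 0 a) v
      = lmgf ρ (a + v) - lmgf ρ a - dotp v (center (post ρ 0 a) - center ρ) := by
  set d := center (post ρ 0 a)
  set c := center ρ
  have hz : ∀ u : Fin n → ℝ, 0 < ∫ x, Real.exp (dotp u (x - c)) ∂law ρ :=
    fun u => lt_of_lt_of_le one_pos (one_le_mgf h u)
  have hnum : ∫ x, Real.exp (dotp v (x - d)) * wgt 0 a x ∂law ρ
      = Real.exp (dotp a c - dotp v (d - c)) * ∫ x, Real.exp (dotp (a + v) (x - c)) ∂law ρ := by
    rw [← integral_const_mul]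
    refine integral_congr_ae (Filter.Eventually.of_forall fun x => ?_)
    simp only [wgt, ← Real.exp_add, dotp_sub, dotp_add]
    congr 1
    ring
  have hpart : part ρ 0 a = Real.exp (dotp a c) * ∫ x, Real.exp (dotp a (x - c)) ∂law ρ := by
    rw [← integral_const_mul, part, num]
    refine integral_congr_ae (Filter.Eventually.of_forall fun x => ?_)
    simp only [wgt, ← Real.exp_add, dotp_sub]
    rw [one_mul]
    congr 1
    ring
  simp only [lmgf]
  rw [integral_post h le_rfl, mg, num, hnum, hpart,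
    Real.log_div (mul_ne_zero (Real.exp_ne_zero _) (hz _).ne')
      (mul_ne_zero (Real.exp_ne_zero _) (hz _).ne'),
    Real.log_mul (Real.exp_ne_zero _) (hz _).ne', Real.log_mul (Real.exp_ne_zero _) (hz _).ne',
    Real.log_exp, Real.log_exp]
  ring

/-- The variance along `w` bounds the Gaussian average of the log moment generating function. -/
theorem cov_le_lmgf (h : Ulc η ρ) (w : Fin m → Fin n → ℝ)
    (hw : ∀ ξ, nsq (lin w ξ) ≤ nsq ξ) :
    Integrable (fun ξ => lmgf ρ ((2 * Real.sqrt (η / 8)) • lin w ξ)) (law (gd m 1)) ∧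
      η / 16 * ∑ i, covc ρ (dotp (w i)) (dotp (w i))
        ≤ ∫ ξ, lmgf ρ ((2 * Real.sqrt (η / 8)) • lin w ξ) ∂law (gd m 1) := by
  have hη := h.pos
  set s := η / 8 with hs'
  have hs : 0 < s := by positivity
  set c := center ρ
  set y := fun x => proj w (x - c)
  have hyc : Continuous y := (continuous_proj w).comp (continuous_id.sub continuous_const)
  set L := fun θ => lmgf ρ (lin w θ)
  have hLc : Continuous L := (continuous_lmgf h).comp (continuous_lin w)
  have hL0 : ∀ θ, 0 ≤ L θ := fun θ => lmgf_nonneg h _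
  have hLq : ∀ θ, L θ ≤ nsq θ / η := fun θ =>
    (lmgf_le h _).trans (div_le_div_of_nonneg_right (hw θ) hη.le)
  set γ := law (gd m s)
  have := isProb h
  have := isProb_gd (n := m) hs
  -- the variance
  set T := ∑ i, covc ρ (dotp (w i)) (dotp (w i))
  have hyi : Integrable (fun x => nsq (y x)) (law ρ) ∧ ∫ x, nsq (y x) ∂law ρ = T := by
    have h1 : ∀ i, Integrable (fun x => dotp (w i) (x - c) ^ 2) (law ρ) := fun i => by
      refine integrable_polyB h (by unfold dotp; fun_prop)
        (polyB_pow_two (f := fun x => dotp (w i) (x - c)) ?_)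
      have e : (fun x => dotp (w i) (x - c)) = fun x => dotp (w i) x + -dotp (w i) c :=
        funext fun x => by rw [dotp_sub]; ring
      rw [e]
      exact polyB_add (polyB_dotp _) (polyB_const _)
    refine ⟨integrable_finsetSum _ fun i _ => h1 i, ?_⟩
    simp only [y, nsq, proj]
    rw [integral_finsetSum _ fun i _ => h1 i]
    refine Finset.sum_congr rfl fun i _ => ?_
    obtain ⟨hi, h0⟩ := integral_dotp_centred h (w i)
    have hm : ∫ x, dotp (w i) x ∂law ρ = dotp (w i) c := by
      simp only [dotp_sub] at h0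
      rw [integral_sub (integrable_polyB h (by unfold dotp; fun_prop) (polyB_dotp _))
        (integrable_const _), integral_const, probReal_univ, one_smul, sub_eq_zero] at h0
      exact h0
    simp only [covc, hm, dotp_sub, pow_two]
  -- the exponential identity
  set V := fun p : (Fin n → ℝ) × (Fin m → ℝ) =>
    (s / 2 - 2 * s ^ 2 / η) * nsq (y p.1) - L ((2 : ℝ) • p.2) / 2
  have hVc : Continuous V := by
    refine (continuous_const.mul (continuous_nsq.comp (hyc.comp continuous_fst))).sub ?_
    exact (hLc.comp (continuous_snd.const_smul (2 : ℝ))).div_const 2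
  have hconv : ∀ θ z, L (θ + s • z) ≤ L ((2 : ℝ) • θ) / 2 + 2 * s ^ 2 * nsq z / η := fun θ z => by
    have h1 := lmgf_convex h (lin w ((2 : ℝ) • θ)) (lin w ((2 * s) • z)) (a := 1 / 2) (b := 1 / 2)
      (by norm_num) (by norm_num) (by norm_num)
    rw [← lin_smul, ← lin_smul, ← lin_add, smul_smul, smul_smul,
      show (1 : ℝ) / 2 * 2 = 1 by norm_num, show (1 : ℝ) / 2 * (2 * s) = s by ring, one_smul] at h1
    have h2 := hLq ((2 * s) • z)
    rw [nsq_smul_eq] at h2
    simp only [L] at h2 ⊢
    have e : (2 * s) ^ 2 * nsq z / η = 2 * (2 * s ^ 2 * nsq z / η) := by ring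
    linarith
  set F := fun θ => ENNReal.ofReal (Real.exp (-L θ))
  have hFm : Measurable F := (Real.continuous_exp.comp hLc.neg).measurable.ennreal_ofReal
  have hexp : ∫⁻ p, ENNReal.ofReal (Real.exp (V p)) ∂(law ρ).prod γ ≤ 1 := by
    rw [lintegral_prod (fun p => ENNReal.ofReal (Real.exp (V p)))
      (Real.continuous_exp.comp hVc).measurable.ennreal_ofReal.aemeasurable]
    calc ∫⁻ x, ∫⁻ θ, ENNReal.ofReal (Real.exp (V (x, θ))) ∂γ ∂law ρ
        ≤ ∫⁻ x, ENNReal.ofReal (Real.exp (s / 2 * nsq (y x))) *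
            ∫⁻ θ, F (θ + s • y x) ∂γ ∂law ρ := by
          refine lintegral_mono fun x => ?_
          have hm1 : Measurable fun θ => F (θ + s • y x) := hFm.comp (measurable_id.add_const _)
          rw [← lintegral_const_mul _ hm1]
          refine lintegral_mono fun θ => ?_
          simp only [F]
          rw [← ENNReal.ofReal_mul (Real.exp_pos _).le, ← Real.exp_add]
          refine ENNReal.ofReal_le_ofReal (Real.exp_le_exp.2 ?_)
          have h1 := hconv θ (y x)
          have e : 2 * s ^ 2 / η * nsq (y x) = 2 * s ^ 2 * nsq (y x) / η := by ring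
          simp only [V, sub_mul]
          linarith
      _ = ∫⁻ x, ∫⁻ θ, F θ * ENNReal.ofReal (Real.exp (dotp θ (y x))) ∂γ ∂law ρ := by
          refine lintegral_congr fun x => ?_
          have hm2 : Measurable fun θ => F θ * ENNReal.ofReal (wgt s θ (y x)) :=
            hFm.mul (by unfold wgt dotp nsq; fun_prop)
          rw [lintegral_gd_shift hs hFm, ← lintegral_const_mul _ hm2]
          refine lintegral_congr fun θ => ?_
          rw [mul_left_comm, ← ENNReal.ofReal_mul (Real.exp_pos _).le, wgt, ← Real.exp_add,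
            add_sub_cancel]
      _ = ∫⁻ θ, ∫⁻ x, F θ * ENNReal.ofReal (Real.exp (dotp θ (y x))) ∂law ρ ∂γ :=
          lintegral_lintegral_swap
            ((hFm.comp measurable_snd).mul
              (Real.continuous_exp.comp (continuous_dotp2.comp
                (continuous_snd.prodMk (hyc.comp continuous_fst)))).measurable.ennreal_ofReal).aemeasurable
      _ = ∫⁻ _θ, 1 ∂γ := by
          refine lintegral_congr fun θ => ?_
          rw [lintegral_const_mul' _ _ ENNReal.ofReal_ne_top,
            ← ofReal_integral_eq_lintegral_ofReal]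
          · simp only [y, ← dotp_lin]
            rw [← exp_lmgf h, ← ENNReal.ofReal_mul (Real.exp_pos _).le, ← Real.exp_add,
              neg_add_cancel, Real.exp_zero, ENNReal.ofReal_one]
          · simp only [y, ← dotp_lin]; exact integrable_linear_mgf h _
          · exact Filter.Eventually.of_forall fun x => (Real.exp_pos _).le
      _ = 1 := by simp
  -- Jensen
  obtain ⟨hgi, hgle⟩ := integral_nsq_gauss m
  have hLi : ∀ a : ℝ, Integrable (fun ξ => L (a • ξ)) (law (gd m 1)) := fun a =>
    (hgi.const_mul (a ^ 2 / η)).mono' (hLc.comp (continuous_const_smul a)).aestronglyMeasurable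
      (Filter.Eventually.of_forall fun ξ => by
        rw [Real.norm_eq_abs, abs_of_nonneg (hL0 _)]
        refine (hLq _).trans_eq ?_
        rw [nsq_smul_eq]; ring)
  set α := 2 * Real.sqrt s
  have hγ : Integrable (fun θ => L ((2 : ℝ) • θ)) γ ∧
      ∫ θ, L ((2 : ℝ) • θ) ∂γ = ∫ ξ, L (α • ξ) ∂law (gd m 1) := by
    constructor
    · simp only [γ]
      rw [law_gd_eq hs, (measurableEmbedding_const_smul₀ (Real.sqrt_pos.2 hs).ne').integrable_map_iff,
        ← gd_one_eq]
      simpa [Function.comp_def, smul_smul] using hLi α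
    · simp only [γ]
      rw [integral_gd hs, ← gd_one_eq]
      simp only [smul_smul, α]
  have hA : Integrable (fun p : (Fin n → ℝ) × (Fin m → ℝ) => nsq (y p.1)) ((law ρ).prod γ) :=
    hyi.1.comp_fst γ
  have hB : Integrable (fun p : (Fin n → ℝ) × (Fin m → ℝ) => L ((2 : ℝ) • p.2)) ((law ρ).prod γ) :=
    hγ.1.comp_snd (law ρ)
  have hVi : Integrable V ((law ρ).prod γ) := (hA.const_mul _).sub (hB.div_const 2)
  have hEi : Integrable (fun p => Real.exp (V p)) ((law ρ).prod γ) := by
    refine ⟨(Real.continuous_exp.comp hVc).aestronglyMeasurable, ?_⟩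
    rw [hasFiniteIntegral_iff_ofReal (Filter.Eventually.of_forall fun p => (Real.exp_pos _).le)]
    exact lt_of_le_of_lt hexp ENNReal.one_lt_top
  have hle1 : ∫ p, Real.exp (V p) ∂(law ρ).prod γ ≤ 1 := by
    rw [integral_eq_lintegral_of_nonneg_ae
      (Filter.Eventually.of_forall fun p => (Real.exp_pos _).le) hEi.aestronglyMeasurable]
    exact ENNReal.toReal_le_of_le_ofReal zero_le_one (by simpa using hexp)
  have hJ : ∫ p, V p ∂(law ρ).prod γ ≤ 0 := by
    have := integral_mono (hVi.add (integrable_const 1)) hEi fun p => Real.add_one_le_exp (V p)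
    simp only [Pi.add_apply] at this
    rw [integral_add hVi (integrable_const _), integral_const, probReal_univ, one_smul] at this
    linarith
  have e : ∫ p, V p ∂(law ρ).prod γ
      = (s / 2 - 2 * s ^ 2 / η) * T - (∫ ξ, L (α • ξ) ∂law (gd m 1)) / 2 := by
    simp only [V]
    rw [integral_sub (hA.const_mul _) (hB.div_const 2), integral_const_mul, integral_div,
      integral_fun_fst (fun x => nsq (y x)), integral_fun_snd (fun θ => L ((2 : ℝ) • θ))]
    simp [hyi.2, hγ.2]
  have hco : s / 2 - 2 * s ^ 2 / η = η / 32 := by rw [hs']; field_simp; ring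
  rw [e, hco] at hJ
  simp only [L, lin_smul] at hJ hLi
  exact ⟨hLi α, by linarith⟩

/-- **The excited-rank inequality**, with a free exponent. -/
theorem rank_tilt {w : Fin m → Fin n → ℝ} (h : Ulc η ρ) (hcov : CovLe ρ 3) (hm : 1 ≤ m)
    (hw : ∀ ξ, nsq (lin w ξ) ≤ nsq ξ) (a : Fin n → ℝ) {p : ℝ} (hp : 2 ≤ p) :
    η * ∑ i, covc (post ρ 0 a) (dotp (w i)) (dotp (w i))
      ≤ 16 * (16 * (15 * wC) ^ 4) * ((Real.sqrt (Real.sqrt η) + p ^ 5 * η) * m)
        + 32 * (nsq a / (p * η)) := by
  have hη := h.pos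
  have ht := ulc_tilt0 h a
  obtain ⟨hi, hlow⟩ := cov_le_lmgf ht w hw
  set α := 2 * Real.sqrt (η / 8)
  have hα2 : α ^ 2 = η / 2 := by
    simp only [α]; rw [mul_pow, Real.sq_sqrt (by positivity)]; ring
  set d := center (post ρ 0 a) - center ρ
  set e := 1 / (p - 1) with he
  have hp1 : 0 < p - 1 := by linarith
  have he0 : 0 ≤ e := by positivity
  have hq : (1 - 1 / p) * (1 + e) = 1 := by rw [he]; field_simp; ring
  have hself : (1 - 1 / p) * lmgf ρ ((1 + e) • a) - lmgf ρ a ≤ e * (nsq a / η) := by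
    have h1 := lmgf_tilt h a (e • a)
    have h2 := lmgf_tilt h a (-a)
    have h3 := lmgf_le ht (e • a)
    have h4 := lmgf_le ht (-a)
    rw [show nsq (-a) = nsq a by simp [nsq]] at h4
    rw [add_neg_cancel, lmgf_zero h, show dotp (-a) d = -dotp a d by simp [dotp]] at h2
    rw [dotp_smul, show a + e • a = (1 + e) • a by rw [add_smul, one_smul]] at h1
    rw [nsq_smul_eq, mul_div_assoc] at h3
    have h5 : dotp a d ≤ lmgf ρ a + nsq a / η := by linarith
    have h6 := mul_le_mul_of_nonneg_left h5 he0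
    have h7 : lmgf ρ ((1 + e) • a) ≤ (1 + e) * (lmgf ρ a + e * (nsq a / η)) := by linarith
    have h8 := mul_le_mul_of_nonneg_left h7
      (show 0 ≤ 1 - 1 / p by rw [sub_nonneg, div_le_one (by linarith)]; linarith)
    rw [← mul_assoc, hq, one_mul] at h8
    linarith
  have hpt : ∀ ξ, lmgf (post ρ 0 a) (α • lin w ξ)
      ≤ 1 / p * lmgf ρ ((p * α) • lin w ξ) + e * (nsq a / η) - α * dotp ξ (proj w d) := fun ξ => by
    rw [lmgf_tilt h a, dotp_smul, dotp_lin]
    have h1 := lmgf_convex h ((p * α) • lin w ξ) ((1 + e) • a) (a := 1 / p) (b := 1 - 1 / p)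
      (by positivity) (by rw [sub_nonneg, div_le_one (by linarith)]; linarith)
      (by ring)
    rw [smul_smul, smul_smul, hq, one_smul, ← mul_assoc, one_div_mul_cancel (by linarith : p ≠ 0),
      one_mul, add_comm] at h1
    linarith
  obtain ⟨hTi, hTle⟩ := gauss_tilt_bound h hcov hm hw (R := p ^ 2) (a := p * α) (by nlinarith)
    (by positivity) (by rw [mul_pow, hα2]; nlinarith [sq_nonneg p])
  have hgd := gd_ulc (n := m) one_pos
  obtain ⟨hdi, hd0⟩ := integral_dotp_centred hgd (proj w d)
  have := isProb hgd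
  simp only [center_gd one_pos, sub_zero] at hdi hd0
  have hcomm : ∀ ξ, dotp ξ (proj w d) = dotp (proj w d) ξ := fun ξ => by
    simp only [dotp, mul_comm]
  simp only [hcomm] at hpt
  have hint := (hTi.const_mul (1 / p)).add (integrable_const (e * (nsq a / η)))
  have hup := integral_mono hi (hint.sub (hdi.const_mul α)) hpt
  simp only [Pi.sub_apply, Pi.add_apply] at hup
  have hint' : Integrable (fun ξ => 1 / p * lmgf ρ ((p * α) • lin w ξ) + e * (nsq a / η))
      (law (gd m 1)) := hint
  rw [integral_sub hint' (hdi.const_mul α)] at hup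
  rw [integral_add (hTi.const_mul _) (integrable_const _), integral_const, probReal_univ, one_smul,
    integral_const_mul, integral_const_mul, hd0, mul_zero, sub_zero] at hup
  have hT2 := mul_le_mul_of_nonneg_left hTle (show 0 ≤ 1 / p by positivity)
  have e1 : 1 / p * (16 * (15 * wC) ^ 4
      * (Real.sqrt (p ^ 2) * Real.sqrt (Real.sqrt η) + (p ^ 2) ^ 3 * η) * m)
      = 16 * (15 * wC) ^ 4 * ((Real.sqrt (Real.sqrt η) + p ^ 5 * η) * m) := by
    rw [Real.sqrt_sq (by linarith)]; field_simp
  have e2 : e * (nsq a / η) ≤ 2 * (nsq a / (p * η)) := by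
    have h1 : e ≤ 2 / p := by
      rw [he, div_le_div_iff₀ hp1 (by linarith)]; linarith
    refine (mul_le_mul_of_nonneg_right h1 (div_nonneg (nsq_nonneg a) hη.le)).trans_eq ?_
    field_simp
  linarith

/-- **The excited-rank lemma.** -/
theorem rank_bound : ∃ C : ℝ, 1 ≤ C ∧ ∀ (n m : ℕ) (η : ℝ) (ρ : (Fin n → ℝ) → ℝ)
    (w : Fin m → Fin n → ℝ) (a : Fin n → ℝ), Ulc η ρ → η ≤ 1 → CovLe ρ 3 →
    (∀ ξ, nsq (lin w ξ) ≤ nsq ξ) →
      η * ∑ i, covc (post ρ 0 a) (dotp (w i)) (dotp (w i))
        ≤ C * η ^ (1 / 6 : ℝ) * (m + nsq a / η) := by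
  have hwC := one_le_wC
  set A := 16 * (16 * (15 * wC) ^ 4) with hA
  have hA1 : 256 ≤ A := by
    have : (1 : ℝ) ≤ (15 * wC) ^ 4 := one_le_pow₀ (by linarith)
    linarith
  refine ⟨2 * A, by linarith, fun n m η ρ w a h hη1 hcov hw => ?_⟩
  have hη := h.pos
  set u := η ^ (1 / 6 : ℝ) with hu
  have hu0 : 0 < u := Real.rpow_pos_of_pos hη _
  have hu6 : u ^ 6 = η := by
    rw [hu, ← Real.rpow_natCast, ← Real.rpow_mul hη.le]; norm_num
  have hN : 0 ≤ nsq a / η := div_nonneg (nsq_nonneg a) hη.le
  rcases Nat.eq_zero_or_pos m with rfl | hm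
  · simp only [Finset.univ_eq_empty, Finset.sum_empty, mul_zero, Nat.cast_zero, zero_add]
    positivity
  rcases le_or_gt u (1 / 2) with hsm | hbig
  · have hp : 2 ≤ 1 / u := by rw [le_div_iff₀ hu0]; linarith
    have := rank_tilt h hcov hm hw a hp
    have h1 : Real.sqrt (Real.sqrt η) ≤ u := by
      rw [Real.sqrt_le_left hu0.le, Real.sqrt_le_left (sq_nonneg u), ← hu6, ← pow_mul]
      exact pow_le_pow_of_le_one hu0.le (by linarith) (by norm_num)
    have h2 : (1 / u) ^ 5 * η = u := by rw [← hu6]; field_simp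
    have h3 : nsq a / (1 / u * η) = u * (nsq a / η) := by field_simp
    rw [h2, h3] at this
    have h4 : A * ((Real.sqrt (Real.sqrt η) + u) * m) ≤ 2 * A * u * m := by
      have := mul_le_mul_of_nonneg_left (add_le_add_left h1 u)
        (show 0 ≤ A * (m : ℝ) by positivity)
      linarith
    have h5 : 32 * (u * (nsq a / η)) ≤ 2 * A * u * (nsq a / η) := by
      have := mul_le_mul_of_nonneg_right (show (32 : ℝ) ≤ 2 * A by linarith) (mul_nonneg hu0.le hN)
      linarith
    linarith
  · have hc := covLe_inv (ulc_tilt0 h a)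
    have hw1 : ∀ i, nsq (w i) ≤ 1 := fun i => by
      have h0 := hw (Pi.single i 1)
      have e1 : lin w (Pi.single i (1 : ℝ)) = w i := by simp [lin, Pi.single_apply, ite_smul]
      have e2 : nsq (Pi.single i (1 : ℝ)) = 1 := by simp [nsq, Pi.single_apply]
      rwa [e1, e2] at h0
    have h1 : η * ∑ i, covc (post ρ 0 a) (dotp (w i)) (dotp (w i)) ≤ m := by
      rw [Finset.mul_sum]
      refine (Finset.sum_le_sum fun i _ => ?_).trans_eq
        (show ∑ _i : Fin m, (1 : ℝ) = m by simp)
      have := mul_le_mul_of_nonneg_left ((hc (w i)).trans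
        (mul_le_mul_of_nonneg_left (hw1 i) (show 0 ≤ 1 / η by positivity))) hη.le
      rwa [mul_one, mul_one_div_cancel hη.ne'] at this
    have h2 : (m : ℝ) ≤ 2 * A * u * m := le_mul_of_one_le_left (by positivity) (by nlinarith)
    have h3 : 0 ≤ 2 * A * u * (nsq a / η) := by positivity
    linarith

/-- An orthonormal family is a contraction. -/
theorem nsq_lin_orth {w : Fin m → Fin n → ℝ}
    (hw : ∀ i j, dotp (w i) (w j) = if i = j then 1 else 0) (ξ : Fin m → ℝ) :
    nsq (lin w ξ) = nsq ξ := by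
  have h : proj w (lin w ξ) = ξ := funext fun i => by
    have hc : dotp (w i) (lin w ξ) = dotp (lin w ξ) (w i) := by simp only [dotp, mul_comm]
    rw [show proj w (lin w ξ) i = dotp (w i) (lin w ξ) from rfl, hc, dotp_lin]
    rw [show proj w (w i) = fun j => dotp (w j) (w i) from rfl]
    simp only [hw]
    simp [dotp]
  have e : ∀ {k : ℕ} (z : Fin k → ℝ), nsq z = dotp z z := fun z => by
    simp only [nsq, dotp, pow_two]
  rw [e, dotp_lin, h, ← e]

end

end Vale.Agent.P245.General

namespace Vale.Agent.P245.Gen2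

open MeasureTheory General

/-- Few orthonormal directions can have variance of order the inverse time under a small tilt of a
posterior with bounded covariance. -/
theorem rank_le (ε : ℝ) (hε : 0 < ε) (hε1 : ε ≤ 1) : ∃ C a r₀ : ℝ, 0 < C ∧ 0 < a ∧ 0 < r₀ ∧
    ∀ (n m : ℕ) (η : ℝ) (ρ : St n → ℝ), Ulc η ρ → ∀ r : ℝ, 0 ≤ r → η + r ≤ r₀ →
      ∀ θ θ' : St n, CovLe (post ρ r θ) 3 →
        ∀ (w : Fin m → St n) (M : ℝ),
          (∀ i j, dotp (w i) (w j) = if i = j then 1 else 0) →
          (∀ j, M ≤ covc (post ρ r θ') (dotp (w j)) (dotp (w j))) →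
          ε ^ 2 ≤ (η + r) * M →
          (m : ℝ) ≤ C * (η + r) ^ a * (nsq (θ' - θ) / (η + r)) := by
  obtain ⟨C₀, hC1, hC⟩ := rank_bound
  set b := ε ^ 2 / (2 * C₀)
  have hb : 0 < b := by positivity
  refine ⟨2 * C₀ / ε ^ 2, 1 / 6, min 1 (b ^ 6), by positivity, by norm_num, by positivity,
    fun n m η ρ h r hr hsmall θ θ' hcov w M hw hM hεM => ?_⟩
  have hs : 0 < η + r := by linarith [h.pos]
  have hs1 : η + r ≤ 1 := hsmall.trans (min_le_left _ _)
  set u := (η + r) ^ (1 / 6 : ℝ) with hu
  have hu6 : u ^ 6 = η + r := by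
    rw [hu, ← Real.rpow_natCast, ← Real.rpow_mul hs.le]; norm_num
  have hub : u ≤ b := le_of_pow_le_pow_left₀ (n := 6) (by norm_num) hb.le
    (hu6 ▸ hsmall.trans (min_le_right _ _))
  have key := hC n m (η + r) (post ρ r θ) w (θ' - θ) (post_ulc h hr θ) hs1 hcov
    fun ξ => (nsq_lin_orth hw ξ).le
  rw [post_post h hr le_rfl, add_zero, add_sub_cancel] at key
  have hsum : (m : ℝ) * M ≤ ∑ i, covc (post ρ r θ') (dotp (w i)) (dotp (w i)) := by
    refine le_trans (le_of_eq ?_) (Finset.sum_le_sum fun i _ => hM i)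
    simp
  have h1 := mul_le_mul_of_nonneg_left hsum hs.le
  have h2 := mul_le_mul_of_nonneg_left hεM (Nat.cast_nonneg (α := ℝ) m)
  have h3 : C₀ * u * m ≤ ε ^ 2 / 2 * m := by
    refine mul_le_mul_of_nonneg_right ((mul_le_mul_of_nonneg_left hub (by linarith)).trans_eq ?_)
      (Nat.cast_nonneg m)
    simp only [b]; field_simp
  rw [div_mul_eq_mul_div, div_mul_eq_mul_div, le_div_iff₀ (by positivity)]
  linarith

end Vale.Agent.P245.Gen2
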