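import Vale.Agent.P245.Gen2.OneStep
import Vale.Agent.P245.Gen2.Rank
import Vale.Agent.P245.Gen2.Facts
import Mathlib.Topology.ContinuousMap.Weierstrass

/-!
# P245, polylogarithmic bound: a polynomial cut of the posterior covariance
-/

open MeasureTheory Polynomial Matrix

namespace Vale.Agent.P245.Gen2

open General

noncomputable section

variable {n : ℕ} {η D r : ℝ} {ρ : St n → ℝ}

/-- The cut of a vector by the polynomial `q` of the posterior covariance. -/
def cutVec (ρ : St n → ℝ) (q : ℝ[X]) (r : ℝ) (θ u : St n) : St n :=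
  (Polynomial.aeval (covMat ρ r θ) q) *ᵥ u

/-- The squared Frobenius norm of the cut covariance. -/
def excess (ρ : St n → ℝ) (q : ℝ[X]) (r : ℝ) (θ : St n) : ℝ :=
  ∑ i, nsq (slope ρ r θ (cutVec ρ q r θ (Pi.single i 1)))

/-- A polynomial close to the indicator of `(M, ∞)` on `[0, L]`. -/
theorem exists_cut {L M δ : ℝ} (hL : 0 < L) (hM : 0 < M) (hδ : 0 < δ) : ∃ q : ℝ[X],
    ∀ x, 0 ≤ x → x ≤ L →
      |q.eval x| ≤ 1 + δ ∧ |(1 - q.eval x) * x| ≤ 3 * M ∧ (x ≤ M → |q.eval x| ≤ δ) := by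
  set φ : ℝ → ℝ := fun x => max 0 (min 1 (x / M - 1))
  have hφ : Continuous φ := by unfold φ; fun_prop
  set e := min δ (M / L)
  have he : 0 < e := lt_min hδ (div_pos hM hL)
  obtain ⟨q, hq⟩ := exists_polynomial_near_of_continuousOn 0 L φ hφ.continuousOn e he
  refine ⟨q, fun x hx0 hxL => ?_⟩
  have h1 := (hq x ⟨hx0, hxL⟩).le
  have hφ0 : 0 ≤ φ x := le_max_left _ _
  have hφ1 : φ x ≤ 1 := max_le zero_le_one (min_le_left _ _)
  have heδ : e ≤ δ := min_le_left _ _
  obtain ⟨h2, h3⟩ := abs_le.1 h1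
  refine ⟨abs_le.2 ⟨by linarith, by linarith⟩, ?_, fun hxM => ?_⟩
  · have h4 : (1 - φ x) * x ≤ 2 * M := by
      rcases le_or_gt x (2 * M) with hx | hx
      · exact (mul_le_of_le_one_left hx0 (by linarith)).trans hx
      · have : 1 ≤ x / M - 1 := by rw [le_sub_iff_add_le, le_div_iff₀ hM]; linarith
        rw [show φ x = 1 by simp [φ, min_eq_left this]]
        linarith
    have h5 : e * x ≤ M :=
      (mul_le_mul (min_le_right δ (M / L)) hxL hx0 (div_nonneg hM.le hL.le)).trans_eq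
        (div_mul_cancel₀ M hL.ne')
    have h6 := mul_le_mul_of_nonneg_right h1 hx0
    calc |(1 - q.eval x) * x| = |(1 - φ x) - (q.eval x - φ x)| * x := by
          rw [abs_mul, abs_of_nonneg hx0]; congr 2; ring
      _ ≤ (|1 - φ x| + |q.eval x - φ x|) * x := mul_le_mul_of_nonneg_right (abs_sub _ _) hx0
      _ ≤ 3 * M := by rw [abs_of_nonneg (by linarith : 0 ≤ 1 - φ x)]; linarith
  · have : min 1 (x / M - 1) ≤ 0 := (min_le_right _ _).trans (by
      rw [sub_nonpos, div_le_one hM]; exact hxM)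
    rw [show φ x = 0 from max_eq_left this, sub_zero] at h1
    exact h1.trans heδ

theorem continuous_covMat (hd : Dens D ρ) (r : ℝ) : Continuous (covMat ρ r) :=
  continuous_matrix fun i j =>
    (continuous_mg hd ((continuous_apply i).mul (continuous_apply j)) r).sub
      ((continuous_mg hd (continuous_apply i) r).mul (continuous_mg hd (continuous_apply j) r))

theorem dotp_mulVec_comm {A : Matrix (Fin n) (Fin n) ℝ} (hA : A.IsSymm) (u v : St n) :
    dotp (A *ᵥ u) v = dotp u (A *ᵥ v) := by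
  show (A *ᵥ u) ⬝ᵥ v = u ⬝ᵥ (A *ᵥ v)
  rw [dotProduct_mulVec, ← mulVec_transpose, hA.eq]

theorem aeval_symm {A : Matrix (Fin n) (Fin n) ℝ} (hA : A.IsSymm) (q : ℝ[X]) :
    (aeval A q).IsSymm := by
  induction q using Polynomial.induction_on' with
  | add f g hf hg => rw [map_add]; exact hf.add hg
  | monomial p c =>
    simp only [Matrix.IsSymm, aeval_monomial, ← Algebra.smul_def, transpose_smul, transpose_pow,
      hA.eq]

theorem aeval_eigen {A U : Matrix (Fin n) (Fin n) ℝ} {lam : Fin n → ℝ}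
    (hp : ∀ p : ℕ, A ^ p = U * diagonal (fun l => lam l ^ p) * Uᵀ) (q : ℝ[X]) :
    aeval A q = U * diagonal (fun l => q.eval (lam l)) * Uᵀ := by
  induction q using Polynomial.induction_on' with
  | add f g hf hg =>
    simp only [map_add, hf, hg, eval_add, ← diagonal_add, Matrix.mul_add, Matrix.add_mul]
  | monomial p c =>
    rw [aeval_monomial, ← Algebra.smul_def, hp]
    simp only [eval_monomial]
    rw [show (fun l => c * lam l ^ p) = c • fun l => lam l ^ p from rfl, diagonal_smul,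
      Matrix.mul_smul, Matrix.smul_mul]

theorem slope_cutVec (q : ℝ[X]) (θ u : St n) :
    slope ρ r θ (cutVec ρ q r θ u) = aeval (covMat ρ r θ) (X * q) *ᵥ u := by
  rw [map_mul, aeval_X, ← mulVec_mulVec]
  rfl

theorem cut_term_le {s x y b : ℝ} (hs : 0 < s) (hx0 : 0 ≤ x) (hx : x ≤ 1 / s) (hy : |y| ≤ b) :
    (x * y) ^ 2 ≤ (b / s) ^ 2 := by
  rw [← sq_abs, abs_mul, abs_of_nonneg hx0]
  refine pow_le_pow_left₀ (mul_nonneg hx0 (abs_nonneg y)) ?_ 2
  exact (mul_le_mul hx hy (abs_nonneg y) (by positivity)).trans_eq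
    (by rw [div_mul_eq_mul_div, one_mul])

/-- The eigen-decomposition of the cut covariance. -/
theorem cut_eigen (h : Ulc η ρ) (hr : 0 ≤ r) (θ : St n) :
    ∃ (U : Matrix (Fin n) (Fin n) ℝ) (lam : Fin n → ℝ),
      (∀ i j, dotp (fun k => U k i) (fun k => U k j) = if i = j then 1 else 0) ∧
      (∀ l, 0 ≤ lam l ∧ lam l ≤ 1 / (η + r)) ∧
      (∀ l, covc (post ρ r θ) (dotp fun k => U k l) (dotp fun k => U k l) = lam l) ∧
      (∀ q : ℝ[X], excess ρ q r θ = ∑ l, (lam l * q.eval (lam l)) ^ 2) ∧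
      ∀ (p : ℝ[X]) (v : St n), nsq (aeval (covMat ρ r θ) p *ᵥ v) =
        ∑ l, p.eval (lam l) ^ 2 * (Uᵀ *ᵥ v) l ^ 2 := by
  obtain ⟨U, lam, h1, -, hp, hcol, h0, -, hn⟩ := eigen_covMat h hr θ
  have ho : ∀ i j, dotp (fun k => U k i) (fun k => U k j) = if i = j then 1 else 0 := fun i j => by
    have := congrFun (congrFun h1 i) j
    simpa [Matrix.mul_apply, Matrix.one_apply, dotp] using this
  have hv : ∀ (p : ℝ[X]) (v : St n), nsq (aeval (covMat ρ r θ) p *ᵥ v) =
      ∑ l, p.eval (lam l) ^ 2 * (Uᵀ *ᵥ v) l ^ 2 := fun p v => by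
    rw [hn, aeval_eigen hp, mulVec_mulVec, ← Matrix.mul_assoc, ← Matrix.mul_assoc, h1,
      Matrix.one_mul, ← mulVec_mulVec]
    simp only [mulVec_diagonal, mul_pow]
  have hunit : ∀ l, nsq (fun k => U k l) = 1 := fun l => by
    simpa [dotp, nsq, pow_two] using ho l l
  refine ⟨U, lam, ho, fun l => ⟨h0 l, ?_⟩, hcol, fun q => ?_, hv⟩
  · have := covLe_inv (post_ulc h hr θ) fun k => U k l
    rwa [hcol, hunit, mul_one] at this
  · simp only [excess, slope_cutVec, hv, eval_mul, eval_X]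
    rw [Finset.sum_comm]
    refine Finset.sum_congr rfl fun l _ => ?_
    rw [← Finset.mul_sum]
    have : ∑ i, (Uᵀ *ᵥ (Pi.single i 1 : St n)) l ^ 2 = 1 := by
      simpa [nsq, Matrix.mulVec, dotProduct, Pi.single_apply] using hunit l
    rw [this, mul_one]

theorem nsq_aeval_le (h : Ulc η ρ) (hr : 0 ≤ r) {p : ℝ[X]} {b : ℝ}
    (hp : ∀ x, 0 ≤ x → x ≤ 1 / (η + r) → |p.eval x| ≤ b) (θ v : St n) :
    nsq (aeval (covMat ρ r θ) p *ᵥ v) ≤ b ^ 2 * nsq v := by
  obtain ⟨U, lam, -, hlam, -, -, hv⟩ := cut_eigen h hr θ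
  rw [hv]
  have e : ∑ l, (Uᵀ *ᵥ v) l ^ 2 = nsq v := by
    have := hv 1 v
    simpa using this.symm
  rw [← e, Finset.mul_sum]
  refine Finset.sum_le_sum fun l _ => mul_le_mul_of_nonneg_right ?_ (sq_nonneg _)
  rw [← sq_abs]
  exact pow_le_pow_left₀ (abs_nonneg _) (hp _ (hlam l).1 (hlam l).2) 2

theorem continuous_cutVec (hd : Dens D ρ) (q : ℝ[X]) (r : ℝ) (u : St n) :
    Continuous fun θ => cutVec ρ q r θ u := by
  exact ((q.continuous_aeval).comp (continuous_covMat hd r)).matrix_mulVec continuous_const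

theorem continuous_excess (hd : Dens D ρ) (q : ℝ[X]) (r : ℝ) : Continuous (excess ρ q r) := by
  unfold excess slope
  refine continuous_finsetSum _ fun i _ => continuous_nsq.comp ?_
  exact (continuous_covMat hd r).matrix_mulVec (continuous_cutVec hd q r _)

theorem dotp_slope_comm (θ u v : St n) : dotp (slope ρ r θ u) v = dotp u (slope ρ r θ v) := by
  exact dotp_mulVec_comm (covMat_symm r θ) u v

theorem dotp_cutVec_comm (q : ℝ[X]) (θ u v : St n) :
    dotp (cutVec ρ q r θ u) v = dotp u (cutVec ρ q r θ v) := by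
  exact dotp_mulVec_comm (aeval_symm (covMat_symm r θ) q) u v

theorem cut_bounds (h : Ulc η ρ) (hr : 0 ≤ r) {q : ℝ[X]} {M b : ℝ}
    (hq : ∀ x, 0 ≤ x → x ≤ 1 / (η + r) → |q.eval x| ≤ b ∧ |(1 - q.eval x) * x| ≤ 3 * M)
    (θ u : St n) :
    nsq (cutVec ρ q r θ u) ≤ b ^ 2 * nsq u ∧
      nsq (slope ρ r θ (cutVec ρ q r θ u)) ≤ (b / (η + r)) ^ 2 * nsq u ∧
      nsq (slope ρ r θ (u - cutVec ρ q r θ u)) ≤ (3 * M) ^ 2 * nsq u := by
  have hs : 0 < η + r := by linarith [h.pos]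
  refine ⟨nsq_aeval_le h hr (fun x h0 h1 => (hq x h0 h1).1) θ u, ?_, ?_⟩
  · rw [slope_cutVec]
    refine nsq_aeval_le h hr (fun x h0 h1 => ?_) θ u
    rw [eval_mul, eval_X, abs_mul, abs_of_nonneg h0]
    exact (mul_le_mul h1 (hq x h0 h1).1 (abs_nonneg _) (by positivity)).trans_eq
      (div_mul_eq_mul_div _ _ _ |>.trans (by rw [one_mul]))
  · have e : slope ρ r θ (u - cutVec ρ q r θ u) =
        aeval (covMat ρ r θ) (X * (1 - q)) *ᵥ u := by
      rw [mul_sub, mul_one, map_sub, aeval_X, sub_mulVec, ← slope_cutVec]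
      simp only [slope, mulVec_sub]
    rw [e]
    refine nsq_aeval_le h hr (fun x h0 h1 => ?_) θ u
    rw [eval_mul, eval_X, eval_sub, eval_one, mul_comm]
    exact (hq x h0 h1).2

theorem excess_le_crude (h : Ulc η ρ) (hr : 0 ≤ r) {q : ℝ[X]}
    (hq : ∀ x, 0 ≤ x → x ≤ 1 / (η + r) → |q.eval x| ≤ 2) (θ : St n) :
    excess ρ q r θ ≤ (2 / (η + r)) ^ 2 * n := by
  have hs : 0 < η + r := by linarith [h.pos]
  obtain ⟨U, lam, -, hlam, -, he, -⟩ := cut_eigen h hr θ
  rw [he]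
  refine (Finset.sum_le_sum fun l _ => ?_).trans_eq
    (show ∑ _l : Fin n, (2 / (η + r)) ^ 2 = (2 / (η + r)) ^ 2 * n by simp [mul_comm])
  exact cut_term_le hs (hlam l).1 (hlam l).2 (hq _ (hlam l).1 (hlam l).2)

/-- Relative to a state of covariance at most `3` the cut covariance is small. -/
theorem excess_le (ε : ℝ) (hε : 0 < ε) (hε1 : ε ≤ 1) : ∃ C a M₀ : ℝ, 0 < C ∧ 0 < a ∧ 1 ≤ M₀ ∧
    ∀ (n : ℕ) (η : ℝ) (ρ : St n → ℝ), Ulc η ρ → ∀ r M δ : ℝ, 0 ≤ r → 0 ≤ δ →
      ε ^ 2 ≤ (η + r) * M → M₀ ≤ M →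
      ∀ q : ℝ[X], (∀ x, 0 ≤ x → x ≤ 1 / (η + r) → |q.eval x| ≤ 2 ∧ (x ≤ M → |q.eval x| ≤ δ)) →
        ∀ θ θ' : St n, CovLe (post ρ r θ') 3 →
          excess ρ q r θ ≤ (n : ℝ) * δ ^ 2 / (η + r) ^ 2 +
            C * (η + r) ^ a / (η + r) ^ 3 * nsq (θ - θ') := by
  obtain ⟨C, a, r₀, hC, ha, hr₀, hrank⟩ := rank_le ε hε hε1
  refine ⟨4 * C, a, max 1 (1 / r₀), by positivity, ha, le_max_left _ _,
    fun n η ρ h r M δ hr hδ hεM hM q hq θ θ' hcov => ?_⟩
  have hs : 0 < η + r := by linarith [h.pos]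
  obtain ⟨U, lam, hU, hlam, hcol, he, -⟩ := cut_eigen h hr θ
  set S := Finset.univ.filter fun l => M < lam l with hS
  have hsum : excess ρ q r θ ≤ ∑ l, ((δ / (η + r)) ^ 2 + if l ∈ S then (2 / (η + r)) ^ 2 else 0) := by
    rw [he]
    refine Finset.sum_le_sum fun l _ => ?_
    obtain ⟨h2, h3⟩ := hq _ (hlam l).1 (hlam l).2
    split_ifs with hl
    · exact (cut_term_le hs (hlam l).1 (hlam l).2 h2).trans (le_add_of_nonneg_left (sq_nonneg _))
    · rw [add_zero]
      have hl' : lam l ≤ M := by simpa [hS] using hl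
      exact cut_term_le hs (hlam l).1 (hlam l).2 (h3 hl')
  refine hsum.trans ?_
  rw [Finset.sum_add_distrib, Finset.sum_ite_mem, Finset.univ_inter, Finset.sum_const,
    Finset.sum_const, Finset.card_univ, Fintype.card_fin, nsmul_eq_mul, nsmul_eq_mul, div_pow,
    mul_div_assoc']
  refine add_le_add le_rfl ?_
  rcases S.eq_empty_or_nonempty with he' | ⟨l, hl⟩
  · simp only [he', Finset.card_empty, Nat.cast_zero, zero_mul]
    have := nsq_nonneg (θ - θ')
    positivity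
  · have hlM : M < lam l := (Finset.mem_filter.1 hl).2
    have hr0 : η + r ≤ r₀ := by
      have h4 : 1 / r₀ < 1 / (η + r) :=
        lt_of_lt_of_le (lt_of_le_of_lt ((le_max_right _ _).trans hM) hlM) (hlam l).2
      exact ((one_div_lt_one_div hr₀ hs).1 h4).le
    have hcard := hrank n S.card η ρ h r hr hr0 θ' θ hcov
      (fun j i => U i (S.equivFin.symm j : Fin n)) M
      (fun i j => by simp only [hU, EmbeddingLike.apply_eq_iff_eq, Subtype.coe_inj])
      (fun j => by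
        rw [hcol]
        exact (Finset.mem_filter.1 (S.equivFin.symm j).2).2.le) hεM
    refine (mul_le_mul_of_nonneg_right hcard (sq_nonneg _)).trans_eq ?_
    field_simp
    ring

end

end Vale.Agent.P245.Gen2
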