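import Vale.Agent.P245.Gen2.EarlySetup

/-!
# P245, polylogarithmic bound: the budgets of the early bound
-/

open MeasureTheory Finset Polynomial

namespace Vale.Agent.P245.Gen2

open Vale.Agent.P245 Vale.Agent.P245.General

noncomputable section

variable {n N : ℕ} {η D t τ b ε lam b₀ B : ℝ} {ρ : St n → ℝ} {q : ℝ[X]}

/-- The constant subtracted at level `i` of the scale `S`. -/
def levCost (lam ε t S : ℝ) (i : ℕ) : ℝ :=
  lam ^ 2 * (9 / 4 + 81 / 2 * (ε ^ 3 / t)) * (4 ^ i * S)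

theorem levCost_nonneg (ht : 0 < t) (hε : 0 < ε) {S : ℝ} (hS : 0 ≤ S) (i : ℕ) :
    0 ≤ levCost lam ε t S i := by unfold levCost; positivity

/-- The error constant of the exponential moment. -/
def mgfErr (n : ℕ) (D L : ℝ) : ℝ :=
  (27 / 2 + 2 * 27 * Real.exp (3 * (2 * (1 + D + 10 * L)))) * envC n (1 + D + 10 * L)

theorem mgfErr_nonneg (n : ℕ) (D L : ℝ) : 0 ≤ mgfErr n D L :=
  mul_nonneg (by positivity) (envC_nonneg n _)

theorem mgfErr_mono {L L' : ℝ} (hLL : L ≤ L') : mgfErr n D L ≤ mgfErr n D L' := by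
  refine mul_le_mul ?_ (envC_mono (by linarith)) (envC_nonneg n _) (by positivity)
  have := Real.exp_le_exp.2
    (show 3 * (2 * (1 + D + 10 * L)) ≤ 3 * (2 * (1 + D + 10 * L')) by linarith)
  linarith

/-- The smoothed exponential moment is bounded at every level. -/
theorem pathZ_level (hP : PathCtx η D t τ (ε ^ 2 / t) b ρ q) (ht : 0 < t) (hε : 0 < ε)
    (hsub : SubG ρ) (hT : t + N * τ = t / ε)
    (he : (N : ℝ) * τ * Real.sqrt τ * mgfErr n D (lam ^ 2 * B) ≤ 1) {σ S : ℝ} {i : ℕ} {w : St n}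
    (hwB : nsq w ≤ B) (hwS : nsq w ≤ 4 ^ i * S) :
    ∫ ξ, Ep ρ t (fun θ => pathZ N ρ q t τ lam (lam ^ 2 * σ ^ 2 / 2) (levCost lam ε t S i) θ
        (w + σ • ξ)) ∂P166W.gauss (Fin n) ≤ 3 * Real.exp 1 := by
  refine (pathZ_smooth hP ht hsub N lam σ (levCost lam ε t S i) w).trans ?_
  refine mul_le_mul_of_nonneg_left (Real.exp_le_exp.2 ?_) (by norm_num)
  have hτ := hP.hτ
  have x3 := (mul_le_mul_of_nonneg_left (mgfErr_mono (n := n) (D := D)
    (mul_le_mul_of_nonneg_left hwB (sq_nonneg lam)))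
    (by positivity : (0 : ℝ) ≤ N * τ * Real.sqrt τ)).trans he
  simp only [mgfErr] at x3
  have hN : (N : ℝ) * τ ≤ t / ε := by linarith
  have hw0 : 0 ≤ (3 * (ε ^ 2 / t)) ^ 2 * (lam ^ 2 * nsq w) * (9 / 2) :=
    mul_nonneg (mul_nonneg (sq_nonneg _) (mul_nonneg (sq_nonneg _) (nsq_nonneg' w))) (by norm_num)
  have x4 := mul_le_mul_of_nonneg_right hN hw0
  have e : t / ε * ((3 * (ε ^ 2 / t)) ^ 2 * (lam ^ 2 * nsq w) * (9 / 2)) =
      81 / 2 * (ε ^ 3 / t) * (lam ^ 2 * nsq w) := by field_simp; ring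
  have x5 : lam ^ 2 * (9 / 4 + 81 / 2 * (ε ^ 3 / t)) * nsq w ≤ levCost lam ε t S i :=
    mul_le_mul_of_nonneg_left hwS (by positivity)
  linarith

/-- The mean of the penalised pairing is bounded. -/
theorem PathCtx.pathMean_bdd {M : ℝ} (hP : PathCtx η D t τ M b ρ q) (hlam : 0 ≤ lam) (hb₀ : 0 ≤ b₀)
    (hB : 0 ≤ B) : ∃ C, 0 ≤ C ∧ ∀ θ w, nsq w ≤ B → |pathMean N ρ q η t τ lam b₀ θ w| ≤ C := by
  obtain ⟨Cz, hCz0, hCz⟩ := hP.abs_pair_le N
  have hη := hP.ulc.pos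
  have ht := hP.ht
  refine ⟨lam * ((B + Cz) / 2) + b₀ * t / 2 * Cz + B / (2 * (η + t)), by positivity,
    fun θ w hw => ?_⟩
  have w1 := abs_walkE_le hP.ulc ht hP.hτ (θ + w) (hP.bmeas_pair (N := N) θ w).1
    (C := (B + Cz) / 2) fun ω => (hCz θ w ω).1.trans (by linarith)
  have w2 := abs_walkE_le hP.ulc ht hP.hτ (θ + w) (hP.bmeas_nsq_zc (N := N) θ N).1
    (C := Cz) fun ω => (hCz θ w ω).2
  have hn := nsq_nonneg' w
  simp only [pathMean]
  refine (abs_sub _ _).trans (add_le_add ((abs_sub _ _).trans (add_le_add ?_ ?_)) ?_)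
  · rw [abs_mul, abs_of_nonneg hlam]; exact mul_le_mul_of_nonneg_left w1 hlam
  · rw [abs_mul, abs_of_nonneg (by positivity : 0 ≤ b₀ * t / 2)]
    exact mul_le_mul_of_nonneg_left w2 (by positivity)
  · rw [abs_of_nonneg (by positivity)]
    exact div_le_div_of_nonneg_right hw (by positivity)

/-- The direction of the smoothing is bounded. -/
theorem PathCtx.pathDir_bdd {M : ℝ} (hP : PathCtx η D t τ M b ρ q) (σ : ℝ) :
    ∃ C, ∀ θ w, nsq (pathDir N ρ q t τ lam σ θ w) ≤ C := by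
  obtain ⟨Cz, _, hCz⟩ := hP.abs_pair_le N
  refine ⟨∑ _i : Fin n, (lam * σ) ^ 2 * (Cz + 1) ^ 2, fun θ w => Finset.sum_le_sum fun i _ => ?_⟩
  have w1 := abs_walkE_le hP.ulc hP.ht hP.hτ (θ + w) (hP.bmeas_zc (N := N) θ N i).1
    (C := Cz + 1) fun ω => by
      have h1 := (sq_le_nsq (zc ρ q t τ θ ω N) i).trans (le_of_abs_le (hCz θ w ω).2)
      nlinarith [sq_abs (zc ρ q t τ θ ω N i), abs_nonneg (zc ρ q t τ θ ω N i),
        sq_nonneg (|zc ρ q t τ θ ω N i| - 1)]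
  simp only [pathDir, mul_pow]
  exact mul_le_mul_of_nonneg_left (sq_le_sq' (neg_le_of_abs_le w1) (le_of_abs_le w1))
    (by positivity)

/-- The coefficients of the early bound leave room below one. -/
theorem coef_le {e g γ ε κ lam b₀ t : ℝ} (he0 : 0 < e) (hg : g = 1 - e) (hg0 : 0 < g)
    (hlam : lam = 4 / g) (hγ : γ = g / 8) (hε : ε = g / (8 * (19 + 820 / g)))
    (hκ : κ = g / (8 * (1 + 1 / γ))) (hb₀ : b₀ = lam * e) (ht0 : 0 < t)
    (ht : t ≤ g / (96 * lam)) :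
    e ^ 2 * lam ^ 2 / (2 * b₀) +
        (1 / 2 + 4 * ε * lam + b₀ / 2 * ((1 + γ) * (1 + ε) ^ 4 + (1 + 1 / γ) * (2 * κ))) +
        5 * (lam ^ 2 * (9 / 4 * t + 81 / 2 * ε ^ 3)) ≤ lam * (1 - g / 4) := by
  have hlam0 : 0 < lam := by rw [hlam]; positivity
  have hγ0 : 0 < γ := by rw [hγ]; positivity
  have hε0 : 0 < ε := by rw [hε]; positivity
  have h1 : e ^ 2 * lam ^ 2 / (2 * b₀) = lam * (e / 2) := by rw [hb₀]; field_simp
  have h3 : (1 + 1 / γ) * (2 * κ) = g / 4 := by rw [hκ]; field_simp; ring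
  have h4 : (1 : ℝ) / 2 = lam * (g / 8) := by rw [hlam]; field_simp; ring
  have h6 : (19 + 205 * lam) * ε = g / 8 := by rw [hε, hlam]; field_simp; ring
  have h5 : lam * t ≤ g / 96 := by
    rw [le_div_iff₀ (by positivity)] at ht; linarith
  have hε1 : ε ≤ 1 := by
    have : 0 < lam * ε := by positivity
    linarith
  have hγ1 : γ ≤ 1 := by linarith
  have x2 : ε ^ 2 ≤ ε := pow_le_of_le_one hε0.le hε1 two_ne_zero
  have x3 : ε ^ 3 ≤ ε := pow_le_of_le_one hε0.le hε1 (by norm_num)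
  have x4 : ε ^ 4 ≤ ε := pow_le_of_le_one hε0.le hε1 (by norm_num)
  have x : (1 + ε) ^ 4 ≤ 1 + 15 * ε := by linarith
  have h2 : (1 + γ) * (1 + ε) ^ 4 ≤ 1 + γ + 30 * ε := by
    have := mul_le_mul_of_nonneg_left x (by linarith : 0 ≤ 1 + γ)
    have := mul_le_mul_of_nonneg_right hγ1 hε0.le
    linarith
  rw [h3, h1, hb₀]
  have h8 := mul_le_mul_of_nonneg_left h2 (by positivity : 0 ≤ lam * e / 2)
  have he1 : e ≤ 1 := by linarith
  have h9 : lam * e / 2 * (γ + 30 * ε + g / 4) ≤ lam / 2 * (γ + 30 * ε + g / 4) := by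
    refine mul_le_mul_of_nonneg_right ?_ (by positivity)
    linarith [mul_le_mul_of_nonneg_left he1 hlam0.le]
  have h10 := mul_le_mul_of_nonneg_left x3 (by positivity : 0 ≤ 405 / 2 * lam ^ 2)
  have h11 := mul_le_mul_of_nonneg_left h5 (by positivity : 0 ≤ 45 / 4 * lam)
  have h12 : lam * ((19 + 205 * lam) * ε) = lam * (g / 8) := by rw [h6]
  have h13 : 0 ≤ lam * g := by positivity
  have h15 : lam * g = lam - lam * e := by rw [hg]; ring
  have h16 : 0 ≤ lam * ε := by positivity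
  have h17 : 0 ≤ lam ^ 2 * ε := by positivity
  rw [hγ] at h9 h8 ⊢
  linarith

end

end Vale.Agent.P245.Gen2
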