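import Vale.Agent.P245.Gen2.Excite

/-!
# P245, polylogarithmic bound: averages of the future depending on a parameter
-/

open MeasureTheory Filter

namespace Vale.Agent.P245.Gen2

open Vale.Agent.P245 Vale.Agent.P245.General

noncomputable section

variable {n : ℕ} {η s t : ℝ} {ρ : St n → ℝ}

/-- The future average is measurable in the state and in a parameter. -/
theorem measurable_fut₂ {β : Type*} [MeasurableSpace β] (h : Ulc η ρ) (hs : 0 ≤ s)
    {F : St n → β → ℝ} (hF : Measurable (Function.uncurry F))
    (hb : ∀ b, ∃ C, ∀ θ, |F θ b| ≤ C) :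
    Measurable fun p : St n × β => fut ρ s t (fun θ => F θ p.2) p.1 := by
  have := isProb h
  set inner : St n × β → St n → ℝ := fun p x => ∫ g, F (p.1 + ((t - s) • x + Real.sqrt (t - s) • g))
    p.2 ∂P166W.gauss (Fin n)
  have hi : Measurable (Function.uncurry inner) :=
    ((hF.comp (f := fun q : ((St n × β) × St n) × St n =>
      (q.1.1.1 + ((t - s) • q.1.2 + Real.sqrt (t - s) • q.2), q.1.1.2)) (by fun_prop)
        ).stronglyMeasurable.integral_prod_right' (ν := P166W.gauss (Fin n))).measurable
  have e : (fun p : St n × β => fut ρ s t (fun θ => F θ p.2) p.1) =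
      fun p => (∫ x, inner p x * wgt s p.1 x ∂law ρ) / part ρ s p.1 := funext fun p => by
    obtain ⟨C, hC⟩ := hb p.2
    have hm : Measurable fun θ => F θ p.2 := hF.comp (measurable_id.prodMk measurable_const)
    rw [fut_eq_integral h hs hm hC, integral_post h hs]
    rfl
  rw [e]
  refine Measurable.div ?_ ((measurable_part h s).comp measurable_fst)
  have hw : Measurable fun q : (St n × β) × St n => inner q.1 q.2 * wgt s q.1.1 q.2 :=
    hi.mul ((continuous_wgt2 s).measurable.comp
      (measurable_snd.prodMk (measurable_fst.comp measurable_fst)))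
  exact (hw.stronglyMeasurable.integral_prod_right' (ν := law ρ)).measurable

/-- A pointwise affine bound passes to the future average. -/
theorem fut_le_affine (h : Ulc η ρ) (hs : 0 ≤ s) {f a g : St n → ℝ} (hf : Measurable f)
    (ha : Measurable a) (hg : Measurable g) {C : ℝ} (hC : ∀ θ, |f θ| ≤ C ∧ |a θ| ≤ C ∧ |g θ| ≤ C)
    {c k : ℝ} (hle : ∀ θ, f θ ≤ a θ + c + k * g θ) (θ₀ : St n) :
    fut ρ s t f θ₀ ≤ fut ρ s t a θ₀ + c + k * fut ρ s t g θ₀ := by
  have := isProb (post_ulc h hs θ₀)
  set μ := (law (post ρ s θ₀)).prod (P166W.gauss (Fin n))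
  set S := fun z : St n × St n => θ₀ + ((t - s) • z.1 + Real.sqrt (t - s) • z.2)
  have hS : Measurable S := by fun_prop
  have hi : ∀ {u : St n → ℝ}, Measurable u → (∀ θ, |u θ| ≤ C) →
      Integrable (fun z => u (S z)) μ := fun hu huC =>
    (integrable_const C).mono' (hu.comp hS).aestronglyMeasurable
      (Eventually.of_forall fun z => by rw [Real.norm_eq_abs]; exact huC _)
  have ia := hi ha fun θ => (hC θ).2.1
  have ig := hi hg fun θ => (hC θ).2.2
  have iac : Integrable (fun z => a (S z) + c) μ := ia.add (integrable_const c)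
  calc fut ρ s t f θ₀ = ∫ z, f (S z) ∂μ := rfl
    _ ≤ ∫ z, (a (S z) + c + k * g (S z)) ∂μ :=
      integral_mono (hi hf fun θ => (hC θ).1) (iac.add (ig.const_mul k)) fun z => hle _
    _ = _ := by
      rw [integral_add iac (ig.const_mul k), integral_add ia (integrable_const c),
        integral_const_mul, integral_const, probReal_univ, one_smul]
      rfl

end

end Vale.Agent.P245.Gen2
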