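import Vale.Agent.P245.Gen2.Bridge

/-!
# P245, polylogarithmic bound: dyadic levels, and averages over the channel law
-/

open MeasureTheory Filter

namespace Vale.Agent.P245.Gen2

open Vale.Agent.P245 Vale.Agent.P245.General

noncomputable section

variable {n : ℕ} {η s t : ℝ} {ρ : St n → ℝ}

open scoped Classical in
/-- The least level `k` with `nsq h ≤ 4 ^ k S`, cut at `m`. -/
def levOf (S : ℝ) (m : ℕ) (h : St n) : ℕ :=
  Nat.find (⟨m, Or.inr le_rfl⟩ : ∃ k, nsq h ≤ 4 ^ k * S ∨ m ≤ k)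

theorem levOf_le (S : ℝ) (m : ℕ) (h : St n) : levOf S m h ≤ m := by
  classical
  exact Nat.find_le (Or.inr le_rfl)

theorem measurable_levOf (S : ℝ) (m : ℕ) : Measurable (levOf (n := n) S m) := by
  classical
  refine measurable_find _ fun k => ?_
  by_cases hk : m ≤ k
  · simp [hk]
  · simpa [hk] using measurableSet_le (continuous_nsq (n := n)).measurable measurable_const

theorem le_levOf {S : ℝ} (m : ℕ) {h : St n} (hm : nsq h ≤ 4 ^ m * S) :
    nsq h ≤ 4 ^ levOf S m h * S := by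
  classical
  rcases Nat.find_spec (⟨m, Or.inr le_rfl⟩ : ∃ k, nsq h ≤ 4 ^ k * S ∨ m ≤ k) with h1 | h1
  · exact h1
  · rwa [le_antisymm (levOf_le S m h) h1]

theorem levOf_pow_le {S : ℝ} (hS : 0 ≤ S) (m : ℕ) (h : St n) :
    4 ^ levOf S m h * S ≤ 4 * nsq h + S := by
  classical
  have hn := nsq_nonneg' h
  rcases Nat.eq_zero_or_pos (levOf S m h) with h0 | hp
  · rw [h0]; linarith
  · obtain ⟨k, hk⟩ : ∃ k, levOf S m h = k + 1 := ⟨levOf S m h - 1, by omega⟩
    have h1 := Nat.find_min (⟨m, Or.inr le_rfl⟩ : ∃ k, nsq h ≤ 4 ^ k * S ∨ m ≤ k)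
      (show k < levOf S m h by omega)
    rw [not_or, not_le] at h1
    rw [hk, pow_succ]
    linarith [h1.1]

theorem log_two_mul_le (i : ℕ) : Real.log 2 * i ≤ 4 ^ i := by
  have h1 : (i : ℝ) ≤ (4 : ℝ) ^ i := by
    exact_mod_cast (Nat.lt_pow_self (by norm_num : 1 < 4)).le
  have h2 := Real.log_two_lt_d9
  have h3 : (0 : ℝ) ≤ i := Nat.cast_nonneg i
  nlinarith

theorem abs_le_one_bad (s c : ℝ) (θ : St n) : |bad ρ s c θ| ≤ 1 := by
  by_cases hθ : θ ∈ badSet ρ s c
  · simp [bad, hθ]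
  · simp [bad, hθ]

theorem fut_same (h : Ulc η ρ) (hs : 0 ≤ s) (F : St n → ℝ) (θ : St n) : fut ρ s s F θ = F θ := by
  have := isProb (post_ulc h hs θ)
  simp [fut, joint]

/-- The channel law is transported by the future average. -/
theorem chan_fut (h : Ulc η ρ) (hs : 0 < s) (hst : s ≤ t) {G : St n → ℝ} (hG : Measurable G)
    (hG' : ∃ C, ∀ x, |G x| ≤ C) :
    ∫ θ, fut ρ s t G θ ∂chanM ρ s = ∫ θ, G θ ∂chanM ρ t := by
  rcases hst.eq_or_lt with rfl | hlt
  · simp only [fut_same h hs.le]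
  · have e := bridge (F := fun _ => (1 : ℝ)) h hs hlt measurable_const hG ⟨1, by simp⟩ hG'
    simpa [brOp] using e

/-- An average of a bounded function of the first coordinate. -/
theorem integral_fst_chan {α : Type} [MeasurableSpace α] {π : Measure (St n × α)}
    (hπ : π.map Prod.fst = chanM ρ s) {F : St n → ℝ} (hF : Measurable F) :
    ∫ p, F p.1 ∂π = ∫ θ, F θ ∂chanM ρ s := by
  rw [← hπ, integral_map measurable_fst.aemeasurable hF.aestronglyMeasurable]

/-- The telescoping bound of `∑ τ / r²`. -/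
theorem sum_inv_sq_le {τ : ℝ} (ht : 0 < t) (hτ : 0 < τ) (N : ℕ) :
    ∑ j ∈ Finset.range N, τ / (t + j * τ) ^ 2 ≤ (1 + τ / t) / t := by
  have hr : ∀ j : ℕ, 0 < t + j * τ := fun j => by positivity
  have key : ∀ j : ℕ, τ / (t + j * τ) ^ 2 ≤
      (1 + τ / t) / (t + j * τ) - (1 + τ / t) / (t + ((j + 1 : ℕ) : ℝ) * τ) := fun j => by
    have h0 := hr j
    have h1 := hr (j + 1)
    have e : (1 + τ / t) / (t + j * τ) - (1 + τ / t) / (t + ((j + 1 : ℕ) : ℝ) * τ) =
        τ * (1 + τ / t) / ((t + j * τ) * (t + ((j + 1 : ℕ) : ℝ) * τ)) := by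
      field_simp
      push_cast; ring
    rw [e, div_le_div_iff₀ (by positivity) (by positivity)]
    have h2 : t + ((j + 1 : ℕ) : ℝ) * τ ≤ (1 + τ / t) * (t + j * τ) := by
      have e2 : (1 + τ / t) * (t + j * τ) = t + ((j + 1 : ℕ) : ℝ) * τ + τ / t * (j * τ) := by
        field_simp; push_cast; ring
      have : 0 ≤ τ / t * (j * τ) := by positivity
      linarith
    calc τ * ((t + j * τ) * (t + ((j + 1 : ℕ) : ℝ) * τ))
        ≤ τ * ((t + j * τ) * ((1 + τ / t) * (t + j * τ))) := by gcongr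
      _ = _ := by ring
  refine (Finset.sum_le_sum fun j _ => key j).trans ?_
  rw [Finset.sum_range_sub' fun j : ℕ => (1 + τ / t) / (t + (j : ℝ) * τ)]
  have := hr N
  have : 0 ≤ (1 + τ / t) / (t + N * τ) := by positivity
  simp only [Nat.cast_zero, zero_mul, add_zero]
  linarith

end

end Vale.Agent.P245.Gen2
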