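import Vale.Agent.P245.Gen2.EarlyWalk

/-!
# P245, polylogarithmic bound: the penalised cut barycentre

The exponential moment on pure paths of the cut increment paired with a smoothed vector, and the
mean of the pairing on tilted paths.
-/

open MeasureTheory Filter Finset Polynomial

namespace Vale.Agent.P245.Gen2

open Vale.Agent.P245 Vale.Agent.P245.General

noncomputable section

variable {n : ℕ} {η D t τ M b : ℝ} {ρ : St n → ℝ} {q : ℝ[X]}

/-- The pairing of the cut increment with `y`, penalised by its square. -/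
def pathPhi {N : ℕ} (ρ : St n → ℝ) (q : ℝ[X]) (t τ lam β c : ℝ) (θ₀ y : St n) (ω : Noise n N) :
    ℝ :=
  lam * dotp y (zc ρ q t τ θ₀ ω N) - β * nsq (zc ρ q t τ θ₀ ω N) - c

/-- The exponential moment of `pathPhi` on pure paths. -/
def pathZ (N : ℕ) (ρ : St n → ℝ) (q : ℝ[X]) (t τ lam β c : ℝ) (θ₀ y : St n) : ℝ :=
  walkE ρ t τ θ₀ fun ω : Noise n N => Real.exp (pathPhi ρ q t τ lam β c θ₀ y ω)

/-- The average along paths is measurable in the parameters. -/
theorem measurable_walkE {N : ℕ} {β : Type} [MeasurableSpace β] (h : Ulc η ρ) {g : β → St n}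
    (hg : Measurable g) {F : β → Noise n N → ℝ} (hF : Measurable (Function.uncurry F)) :
    Measurable fun x => walkE ρ t τ (g x) (F x) := by
  have hw : Measurable fun p : β × Noise n N =>
      F p.1 p.2 * part ρ (t + N * τ) (pos τ (g p.1) p.2 N) :=
    hF.mul ((measurable_part h _).comp
      ((measurable_pos τ N).comp ((hg.comp measurable_fst).prodMk measurable_snd)))
  exact (hw.stronglyMeasurable.integral_prod_right' (ν := noise n N)).measurable.div
    ((measurable_part h t).comp hg)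

theorem continuous_zc₂ (h : PathCtx η D t τ M b ρ q) (N : ℕ) :
    Continuous fun p : St n × Noise n N => zc ρ q t τ p.1 p.2 N := by
  have hp : ∀ k, Continuous fun p : St n × Noise n N => pos τ p.1 p.2 k := fun k => by
    have e : (fun p : St n × Noise n N => pos τ p.1 p.2 k) = fun p => pos τ 0 p.2 k + p.1 :=
      funext fun p => by rw [← pos_shift, zero_add]
    rw [e]
    exact ((h.continuous_pos 0 k).comp' continuous_snd).add continuous_fst
  refine continuous_pi fun i => continuous_finsetSum _ fun j _ => ?_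
  have hi : Continuous fun p : St n × Noise n N => incr p.2 j := by
    unfold incr; split
    · exact (continuous_apply _).comp' continuous_snd
    · exact continuous_const
  exact h.continuous_stepInc₂ _ (hp j) ((continuous_cutVec h.dens q _ _).comp' (hp j)) hi

theorem exists_zc_bound (h : PathCtx η D t τ M b ρ q) (N : ℕ) :
    ∃ C, ∀ (θ₀ : St n) (ω : Noise n N), nsq (zc ρ q t τ θ₀ ω N) ≤ C := by
  refine ⟨n * (N * (2 * (1 + D + 10))) ^ 2, fun θ₀ ω => ?_⟩
  have hu : ∀ i, nsq (Pi.single i 1 : St n) ≤ 1 := fun i => by simp [nsq, Pi.single_apply]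
  have hz : ∀ i, |zc ρ q t τ θ₀ ω N i| ≤ N * (2 * (1 + D + 10)) := fun i => by
    refine (Finset.abs_sum_le_sum_abs _ _).trans ?_
    refine (Finset.sum_le_card_nsmul _ _ (2 * (1 + D + 10 * 1)) fun j _ => ?_).trans_eq ?_
    · exact (h.abs_stepInc_le j _ (hu i) _).1
    · simp [nsmul_eq_mul]
  refine (Finset.sum_le_card_nsmul univ _ ((N * (2 * (1 + D + 10))) ^ 2) fun i _ => ?_).trans_eq ?_
  · rw [← sq_abs]
    exact pow_le_pow_left₀ (abs_nonneg _) (hz i) 2
  · simp [nsmul_eq_mul]

theorem bmeas_pathPhi {N : ℕ} (h : PathCtx η D t τ M b ρ q) (lam β c : ℝ) (θ₀ y : St n) :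
    BMeas fun ω : Noise n N => pathPhi ρ q t τ lam β c θ₀ y ω := by
  unfold pathPhi
  simp only [sub_eq_add_neg, neg_mul_eq_neg_mul]
  refine ((BMeas.smul lam ?_).add ((h.bmeas_nsq_zc θ₀ N).smul (-β))).add (BMeas.const _)
  unfold dotp
  exact BMeas.sum fun i _ => (h.bmeas_zc θ₀ N i).smul (y i)

/-- The exponential moment grows at most exponentially in the direction. -/
theorem pathZ_le (h : PathCtx η D t τ M b ρ q) (N : ℕ) (lam β : ℝ) :
    ∃ E : ℝ, ∀ c θ y,
      pathZ N ρ q t τ lam β c θ y ≤ Real.exp (-c) * Real.exp (E * (1 + Real.sqrt (nsq y))) := by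
  obtain ⟨C, hC⟩ := exists_zc_bound h N
  refine ⟨max (|lam| * Real.sqrt C) (|β| * |C|), fun c θ y => ?_⟩
  rw [← Real.exp_add]
  refine (walkE_mono h.ulc h.ht h.hτ θ (bmeas_pathPhi h lam β c θ y).exp
    (BMeas.const _) fun ω => Real.exp_le_exp.2 ?_).trans_eq (walkE_const h.ulc h.ht h.hτ θ _)
  have hy := Real.sqrt_nonneg (nsq y)
  have h1 : lam * dotp y (zc ρ q t τ θ ω N) ≤ |lam| * Real.sqrt C * Real.sqrt (nsq y) := by
    refine (le_abs_self _).trans ?_
    rw [abs_mul, mul_assoc, mul_comm (Real.sqrt C)]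
    refine mul_le_mul_of_nonneg_left ((abs_dotp_le_sqrt _ _).trans ?_) (abs_nonneg _)
    exact mul_le_mul_of_nonneg_left (Real.sqrt_le_sqrt (hC θ ω)) hy
  have h2 : -(β * nsq (zc ρ q t τ θ ω N)) ≤ |β| * |C| := by
    refine (neg_le_abs _).trans ?_
    rw [abs_mul, abs_of_nonneg (nsq_nonneg' _)]
    exact mul_le_mul_of_nonneg_left ((hC θ ω).trans (le_abs_self C)) (abs_nonneg _)
  have h3 := mul_le_mul_of_nonneg_right (le_max_left (|lam| * Real.sqrt C) (|β| * |C|)) hy
  have h4 := le_max_right (|lam| * Real.sqrt C) (|β| * |C|)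
  simp only [pathPhi]
  linarith

theorem pathZ_bound (h : PathCtx η D t τ M b ρ q) (N : ℕ) (lam β : ℝ) :
    ∃ E : ℝ, ∀ c : ℝ, 0 ≤ c → ∀ θ y,
      pathZ N ρ q t τ lam β c θ y ≤ Real.exp (E * (1 + Real.sqrt (nsq y))) := by
  obtain ⟨E, hE⟩ := pathZ_le h N lam β
  refine ⟨E, fun c hc θ y => (hE c θ y).trans ?_⟩
  exact mul_le_of_le_one_left (Real.exp_pos _).le (Real.exp_le_one_iff.2 (by linarith))

theorem continuous_pathPhi₂ (h : PathCtx η D t τ M b ρ q) (N : ℕ) (lam β c : ℝ) :
    Continuous fun p : (St n × St n) × Noise n N =>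
      pathPhi ρ q t τ lam β c p.1.1 p.1.2 p.2 := by
  have hz : Continuous fun p : (St n × St n) × Noise n N => zc ρ q t τ p.1.1 p.2 N :=
    (continuous_zc₂ h N).comp' (f := fun p : (St n × St n) × Noise n N => (p.1.1, p.2))
      (continuous_fst.fst.prodMk continuous_snd)
  have h1 : Continuous fun p : (St n × St n) × Noise n N =>
      dotp p.1.2 (zc ρ q t τ p.1.1 p.2 N) := by
    have hy : Continuous fun p : (St n × St n) × Noise n N => p.1.2 :=
      continuous_fst.snd
    exact continuous_dotp2.comp' (f := fun p : (St n × St n) × Noise n N =>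
      (p.1.2, zc ρ q t τ p.1.1 p.2 N)) (hy.prodMk hz)
  have h2 : Continuous fun p : (St n × St n) × Noise n N =>
      nsq (zc ρ q t τ p.1.1 p.2 N) := continuous_nsq.comp' hz
  unfold pathPhi
  exact ((h1.const_mul lam).sub (h2.const_mul β)).sub continuous_const

theorem pathZ_nonneg (h : Ulc η ρ) (ht : 0 ≤ t) (hτ : 0 < τ) (N : ℕ) (lam β c : ℝ) (θ y : St n) :
    0 ≤ pathZ N ρ q t τ lam β c θ y :=
  div_nonneg (integral_nonneg fun ω => mul_nonneg (Real.exp_pos _).le
    (pwt_nonneg h ht hτ θ ω N)) (part_pos h ht θ).le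

/-- The moment generating function of the standard Gaussian vector. -/
theorem integral_exp_dotp_gauss (x : St n) :
    ∫ g, Real.exp (dotp g x) ∂P166W.gauss (Fin n) = Real.exp (nsq x / 2) := by
  have e : ∫ g, wgt 1 g x ∂P166W.gauss (Fin n) = 1 := by
    rw [integral_eq_lintegral_of_nonneg_ae (f := fun g => wgt 1 g x)
      (Eventually.of_forall fun g => (Real.exp_pos _).le)
      (Measurable.aestronglyMeasurable (by unfold wgt dotp nsq; fun_prop))]
    have := lintegral_wgt_gauss one_pos x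
    simp only [Real.sqrt_one, one_smul] at this
    rw [this, ENNReal.toReal_one]
  simp only [wgt, Real.exp_sub, integral_div] at e
  rw [div_eq_one_iff_eq (Real.exp_pos _).ne'] at e
  rw [e]; ring_nf

/-- The exponential of a pairing, clipped off the support. -/
def clipExp (D : ℝ) (w x : St n) : ℝ := Real.exp (min (dotp w x) ((nsq w + D) / 2))

theorem continuous_clipExp (D : ℝ) (w : St n) : Continuous (clipExp D w) :=
  ((continuous_dotp w).min continuous_const).rexp

theorem abs_clipExp_le (D : ℝ) (w x : St n) : |clipExp D w x| ≤ Real.exp ((nsq w + D) / 2) := by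
  rw [clipExp, abs_of_pos (Real.exp_pos _)]
  exact Real.exp_le_exp.2 (min_le_right _ _)

theorem clipExp_eq {w x : St n} (hx : nsq x ≤ D) : clipExp D w x = Real.exp (dotp w x) := by
  rw [clipExp, min_eq_left ((le_abs_self _).trans ((abs_dotp_le w x).trans (by linarith)))]

theorem mg_clipExp (hd : Dens D ρ) (w : St n) (s : ℝ) (θ : St n) :
    mg ρ (clipExp D w) s θ = mg ρ (fun x => Real.exp (dotp w x)) s θ := by
  unfold mg num
  exact congrArg (· / _) (integral_congr_ae ((dens_ae_le hd).mono fun x hx => by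
    simp only [clipExp_eq hx]))

theorem abs_mg_clipExp_le (hd : Dens D ρ) (w : St n) (s : ℝ) (θ : St n) :
    |mg ρ (clipExp D w) s θ| ≤ Real.exp ((nsq w + D) / 2) := by
  have := dens_isProb (dens_post hd s θ)
  rw [← dens_integral_post hd, ← Real.norm_eq_abs]
  exact (norm_integral_le_of_norm_le_const (Eventually.of_forall fun x =>
    (Real.norm_eq_abs _).trans_le (abs_clipExp_le D w x))).trans_eq (by simp)

/-- The exponential moment of the barycentre along pure paths is that of the posterior. -/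
theorem bary_walk_le {N : ℕ} (h : PathCtx η D t τ M b ρ q) (θ₀ w : St n) {k : ℕ} (hk : k ≤ N) :
    walkE ρ t τ θ₀ (fun ω : Noise n N =>
      Real.exp (dotp w (bary ρ (rk t τ k) (pos τ θ₀ ω k)))) ≤ mg ρ (clipExp D w) t θ₀ := by
  refine le_trans ?_ (h.walkE_mg θ₀ (continuous_clipExp D w) (C := Real.exp ((nsq w + D) / 2))
    (fun x _ => abs_clipExp_le D w x) (polyB_of_bounded (abs_clipExp_le D w)) hk).le
  simpa only [one_mul, mg_clipExp h.dens] using h.bary_mgf θ₀ w 1 hk

/-- The exponential moment of the subgaussian law. -/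
theorem integral_clipExp_le (hd : Dens D ρ) (hs : SubG ρ) (w : St n) :
    ∫ x, clipExp D w x ∂law ρ ≤ 3 * Real.exp (nsq w / 4) := by
  have := dens_isProb hd
  have hi : Integrable (clipExp D w) (law ρ) := dens_integrable hd (continuous_clipExp D w)
  rcases eq_or_lt_of_le (nsq_nonneg' w) with h0 | hpos
  · have hw : w = 0 := funext fun i => by
      have := (Finset.sum_eq_zero_iff_of_nonneg fun i _ => sq_nonneg (w i)).1 h0.symm i
        (Finset.mem_univ i)
      simpa using this
    subst hw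
    refine (integral_mono_ae hi (integrable_const (1 : ℝ)) ((dens_ae_le hd).mono fun x hx => by
      simp [clipExp_eq hx, dotp])).trans ?_
    simp [nsq]
  · set r := Real.sqrt (nsq w) with hr
    have hr0 : 0 < r := Real.sqrt_pos.2 hpos
    have hv : nsq (r⁻¹ • w) = 1 := by
      rw [nsq_smul', inv_pow, hr, Real.sq_sqrt hpos.le, inv_mul_cancel₀ hpos.ne']
    obtain ⟨hi2, hle⟩ := subG_integral hs hv
    refine (integral_mono_ae hi (hi2.const_mul (Real.exp (nsq w / 4)))
      ((dens_ae_le hd).mono fun x hx => ?_)).trans ?_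
    · beta_reduce
      rw [clipExp_eq hx, ← Real.exp_add, Real.exp_le_exp, dotp_smul]
      have e : dotp w x = r * (r⁻¹ * dotp w x) := by field_simp
      have e2 : nsq w = r ^ 2 := (Real.sq_sqrt hpos.le).symm
      nlinarith [sq_nonneg (r / 2 - r⁻¹ * dotp w x)]
    · rw [integral_const_mul, mul_comm (3 : ℝ)]
      exact mul_le_mul_of_nonneg_left hle (Real.exp_pos _).le

/-- The average over the state of a posterior exponential moment. -/
theorem Ep_mg_clipExp_le (h : Ulc η ρ) (hd : Dens D ρ) (ht : 0 < t) (hs : SubG ρ) (w : St n) :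
    Ep ρ t (fun θ => mg ρ (clipExp D w) t θ) ≤ 3 * Real.exp (nsq w / 4) := by
  have := isProb h
  have e := joint_mg h ht (Φ := fun x _ => clipExp D w x)
    ((continuous_clipExp D w).measurable.comp measurable_fst)
    (polyB2_of_point (polyB_of_bounded (abs_clipExp_le D w)))
  rw [← e, joint, integral_fun_fst (fun x => clipExp D w x), probReal_univ, one_smul]
  exact integral_clipExp_le hd hs w

/-- Smoothing cancels the penalty and leaves a subgaussian moment of the pure path. -/
theorem pathZ_smooth (h : PathCtx η D t τ M b ρ q) (ht : 0 < t) (hs : SubG ρ) (N : ℕ)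
    (lam σ c : ℝ) (v : St n) :
    ∫ ξ, Ep ρ t (fun θ => pathZ N ρ q t τ lam (lam ^ 2 * σ ^ 2 / 2) c θ (v + σ • ξ))
        ∂P166W.gauss (Fin n) ≤
      3 * Real.exp (-c + 9 / 4 * (lam ^ 2 * nsq v) +
        N * (9 / 2 * τ * ((3 * M) ^ 2 * (lam ^ 2 * nsq v)) + τ * Real.sqrt τ *
          ((27 / 2 + 2 * 27 * Real.exp (3 * (2 * (1 + D + 10 * (lam ^ 2 * nsq v))))) *
            envC n (1 + D + 10 * (lam ^ 2 * nsq v))))) := by
  obtain ⟨hu, hd, ht0, hτ⟩ : Ulc η ρ ∧ Dens D ρ ∧ 0 ≤ t ∧ 0 < τ :=
    ⟨h.ulc, h.dens, h.ht, h.hτ⟩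
  have := isProb hu
  set β := lam ^ 2 * σ ^ 2 / 2 with hβ
  set S := N * (9 / 2 * τ * ((3 * M) ^ 2 * (lam ^ 2 * nsq v)) + τ * Real.sqrt τ *
    ((27 / 2 + 2 * 27 * Real.exp (3 * (2 * (1 + D + 10 * (lam ^ 2 * nsq v))))) *
      envC n (1 + D + 10 * (lam ^ 2 * nsq v)))) with hS
  have hS0 : 0 ≤ S := by
    have := envC_nonneg n (1 + D + 10 * (lam ^ 2 * nsq v))
    have := nsq_nonneg' v
    positivity
  set u := lam • v with hudef
  have hnu : nsq u = lam ^ 2 * nsq v := nsq_smul' lam v
  -- integrability of the smoothed moment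
  obtain ⟨E, hE⟩ := pathZ_le h N lam β
  have hmZ : Measurable fun p : St n × (St n × St n) =>
      pathZ N ρ q t τ lam β c (t • p.2.1 + Real.sqrt t • p.2.2) (v + σ • p.1) := by
    have hg : Continuous fun p : St n × (St n × St n) => t • p.2.1 + Real.sqrt t • p.2.2 := by
      fun_prop
    have hy : Continuous fun p : St n × (St n × St n) => v + σ • p.1 := by fun_prop
    refine measurable_walkE hu hg.measurable (F := fun p (ω : Noise n N) => Real.exp
      (pathPhi ρ q t τ lam β c (t • p.2.1 + Real.sqrt t • p.2.2) (v + σ • p.1) ω)) ?_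
    exact (((continuous_pathPhi₂ h N lam β c).comp'
      (((hg.prodMk hy).comp' continuous_fst).prodMk continuous_snd)).rexp).measurable
  set ε := 1 / (8 * (σ ^ 2 + 1)) with hεdef
  have hε : 0 < ε := by positivity
  set C₀ := E + ε * (2 * nsq v) + E ^ 2 / (4 * ε)
  have hb : ∀ ξ : St n, E * (1 + Real.sqrt (nsq (v + σ • ξ))) ≤ C₀ + 1 / 4 * nsq ξ := fun ξ => by
    have h1 := nsq_add_le v (σ • ξ)
    rw [nsq_smul'] at h1
    have h2 := Real.sq_sqrt (nsq_nonneg' (v + σ • ξ))
    have h3 : E * Real.sqrt (nsq (v + σ • ξ)) ≤ ε * nsq (v + σ • ξ) + E ^ 2 / (4 * ε) := by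
      rw [← sub_le_iff_le_add', le_div_iff₀ (by positivity)]
      have h7 := congrArg (fun x => ε ^ 2 * x) h2
      nlinarith [sq_nonneg (E - 2 * ε * Real.sqrt (nsq (v + σ • ξ)))]
    have h4 := mul_le_mul_of_nonneg_left h1 hε.le
    have h5 : ε * (2 * (σ ^ 2 * nsq ξ)) ≤ 1 / 4 * nsq ξ := by
      have h6 : ε * (2 * σ ^ 2) ≤ 1 / 4 := by
        rw [hεdef, div_mul_eq_mul_div, div_le_iff₀ (by positivity)]
        linarith
      have := mul_le_mul_of_nonneg_right h6 (nsq_nonneg' ξ)
      linarith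
    simp only [C₀]
    linarith
  have hbd : ∀ θ ξ, |pathZ N ρ q t τ lam β c θ (v + σ • ξ)| ≤
      Real.exp (-c) * Real.exp C₀ * Real.exp (1 / 4 * nsq ξ) := fun θ ξ => by
    rw [abs_of_nonneg (pathZ_nonneg hu ht0 hτ N lam β c θ _), mul_assoc, ← Real.exp_add]
    exact (hE c θ _).trans
      (mul_le_mul_of_nonneg_left (Real.exp_le_exp.2 (hb ξ)) (Real.exp_pos _).le)
  have hint := (integral_exp_nsq_gauss (n := n) (b := 1 / 4) (by norm_num) le_rfl).1.const_mul
    (Real.exp (-c) * Real.exp C₀)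
  have hI : Integrable (Function.uncurry fun (ξ : St n) (z : St n × St n) =>
      pathZ N ρ q t τ lam β c (t • z.1 + Real.sqrt t • z.2) (v + σ • ξ))
      ((P166W.gauss (Fin n)).prod ((law ρ).prod (P166W.gauss (Fin n)))) :=
    (hint.comp_fst _).mono' hmZ.aestronglyMeasurable
      (Eventually.of_forall fun p => hbd _ _)
  simp only [Ep, joint]
  rw [integral_integral_swap hI]
  -- the Gaussian average
  have hG : ∀ θ, ∫ ξ, pathZ N ρ q t τ lam β c θ (v + σ • ξ) ∂P166W.gauss (Fin n) =
      Real.exp (-c) *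
        walkE ρ t τ θ fun ω : Noise n N => Real.exp (dotp u (zc ρ q t τ θ ω N)) := fun θ => by
    have e : ∀ (ω : Noise n N) (ξ : St n), Real.exp (pathPhi ρ q t τ lam β c θ (v + σ • ξ) ω) =
        Real.exp (-c) * Real.exp (dotp u (zc ρ q t τ θ ω N)) *
          Real.exp (-(β * nsq (zc ρ q t τ θ ω N))) *
          Real.exp (dotp ξ ((lam * σ) • zc ρ q t τ θ ω N)) := fun ω ξ => by
      simp only [← Real.exp_add, pathPhi, hudef, dotp, Pi.add_apply, Pi.smul_apply, smul_eq_mul,
        add_mul, Finset.sum_add_distrib, mul_add, Finset.mul_sum]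
      congr 1
      have e1 : ∑ i, lam * (σ * ξ i * zc ρ q t τ θ ω N i) =
          ∑ i, ξ i * (lam * σ * zc ρ q t τ θ ω N i) :=
        Finset.sum_congr rfl fun i _ => by ring
      have e2 : ∑ i, lam * (v i * zc ρ q t τ θ ω N i) = ∑ i, lam * v i * zc ρ q t τ θ ω N i :=
        Finset.sum_congr rfl fun i _ => by ring
      linarith
    have hΦm : Measurable (Function.uncurry fun (ξ : St n) (ω : Noise n N) =>
        Real.exp (pathPhi ρ q t τ lam β c θ (v + σ • ξ) ω) * pwt ρ t τ θ ω N) := by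
      have hy : Continuous fun p : St n × Noise n N => ((θ, v + σ • p.1), p.2) := by fun_prop
      exact (((continuous_pathPhi₂ h N lam β c).comp' hy).rexp.measurable).mul
        ((measurable_pwt hu N θ).comp measurable_snd)
    obtain ⟨C, hC⟩ := exists_zc_bound h N
    have hI2 : Integrable (Function.uncurry fun (ξ : St n) (ω : Noise n N) =>
        Real.exp (pathPhi ρ q t τ lam β c θ (v + σ • ξ) ω) * pwt ρ t τ θ ω N)
        ((P166W.gauss (Fin n)).prod (noise n N)) := by
      refine (integrable_prod_iff' hΦm.aestronglyMeasurable).2 ⟨Eventually.of_forall fun ω => ?_, ?_⟩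
      · simp only [Function.uncurry, e]
        refine (Integrable.const_mul ?_ _).mul_const _
        refine Integrable.of_integral_ne_zero ?_
        rw [integral_exp_dotp_gauss]
        positivity
      · simp only [Function.uncurry, Real.norm_eq_abs, abs_mul,
          abs_of_nonneg (pwt_nonneg hu ht0 hτ θ _ N), abs_of_pos (Real.exp_pos _), e,
          integral_mul_const, integral_const_mul, integral_exp_dotp_gauss]
        refine integrable_mul_pwt hu ht0 hτ θ le_rfl ?_
        have hz : BMeas fun ω : Noise n N => dotp u (zc ρ q t τ θ ω N) := by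
          unfold dotp
          exact BMeas.sum fun i _ => (h.bmeas_zc θ N i).smul (u i)
        have hn := h.bmeas_nsq_zc (N := N) θ N
        simp only [nsq_smul', ← neg_mul, mul_div_right_comm]
        exact ((((BMeas.const _).mul hz.exp).mul (hn.smul (-β)).exp).mul
          (hn.smul ((lam * σ) ^ 2 / 2)).exp)
    simp only [pathZ, walkE, integral_div]
    rw [integral_integral_swap hI2, ← mul_div_assoc, ← integral_const_mul]
    congr 1
    refine integral_congr_ae (Eventually.of_forall fun ω => ?_)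
    simp only [e, integral_mul_const, integral_const_mul, integral_exp_dotp_gauss, nsq_smul']
    have h0 : Real.exp (-(β * nsq (zc ρ q t τ θ ω N))) *
        Real.exp ((lam * σ) ^ 2 * nsq (zc ρ q t τ θ ω N) / 2) = 1 := by
      rw [← Real.exp_add, Real.exp_eq_one_iff, hβ]; ring
    rw [mul_assoc (Real.exp (-c) * _), h0]
    ring
  simp only [hG]
  -- the three parts of the pairing
  set w₁ := (3 : ℝ) • u with hw₁
  set w₂ := (-3 : ℝ) • u with hw₂
  have h3 : ∀ θ, walkE ρ t τ θ (fun ω : Noise n N => Real.exp (dotp u (zc ρ q t τ θ ω N))) ≤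
      1 / 3 * (mg ρ (clipExp D w₁) t θ + mg ρ (clipExp D w₂) t θ + Real.exp S) := fun θ => by
    set A := fun ω : Noise n N => Real.exp (dotp w₁ (bary ρ (rk t τ N) (pos τ θ ω N)))
    set B := fun ω : Noise n N => Real.exp (dotp w₂ (bary ρ (rk t τ 0) (pos τ θ ω 0)))
    set Z := fun ω : Noise n N => Real.exp (-3 * zs ρ q t τ θ ω u N)
    have hA : ∀ (w : St n) (k : ℕ), BMeas fun ω : Noise n N =>
        Real.exp (dotp w (bary ρ (rk t τ k) (pos τ θ ω k))) := fun w k =>
      BMeas.exp ⟨(continuous_dotp w).measurable.comp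
        ((measurable_bary hd _).comp (measurable_pos_right τ θ k)), _,
        fun ω => abs_dotp_bary_le hd _ _ w⟩
    have hZ : BMeas Z := ((h.bmeas_zs θ u N).smul (-3)).exp
    have hz : BMeas fun ω : Noise n N => dotp u (zc ρ q t τ θ ω N) := by
      unfold dotp
      exact BMeas.sum fun i _ => (h.bmeas_zc θ N i).smul (u i)
    refine (walkE_mono hu ht0 hτ θ hz.exp
      ((((hA w₁ N).add (hA w₂ 0)).add hZ).smul (1 / 3)) fun ω => ?_).trans ?_
    · have hsp := h.split θ u ω (le_refl N)
      simp only [hw₁, hw₂, Z, dotp_smul, rk, Nat.cast_zero, zero_mul, add_zero, pos_zero] at hsp ⊢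
      rw [show dotp u (zc ρ q t τ θ ω N) = dotp u (bary ρ (t + N * τ) (pos τ θ ω N)) +
        -dotp u (bary ρ t θ) + -zs ρ q t τ θ ω u N by linarith]
      generalize dotp u (bary ρ (t + N * τ) (pos τ θ ω N)) = a
      generalize dotp u (bary ρ t θ) = a'
      generalize zs ρ q t τ θ ω u N = a''
      simp only [neg_mul, ← mul_neg]
      have e3 : ∀ x : ℝ, Real.exp (3 * x) = Real.exp x ^ 3 := fun x => by
        rw [← Real.exp_nat_mul]; norm_num
      rw [Real.exp_add, Real.exp_add, e3, e3, e3]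
      have hp := Real.exp_pos a
      have hp' := Real.exp_pos (-a')
      have hp'' := Real.exp_pos (-a'')
      nlinarith [mul_nonneg (by linarith : (0 : ℝ) ≤ Real.exp a + Real.exp (-a') + Real.exp (-a''))
        (add_nonneg (add_nonneg (sq_nonneg (Real.exp a - Real.exp (-a')))
          (sq_nonneg (Real.exp (-a') - Real.exp (-a''))))
          (sq_nonneg (Real.exp (-a'') - Real.exp a)))]
    · rw [walkE_smul, walkE_add hu ht0 hτ θ ((hA w₁ N).add (hA w₂ 0)) hZ,
        walkE_add hu ht0 hτ θ (hA w₁ N) (hA w₂ 0)]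
      refine mul_le_mul_of_nonneg_left (add_le_add (add_le_add
        (bary_walk_le h θ w₁ le_rfl) (bary_walk_le h θ w₂ (Nat.zero_le N))) ?_) (by norm_num)
      refine (h.zs_mgf θ u (-3)).trans (le_of_eq ?_)
      rw [hS, hnu]
      norm_num
  -- the average over the state
  have hm : ∀ w, Measurable fun θ => mg ρ (clipExp D w) t θ := fun w =>
    (continuous_mg hd (continuous_clipExp D w) t).measurable
  have hp : ∀ w, PolyB fun θ => mg ρ (clipExp D w) t θ := fun w =>
    polyB_of_bounded fun θ => abs_mg_clipExp_le hd w t θ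
  have hH : ∫ z, Real.exp (-c) * walkE ρ t τ (t • z.1 + Real.sqrt t • z.2)
        (fun ω : Noise n N => Real.exp (dotp u (zc ρ q t τ (t • z.1 + Real.sqrt t • z.2) ω N)))
        ∂(law ρ).prod (P166W.gauss (Fin n)) ≤
      Ep ρ t fun θ => Real.exp (-c) * (1 / 3) *
        (mg ρ (clipExp D w₁) t θ + mg ρ (clipExp D w₂) t θ + Real.exp S) := by
    refine Ep_le_of_sign hu ht0 (F := fun θ => Real.exp (-c) * walkE ρ t τ θ
        fun ω : Noise n N => Real.exp (dotp u (zc ρ q t τ θ ω N))) (fun θ => ?_)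
      ((((hm w₁).add (hm w₂)).add_const _).const_mul _)
      (polyB_smul _ (polyB_add (polyB_add (hp w₁) (hp w₂)) (polyB_const _))) fun θ => ?_
    · exact mul_nonneg (Real.exp_pos _).le (div_nonneg (integral_nonneg fun ω =>
        mul_nonneg (Real.exp_pos _).le (pwt_nonneg hu ht0 hτ θ ω N)) (part_pos hu ht0 θ).le)
    · rw [mul_assoc]
      exact mul_le_mul_of_nonneg_left (h3 θ) (Real.exp_pos _).le
  refine hH.trans ?_
  have i : ∀ w, Integrable (fun z => mg ρ (clipExp D w) t (t • z.1 + Real.sqrt t • z.2))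
      ((law ρ).prod (P166W.gauss (Fin n))) := fun w => integrable_chan hu (hm w) (hp w) ht0
  simp only [Ep, joint, integral_const_mul]
  have j : Integrable (fun z => mg ρ (clipExp D w₁) t (t • z.1 + Real.sqrt t • z.2) +
      mg ρ (clipExp D w₂) t (t • z.1 + Real.sqrt t • z.2))
      ((law ρ).prod (P166W.gauss (Fin n))) := (i w₁).add (i w₂)
  rw [integral_add j (integrable_const _), integral_add (i w₁) (i w₂),
    integral_const, probReal_univ, one_smul]
  have e1 := Ep_mg_clipExp_le hu hd ht hs w₁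
  have e2 := Ep_mg_clipExp_le hu hd ht hs w₂
  simp only [Ep, joint, hw₁, hw₂, nsq_smul', hnu] at e1 e2 ⊢
  have hq : 0 ≤ lam ^ 2 * nsq v := by have := nsq_nonneg' v; positivity
  rw [show -c + 9 / 4 * (lam ^ 2 * nsq v) + S = -c + (9 / 4 * (lam ^ 2 * nsq v) + S) by ring,
    Real.exp_add]
  have m1 : Real.exp (3 ^ 2 * (lam ^ 2 * nsq v) / 4) ≤
      Real.exp (9 / 4 * (lam ^ 2 * nsq v) + S) := Real.exp_le_exp.2 (by linarith)
  have m2 : Real.exp ((-3) ^ 2 * (lam ^ 2 * nsq v) / 4) ≤
      Real.exp (9 / 4 * (lam ^ 2 * nsq v) + S) := Real.exp_le_exp.2 (by linarith)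
  have m3 : Real.exp S ≤ Real.exp (9 / 4 * (lam ^ 2 * nsq v) + S) :=
    Real.exp_le_exp.2 (by linarith)
  have hc0 := Real.exp_pos (-c)
  have m4 := Real.exp_pos (9 / 4 * (lam ^ 2 * nsq v) + S)
  rw [mul_left_comm (3 : ℝ), mul_assoc]
  exact mul_le_mul_of_nonneg_left (by linarith) hc0.le

/-- On tilted paths the cut increment follows the response at the starting time. -/
theorem pairing_low (h : PathCtx η D t τ M b ρ q) (N : ℕ) (θ₀ v : St n) :
    dotp v (dBary ρ t θ₀ v) - nsq v / (η + (t + N * τ)) -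
        N * (τ * (3 * M * (nsq v / (η + t))) +
          τ * Real.sqrt τ * (6 * envC n (1 + D + 10 * nsq v))) ≤
      walkE ρ t τ (θ₀ + v) (fun ω : Noise n N => dotp v (zc ρ q t τ θ₀ ω N)) := by
  obtain ⟨hu, ht, hτ⟩ : Ulc η ρ ∧ 0 ≤ t ∧ 0 < τ := ⟨h.ulc, h.ht, h.hτ⟩
  have hT : 0 ≤ t + N * τ := by positivity
  set S := N * (τ * (3 * M * (nsq v / (η + t))) +
    τ * Real.sqrt τ * (6 * envC n (1 + D + 10 * nsq v)))
  set a := dotp v (bary ρ t (θ₀ + v))
  set q₀ := nsq v / (η + (t + N * τ))
  have hmT : BMeas fun ω : Noise n N =>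
      dotp v (bary ρ (t + N * τ) (pos τ (θ₀ + v) ω N)) :=
    ⟨(continuous_dotp v).measurable.comp
      ((measurable_bary h.dens _).comp (measurable_pos_right τ _ N)), _,
      fun ω => abs_dotp_bary_le h.dens _ _ v⟩
  have hmean : walkE ρ t τ (θ₀ + v)
      (fun ω : Noise n N => dotp v (bary ρ (t + N * τ) (pos τ (θ₀ + v) ω N))) = a := by
    have e2 : walkE ρ t τ (θ₀ + v)
        (fun ω : Noise n N => mg ρ (dotp v) (t + N * τ) (pos τ (θ₀ + v) ω N)) =
        mg ρ (dotp v) t (θ₀ + v) := h.walkE_mg (θ₀ + v) (continuous_dotp v)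
          (fun x hx => (abs_dotp_le v x).trans (by linarith : _ ≤ (nsq v + D) / 2))
          (polyB_dotp v) le_rfl
    simpa only [← dotp_bary_mg hu hT, ← dotp_bary_mg hu ht] using e2
  have hzc : BMeas fun ω : Noise n N => dotp v (zc ρ q t τ θ₀ ω N) := by
    unfold dotp
    exact BMeas.sum fun i _ => (h.bmeas_zc θ₀ N i).smul (v i)
  have hL := (hmT.add ((h.bmeas_zs θ₀ v N).smul (-1))).add
    (BMeas.const (-q₀ - dotp v (bary ρ t θ₀)))
  have hle := walkE_mono hu ht hτ (θ₀ + v) hL hzc fun ω => by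
    have hs := h.split θ₀ v ω (le_refl N)
    have hco := (dBary_coco hu hT (pos τ θ₀ ω N) v).2.1
    simp only [rk] at hs
    simp only [dBary, dotp_sub] at hco
    simp only [pos_shift, q₀]
    linarith
  rw [walkE_add hu ht hτ _ (hmT.add ((h.bmeas_zs θ₀ v N).smul (-1))) (BMeas.const _),
    walkE_add hu ht hτ _ hmT ((h.bmeas_zs θ₀ v N).smul (-1)), walkE_smul, walkE_const hu ht hτ,
    hmean] at hle
  have hz := h.zs_mean (N := N) θ₀ v v 1 (by simp)
  have e : 3 * M * Real.sqrt (nsq v) * (Real.sqrt (nsq v) / (η + t)) =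
      3 * M * (nsq v / (η + t)) := by
    rw [mul_div_assoc', mul_assoc (3 * M), Real.mul_self_sqrt (nsq_nonneg' v), mul_div_assoc]
  rw [e, one_mul] at hz
  have e4 : dotp v (dBary ρ t θ₀ v) = a - dotp v (bary ρ t θ₀) := by simp only [dBary, dotp_sub, a]
  simp only [S, q₀] at *
  linarith

end

end Vale.Agent.P245.Gen2
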