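import Vale.Agent.P245.Gen2.EarlyPath
import Vale.Agent.P245.Gen2.EarlyLevel

/-!
# P245, polylogarithmic bound: the response at one starting state
-/

open MeasureTheory Finset Polynomial

namespace Vale.Agent.P245.Gen2

open Vale.Agent.P245 Vale.Agent.P245.General

noncomputable section

variable {n : ℕ} {η D t τ b ε γ κ lam b₀ B : ℝ} {ρ : St n → ℝ} {q : ℝ[X]}

/-- The mass of the bad states on the pure path. -/
def badPath (ρ : St n → ℝ) (t τ : ℝ) (N : ℕ) (θ : St n) : ℝ :=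
  4 * n / t * (τ * ∑ j ∈ range N, fut ρ t (rk t τ j) (bad ρ (rk t τ j) 3) θ)

/-- The mean of the penalised pairing on tilted paths. -/
def pathMean (N : ℕ) (ρ : St n → ℝ) (q : ℝ[X]) (η t τ lam b₀ : ℝ) (θ w : St n) : ℝ :=
  lam * walkE ρ t τ (θ + w) (fun ω : Noise n N => dotp w (zc ρ q t τ θ ω N)) -
    b₀ * t / 2 * walkE ρ t τ (θ + w) (fun ω : Noise n N => nsq (zc ρ q t τ θ ω N)) -
    nsq w / (2 * (η + t))

/-- The square of a sum of three terms. -/
theorem sq_add_three_le {γ : ℝ} (hγ : 0 < γ) (x y z : ℝ) :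
    (x + y + z) ^ 2 ≤ (1 + γ) * x ^ 2 + (1 + 1 / γ) * (2 * y ^ 2 + 2 * z ^ 2) := by
  have h1 : 2 * x * (y + z) ≤ γ * x ^ 2 + 1 / γ * (y + z) ^ 2 := by
    have e : γ * x ^ 2 + 1 / γ * (y + z) ^ 2 - 2 * x * (y + z) = (γ * x - (y + z)) ^ 2 / γ := by
      field_simp; ring
    have : 0 ≤ (γ * x - (y + z)) ^ 2 / γ := by positivity
    linarith
  have h2 := mul_le_mul_of_nonneg_left (show (y + z) ^ 2 ≤ 2 * y ^ 2 + 2 * z ^ 2 by
    nlinarith [sq_nonneg (y - z)]) (by positivity : (0 : ℝ) ≤ 1 + 1 / γ)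
  linarith

/-- The drift of the cut part, summed along the path. -/
theorem drift_sum_le (hη : 0 < η) (ht : 0 < t) (hτ : 0 < τ) (hb : 0 ≤ b) (N : ℕ) (w : St n)
    (e : ℝ) :
    ∑ j ∈ range N, (τ * (b / (η + rk t τ j)) * (Real.sqrt (nsq w) / (η + rk t τ j)) + e) ≤
      b * (1 + τ / t) * Real.sqrt (nsq w) / t + N * e := by
  rw [Finset.sum_add_distrib, Finset.sum_const, Finset.card_range, nsmul_eq_mul]
  refine add_le_add ?_ le_rfl
  calc ∑ j ∈ range N, τ * (b / (η + rk t τ j)) * (Real.sqrt (nsq w) / (η + rk t τ j))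
      ≤ ∑ j ∈ range N, b * Real.sqrt (nsq w) * (τ / (t + j * τ) ^ 2) := by
        refine Finset.sum_le_sum fun j _ => ?_
        have hr : 0 < t + j * τ := by positivity
        simp only [rk]
        rw [show τ * (b / (η + (t + j * τ))) * (Real.sqrt (nsq w) / (η + (t + j * τ))) =
          b * Real.sqrt (nsq w) * (τ / (η + (t + j * τ)) ^ 2) by field_simp]
        refine mul_le_mul_of_nonneg_left ?_ (by positivity)
        exact div_le_div_of_nonneg_left hτ.le (by positivity)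
          (pow_le_pow_left₀ hr.le (by linarith) 2)
    _ = b * Real.sqrt (nsq w) * ∑ j ∈ range N, τ / (t + j * τ) ^ 2 := by rw [Finset.mul_sum]
    _ ≤ b * Real.sqrt (nsq w) * ((1 + τ / t) / t) :=
        mul_le_mul_of_nonneg_left (sum_inv_sq_le ht hτ N) (by positivity)
    _ = _ := by ring

/-- On one starting state the response is at most the penalised pairing plus small terms. -/
theorem point_bound (N : ℕ) (h : PathCtx η D t τ (ε ^ 2 / t) b ρ q) (ht : 0 < t) (ht1 : t ≤ 1)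
    (hε : 0 < ε) (hγ : 0 < γ) (hlam : 0 ≤ lam) (hb₀ : 0 ≤ b₀) (hT : t + N * τ = t / ε)
    (hτε : τ / t ≤ ε) (hb1 : b ≤ 1 + ε)
    (hex : ∀ θ w : St n, t * τ * ∑ j ∈ range N, walkE ρ t τ (θ + w)
        (fun ω : Noise n N => excess ρ q (rk t τ j) (pos τ θ ω j)) ≤
      κ * (nsq w / t) + 2 + badPath ρ t τ N θ)
    (he1 : (N : ℝ) * τ * Real.sqrt τ * (6 * envC n (1 + D + 10 * B)) ≤ 1)
    (he2 : (N : ℝ) * τ * Real.sqrt τ * ((n + 1) * (6 * envC n (1 + D + 10))) ≤ 1)
    (hmono : ∀ w : St n, nsq w ≤ B → envC n (1 + D + 10 * nsq w) ≤ envC n (1 + D + 10 * B))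
    (θ w : St n) (hw : nsq w ≤ B) :
    lam * dotp w (dBary ρ t θ w) ≤ pathMean N ρ q η t τ lam b₀ θ w +
      (1 / 2 + 4 * ε * lam + b₀ / 2 * ((1 + γ) * (1 + ε) ^ 4 + (1 + 1 / γ) * (2 * κ))) *
        (nsq w / t) +
      (lam + b₀ / 2 * ((1 + 1 / γ) * 14)) + b₀ * (1 + 1 / γ) * badPath ρ t τ N θ := by
  have hτ := h.hτ
  have hη := h.ulc.pos
  have hn0 := nsq_nonneg' w
  set V := nsq w / t with hV
  have hV0 : 0 ≤ V := div_nonneg hn0 ht.le
  set E := envC n (1 + D + 10) with hE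
  have hE0 : 0 ≤ E := envC_nonneg n _
  have hNτ : (N : ℝ) * τ ≤ t / ε := by linarith
  have hP := pairing_low h N θ w
  have p1 : nsq w / (η + (t + N * τ)) ≤ ε * V := by
    rw [hT]
    calc nsq w / (η + t / ε) ≤ nsq w / (t / ε) :=
          div_le_div_of_nonneg_left hn0 (by positivity) (by linarith)
      _ = ε * V := by rw [hV]; field_simp
  have p2 : (N : ℝ) * (τ * (3 * (ε ^ 2 / t) * (nsq w / (η + t))) +
      τ * Real.sqrt τ * (6 * envC n (1 + D + 10 * nsq w))) ≤ 3 * ε * V + 1 := by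
    have a1 : nsq w / (η + t) ≤ V :=
      div_le_div_of_nonneg_left hn0 ht (by linarith)
    have a2 : (N : ℝ) * τ * (3 * (ε ^ 2 / t) * (nsq w / (η + t))) ≤
        t / ε * (3 * (ε ^ 2 / t) * V) :=
      mul_le_mul hNτ (mul_le_mul_of_nonneg_left a1 (by positivity))
        (by positivity) (by positivity)
    have a3 : t / ε * (3 * (ε ^ 2 / t) * V) = 3 * ε * V := by field_simp
    have a4 : (N : ℝ) * τ * Real.sqrt τ * (6 * envC n (1 + D + 10 * nsq w)) ≤ 1 :=
      le_trans (mul_le_mul_of_nonneg_left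
        (mul_le_mul_of_nonneg_left (hmono w hw) (by norm_num)) (by positivity)) he1
    linarith
  set X := fun j => walkE ρ t τ (θ + w)
    (fun ω : Noise n N => excess ρ q (rk t τ j) (pos τ θ ω j)) with hX
  have hS := h.zc_sq θ w X (fun j _ => le_rfl) one_pos
  set Z := walkE ρ t τ (θ + w) (fun ω : Noise n N => nsq (zc ρ q t τ θ ω N))
  have hm := drift_sum_le hη ht hτ h.hb0 N w (τ * Real.sqrt τ * ((n + 1) * (6 * E)))
  set Sm := ∑ j ∈ range N, (τ * (b / (η + rk t τ j)) * (Real.sqrt (nsq w) / (η + rk t τ j)) +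
    τ * Real.sqrt τ * ((n + 1) * (6 * E))) with hSm
  set SQ := ∑ j ∈ range N, (τ * X j + τ * Real.sqrt τ * (n * (3 * E))) with hSQ
  have hSm0 : 0 ≤ Sm := Finset.sum_nonneg fun j _ => by
    have : 0 < η + rk t τ j := by linarith [h.rk_nonneg j]
    have := h.hb0
    positivity
  set x := b * (1 + τ / t) * Real.sqrt (nsq w) / t with hx
  have hZ : Z ≤ (1 + γ) * x ^ 2 + (1 + 1 / γ) * (2 * 2 ^ 2 + 2 * max SQ 0) := by
    refine hS.trans ?_
    have hs : Real.sqrt SQ ^ 2 = max SQ 0 := by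
      rcases le_total SQ 0 with h0 | h0
      · rw [Real.sqrt_eq_zero_of_nonpos h0, max_eq_right h0]; norm_num
      · rw [Real.sq_sqrt h0, max_eq_left h0]
    rw [← hs]
    refine le_trans ?_ (sq_add_three_le hγ x 2 (Real.sqrt SQ))
    refine pow_le_pow_left₀ (by positivity) ?_ 2
    linarith
  have q1 : t * x ^ 2 ≤ (1 + ε) ^ 4 * V := by
    have e : t * x ^ 2 = b ^ 2 * (1 + τ / t) ^ 2 * V := by
      rw [hx, div_pow, mul_pow, mul_pow, Real.sq_sqrt hn0, hV]; field_simp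
    rw [e]
    refine mul_le_mul_of_nonneg_right ?_ hV0
    have r1 : b ^ 2 ≤ (1 + ε) ^ 2 := pow_le_pow_left₀ h.hb0 hb1 2
    have r2 : (1 + τ / t) ^ 2 ≤ (1 + ε) ^ 2 := pow_le_pow_left₀ (by positivity) (by linarith) 2
    calc b ^ 2 * (1 + τ / t) ^ 2 ≤ (1 + ε) ^ 2 * (1 + ε) ^ 2 :=
          mul_le_mul r1 r2 (by positivity) (by positivity)
      _ = _ := by ring
  have hbp : 0 ≤ badPath ρ t τ N θ := by
    refine mul_nonneg (by positivity) (mul_nonneg hτ.le (Finset.sum_nonneg fun j _ => ?_))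
    exact integral_nonneg fun z => Set.indicator_nonneg (fun _ _ => zero_le_one) _
  have q2 : t * max SQ 0 ≤ κ * V + 3 + badPath ρ t τ N θ := by
    rw [mul_max_of_nonneg _ _ ht.le, mul_zero]
    have hκ0 : 0 ≤ κ * V + 2 + badPath ρ t τ N θ := by
      refine le_trans ?_ (hex θ w)
      refine mul_nonneg (by positivity) (Finset.sum_nonneg fun j _ => ?_)
      refine div_nonneg (integral_nonneg fun ω => ?_) (part_pos h.ulc ht.le _).le
      exact mul_nonneg (Finset.sum_nonneg fun i _ => nsq_nonneg' _)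
        (pwt_nonneg h.ulc ht.le hτ _ ω N)
    refine max_le ?_ (by linarith)
    have e : t * SQ = t * τ * ∑ j ∈ range N, X j +
        t * ((N : ℝ) * τ * Real.sqrt τ * (n * (3 * E))) := by
      rw [hSQ, Finset.sum_add_distrib, Finset.sum_const, Finset.card_range, nsmul_eq_mul,
        ← Finset.mul_sum]
      ring
    have r3 : t * ((N : ℝ) * τ * Real.sqrt τ * (n * (3 * E))) ≤ 1 := by
      refine (mul_le_of_le_one_left (by positivity) ht1).trans (le_trans ?_ he2)
      refine mul_le_mul_of_nonneg_left ?_ (by positivity)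
      nlinarith [(Nat.cast_nonneg n : (0 : ℝ) ≤ n)]
    have := hex θ w
    linarith
  have hZt := mul_le_mul_of_nonneg_left hZ ht.le
  have q3 : t * Z ≤ (1 + γ) * ((1 + ε) ^ 4 * V) +
      (1 + 1 / γ) * (2 * 4 + 2 * (κ * V + 3 + badPath ρ t τ N θ)) := by
    refine hZt.trans ?_
    have r1 := mul_le_mul_of_nonneg_left q1 (by linarith : 0 ≤ 1 + γ)
    have r2 : t * (2 * 2 ^ 2 + 2 * max SQ 0) ≤ 2 * 4 + 2 * (κ * V + 3 + badPath ρ t τ N θ) := by
      linarith
    have r3 := mul_le_mul_of_nonneg_left r2 (by positivity : (0 : ℝ) ≤ 1 + 1 / γ)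
    linarith
  have q4 := mul_le_mul_of_nonneg_left q3 (by positivity : 0 ≤ b₀ / 2)
  have q5 : nsq w / (2 * (η + t)) ≤ V / 2 := by
    rw [hV, div_div]
    exact div_le_div_of_nonneg_left hn0 (by positivity) (by linarith)
  have q6 := mul_le_mul_of_nonneg_left
    ((sub_le_sub (sub_le_sub le_rfl p1) p2).trans hP) hlam
  simp only [pathMean]
  linarith

end

end Vale.Agent.P245.Gen2
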