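import Vale.Agent.P245.Gen2.EarlyPoint
import Vale.Agent.P245.Gen2.EarlyFut

/-!
# P245, polylogarithmic bound: the grid and the functionals of the early bound
-/

open MeasureTheory Finset Polynomial

namespace Vale.Agent.P245.Gen2

open Vale.Agent.P245 Vale.Agent.P245.General

noncomputable section

variable {n N : ℕ} {η D t τ M b lam b₀ B : ℝ} {ρ : St n → ℝ} {q : ℝ[X]}

theorem envC_mono {c c' : ℝ} (hcc : c ≤ c') : envC n c ≤ envC n c' :=
  integral_mono (integrable_exp_envL 20) (integrable_exp_envL 20) fun g =>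
    Real.exp_le_exp.2 (mul_le_mul_of_nonneg_left
      (mul_le_mul_of_nonneg_right hcc (by positivity)) (by norm_num))

/-- A grid of `[t, t / ε]` fine enough for a given error constant. -/
theorem exists_grid {ε C : ℝ} (ht : 0 < t) (hε : 0 < ε) (hε1 : ε < 1) (hC : 0 ≤ C) :
    ∃ (N : ℕ) (τ : ℝ), 0 < τ ∧ τ ≤ 1 ∧ τ ≤ ε * t ∧ t + N * τ = t / ε ∧
      (N : ℝ) * τ * Real.sqrt τ * C ≤ 1 := by
  set T := t / ε with hT
  have hTt : t < T := by rw [hT, lt_div_iff₀ hε]; nlinarith
  have hT0 : 0 < T := ht.trans hTt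
  set δ := min (min 1 (ε * t)) ((1 / (T * C + 1)) ^ 2) with hδ
  have hδ0 : 0 < δ := lt_min (lt_min one_pos (by positivity)) (by positivity)
  obtain ⟨k, hk⟩ := exists_nat_gt ((T - t) / δ)
  have hk0 : (0 : ℝ) < k := lt_trans (div_pos (by linarith) hδ0) hk
  have hle : (T - t) / k ≤ δ := by
    rw [div_le_iff₀ hk0]; rw [div_lt_iff₀ hδ0] at hk; linarith
  refine ⟨k, (T - t) / k, div_pos (by linarith) hk0, ?_, ?_, ?_, ?_⟩
  · exact hle.trans ((min_le_left _ _).trans (min_le_left _ _))
  · exact hle.trans ((min_le_left _ _).trans (min_le_right _ _))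
  · field_simp; ring
  · rw [show (k : ℝ) * ((T - t) / k) = T - t by field_simp]
    have hs : Real.sqrt ((T - t) / k) ≤ 1 / (T * C + 1) :=
      (Real.sqrt_le_sqrt (hle.trans (min_le_right _ _))).trans
        (le_of_eq (Real.sqrt_sq (by positivity)))
    calc (T - t) * Real.sqrt ((T - t) / k) * C ≤ T * (1 / (T * C + 1)) * C :=
          mul_le_mul_of_nonneg_right (mul_le_mul (by linarith) hs (Real.sqrt_nonneg _) hT0.le) hC
      _ ≤ 1 := by
        rw [mul_one_div, div_mul_eq_mul_div, div_le_one (by positivity)]; linarith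

theorem abs_walkE_le (h : Ulc η ρ) (ht : 0 ≤ t) (hτ : 0 < τ) (θ : St n) {F : Noise n N → ℝ}
    (hF : Measurable F) {C : ℝ} (hC : ∀ ω, |F ω| ≤ C) : |walkE ρ t τ θ F| ≤ C := by
  have hb : BMeas F := ⟨hF, C, hC⟩
  have h1 := walkE_mono h ht hτ θ hb (BMeas.const C) fun ω => le_of_abs_le (hC ω)
  have h2 := walkE_mono h ht hτ θ (BMeas.const (-C)) hb fun ω => neg_le_of_abs_le (hC ω)
  rw [walkE_const h ht hτ] at h1 h2
  exact abs_le.2 ⟨h2, h1⟩

theorem PathCtx.bmeas_pair (h : PathCtx η D t τ M b ρ q) (θ y : St n) :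
    BMeas fun ω : Noise n N => dotp y (zc ρ q t τ θ ω N) :=
  BMeas.sum fun i _ => (h.bmeas_zc θ N i).smul (y i)

theorem PathCtx.abs_pair_le (h : PathCtx η D t τ M b ρ q) (N : ℕ) : ∃ C, 0 ≤ C ∧
    ∀ (θ y : St n) (ω : Noise n N),
      |dotp y (zc ρ q t τ θ ω N)| ≤ (nsq y + C) / 2 ∧ |nsq (zc ρ q t τ θ ω N)| ≤ C := by
  obtain ⟨C, hC⟩ := exists_zc_bound h N
  refine ⟨max C 0, le_max_right _ _, fun θ y ω => ⟨(abs_dotp_le _ _).trans ?_, ?_⟩⟩
  · linarith [hC θ ω, le_max_left C 0]
  · rw [abs_of_nonneg (nsq_nonneg' _)]; exact (hC θ ω).trans (le_max_left _ _)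

/-- The mean of the pairing with the smoothed vector, as a function of the noise. -/
def pathDir (N : ℕ) (ρ : St n → ℝ) (q : ℝ[X]) (t τ lam σ : ℝ) (θ w : St n) : St n := fun i =>
  lam * σ * walkE ρ t τ (θ + w) fun ω : Noise n N => zc ρ q t τ θ ω N i

/-- The change of measure at one state and one noise. -/
theorem PathCtx.pairing_dv (h : PathCtx η D t τ M b ρ q) {σ : ℝ}
    (hσ : lam ^ 2 * σ ^ 2 / 2 = b₀ * t / 2) (c : ℝ) (θ w ξ : St n) (ℓ : ℝ) :
    pathMean N ρ q η t τ lam b₀ θ w - c + dotp (pathDir N ρ q t τ lam σ θ w) ξ ≤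
      ℓ + Real.exp (-ℓ) * pathZ N ρ q t τ lam (lam ^ 2 * σ ^ 2 / 2) c θ (w + σ • ξ) := by
  have hu := h.ulc
  have ht := h.ht
  have hτ := h.hτ
  have h1 := h.walk_dv θ w
    (bmeas_pathPhi (N := N) h lam (lam ^ 2 * σ ^ 2 / 2) c θ (w + σ • ξ)) ℓ
  have hp := h.bmeas_pair (N := N) θ w
  have hz := fun i => h.bmeas_zc (N := N) θ N i
  have hs : BMeas fun ω : Noise n N => ∑ i, lam * σ * ξ i * zc ρ q t τ θ ω N i :=
    BMeas.sum fun i _ => (hz i).smul _
  have hn := h.bmeas_nsq_zc (N := N) θ N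
  have e : (fun ω : Noise n N => pathPhi ρ q t τ lam (lam ^ 2 * σ ^ 2 / 2) c θ (w + σ • ξ) ω) =
      fun ω => lam * dotp w (zc ρ q t τ θ ω N) + (∑ i, lam * σ * ξ i * zc ρ q t τ θ ω N i) +
        -(b₀ * t / 2) * nsq (zc ρ q t τ θ ω N) + -c := funext fun ω => by
    simp only [pathPhi, hσ, dotp, Pi.add_apply, Pi.smul_apply, smul_eq_mul, add_mul,
      Finset.sum_add_distrib, mul_add, Finset.mul_sum, mul_assoc]
    ring
  have e2 : walkE ρ t τ (θ + w) (fun ω : Noise n N =>
      pathPhi ρ q t τ lam (lam ^ 2 * σ ^ 2 / 2) c θ (w + σ • ξ) ω) =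
      pathMean N ρ q η t τ lam b₀ θ w + nsq w / (2 * (η + t)) - c +
        dotp (pathDir N ρ q t τ lam σ θ w) ξ := by
    rw [e, walkE_add hu ht hτ _ (((hp.smul lam).add hs).add (hn.smul _)) (BMeas.const _),
      walkE_add hu ht hτ _ ((hp.smul lam).add hs) (hn.smul _),
      walkE_add hu ht hτ _ (hp.smul lam) hs, walkE_sum hu ht hτ _ _ fun i _ => (hz i).smul _,
      walkE_smul, walkE_smul, walkE_const hu ht hτ]
    simp only [walkE_smul, pathMean, pathDir, dotp]
    rw [Finset.sum_congr rfl fun i _ => show lam * σ * ξ i *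
      walkE ρ t τ (θ + w) (fun ω : Noise n N => zc ρ q t τ θ ω N i) = lam * σ *
      walkE ρ t τ (θ + w) (fun ω : Noise n N => zc ρ q t τ θ ω N i) * ξ i by ring]
    ring
  rw [e2] at h1
  simp only [pathZ]
  linarith

theorem PathCtx.measurable_pathMean (h : PathCtx η D t τ M b ρ q) :
    Measurable (Function.uncurry (pathMean N ρ q η t τ lam b₀)) := by
  have hc := continuous_zc₂ h N
  have hz : Measurable fun p : (St n × St n) × Noise n N => zc ρ q t τ p.1.1 p.2 N :=
    (hc.comp ((continuous_fst.comp continuous_fst).prodMk continuous_snd)).measurable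
  have hg : Measurable fun p : St n × St n => p.1 + p.2 := measurable_fst.add measurable_snd
  have m1 := measurable_walkE (t := t) (τ := τ) h.ulc hg
    (F := fun (p : St n × St n) (ω : Noise n N) => dotp p.2 (zc ρ q t τ p.1 ω N))
    (continuous_dotp2.measurable.comp ((measurable_snd.comp measurable_fst).prodMk hz))
  have m2 := measurable_walkE (t := t) (τ := τ) h.ulc hg
    (F := fun (p : St n × St n) (ω : Noise n N) => nsq (zc ρ q t τ p.1 ω N))
    (continuous_nsq.measurable.comp hz)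
  exact ((m1.const_mul lam).sub (m2.const_mul (b₀ * t / 2))).sub
    ((continuous_nsq.measurable.comp measurable_snd).div_const _)

theorem PathCtx.measurable_pathDir (h : PathCtx η D t τ M b ρ q) (σ : ℝ) :
    Measurable (Function.uncurry (pathDir N ρ q t τ lam σ)) := by
  have hc := continuous_zc₂ h N
  have hz : Measurable fun p : (St n × St n) × Noise n N => zc ρ q t τ p.1.1 p.2 N :=
    (hc.comp ((continuous_fst.comp continuous_fst).prodMk continuous_snd)).measurable
  refine measurable_pi_lambda _ fun i => ?_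
  exact (measurable_walkE (t := t) (τ := τ) h.ulc
    (show Measurable fun p : St n × St n => p.1 + p.2 from measurable_fst.add measurable_snd)
    (F := fun (p : St n × St n) (ω : Noise n N) => zc ρ q t τ p.1 ω N i)
    ((measurable_pi_apply i).comp hz)).const_mul (lam * σ)

theorem PathCtx.measurable_pathZ (h : PathCtx η D t τ M b ρ q) (β c : ℝ) :
    Measurable (Function.uncurry (pathZ N ρ q t τ lam β c)) := by
  have hc := continuous_zc₂ h N
  have hz : Measurable fun p : (St n × St n) × Noise n N => zc ρ q t τ p.1.1 p.2 N :=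
    (hc.comp ((continuous_fst.comp continuous_fst).prodMk continuous_snd)).measurable
  exact measurable_walkE (t := t) (τ := τ) h.ulc
    (show Measurable fun p : St n × St n => p.1 from measurable_fst)
    (F := fun (p : St n × St n) (ω : Noise n N) =>
      Real.exp (pathPhi ρ q t τ lam β c p.1 p.2 ω))
    ((((continuous_dotp2.measurable.comp ((measurable_snd.comp measurable_fst).prodMk hz)).const_mul
      lam).sub ((continuous_nsq.measurable.comp hz).const_mul β)).sub_const c).exp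

theorem measurable_badPath (h : Ulc η ρ) (ht : 0 ≤ t) (hτ : 0 ≤ τ) :
    Measurable (badPath ρ t τ N) := by
  refine ((Finset.measurable_sum _ fun j _ => ?_).const_mul τ).const_mul _
  exact measurable_fut h ht (measurable_bad h (by simp only [rk]; positivity) 3)
    ⟨1, abs_le_one_bad _ _⟩

theorem abs_badPath_le (h : Ulc η ρ) (ht : 0 < t) (hτ : 0 ≤ τ) (θ : St n) :
    |badPath ρ t τ N θ| ≤ 4 * n / t * (τ * N) := by
  rw [badPath, abs_mul, abs_mul, abs_of_nonneg hτ, abs_of_nonneg (by positivity : 0 ≤ 4 * (n : ℝ) / t)]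
  refine mul_le_mul_of_nonneg_left (mul_le_mul_of_nonneg_left ?_ hτ) (by positivity)
  refine (Finset.abs_sum_le_sum_abs _ _).trans ?_
  refine (Finset.sum_le_sum fun j _ =>
    abs_fut_le h ht.le (fun x => abs_le_one_bad _ _ x) _ θ).trans ?_
  simp

end

end Vale.Agent.P245.Gen2
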