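import Vale.Agent.P245.Gen2.PathEst

/-!
# P245, polylogarithmic bound: functionals of the path of the channel

The states of the walk are the future states of the channel, and the average of a functional along
a tilted path is compared with its exponential moment along the pure path.
-/

open MeasureTheory Filter

namespace Vale.Agent.P245.Gen2

open Vale.Agent.P245 Vale.Agent.P245.General

noncomputable section

variable {n N : ℕ} {η D t τ r : ℝ} {ρ : St n → ℝ}

/-- One step of the channel as a weighted Gaussian step. -/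
theorem fut_step (h : Ulc η ρ) (hr : 0 ≤ r) (hτ : 0 < τ) {F : St n → ℝ} (hF : Measurable F)
    (x : St n) :
    fut ρ r (r + τ) F x =
      ∫ g, F (x + Real.sqrt τ • g) * stepWt ρ r τ x g ∂P166W.gauss (Fin n) := by
  have hp := post_ulc h hr x
  have e1 : fut ρ r (r + τ) F x = Ep (post ρ r x) τ fun θ' => F (x + θ') := by
    rw [fut, add_sub_cancel_left]; rfl
  have hm : Measurable fun θ' => F (x + θ') * part (post ρ r x) τ θ' :=
    (hF.comp (measurable_const_add x)).mul (measurable_part hp τ)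
  rw [e1, Ep_eq_of_measurable (F := fun θ' => F (x + θ')) hp hτ (hF.comp (measurable_const_add x)),
    law_gd_eq hτ, integral_map (by fun_prop) hm.aestronglyMeasurable]
  refine integral_congr_ae (Eventually.of_forall fun g => ?_)
  simp only [stepWt, part, num_post h hr]

theorem abs_fut_le (h : Ulc η ρ) (ht : 0 ≤ t) {F : St n → ℝ} {C : ℝ} (hC : ∀ x, |F x| ≤ C)
    (r : ℝ) (θ : St n) : |fut ρ t r F θ| ≤ C := by
  have := isProb (post_ulc h ht θ)
  rw [← Real.norm_eq_abs]
  exact (norm_integral_le_of_norm_le_const (Eventually.of_forall fun z => by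
    rw [Real.norm_eq_abs]; exact hC _)).trans_eq (by simp)

/-- The state of the walk after `j` steps is the future state of the channel. -/
theorem walkE_fut (h : Ulc η ρ) (ht : 0 ≤ t) (hτ : 0 < τ) {F : St n → ℝ} (hF : Measurable F)
    (hF' : ∃ C, ∀ x, |F x| ≤ C) (θ₁ : St n) {j : ℕ} (hj : j ≤ N) :
    walkE ρ t τ θ₁ (fun ω : Noise n N => F (pos τ θ₁ ω j)) = fut ρ t (t + j * τ) F θ₁ := by
  induction j generalizing F with
  | zero =>
    simp only [pos_zero, Nat.cast_zero, zero_mul, add_zero]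
    rw [walkE_const h ht hτ]
    have := isProb (post_ulc h ht θ₁)
    simp [fut, joint]
  | succ j ih =>
    obtain ⟨C, hC⟩ := hF'
    have hr : 0 ≤ t + j * τ := by positivity
    set G := fut ρ (t + j * τ) (t + j * τ + τ) F with hGdef
    have hG : Measurable G := measurable_fut h hr hF ⟨C, hC⟩
    have hGC : ∀ x, |G x| ≤ C := abs_fut_le h hr hC _
    have e : walkE ρ t τ θ₁ (fun ω : Noise n N => F (pos τ θ₁ ω (j + 1))) =
        walkE ρ t τ θ₁ fun ω : Noise n N => G (pos τ θ₁ ω j) := by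
      have hΦ : BMeas (Function.uncurry fun (ω : Noise n N) g =>
          F (pos τ θ₁ ω j + Real.sqrt τ • g)) :=
        ⟨hF.comp (((measurable_pos_right τ θ₁ j).comp measurable_fst).add
          (measurable_snd.const_smul (Real.sqrt τ))), C, fun _ => hC _⟩
      have hs := walkE_step h ht hτ θ₁ (by omega : j < N) (G := fun _ => (1 : ℝ)) (BMeas.const 1)
        (fun _ _ _ => rfl) hΦ (fun ω ω' e => by
          simp only [before_pos τ θ₁ j ω ω' e])
      simp only [one_mul, ← pos_succ] at hs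
      have hGb : BMeas fun ω : Noise n N => G (pos τ θ₁ ω j) :=
        ⟨hG.comp (measurable_pos_right τ θ₁ j), C, fun _ => hGC _⟩
      rw [hs, walkE_marginal h ht hτ θ₁ (by omega : j ≤ N) hGb
        fun ω ω' e => congrArg G (before_pos τ θ₁ j ω ω' e)]
      congr 1
      refine integral_congr_ae (Eventually.of_forall fun ω => ?_)
      simp only [hGdef, fut_step h hr hτ hF, pwt, stepWt, mul_div_assoc', integral_div]
      rw [div_mul_cancel₀ _ (part_pos h hr _).ne']
    rw [e, ih hG ⟨C, hGC⟩ (by omega),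
      fut_fut h ht (le_add_of_nonneg_right (by positivity)) (by linarith) hF ⟨C, hC⟩]
    congr 1
    push_cast; ring

/-- The pairing with the barycentre is a posterior average. -/
theorem dotp_bary_mg (h : Ulc η ρ) (hr : 0 ≤ r) (θ v : St n) :
    dotp v (bary ρ r θ) = mg ρ (dotp v) r θ := by
  rw [← integral_post h hr, integral_dotp (post_ulc h hr θ), center_post h hr]
  rfl

theorem abs_dotp_bary_le (hd : Dens D ρ) (r : ℝ) (θ v : St n) :
    |dotp v (bary ρ r θ)| ≤ (nsq v + D) / 2 :=
  (abs_dotp_le v _).trans (by linarith [nsq_bary_le_supp hd r θ])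

/-- The tilted path against the exponential moment on the pure path, with any level `ℓ`. -/
theorem PathCtx.walk_dv {M b : ℝ} {p : Polynomial ℝ} (hP : PathCtx η D t τ M b ρ p) (θ₀ v : St n)
    {Φ : Noise n N → ℝ} (hΦ : BMeas Φ) (ℓ : ℝ) :
    walkE ρ t τ (θ₀ + v) Φ ≤ nsq v / (2 * (η + t)) + ℓ +
      Real.exp (-ℓ) * walkE ρ t τ θ₀ fun ω => Real.exp (Φ ω) := by
  obtain ⟨h, hd, ht, hτ⟩ : Ulc η ρ ∧ Dens D ρ ∧ 0 ≤ t ∧ 0 < τ := ⟨hP.ulc, hP.dens, hP.ht, hP.hτ⟩
  set q := nsq v / (2 * (η + t))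
  set T := t + N * τ with hT
  have hT0 : 0 ≤ T := by positivity
  set a := dotp v (bary ρ t (θ₀ + v)) with ha
  set LW : Noise n N → ℝ := fun ω => dotp v (bary ρ T (pos τ (θ₀ + v) ω N)) - a + q with hLW
  have hmT : BMeas fun ω : Noise n N => dotp v (bary ρ T (pos τ (θ₀ + v) ω N)) :=
    ⟨(continuous_dotp v).measurable.comp
      ((measurable_bary hd T).comp (measurable_pos_right τ _ N)), _,
      fun ω => abs_dotp_bary_le hd T _ v⟩
  have hLWb : BMeas LW := by
    simpa only [hLW, sub_eq_add_neg] using (hmT.add (BMeas.const (-a))).add (BMeas.const q)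
  have hmean : walkE ρ t τ (θ₀ + v) LW = q := by
    have e : LW = fun ω => dotp v (bary ρ T (pos τ (θ₀ + v) ω N)) + (q - a) := by
      funext ω; simp only [hLW]; ring
    rw [e, walkE_add h ht hτ _ hmT (BMeas.const _), walkE_const h ht hτ]
    have e2 : walkE ρ t τ (θ₀ + v) (fun ω : Noise n N => mg ρ (dotp v) T (pos τ (θ₀ + v) ω N)) =
        mg ρ (dotp v) t (θ₀ + v) := hP.walkE_mg (θ₀ + v) (continuous_dotp v)
          (fun x hx => (abs_dotp_le v x).trans (by linarith : _ ≤ (nsq v + D) / 2))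
          (polyB_dotp v) le_rfl
    simp only [← dotp_bary_mg h hT0, ← dotp_bary_mg h ht] at e2
    rw [e2, ← ha]; ring
  have hsplit : walkE ρ t τ (θ₀ + v) Φ =
      walkE ρ t τ (θ₀ + v) (fun ω => Φ ω + -1 * LW ω) + q := by
    rw [walkE_add h ht hτ _ hΦ (hLWb.smul (-1)), walkE_smul, hmean]; ring
  set Ψ : Noise n N → ℝ := fun ω => Φ ω + -1 * LW ω + -ℓ with hΨ
  have hΨb : BMeas Ψ := (hΦ.add (hLWb.smul (-1))).add (BMeas.const _)
  have h1 : walkE ρ t τ (θ₀ + v) Ψ ≤ walkE ρ t τ (θ₀ + v) fun ω => Real.exp (Ψ ω) :=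
    walkE_mono h ht hτ _ hΨb hΨb.exp fun ω => by linarith [Real.add_one_le_exp (Ψ ω)]
  have h2 : walkE ρ t τ (θ₀ + v) (fun ω => Real.exp (Ψ ω)) ≤
      Real.exp (-ℓ) * walkE ρ t τ θ₀ fun ω => Real.exp (Φ ω) := by
    have e : ∀ ω, Real.exp (Ψ ω) = Real.exp (-ℓ) * Real.exp (Φ ω + -1 * LW ω) := fun ω => by
      simp only [hΨ]; rw [← Real.exp_add]; ring_nf
    simp only [e, walkE_smul]
    refine mul_le_mul_of_nonneg_left ?_ (Real.exp_pos _).le
    simp only [walkE, ← integral_div]
    refine integral_mono ((integrable_mul_pwt h ht hτ _ le_rfl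
      (hΦ.add (hLWb.smul (-1))).exp).div_const _)
      ((integrable_mul_pwt h ht hτ _ le_rfl hΦ.exp).div_const _) fun ω => ?_
    simp only [Real.exp_add, mul_assoc, mul_div_assoc]
    refine mul_le_mul_of_nonneg_left ?_ (Real.exp_pos _).le
    simp only [pwt, pos_shift, ← hT]
    have hp0 := part_pos h ht θ₀
    have hp1 := part_pos h ht (θ₀ + v)
    set x := pos τ θ₀ ω N with hx
    have hq0 := part_pos h hT0 x
    have hq1 := part_pos h hT0 (x + v)
    have l0 := lmgf_post h ht θ₀ v
    have c0 := (dBary_coco h ht θ₀ v).2.2.2.1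
    have l1 := lmgf_post h hT0 (x + v) (-v)
    have n1 := lmgf_nonneg (post_ulc h hT0 (x + v)) (-v)
    rw [add_neg_cancel_right] at l1
    have e3 : dotp (-v) (bary ρ T (x + v)) = -dotp v (bary ρ T (x + v)) := by
      simp [dotp]
    have e4 : dotp v (dBary ρ t θ₀ v) = a - dotp v (bary ρ t θ₀) := by
      simp only [dBary, ha, dotp, Pi.sub_apply, mul_sub, Finset.sum_sub_distrib]
    have hle : Real.log (part ρ T (x + v)) - Real.log (part ρ T x) + -1 * LW ω ≤
        Real.log (part ρ t (θ₀ + v)) - Real.log (part ρ t θ₀) := by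
      simp only [hLW, pos_shift, ← hx]
      simp only [q] at c0 ⊢
      linarith
    have h3 := Real.exp_le_exp.2 hle
    rw [Real.exp_add, Real.exp_sub, Real.exp_sub, Real.exp_log hq1, Real.exp_log hq0,
      Real.exp_log hp1, Real.exp_log hp0] at h3
    rw [← mul_div_assoc, div_le_div_iff₀ hp1 hp0]
    rw [div_mul_eq_mul_div, div_le_div_iff₀ hq0 hp0] at h3
    linarith
  have h4 : walkE ρ t τ (θ₀ + v) Ψ =
      walkE ρ t τ (θ₀ + v) (fun ω => Φ ω + -1 * LW ω) + -ℓ := by
    rw [hΨ, walkE_add h ht hτ _ (hΦ.add (hLWb.smul (-1))) (BMeas.const _), walkE_const h ht hτ]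
  linarith

end

end Vale.Agent.P245.Gen2
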