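import Vale.Agent.P245.Gen2.Iterate

/-!
# P245, polylogarithmic bound: all centred subgaussian log-concave densities

The weights `exp(-|x|^2 / (2 (k + 1)))` on the ball of radius `k` tend to one and make a
log-concave density uniformly log-concave with bounded support; recentring and rescaling puts it
at the normalised scale.
-/

open MeasureTheory Filter Topology
open scoped ENNReal

namespace Vale.Agent.P245.Gen2

open General

noncomputable section

variable {n : ℕ} {ρ : St n → ℝ}

/-- The weight: a Gaussian factor on the ball of radius `k`. -/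
def cutW (k : ℕ) (x : St n) : ℝ :=
  if nsq x ≤ (k : ℝ) ^ 2 then wgt (1 / ((k : ℝ) + 1)) 0 x else 0

/-- The normalisation of the weight. -/
def cutZ (ρ : St n → ℝ) (k : ℕ) : ℝ := ∫ x, cutW k x ∂law ρ

/-- The reweighted density. -/
def cutD (ρ : St n → ℝ) (k : ℕ) : St n → ℝ := fun x => ρ x * cutW k x / cutZ ρ k

theorem measurable_cutW (k : ℕ) : Measurable (cutW k : St n → ℝ) :=
  Measurable.ite (measurableSet_le continuous_nsq.measurable measurable_const)
    (continuous_wgt _ 0).measurable measurable_const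

theorem cutW_nonneg (k : ℕ) (x : St n) : 0 ≤ cutW k x := by
  rw [cutW]
  split
  · exact (Real.exp_pos _).le
  · rfl

theorem cutW_le_one (k : ℕ) (x : St n) : cutW k x ≤ 1 := by
  rw [cutW]
  split
  · simp only [wgt, Real.exp_le_one_iff, dotp, Pi.zero_apply, zero_mul, Finset.sum_const_zero,
      zero_sub]
    have := mul_nonneg (show 0 ≤ 1 / ((k : ℝ) + 1) / 2 by positivity) (nsq_nonneg x)
    linarith
  · exact zero_le_one

theorem tendsto_cutW (x : St n) : Tendsto (fun k => cutW k x) atTop (𝓝 1) := by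
  have h := (Real.continuous_exp.tendsto _).comp
    (((tendsto_one_div_add_atTop_nhds_zero_nat (𝕜 := ℝ)).div_const 2).mul_const (nsq x)).neg
  simp only [zero_div, zero_mul, neg_zero, Real.exp_zero] at h
  refine h.congr' ?_
  obtain ⟨m, hm⟩ := exists_nat_ge (nsq x + 1)
  filter_upwards [eventually_ge_atTop m] with k hk
  have hmk : (m : ℝ) ≤ k := by exact_mod_cast hk
  have hk1 : (1 : ℝ) ≤ k := by linarith [nsq_nonneg x]
  have : nsq x ≤ (k : ℝ) ^ 2 := by nlinarith
  simp [cutW, this, wgt, dotp]

theorem integrable_cutW [IsFiniteMeasure (law ρ)] (k : ℕ) : Integrable (cutW k) (law ρ) :=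
  Integrable.of_bound (measurable_cutW k).aestronglyMeasurable 1
    (Eventually.of_forall fun x => by
      rw [Real.norm_eq_abs, abs_of_nonneg (cutW_nonneg k x)]
      exact cutW_le_one k x)

theorem measurable_cutD (hm : Measurable ρ) (k : ℕ) : Measurable (cutD ρ k) :=
  (hm.mul (measurable_cutW k)).div_const _

theorem ulc_cutD (hm : Measurable ρ) (h0 : ∀ x, 0 ≤ ρ x)
    (h1 : ∫⁻ x, ENNReal.ofReal (ρ x) = 1)
    (hlc : ∀ x y (s t : ℝ), 0 < s → 0 < t → s + t = 1 → ρ x ^ s * ρ y ^ t ≤ ρ (s • x + t • y))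
    {k : ℕ} (hZ : 0 < cutZ ρ k) : Ulc (1 / ((k : ℝ) + 1)) (cutD ρ k) where
  pos := by positivity
  meas := measurable_cutD hm k
  nonneg x := div_nonneg (mul_nonneg (h0 x) (cutW_nonneg k x)) hZ.le
  mass := by
    have hP : IsProbabilityMeasure (law ρ) :=
      ⟨by rw [law, withDensity_apply _ MeasurableSet.univ, setLIntegral_univ, h1]⟩
    have e : (fun x => ENNReal.ofReal (cutD ρ k x))
        = fun x => ENNReal.ofReal (ρ x) * ENNReal.ofReal (cutW k x / cutZ ρ k) :=
      funext fun x => by rw [← ENNReal.ofReal_mul (h0 x), cutD, mul_div_assoc]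
    rw [e, ← lintegral_law hm ((measurable_cutW k).div_const _).ennreal_ofReal,
      ← ofReal_integral_eq_lintegral_ofReal ((integrable_cutW k).div_const _)
        (Eventually.of_forall fun x => div_nonneg (cutW_nonneg k x) hZ.le),
      integral_div, ← cutZ, div_self hZ.ne', ENNReal.ofReal_one]
  conc x y a b ha hb hab := by
    set ε : ℝ := 1 / ((k : ℝ) + 1)
    simp only [cutD]
    have hw := cutW_nonneg (n := n) k
    rw [Real.div_rpow (mul_nonneg (h0 x) (hw x)) hZ.le,
      Real.div_rpow (mul_nonneg (h0 y) (hw y)) hZ.le, div_mul_div_comm,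
      ← Real.rpow_add hZ, hab, Real.rpow_one, div_mul_eq_mul_div]
    refine div_le_div_of_nonneg_right ?_ hZ.le
    rw [Real.mul_rpow (h0 x) (hw x), Real.mul_rpow (h0 y) (hw y)]
    have key : cutW k x ^ a * cutW k y ^ b * Real.exp (ε * a * b / 2 * nsq (x - y))
        ≤ cutW k (a • x + b • y) := by
      by_cases hx : nsq x ≤ (k : ℝ) ^ 2
      · by_cases hy : nsq y ≤ (k : ℝ) ^ 2
        · have hxy : nsq (a • x + b • y) ≤ (k : ℝ) ^ 2 := by
            have e := nsq_combo x y a b hab
            have p := mul_nonneg (mul_nonneg ha.le hb.le) (nsq_nonneg (x - y))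
            have q : a * (k : ℝ) ^ 2 + b * (k : ℝ) ^ 2 = (k : ℝ) ^ 2 := by rw [← add_mul, hab, one_mul]
            linarith [mul_le_mul_of_nonneg_left hx ha.le, mul_le_mul_of_nonneg_left hy hb.le]
          simp only [cutW, if_pos hx, if_pos hy, if_pos hxy, wgt, ← Real.exp_mul, ← Real.exp_add,
            dotp_combo]
          refine le_of_eq (congrArg Real.exp ?_)
          linear_combination (-(ε / 2)) * nsq_combo x y a b hab
        · simp only [cutW, if_neg hy, Real.zero_rpow hb.ne', mul_zero, zero_mul]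
          exact cutW_nonneg k _
      · simp only [cutW, if_neg hx, Real.zero_rpow ha.ne', zero_mul]
        exact cutW_nonneg k _
    calc ρ x ^ a * cutW k x ^ a * (ρ y ^ b * cutW k y ^ b)
          * Real.exp (ε * a * b / 2 * nsq (x - y))
        = ρ x ^ a * ρ y ^ b * (cutW k x ^ a * cutW k y ^ b
          * Real.exp (ε * a * b / 2 * nsq (x - y))) := by ring
      _ ≤ ρ x ^ a * ρ y ^ b * cutW k (a • x + b • y) :=
          mul_le_mul_of_nonneg_left key
            (mul_nonneg (Real.rpow_nonneg (h0 x) _) (Real.rpow_nonneg (h0 y) _))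
      _ ≤ _ := mul_le_mul_of_nonneg_right (hlc x y a b ha hb hab) (hw _)

/-- Recentred, rescaled reweighted densities have bounded support. -/
theorem supp_std_cutD (k : ℕ) (b : St n) {r : ℝ} (hr : 0 < r) (y : St n)
    (hy : 2 * ((k : ℝ) ^ 2 + nsq b) / r ^ 2 < nsq y) : std (cutD ρ k) b r y = 0 := by
  have hlarge : ¬ nsq (b + r • y) ≤ (k : ℝ) ^ 2 := fun hle => by
    have h : r ^ 2 * nsq y ≤ 2 * (nsq (b + r • y) + nsq b) := by
      simp only [nsq, Pi.add_apply, Pi.smul_apply, smul_eq_mul, Finset.mul_sum,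
        ← Finset.sum_add_distrib]
      exact Finset.sum_le_sum fun i _ => by nlinarith [sq_nonneg (2 * b i + r * y i)]
    rw [div_lt_iff₀ (by positivity)] at hy
    linarith
  simp [std, cutD, cutW, hlarge]

/-- A bound for compactly supported uniformly log-concave densities at the normalised scale
passes to all centred subgaussian log-concave densities. -/
theorem lsi_of_compact {B : ℝ}
    (hB : ∀ (η D : ℝ) (σ : St n → ℝ), Ulc η σ → Dens D σ → center σ = 0 → SubG σ → ∀ f, Tame f →
      ent (law σ) (fun x => f x ^ 2) ≤ B * energy (law σ) f)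
    (hm : Measurable ρ) (h0 : ∀ x, 0 ≤ ρ x) (h1 : ∫⁻ x, ENNReal.ofReal (ρ x) = 1)
    (hlc : ∀ x y (s t : ℝ), 0 < s → 0 < t → s + t = 1 → ρ x ^ s * ρ y ^ t ≤ ρ (s • x + t • y))
    (hmean : ∀ i, ∫ x, x i ∂law ρ = 0) {a : ℝ} (ha : 0 < a) (hs : Subgauss (law ρ) a)
    {f : St n → ℝ} (hf : Tame f) :
    ent (law ρ) (fun x => f x ^ 2) ≤ B * (2 * a ^ 2) * energy (law ρ) f := by
  have hP : IsProbabilityMeasure (law ρ) :=
    ⟨by rw [law, withDensity_apply _ MeasurableSet.univ, setLIntegral_univ, h1]⟩
  -- the weights tend to one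
  have hnum : ∀ {g : St n → ℝ}, Integrable g (law ρ) →
      Tendsto (fun k : ℕ => ∫ x, g x * cutW k x ∂law ρ) atTop (𝓝 (∫ x, g x ∂law ρ)) := fun {g} hg =>
    tendsto_integral_of_dominated_convergence (fun x => |g x|)
      (fun k => hg.aestronglyMeasurable.mul (measurable_cutW k).aestronglyMeasurable) hg.abs
      (fun k => Eventually.of_forall fun x => by
        rw [Real.norm_eq_abs, abs_mul, abs_of_nonneg (cutW_nonneg k x)]
        exact mul_le_of_le_one_right (abs_nonneg _) (cutW_le_one k x))
      (Eventually.of_forall fun x => by simpa using (tendsto_cutW x).const_mul (g x))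
  have hZ : Tendsto (cutZ ρ) atTop (𝓝 1) := by
    have := hnum (integrable_const (1 : ℝ))
    simp only [one_mul, integral_const, probReal_univ, smul_eq_mul, mul_one] at this
    exact this
  have hσ0 : ∀ k x, 0 ≤ cutD ρ k x := fun k x =>
    div_nonneg (mul_nonneg (h0 x) (cutW_nonneg k x)) (integral_nonneg (cutW_nonneg k))
  have hσint : ∀ (k : ℕ) (g : St n → ℝ),
      ∫ x, g x ∂law (cutD ρ k) = (∫ x, g x * cutW k x ∂law ρ) / cutZ ρ k := fun k g => by
    rw [integral_law (measurable_cutD hm k) (hσ0 k),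
      integral_law hm h0 (fun x => g x * cutW k x), ← integral_div]
    exact integral_congr_ae (Eventually.of_forall fun x => by simp only [cutD]; ring)
  have hlim : ∀ {g : St n → ℝ}, Integrable g (law ρ) →
      Tendsto (fun k => ∫ x, g x ∂law (cutD ρ k)) atTop (𝓝 (∫ x, g x ∂law ρ)) := fun hg => by
    simp only [hσint]
    simpa [Pi.div_def] using (hnum hg).div hZ one_ne_zero
  -- the coordinates are integrable
  have hcoord : ∀ i : Fin n, Integrable (fun x => x i) (law ρ) := fun i => by
    have hi := hs (Pi.single i 1) (by simp [Pi.single_apply])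
    have he : ∀ x : St n, ∑ j, (Pi.single i 1 : St n) j * x j = x i := fun x => by
      simp [Pi.single_apply]
    simp only [he] at hi
    have iE : Integrable (fun x : St n => Real.exp (x i ^ 2 / a ^ 2)) (law ρ) :=
      (lintegral_ofReal_ne_top_iff_integrable
        (((measurable_pi_apply i).pow_const 2).div_const _).exp.aestronglyMeasurable
        (Eventually.of_forall fun x => (Real.exp_pos _).le)).1
        (hi.trans_lt ENNReal.ofNat_lt_top).ne
    refine (iE.const_mul a).mono' (measurable_pi_apply i).aestronglyMeasurable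
      (Eventually.of_forall fun x => ?_)
    have h2 := Real.add_one_le_exp (x i ^ 2 / a ^ 2)
    have h3 : |x i| ≤ a * (x i ^ 2 / a ^ 2 + 1) := by
      rw [show a * (x i ^ 2 / a ^ 2 + 1) = (x i ^ 2 + a ^ 2) / a by field_simp, le_div_iff₀ ha]
      nlinarith [sq_nonneg (|x i| - a), sq_abs (x i), abs_nonneg (x i)]
    rw [Real.norm_eq_abs]
    exact h3.trans (mul_le_mul_of_nonneg_left h2 ha.le)
  have hcen : ∀ i, Tendsto (fun k => center (cutD ρ k) i) atTop (𝓝 0) := fun i => by
    have := hlim (hcoord i)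
    rwa [hmean i] at this
  have hgood : ∀ᶠ k in atTop, 2 / cutZ ρ k * Real.exp (nsq (center (cutD ρ k)) / a ^ 2) ≤ 3 := by
    have hn' : Tendsto (fun k => nsq (center (cutD ρ k))) atTop (𝓝 0) := by
      simpa [nsq] using tendsto_finsetSum (Finset.univ : Finset (Fin n)) fun i _ => (hcen i).pow 2
    have h2 := (((tendsto_const_nhds (x := (2 : ℝ))).div hZ one_ne_zero).mul
      ((Real.continuous_exp.tendsto _).comp (hn'.div_const (a ^ 2))))
    simp only [zero_div, Real.exp_zero, mul_one, div_one] at h2
    exact (h2.eventually_lt_const (by norm_num)).mono fun k hk => hk.le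
  have key : ∀ᶠ k in atTop, ent (law (cutD ρ k)) (fun x => f x ^ 2)
      ≤ B * (2 * a ^ 2) * energy (law (cutD ρ k)) f := by
    filter_upwards [hgood, hZ.eventually_const_lt zero_lt_one] with k hk hZ0
    have hk' := ulc_cutD hm h0 h1 hlc hZ0
    have := isProb hk'
    set b := center (cutD ρ k) with hb
    set r := Real.sqrt 2 * a
    have hr : 0 < r := by positivity
    have hr2 : r ^ 2 = 2 * a ^ 2 := by rw [mul_pow, Real.sq_sqrt two_pos.le]
    have hT : Measurable fun x : St n => r⁻¹ • (x - b) := by fun_prop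
    have hlaw := law_std hk'.meas b hr
    have hg : Ulc (1 / ((k : ℝ) + 1) * r ^ 2) (std (cutD ρ k) b r) := by
      refine ulc_std hk' b hr ?_
      have h2 := lintegral_std hk'.meas b hr (u := fun _ => 1) measurable_const
      simpa [hk'.mass] using h2
    have hdens : Dens (2 * ((k : ℝ) ^ 2 + nsq b) / r ^ 2) (std (cutD ρ k) b r) :=
      ⟨hg.meas, hg.nonneg, hg.mass, supp_std_cutD k b hr⟩
    have hc0 : center (std (cutD ρ k) b r) = 0 := funext fun i => by
      rw [center, hlaw, integral_map hT.aemeasurable (measurable_pi_apply i).aestronglyMeasurable]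
      simp only [Pi.smul_apply, Pi.sub_apply, smul_eq_mul, Pi.zero_apply]
      rw [integral_const_mul, integral_sub
          (integrable_polyB hk' (measurable_pi_apply i) (polyB_coord i)) (integrable_const _),
        integral_const, probReal_univ, one_smul]
      simp [hb, center]
    have hsub : SubG (std (cutD ρ k) b r) := fun u hu => by
      have hu' : ∑ i, u i ^ 2 = 1 := hu
      have hmd : Measurable fun y => ENNReal.ofReal (Real.exp (dotp u y ^ 2)) :=
        (((continuous_dotp u).measurable.pow_const 2).exp).ennreal_ofReal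
      rw [hlaw, lintegral_map hmd hT, lintegral_law hk'.meas
        (u := fun x => ENNReal.ofReal (Real.exp (dotp u (r⁻¹ • (x - b)) ^ 2))) (hmd.comp hT)]
      set K := Real.exp (nsq b / a ^ 2) / cutZ ρ k
      have hK : 0 ≤ K := div_nonneg (Real.exp_pos _).le hZ0.le
      calc ∫⁻ x, ENNReal.ofReal (cutD ρ k x) *
            ENNReal.ofReal (Real.exp (dotp u (r⁻¹ • (x - b)) ^ 2))
          ≤ ∫⁻ x, ENNReal.ofReal K * (ENNReal.ofReal (ρ x) *
              ENNReal.ofReal (Real.exp ((∑ i, u i * x i) ^ 2 / a ^ 2))) := by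
            refine lintegral_mono fun x => ?_
            rw [← ENNReal.ofReal_mul (h0 x), ← ENNReal.ofReal_mul hK,
              ← ENNReal.ofReal_mul (hk'.nonneg x)]
            refine ENNReal.ofReal_le_ofReal ?_
            have e : dotp u (r⁻¹ • (x - b)) ^ 2 = (dotp u x - dotp u b) ^ 2 / (2 * a ^ 2) := by
              rw [← hr2, ← div_pow, ← dotp_sub]
              congr 1
              simp only [dotp, Pi.smul_apply, smul_eq_mul, Finset.sum_div]
              exact Finset.sum_congr rfl fun i _ => by ring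
            have hq : dotp u b ^ 2 ≤ nsq b := by
              have := Finset.sum_mul_sq_le_sq_mul_sq Finset.univ u b
              rwa [hu', one_mul] at this
            have h2 : Real.exp (dotp u (r⁻¹ • (x - b)) ^ 2)
                ≤ Real.exp (nsq b / a ^ 2) * Real.exp (dotp u x ^ 2 / a ^ 2) := by
              rw [e]
              refine (exp_sq_shift ha _ _).trans (mul_le_mul_of_nonneg_right ?_ (Real.exp_pos _).le)
              exact Real.exp_le_exp.2 (div_le_div_of_nonneg_right hq (by positivity))
            calc cutD ρ k x * Real.exp (dotp u (r⁻¹ • (x - b)) ^ 2)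
                = ρ x / cutZ ρ k * (cutW k x * Real.exp (dotp u (r⁻¹ • (x - b)) ^ 2)) := by
                  simp only [cutD]; ring
              _ ≤ ρ x / cutZ ρ k
                  * (1 * (Real.exp (nsq b / a ^ 2) * Real.exp (dotp u x ^ 2 / a ^ 2))) :=
                  mul_le_mul_of_nonneg_left
                    (mul_le_mul (cutW_le_one k x) h2 (Real.exp_pos _).le zero_le_one)
                    (div_nonneg (h0 x) hZ0.le)
              _ = _ := by simp only [K, dotp]; ring
        _ = ENNReal.ofReal K * ∫⁻ x, ENNReal.ofReal (ρ x) *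
              ENNReal.ofReal (Real.exp ((∑ i, u i * x i) ^ 2 / a ^ 2)) :=
            lintegral_const_mul' _ _ ENNReal.ofReal_ne_top
        _ ≤ ENNReal.ofReal K * 2 := by
            rw [← lintegral_law hm
              (u := fun x => ENNReal.ofReal (Real.exp ((∑ i, u i * x i) ^ 2 / a ^ 2))) (by fun_prop)]
            exact mul_le_mul_right (hs u hu') _
        _ ≤ 3 := by
            rw [show (2 : ℝ≥0∞) = ENNReal.ofReal 2 by simp, ← ENNReal.ofReal_mul hK,
              show (3 : ℝ≥0∞) = ENNReal.ofReal 3 by simp]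
            refine ENNReal.ofReal_le_ofReal (le_trans (le_of_eq ?_) hk)
            simp only [K, hb]; ring
    have h2 := hB _ _ _ hg hdens hc0 hsub _ (tame_comp_affine hf b hr.ne')
    have eint : ∀ {φ : St n → ℝ}, Continuous φ →
        ∫ y, φ (b + r • y) ∂law (std (cutD ρ k) b r) = ∫ x, φ x ∂law (cutD ρ k) := fun hφ => by
      rw [hlaw, integral_map hT.aemeasurable (hφ.comp' (by fun_prop)).aestronglyMeasurable]
      simp only [smul_inv_smul₀ hr.ne', add_sub_cancel]
    have eE : energy (law (std (cutD ρ k) b r)) (fun y => f (b + r • y))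
        = 2 * a ^ 2 * energy (law (cutD ρ k)) f := by
      simp only [energy, gradSq_comp_affine hf.differentiable, integral_const_mul, hr2]
      rw [eint hf.continuous_gradSq]
    have e2 := eint (φ := fun x => f x ^ 2) (hf.continuous.pow 2)
    have e3 := eint (φ := fun x => f x ^ 2 * Real.log (f x ^ 2))
      (Real.continuous_mul_log.comp (hf.continuous.pow 2))
    simp only [ent] at h2 ⊢
    rw [e2, e3, eE] at h2
    linarith
  have hE : Tendsto (fun k => energy (law (cutD ρ k)) f) atTop (𝓝 (energy (law ρ) f)) :=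
    hlim hf.integrable_gradSq
  have hEnt : Tendsto (fun k => ent (law (cutD ρ k)) fun x => f x ^ 2) atTop
      (𝓝 (ent (law ρ) fun x => f x ^ 2)) :=
    (hlim (hf.sq.integrable_comp Real.continuous_mul_log)).sub
      ((Real.continuous_mul_log.tendsto _).comp (hlim hf.sq.integrable))
  exact le_of_tendsto_of_tendsto hEnt (hE.const_mul _) key

theorem lsi_polylog : ∃ C : ℝ, 0 < C ∧ ∀ (n : ℕ) (ρ : St n → ℝ),
    Measurable ρ → (∀ x, 0 ≤ ρ x) → ∫⁻ x, ENNReal.ofReal (ρ x) = 1 →
    (∀ x y (s t : ℝ), 0 < s → 0 < t → s + t = 1 → ρ x ^ s * ρ y ^ t ≤ ρ (s • x + t • y)) →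
    (∀ i, ∫ x, x i ∂law ρ = 0) → ∀ a : ℝ, 0 < a → Subgauss (law ρ) a → ∀ f, Tame f →
      ent (law ρ) (fun x => f x ^ 2) ≤
        C * a ^ 2 * (1 + Real.log n) ^ 2 * energy (law ρ) f := by
  obtain ⟨C, hC, hlsi⟩ := lsi_compact
  refine ⟨2 * C, by positivity, fun n ρ hm h0 h1 hlc hmean a ha hs f hf => ?_⟩
  exact (lsi_of_compact (hlsi n) hm h0 h1 hlc hmean ha hs hf).trans (le_of_eq (by ring))

end

end Vale.Agent.P245.Gen2
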