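import Vale.Agent.P245.Gen2.Basic
import Vale.Agent.P245.General.Poincare

/-!
# P245, polylogarithmic bound: the spectral gap under a logarithmic Sobolev inequality

With a logarithmic Sobolev constant `K` the states of large covariance carry little of `f²` at
every time up to `A / K`, so the variance is at most `(2 / A) K` plus a logarithm times the energy.
-/

open MeasureTheory

namespace Vale.Agent.P245.Gen2

open General

/-- A logarithmic Sobolev constant `K` above `(1 + log n)²` gives the spectral gap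
`(2 / A) K + C (1 + log n)`. -/
theorem variance_le_of_lsi (A : ℝ) (hA : 1 ≤ A) : ∃ K₁ C : ℝ, 0 < K₁ ∧ 0 < C ∧
    ∀ (n : ℕ) (η D K : ℝ) (ρ : St n → ℝ), Base η D K ρ → K₁ * (1 + Real.log n) ^ 2 ≤ K →
      ∀ f, Tame f → covc ρ f f ≤ (2 / A * K + C * (1 + Real.log n)) * energy (law ρ) f := by
  obtain ⟨C₁, hC₁, hguan⟩ := guan
  obtain ⟨C₂, hC₂, hq⟩ := qbound
  have hA0 : 0 < A := lt_of_lt_of_le one_pos hA
  have hC₂0 : 0 < C₂ := lt_of_lt_of_le one_pos hC₂
  set D₀ := 32 * C₁ * C₂ with hD₀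
  have hD₀0 : 0 < D₀ := by positivity
  refine ⟨A * D₀ * (C₁ + 3) + 2 * A * (4 + D₀), 2 * A * D₀, by positivity, by positivity,
    fun n η D K ρ hb hK f hf => ?_⟩
  have hK0 := hb.posK
  have := isProb hb.ulc
  set ℓ := 1 + Real.log n with hℓdef
  have hℓn : 0 ≤ Real.log (n : ℝ) := Real.log_natCast_nonneg n
  have hℓ : 1 ≤ ℓ := le_add_of_nonneg_right hℓn
  set g := fun x => f x - ∫ y, f y ∂law ρ with hgdef
  have hg : Tame g := hf.sub_const _
  have hg0 : ∫ x, g x ∂law ρ = 0 := by
    simp only [hgdef]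
    rw [integral_sub hf.integrable (integrable_const _)]
    simp
  have hcv : covc ρ f f = ∫ x, g x ^ 2 ∂law ρ := by simp only [covc, hgdef, sq]
  have hEg : energy (law ρ) g = energy (law ρ) f := by
    simp only [energy, gradSq, pd, hgdef, fderiv_sub_const]
  rw [hcv, ← hEg]
  set S := ∫ x, g x ^ 2 ∂law ρ with hSdef
  set E := energy (law ρ) g with hEdef
  have hS0 : 0 ≤ S := integral_nonneg fun x => sq_nonneg _
  have hE0 : 0 ≤ E := integral_nonneg (gradSq_nonneg g)
  set Dl := D₀ * ℓ with hDl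
  have hDl0 : 0 ≤ Dl := by positivity
  set T := A / K with hTdef
  have hT : 0 < T := by positivity
  -- the two smallness conditions on the time
  have hT1 : Dl * T * ((C₁ + 1) + Real.log ((n : ℝ) + 1)) ≤ 1 := by
    have h1 : Real.log ((n : ℝ) + 1) ≤ 1 + ℓ := by
      rcases Nat.eq_zero_or_pos n with rfl | hn
      · simp [hℓdef]
      · have hn' : (1 : ℝ) ≤ n := by exact_mod_cast hn
        calc Real.log ((n : ℝ) + 1) ≤ Real.log (2 * n) :=
              Real.log_le_log (by positivity) (by linarith)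
          _ = Real.log 2 + Real.log n := Real.log_mul two_ne_zero (by positivity)
          _ ≤ 1 + ℓ := by
              linarith [Real.log_le_sub_one_of_pos (show (0 : ℝ) < 2 by norm_num)]
    have h2 : (C₁ + 1) + Real.log ((n : ℝ) + 1) ≤ (C₁ + 3) * ℓ := by
      have : C₁ + 2 ≤ (C₁ + 2) * ℓ := le_mul_of_one_le_right (by positivity) hℓ
      linarith
    refine (mul_le_mul_of_nonneg_left h2 (mul_nonneg hDl0 hT.le)).trans ?_
    rw [hTdef, ← mul_div_assoc, div_mul_eq_mul_div, div_le_one hK0]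
    refine le_trans ?_ hK
    have : 0 ≤ 2 * A * (4 + D₀) * ℓ ^ 2 := by positivity
    simp only [hDl]
    linarith
  have hT2 : T * (4 + Dl) ≤ 1 / 2 := by
    rw [hTdef, div_mul_eq_mul_div, div_le_iff₀ hK0]
    have h1 : 4 + Dl ≤ (4 + D₀) * ℓ ^ 2 := by
      have h3 : ℓ ≤ ℓ ^ 2 := by nlinarith
      have := mul_le_mul_of_nonneg_left h3 hD₀0.le
      have := one_le_pow₀ (n := 2) hℓ
      simp only [hDl]
      linarith
    have h2 := mul_le_mul_of_nonneg_left h1 (show 0 ≤ 2 * A by positivity)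
    have : 0 ≤ A * D₀ * (C₁ + 3) * ℓ ^ 2 := by positivity
    linarith
  -- the bad mass in one step
  have hstep : StepBound n 0 Dl T := by
    refine stepBound_of (V := C₂ * ℓ) hC₁ (fun η' σ hσ c ε s hc hcv hε hε1 hs =>
      hguan n η' σ hσ (C₂ * ℓ) c ε s (hq n) (one_le_mul_of_one_le_of_one_le hC₂ hℓ) hc hcv hε hε1
        hs) (by positivity) ?_ hT1
    simp only [hDl, hD₀, Nat.cast_zero]
    linarith
  have hcov := covLe_of_subG hb.ulc hb.cent hb.subg
  have hent := hb.lsi g hg
  have hcg : CP g := ⟨hg.continuous, (c1p_tame hg).2.1⟩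
  set F := fun r => Ep ρ r fun θ => mg ρ g r θ * mg ρ g r θ with hF
  have hFc : ContinuousOn F (Set.Ici 0) := by
    have hu := reg_mfield hb.ulc hcg.1 hcg.2
    exact continuousOn_Ep hb.ulc (reg_mul hu hu)
  have hF0 : F 0 = 0 := by
    simp [hF, Ep_zero hb.ulc, mg_zero hb.ulc, hg0]
  choose! d hd hdle using fun r (hr : (0 : ℝ) < r) => deriv_le hb.ulc hg hr
  have hd' : ∀ r, 0 < r → r ≤ T → d r ≤ 4 * S + Dl * (K * E + S) := fun r hr hrT => by
    refine (hdle r hr).trans (add_le_add_right ?_ _)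
    have h1 := hstep _ _ hb.ulc 2 1 r two_pos (by norm_num) hcov (by norm_num) le_rfl hr hrT g hg
    norm_num at h1
    rw [div_le_iff₀ hr]
    refine h1.trans ((mul_le_mul_of_nonneg_left ?_ (mul_nonneg hDl0 hr.le)).trans_eq
      (show Dl * r * (K * E + S) = Dl * (K * E + S) * r by ring))
    linarith
  have hFT : F T - F 0 ≤ (4 * S + Dl * (K * E + S)) * (T - 0) :=
    (convex_Icc 0 T).image_sub_le_mul_sub_of_deriv_le (hFc.mono fun x hx => hx.1)
      (fun r hr => ((hd r (by rw [interior_Icc] at hr; exact hr.1)).differentiableAt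
        ).differentiableWithinAt)
      (fun r hr => by
        rw [interior_Icc] at hr
        rw [(hd r hr.1).deriv]
        exact hd' r hr.1 hr.2.le)
      0 (Set.left_mem_Icc.2 hT.le) T (Set.right_mem_Icc.2 hT.le) hT.le
  rw [hF0, sub_zero, sub_zero] at hFT
  have hv := variance_le hb.ulc hg hT
  change S ≤ F T + E / T at hv
  have h5 := mul_le_mul_of_nonneg_right hT2 hS0
  have e1 : E / T = K / A * E := by rw [hTdef]; field_simp
  have e2 : T * (Dl * (K * E)) = A * D₀ * ℓ * E := by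
    rw [hTdef, hDl]; field_simp
  rw [show (2 / A * K + 2 * A * D₀ * ℓ) * E = 2 * (K / A * E + A * D₀ * ℓ * E) by ring]
  linarith

end Vale.Agent.P245.Gen2
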