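import Vale.Agent.P245.Gen2.Basic

/-!
# P245: reduction of the defective inequality to semiconcave test densities

By the logarithmic Harnack inequality of the backward kernel the entropy at time `T` is bounded
through a semiconcave potential.
-/

open MeasureTheory Filter Topology
open scoped ENNReal

namespace Vale.Agent.P245.Gen2

open General

noncomputable section

variable {n : ℕ} {η T : ℝ} {ρ : (Fin n → ℝ) → ℝ}

/-- The average along the backward kernel from time `2T` to time `T`. -/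
def back (F : (Fin n → ℝ) → ℝ) (T : ℝ) (θ : Fin n → ℝ) : ℝ :=
  ∫ ξ, F ((1 / 2 : ℝ) • θ + Real.sqrt (T / 2) • ξ) ∂P166W.gauss (Fin n)

/-- The inf-convolution with a parabola. -/
def harnack (L : (Fin n → ℝ) → ℝ) (T : ℝ) (θ : Fin n → ℝ) : ℝ :=
  ⨅ θ', L θ' + nsq (θ - θ') / (4 * T)

/-- The average at the state of time `s` started at a point. -/
def gavg (F : (Fin n → ℝ) → ℝ) (s : ℝ) (x : Fin n → ℝ) : ℝ :=
  ∫ ξ, F (s • x + Real.sqrt s • ξ) ∂P166W.gauss (Fin n)

/-- The dual transport bound at time `2T` for semiconcave test densities. -/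
def TestBound (ρ : (Fin n → ℝ) → ℝ) (T : ℝ) : Prop :=
  ∀ (g : (Fin n → ℝ) → ℝ) (lo hi : ℝ), Measurable g → 0 < lo → (∀ x, lo ≤ g x ∧ g x ≤ hi) →
    ∫ x, g x ∂law ρ = 1 →
    (∀ x y (a b : ℝ), 0 < a → 0 < b → a + b = 1 →
      g x ^ a * g y ^ b ≤ Real.exp (2 * T * a * b * nsq (x - y)) * g (a • x + b • y)) →
    ∀ (F G : (Fin n → ℝ) → ℝ) (B : ℝ), Measurable F → Measurable G → (∀ θ, |F θ| ≤ B) →
      (∀ θ, |G θ| ≤ B) → (∀ a b, F a ≤ G b + nsq (a - b) / (4 * T)) →
      joint ρ (2 * T) (fun x θ => g x * F θ) ≤ Ep ρ (2 * T) G + (ent (law ρ) g + 1) / 2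

lemma gauss_eq_law : P166W.gauss (Fin n) = law (gd n 1) := by
  rw [law_gd_eq one_pos]
  simp

lemma integrable_bdd {μ : Measure (Fin n → ℝ)} [IsFiniteMeasure μ] {F : (Fin n → ℝ) → ℝ}
    (hm : Measurable F) {B : ℝ} (hB : ∀ x, |F x| ≤ B) : Integrable F μ :=
  Integrable.of_bound hm.aestronglyMeasurable B (Eventually.of_forall fun x => hB x)

lemma abs_integral_bdd {α : Type*} [MeasurableSpace α] {μ : Measure α} [IsProbabilityMeasure μ]
    {F : α → ℝ} {B : ℝ} (hB : ∀ x, |F x| ≤ B) : |∫ x, F x ∂μ| ≤ B := by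
  rw [← Real.norm_eq_abs]
  refine (norm_integral_le_of_norm_le (integrable_const B)
    (Eventually.of_forall fun x => hB x)).trans (le_of_eq ?_)
  simp

lemma integral_bounds {α : Type*} [MeasurableSpace α] {μ : Measure α} [IsProbabilityMeasure μ]
    {F : α → ℝ} {lo hi : ℝ} (hm : Measurable F) (hb : ∀ x, lo ≤ F x ∧ F x ≤ hi) :
    lo ≤ ∫ x, F x ∂μ ∧ ∫ x, F x ∂μ ≤ hi := by
  have hi' : Integrable F μ := Integrable.of_bound hm.aestronglyMeasurable (|lo| + |hi|)
    (Eventually.of_forall fun x => abs_le.2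
      ⟨by linarith [(hb x).1, neg_abs_le lo, abs_nonneg hi],
       by linarith [(hb x).2, le_abs_self hi, abs_nonneg lo]⟩)
  exact ⟨by simpa using integral_mono (integrable_const lo) hi' fun x => (hb x).1,
    by simpa using integral_mono hi' (integrable_const hi) fun x => (hb x).2⟩

lemma measurable_back {F : (Fin n → ℝ) → ℝ} (hm : Measurable F) (T : ℝ) :
    Measurable (back F T) :=
  ((hm.comp (f := fun p : (Fin n → ℝ) × (Fin n → ℝ) => (1 / 2 : ℝ) • p.1 + Real.sqrt (T / 2) • p.2)
    (by fun_prop)).stronglyMeasurable.integral_prod_right' (ν := P166W.gauss (Fin n))).measurable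

lemma measurable_gavg {F : (Fin n → ℝ) → ℝ} (hm : Measurable F) (s : ℝ) :
    Measurable (gavg F s) :=
  ((hm.comp (f := fun p : (Fin n → ℝ) × (Fin n → ℝ) => s • p.1 + Real.sqrt s • p.2)
    (by fun_prop)).stronglyMeasurable.integral_prod_right' (ν := P166W.gauss (Fin n))).measurable

/-- A product test function against the channel. -/
lemma joint_prod (h : Ulc η ρ) {g F : (Fin n → ℝ) → ℝ} (hg : Measurable g) (hF : Measurable F)
    {A B : ℝ} (hA : ∀ x, |g x| ≤ A) (hB : ∀ x, |F x| ≤ B) (s : ℝ) :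
    joint ρ s (fun x θ => g x * F θ) = ∫ x, g x * gavg F s x ∂law ρ := by
  have := isProb h
  have hi : Integrable (fun z : (Fin n → ℝ) × (Fin n → ℝ) =>
      g z.1 * F (s • z.1 + Real.sqrt s • z.2)) ((law ρ).prod (P166W.gauss (Fin n))) := by
    refine Integrable.of_bound (Measurable.aestronglyMeasurable (by fun_prop)) (A * B)
      (Eventually.of_forall fun z => ?_)
    rw [Real.norm_eq_abs, abs_mul]
    exact mul_le_mul (hA _) (hB _) (abs_nonneg _) ((abs_nonneg _).trans (hA z.1))
  rw [joint, integral_prod _ hi]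
  simp only [integral_const_mul, gavg]

lemma Ep_gavg (h : Ulc η ρ) {F : (Fin n → ℝ) → ℝ} (hF : Measurable F) {B : ℝ}
    (hB : ∀ x, |F x| ≤ B) (s : ℝ) : Ep ρ s F = ∫ x, gavg F s x ∂law ρ := by
  have e := joint_prod h (g := fun _ => (1 : ℝ)) measurable_const hF (A := 1) (fun _ => by simp) hB s
  simpa [Ep] using e

/-- The backward kernel composes with the channel. -/
lemma gavg_back {F : (Fin n → ℝ) → ℝ} (hF : Measurable F) {B : ℝ} (hB : ∀ x, |F x| ≤ B)
    (hT : 0 < T) (x : Fin n → ℝ) : gavg (back F T) (2 * T) x = gavg F T x := by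
  set a := Real.sqrt (2 * T) / 2
  set b := Real.sqrt (T / 2)
  have e : a ^ 2 + b ^ 2 = Real.sqrt T ^ 2 := by
    rw [div_pow, Real.sq_sqrt (by positivity), Real.sq_sqrt (by positivity),
      Real.sq_sqrt hT.le]
    ring
  have hm : Measurable fun v => F (T • x + v) := hF.comp (by fun_prop)
  have e1 := integral_map (μ := (P166W.gauss (Fin n)).prod (P166W.gauss (Fin n)))
    (φ := fun p : (Fin n → ℝ) × (Fin n → ℝ) => a • p.1 + b • p.2)
    (f := fun v => F (T • x + v)) (Measurable.aemeasurable (by fun_prop)) hm.aestronglyMeasurable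
  rw [map_gauss_add (c := Real.sqrt T) e,
    integral_map (Measurable.aemeasurable (by fun_prop)) hm.aestronglyMeasurable] at e1
  simp only [gavg]
  rw [e1, integral_prod _ (Integrable.of_bound (Measurable.aestronglyMeasurable (by fun_prop)) B
    (Eventually.of_forall fun p => hB _))]
  refine integral_congr_ae (Eventually.of_forall fun ξ => ?_)
  simp only [back]
  refine integral_congr_ae (Eventually.of_forall fun ξ' => ?_)
  refine congrArg F (funext fun i => ?_)
  simp only [Pi.add_apply, Pi.smul_apply, smul_eq_mul, a, b]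
  ring

/-- Translating a Gaussian. -/
lemma integral_gauss_shift {F : (Fin n → ℝ) → ℝ} (hF : Measurable F) (h0 : ∀ x, 0 ≤ F x)
    (c : Fin n → ℝ) :
    ∫ ξ, F (ξ + c) ∂law (gd n 1) = ∫ ξ, F ξ * wgt 1 ξ c ∂law (gd n 1) := by
  have hw : Measurable fun ξ => wgt 1 ξ c := by unfold wgt dotp; fun_prop
  rw [integral_eq_lintegral_of_nonneg_ae (Eventually.of_forall fun x => h0 _)
      (hF.comp (f := fun ξ => ξ + c) (by fun_prop)).aestronglyMeasurable,
    integral_eq_lintegral_of_nonneg_ae (f := fun ξ => F ξ * wgt 1 ξ c)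
      (Eventually.of_forall fun x => mul_nonneg (h0 _) (Real.exp_pos _).le)
      (hF.mul hw).aestronglyMeasurable]
  congr 1
  have e := lintegral_gd_shift (n := n) one_pos hF.ennreal_ofReal c
  simp only [one_smul] at e
  rw [e]
  exact lintegral_congr fun ξ => (ENNReal.ofReal_mul (h0 _)).symm

/-- The logarithmic Harnack inequality of the backward kernel. -/
lemma back_log_le (hT : 0 < T) {G : (Fin n → ℝ) → ℝ} (hG : Measurable G) {lo hi : ℝ}
    (hlo : 0 < lo) (hb : ∀ x, lo ≤ G x ∧ G x ≤ hi) (θ θ' : Fin n → ℝ) :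
    back (fun x => Real.log (G x)) T θ ≤
      Real.log (back G T θ') + nsq (θ - θ') / (4 * T) := by
  have hgd := gd_ulc (n := n) one_pos
  haveI := isProb hgd
  set σ := Real.sqrt (T / 2) with hσ
  have hσ0 : 0 < σ := Real.sqrt_pos.2 (by positivity)
  set c : Fin n → ℝ := (1 / (2 * σ)) • (θ' - θ) with hc
  set a : Fin n → ℝ := (1 / 2 : ℝ) • θ
  have hGm : Measurable fun ξ => G (a + σ • ξ) := hG.comp (by fun_prop)
  have hG0 : ∀ ξ, 0 < G (a + σ • ξ) := fun ξ => hlo.trans_le (hb _).1
  have hcq : nsq c / 2 = nsq (θ - θ') / (4 * T) := by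
    rw [hc, nsq_smul', show nsq (θ' - θ) = nsq (θ - θ') from
      Finset.sum_congr rfl fun i _ => by simp only [Pi.sub_apply]; ring,
      div_pow, mul_pow, hσ, Real.sq_sqrt (by positivity)]
    field_simp
    ring
  have hlogb : ∀ ξ, |Real.log (G (a + σ • ξ))| ≤ |Real.log lo| + |Real.log hi| := fun ξ =>
    abs_log_le hlo (hb _).1 (hb _).2
  have hwm : Measurable fun ξ => wgt 1 ξ c := by unfold wgt dotp; fun_prop
  have hlg : Measurable fun ξ => Real.log (G (a + σ • ξ)) := hGm.log
  have i1 : Integrable (fun ξ => Real.log (G (a + σ • ξ))) (law (gd n 1)) :=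
    integrable_bdd hlg hlogb
  have i2 : Integrable (dotp c) (law (gd n 1)) :=
    integrable_polyB hgd (continuous_dotp c).measurable (polyB_dotp c)
  set u := fun ξ => Real.log (G (a + σ • ξ)) + dotp c ξ - nsq c / 2 with hu
  have hexp : ∀ ξ, Real.exp (u ξ) = G (a + σ • ξ) * wgt 1 ξ c := fun ξ => by
    simp only [hu, wgt]
    rw [add_sub_assoc, Real.exp_add, Real.exp_log (hG0 ξ)]
    congr 2
    simp only [dotp, mul_comm (c _)]
    ring
  have hie : Integrable (fun ξ => Real.exp (u ξ)) (law (gd n 1)) := by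
    simp only [hexp]
    have := (integrable_wgt hgd hGm (polyB_of_bounded (C := hi) fun ξ => by
      rw [abs_of_pos (hG0 ξ)]; exact (hb _).2) (le_refl (0 : ℝ)) c).mul_const
        (Real.exp (-(nsq c / 2)))
    refine this.congr (Eventually.of_forall fun ξ => ?_)
    simp only [wgt, zero_div, zero_mul, sub_zero, mul_assoc, ← Real.exp_add, dotp,
      mul_comm (c _)]
    congr 2
    ring
  have hiu : Integrable u (law (gd n 1)) := (i1.add i2).sub (integrable_const _)
  have hJ := exp_integral_le hgd hiu hie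
  have hint : ∫ ξ, u ξ ∂law (gd n 1) = back (fun x => Real.log (G x)) T θ - nsq c / 2 := by
    rw [hu, integral_sub (by exact i1.add i2) (integrable_const _), integral_add i1 i2,
      integral_dotp hgd, center_gd one_pos, integral_const, back, gauss_eq_law]
    simp [dotp, a, σ]
  have hshift : ∫ ξ, Real.exp (u ξ) ∂law (gd n 1) = back G T θ' := by
    simp only [hexp]
    rw [← integral_gauss_shift hGm (fun ξ => (hG0 ξ).le) c, back, gauss_eq_law]
    refine integral_congr_ae (Eventually.of_forall fun ξ => ?_)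
    refine congrArg G (funext fun i => ?_)
    simp only [a, hc, hσ, Pi.add_apply, Pi.smul_apply, Pi.sub_apply, smul_eq_mul]
    have := hσ0.ne'
    field_simp
    ring
  rw [hint, hshift] at hJ
  have hR : 0 < back G T θ' := (Real.exp_pos _).trans_le hJ
  have := (Real.le_log_iff_exp_le hR).2 hJ
  linarith

section harnack

variable {L : (Fin n → ℝ) → ℝ} {l u : ℝ}

lemma harnack_bdd (hT : 0 < T) (hb : ∀ x, l ≤ L x ∧ L x ≤ u) (θ : Fin n → ℝ) :
    BddBelow (Set.range fun θ' => L θ' + nsq (θ - θ') / (4 * T)) := by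
  refine ⟨l, ?_⟩
  rintro _ ⟨θ', rfl⟩
  have : 0 ≤ nsq (θ - θ') / (4 * T) := div_nonneg (nsq_nonneg _) (by positivity)
  linarith [(hb θ').1]

lemma harnack_le (hT : 0 < T) (hb : ∀ x, l ≤ L x ∧ L x ≤ u) (θ θ' : Fin n → ℝ) :
    harnack L T θ ≤ L θ' + nsq (θ - θ') / (4 * T) :=
  ciInf_le (harnack_bdd hT hb θ) θ'

lemma harnack_bounds (hT : 0 < T) (hb : ∀ x, l ≤ L x ∧ L x ≤ u) (θ : Fin n → ℝ) :
    l ≤ harnack L T θ ∧ harnack L T θ ≤ u := by
  refine ⟨le_ciInf fun θ' => ?_, (harnack_le hT hb θ θ).trans ?_⟩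
  · have : 0 ≤ nsq (θ - θ') / (4 * T) := div_nonneg (nsq_nonneg _) (by positivity)
    linarith [(hb θ').1]
  · simp [nsq, (hb θ).2]

lemma measurable_harnack (hT : 0 < T) (hb : ∀ x, l ≤ L x ∧ L x ≤ u) :
    Measurable (harnack L T) := by
  refine measurable_of_Iio fun c => IsOpen.measurableSet ?_
  have e : harnack L T ⁻¹' Set.Iio c
      = ⋃ θ', {θ | L θ' + nsq (θ - θ') / (4 * T) < c} := by
    ext θ
    simp [harnack, ciInf_lt_iff (harnack_bdd hT hb θ)]
  rw [e]
  exact isOpen_iUnion fun θ' => isOpen_lt (by unfold nsq; fun_prop) continuous_const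

lemma harnack_concave (hT : 0 < T) (hb : ∀ x, l ≤ L x ∧ L x ≤ u) (p q : Fin n → ℝ) {a b : ℝ}
    (ha : 0 ≤ a) (hb' : 0 ≤ b) (hab : a + b = 1) :
    a * harnack L T p + b * harnack L T q ≤
      harnack L T (a • p + b • q) + a * b * nsq (p - q) / (4 * T) := by
  rw [← sub_le_iff_le_add]
  refine le_ciInf fun θ' => ?_
  have e : nsq (a • p + b • q - θ') =
      a * nsq (p - θ') + b * nsq (q - θ') - a * b * nsq (p - q) := by
    have hp : a • p + b • q - θ' = a • (p - θ') + b • (q - θ') := by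
      ext i
      simp only [Pi.add_apply, Pi.smul_apply, Pi.sub_apply, smul_eq_mul]
      linear_combination θ' i * hab
    have hd : (p - θ') - (q - θ') = p - q := by abel
    rw [hp, ← hd]
    linarith [nsq_combo (p - θ') (q - θ') a b hab]
  have h1 := mul_le_mul_of_nonneg_left (harnack_le hT hb p θ') ha
  have h2 := mul_le_mul_of_nonneg_left (harnack_le hT hb q θ') hb'
  rw [e]
  have h3 : (a * nsq (p - θ') + b * nsq (q - θ') - a * b * nsq (p - q)) / (4 * T)
      = a * (nsq (p - θ') / (4 * T)) + b * (nsq (q - θ') / (4 * T))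
        - a * b * nsq (p - q) / (4 * T) := by ring
  have h4 : a * L θ' + b * L θ' = L θ' := by linear_combination L θ' * hab
  rw [h3]
  linarith

lemma gavg_harnack_concave (hT : 0 < T) (hb : ∀ x, l ≤ L x ∧ L x ≤ u) (x y : Fin n → ℝ) {a b : ℝ}
    (ha : 0 ≤ a) (hb' : 0 ≤ b) (hab : a + b = 1) :
    a * gavg (harnack L T) (2 * T) x + b * gavg (harnack L T) (2 * T) y ≤
      gavg (harnack L T) (2 * T) (a • x + b • y) + a * b * T * nsq (x - y) := by
  have hm := measurable_harnack hT hb
  have hB : ∀ θ, |harnack L T θ| ≤ |l| + |u| := fun θ => by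
    obtain ⟨h1, h2⟩ := harnack_bounds hT hb θ
    exact abs_le.2 ⟨by linarith [neg_abs_le l, abs_nonneg u],
      by linarith [le_abs_self u, abs_nonneg l]⟩
  have hi : ∀ z : Fin n → ℝ, Integrable
      (fun ξ => harnack L T ((2 * T) • z + Real.sqrt (2 * T) • ξ)) (P166W.gauss (Fin n)) :=
    fun z => integrable_bdd (hm.comp (by fun_prop)) fun ξ => hB _
  simp only [gavg]
  rw [← integral_const_mul, ← integral_const_mul, ← integral_add ((hi x).const_mul a)
    ((hi y).const_mul b), show a * b * T * nsq (x - y) =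
      ∫ _ξ, a * b * T * nsq (x - y) ∂P166W.gauss (Fin n) by simp,
    ← integral_add (hi _) (integrable_const _)]
  refine integral_mono (((hi x).const_mul a).add ((hi y).const_mul b))
    ((hi _).add (integrable_const _)) fun ξ => ?_
  have h := harnack_concave hT hb ((2 * T) • x + Real.sqrt (2 * T) • ξ)
    ((2 * T) • y + Real.sqrt (2 * T) • ξ) ha hb' hab
  have e1 : a • ((2 * T) • x + Real.sqrt (2 * T) • ξ) + b • ((2 * T) • y + Real.sqrt (2 * T) • ξ)
      = (2 * T) • (a • x + b • y) + Real.sqrt (2 * T) • ξ := by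
    ext i
    simp only [Pi.add_apply, Pi.smul_apply, smul_eq_mul]
    linear_combination Real.sqrt (2 * T) * ξ i * hab
  have e2 : (2 * T) • x + Real.sqrt (2 * T) • ξ - ((2 * T) • y + Real.sqrt (2 * T) • ξ)
      = (2 * T) • (x - y) := by rw [smul_sub]; abel
  rw [e1, e2, nsq_smul'] at h
  have e3 : a * b * ((2 * T) ^ 2 * nsq (x - y)) / (4 * T) = a * b * T * nsq (x - y) := by
    field_simp
    ring
  linarith

end harnack

/-- The defective inequality for functions bounded away from zero. -/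
theorem reduce_test_pos (h : Ulc η ρ) (hT : 0 < T) (hM : TestBound ρ T) {f : (Fin n → ℝ) → ℝ}
    (hf : Tame f) {lo : ℝ} (hlo : 0 < lo) (hlof : ∀ x, lo ≤ f x ^ 2) :
    ent (law ρ) (fun x => f x ^ 2) ≤
      4 / T * energy (law ρ) f + ∫ x, f x ^ 2 ∂law ρ := by
  have := isProb h
  obtain ⟨Cf, hCf⟩ := hf.bounded
  have hgb : ∀ x, lo ≤ f x ^ 2 ∧ f x ^ 2 ≤ Cf ^ 2 := fun x =>
    ⟨hlof x, sq_le_sq' (abs_le.1 (hCf x)).1 (abs_le.1 (hCf x)).2⟩
  obtain ⟨hchain, hE⟩ := ent_chain h hT hf hlo hgb
  set g := fun x => f x ^ 2 with hg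
  set hi := Cf ^ 2 with hhi
  have hgm : Measurable g := (hf.continuous.pow 2).measurable
  have hg0 : ∀ x, 0 ≤ g x := fun x => sq_nonneg _
  have hgA : ∀ x, |g x| ≤ hi := fun x => by rw [abs_of_nonneg (hg0 x)]; exact (hgb x).2
  obtain ⟨hm1, hm2, -, -⟩ := bounded_ent h hgm hlo hgb
  set m := ∫ x, g x ∂law ρ with hm
  have hm0 : 0 < m := hlo.trans_le hm1
  set M := mg ρ g T with hMdef
  have hMb : ∀ θ, lo ≤ M θ ∧ M θ ≤ hi := fun θ =>
    ⟨(mean_basic h hT.le hgm hlo hgb θ).1, (mean_basic h hT.le hgm hlo hgb θ).2.1⟩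
  have hMm : Measurable M := measurable_mg h (Φ := fun x _ => g x) (hgm.comp measurable_fst) T
  set G := fun θ => M θ / m with hG
  have hGm : Measurable G := hMm.div_const _
  have hGb : ∀ θ, lo / m ≤ G θ ∧ G θ ≤ hi / m := fun θ =>
    ⟨div_le_div_of_nonneg_right (hMb θ).1 hm0.le, div_le_div_of_nonneg_right (hMb θ).2 hm0.le⟩
  have hlm : 0 < lo / m := div_pos hlo hm0
  set l₀ := Real.log (lo / m)
  set u₀ := Real.log (hi / m)
  have hlogG : ∀ θ, |Real.log (G θ)| ≤ |l₀| + |u₀| := fun θ =>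
    abs_log_le hlm (hGb θ).1 (hGb θ).2
  have hR : ∀ θ, lo / m ≤ back G T θ ∧ back G T θ ≤ hi / m := fun θ =>
    integral_bounds (hGm.comp (by fun_prop)) fun ξ => hGb _
  set L := fun θ => Real.log (back G T θ) with hL
  have hLb : ∀ θ, l₀ ≤ L θ ∧ L θ ≤ u₀ := fun θ =>
    ⟨Real.log_le_log hlm (hR θ).1, Real.log_le_log (hlm.trans_le (hR θ).1) (hR θ).2⟩
  have hLm : Measurable L := (measurable_back hGm T).log
  set Q := harnack L T with hQ
  have hQm : Measurable Q := measurable_harnack hT hLb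
  have habs : ∀ {v : ℝ}, l₀ ≤ v → v ≤ u₀ → |v| ≤ |l₀| + |u₀| := fun {v} h1 h2 =>
    abs_le.2 ⟨by linarith [neg_abs_le l₀, abs_nonneg u₀],
      by linarith [le_abs_self u₀, abs_nonneg l₀]⟩
  have hQB : ∀ θ, |Q θ| ≤ |l₀| + |u₀| := fun θ =>
    habs (harnack_bounds hT hLb θ).1 (harnack_bounds hT hLb θ).2
  set Φ := gavg Q (2 * T) with hΦ
  have hΦm : Measurable Φ := measurable_gavg hQm _
  set B := |l₀| + |u₀| with hB
  have hΦB : ∀ x, |Φ x| ≤ B := fun x => abs_integral_bdd fun ξ => hQB _
  -- the entropy at time `T`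
  have p2 : PolyB2 fun x θ => g x * Real.log (G θ) :=
    ⟨hi * B, 0, fun x θ => by
      rw [abs_mul, pow_zero, mul_one]
      exact mul_le_mul (hgA x) (hlogG θ) (abs_nonneg _) ((abs_nonneg _).trans (hgA x))⟩
  have hjm := joint_mg h hT (Φ := fun x θ => g x * Real.log (G θ))
    ((hgm.comp measurable_fst).mul ((hGm.log).comp measurable_snd)) p2
  have hcm : ∀ θ, mg ρ (fun x => g x * Real.log (G θ)) T θ = M θ * Real.log (G θ) := fun θ => by
    simp only [hMdef, mg, num]
    rw [div_mul_eq_mul_div, ← integral_mul_const]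
    congr 1
    exact integral_congr_ae (Eventually.of_forall fun x => by ring)
  simp only [hcm] at hjm
  have p2g : PolyB2 fun x (_ : Fin n → ℝ) => g x := ⟨hi, 0, fun x θ => by simpa using hgA x⟩
  have hEM : Ep ρ T M = m := by
    rw [hMdef, ← joint_mg h hT (Φ := fun x _ => g x) (hgm.comp measurable_fst) p2g, joint,
      integral_fun_fst]
    simp [hm]
  have iJ : ∀ {F : (Fin n → ℝ) → ℝ} {C : ℝ}, Measurable F → (∀ θ, |F θ| ≤ C) →
      Integrable (fun z => F (T • z.1 + Real.sqrt T • z.2))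
        ((law ρ).prod (P166W.gauss (Fin n))) := fun {F C} hFm hC =>
    Integrable.of_bound (hFm.comp (by fun_prop)).aestronglyMeasurable C
      (Eventually.of_forall fun z => hC _)
  have hMabs : ∀ θ, |M θ| ≤ hi := fun θ => by
    rw [abs_of_pos (hlo.trans_le (hMb θ).1)]; exact (hMb θ).2
  have hsplit : Ep ρ T (fun θ => M θ * Real.log (M θ)) - m * Real.log m
      = Ep ρ T fun θ => M θ * Real.log (G θ) := by
    have e : ∀ θ, M θ * Real.log (G θ) = M θ * Real.log (M θ) - M θ * Real.log m := fun θ => by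
      rw [hG, Real.log_div (hlo.trans_le (hMb θ).1).ne' hm0.ne']
      ring
    simp only [e, Ep, joint]
    rw [integral_sub (iJ (F := fun θ => M θ * Real.log (M θ)) (hMm.mul hMm.log)
        fun θ => abs_mul_log_le hlo (hMb θ).1 (hMb θ).2)
      ((iJ hMm hMabs).mul_const _), integral_mul_const]
    rw [Ep, joint] at hEM
    rw [hEM]
  have hkey : ∀ x, gavg (fun θ => Real.log (G θ)) T x ≤ Φ x := fun x => by
    rw [← gavg_back hGm.log hlogG hT x]
    simp only [hΦ, gavg]
    refine integral_mono (integrable_bdd ((measurable_back hGm.log T).comp (by fun_prop))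
      fun ξ => abs_integral_bdd fun ξ' => hlogG _)
      (integrable_bdd (hQm.comp (by fun_prop)) fun ξ => hQB _) fun ξ => ?_
    exact le_ciInf fun θ' => back_log_le hT hGm hlm hGb _ θ'
  have hgΦ : Integrable (fun x => g x * Φ x) (law ρ) :=
    integrable_bdd (hgm.mul hΦm) (B := hi * B) fun x => by
      rw [abs_mul]
      exact mul_le_mul (hgA x) (hΦB x) (abs_nonneg _) ((abs_nonneg _).trans (hgA x))
  have hB1 : Ep ρ T (fun θ => M θ * Real.log (M θ)) - m * Real.log m ≤
      ∫ x, g x * Φ x ∂law ρ := by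
    rw [hsplit, ← hjm, joint_prod h hgm hGm.log hgA hlogG]
    refine integral_mono (integrable_bdd (hgm.mul (measurable_gavg hGm.log T)) (B := hi * B)
      fun x => ?_) hgΦ fun x => mul_le_mul_of_nonneg_left (hkey x) (hg0 x)
    rw [abs_mul]
    exact mul_le_mul (hgA x) (abs_integral_bdd fun ξ => hlogG _) (abs_nonneg _)
      ((abs_nonneg _).trans (hgA x))
  -- the test density
  set w := fun x => Real.exp (2 * Φ x) with hw
  have hwm : Measurable w := (hΦm.const_mul 2).exp
  have hwb : ∀ x, Real.exp (-(2 * B)) ≤ w x ∧ w x ≤ Real.exp (2 * B) := fun x =>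
    ⟨Real.exp_le_exp.2 (by linarith [(abs_le.1 (hΦB x)).1]),
      Real.exp_le_exp.2 (by linarith [(abs_le.1 (hΦB x)).2])⟩
  set Z := ∫ x, w x ∂law ρ with hZ
  have hZ0 : 0 < Z := (Real.exp_pos _).trans_le (integral_bounds hwm hwb).1
  have hwi : Integrable w (law ρ) := integrable_bdd hwm (B := Real.exp (2 * B)) fun x => by
    rw [abs_of_pos (Real.exp_pos _)]; exact (hwb x).2
  have hgl : Integrable (fun x => g x * Real.log (g x)) (law ρ) :=
    integrable_bdd (hgm.mul hgm.log) fun x => abs_mul_log_le hlo (hgb x).1 (hgb x).2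
  have hDV : ∫ x, g x * (2 * Φ x) ∂law ρ ≤ ent (law ρ) g + m * Real.log Z := by
    refine integral_mul_le_ent hg0 (integrable_bdd hgm hgA) hgl ?_ (hΦm.const_mul 2) ?_
    · refine (hgΦ.const_mul 2).congr (Eventually.of_forall fun x => ?_)
      ring
    · rw [Real.exp_log hZ0, hZ,
        ofReal_integral_eq_lintegral_ofReal hwi (Eventually.of_forall fun x => (Real.exp_pos _).le)]
  set t := fun x => w x / Z with ht
  have htb : ∀ x, Real.exp (-(2 * B)) / Z ≤ t x ∧ t x ≤ Real.exp (2 * B) / Z := fun x =>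
    ⟨div_le_div_of_nonneg_right (hwb x).1 hZ0.le, div_le_div_of_nonneg_right (hwb x).2 hZ0.le⟩
  have htm : Measurable t := hwm.div_const _
  have ht0 : ∀ x, 0 < t x := fun x => div_pos (Real.exp_pos _) hZ0
  have ht1 : ∫ x, t x ∂law ρ = 1 := by rw [integral_div, ← hZ, div_self hZ0.ne']
  have htconc : ∀ x y (a b : ℝ), 0 < a → 0 < b → a + b = 1 →
      t x ^ a * t y ^ b ≤ Real.exp (2 * T * a * b * nsq (x - y)) * t (a • x + b • y) :=
    fun x y a b ha hb hab => by
      simp only [ht, hw]
      rw [Real.div_rpow (Real.exp_pos _).le hZ0.le, Real.div_rpow (Real.exp_pos _).le hZ0.le,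
        div_mul_div_comm, ← Real.rpow_add hZ0, hab, Real.rpow_one, ← Real.exp_mul, ← Real.exp_mul,
        ← Real.exp_add, ← mul_div_assoc, ← Real.exp_add]
      refine div_le_div_of_nonneg_right (Real.exp_le_exp.2 ?_) hZ0.le
      have := gavg_harnack_concave hT hLb x y ha.le hb.le hab
      simp only [← hQ, ← hΦ] at this
      linarith
  have hQL := hM t _ _ htm (div_pos (Real.exp_pos _) hZ0) htb ht1 htconc Q L B hQm hLm hQB
    (fun θ => habs (hLb θ).1 (hLb θ).2) fun a b => harnack_le hT hLb a b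
  have htA : ∀ x, |t x| ≤ Real.exp (2 * B) / Z := fun x => by
    rw [abs_of_pos (ht0 x)]; exact (htb x).2
  rw [joint_prod h htm hQm htA hQB, ← hΦ] at hQL
  have hL0 : Ep ρ (2 * T) L ≤ 0 := by
    have hGabs : ∀ θ, |G θ| ≤ hi / m := fun θ => by
      rw [abs_of_pos (hlm.trans_le (hGb θ).1)]; exact (hGb θ).2
    have e : Ep ρ (2 * T) (back G T) = 1 := by
      rw [Ep_gavg h (measurable_back hGm T) (fun θ => abs_integral_bdd fun ξ => hGabs _)]
      simp only [gavg_back hGm hGabs hT]
      rw [← Ep_gavg h hGm hGabs, hG, Ep, joint, integral_div]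
      rw [Ep, joint] at hEM
      rw [hEM, div_self hm0.ne']
    have i1 : Integrable (fun z : (Fin n → ℝ) × (Fin n → ℝ) =>
        back G T ((2 * T) • z.1 + Real.sqrt (2 * T) • z.2))
        ((law ρ).prod (P166W.gauss (Fin n))) :=
      Integrable.of_bound ((measurable_back hGm T).comp (by fun_prop)).aestronglyMeasurable _
        (Eventually.of_forall fun z => abs_integral_bdd fun ξ => hGabs _)
    simp only [Ep, joint] at e ⊢
    refine (integral_mono (Integrable.of_bound (hLm.comp (by fun_prop)).aestronglyMeasurable B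
      (Eventually.of_forall fun z => habs (hLb _).1 (hLb _).2)) (i1.sub (integrable_const (1 : ℝ)))
      fun z => Real.log_le_sub_one_of_pos (hlm.trans_le (hR _).1)).trans ?_
    simp only [Pi.sub_apply]
    rw [integral_sub i1 (integrable_const _), e]
    simp
  have htent : ent (law ρ) t = 2 * (∫ x, t x * Φ x ∂law ρ) - Real.log Z := by
    have e : ∀ x, t x * Real.log (t x) = 2 * (t x * Φ x) - Real.log Z * t x := fun x => by
      simp only [ht, hw]
      rw [Real.log_div (Real.exp_pos _).ne' hZ0.ne', Real.log_exp]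
      ring
    have i2 : Integrable (fun x => t x * Φ x) (law ρ) :=
      integrable_bdd (htm.mul hΦm) (B := Real.exp (2 * B) / Z * B) fun x => by
        rw [abs_mul]
        exact mul_le_mul (htA x) (hΦB x) (abs_nonneg _) ((abs_nonneg _).trans (htA x))
    rw [ent, ht1, integral_congr_ae (Eventually.of_forall e),
      integral_sub (i2.const_mul 2) ((integrable_bdd htm htA).const_mul _), integral_const_mul,
      integral_const_mul, ht1]
    simp
  have hlogZ : Real.log Z ≤ 1 := by linarith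
  have h2 : ∫ x, g x * (2 * Φ x) ∂law ρ = 2 * ∫ x, g x * Φ x ∂law ρ := by
    rw [← integral_const_mul]
    exact integral_congr_ae (Eventually.of_forall fun x => by ring)
  have h3 : m * Real.log Z ≤ m := mul_le_of_le_one_right hm0.le hlogZ
  have h4 : 4 / T * energy (law ρ) f = 2 * (2 / T * energy (law ρ) f) := by ring
  rw [h4]
  linarith

/-- The defective inequality from the transport bound of semiconcave test densities. -/
theorem reduce_test (h : Ulc η ρ) (hT : 0 < T) (hM : TestBound ρ T) {f : (Fin n → ℝ) → ℝ}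
    (hf : Tame f) :
    ent (law ρ) (fun x => f x ^ 2) ≤
      4 / T * energy (law ρ) f + ∫ x, f x ^ 2 ∂law ρ := by
  have := isProb h
  have hfi : Integrable (fun x => f x ^ 2) (law ρ) := hf.sq.integrable
  have hr : Tendsto (fun ε : ℝ => 4 / T * energy (law ρ) f + ((∫ x, f x ^ 2 ∂law ρ) + ε))
      (𝓝[>] 0) (𝓝 (4 / T * energy (law ρ) f + ∫ x, f x ^ 2 ∂law ρ)) :=
    ((continuous_const.add (continuous_const.add continuous_id)).tendsto' 0 _
      (by simp)).mono_left nhdsWithin_le_nhds
  refine le_of_tendsto_of_tendsto (tendsto_ent_add_const hf.sq) hr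
    (eventually_nhdsWithin_of_forall fun ε (hε : 0 < ε) => ?_)
  obtain ⟨hft, hgr⟩ := tame_sqrt hf hε
  have e : ∀ x, Real.sqrt (f x ^ 2 + ε) ^ 2 = f x ^ 2 + ε := fun x =>
    Real.sq_sqrt (by positivity)
  have h1 := reduce_test_pos h hT hM hft hε fun x => by rw [e]; linarith [sq_nonneg (f x)]
  simp only [e] at h1
  rw [integral_add hfi (integrable_const _), integral_const, probReal_univ, one_smul] at h1
  refine h1.trans (add_le_add (mul_le_mul_of_nonneg_left ?_ (by positivity)) le_rfl)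
  exact integral_mono hft.integrable_gradSq hf.integrable_gradSq hgr

/-! ### The density seen by the coupling -/

/-- The density `ρ g e^{-2T|x|²}`, normalised. -/
def tilted (ρ g : (Fin n → ℝ) → ℝ) (T : ℝ) : (Fin n → ℝ) → ℝ := fun x =>
  ρ x * (g x * Real.exp (-(2 * T * nsq x))) /
    ∫ y, g y * Real.exp (-(2 * T * nsq y)) ∂law ρ

lemma integrable_tilt (h : Ulc η ρ) {g : (Fin n → ℝ) → ℝ} (hg : Measurable g) {lo hi : ℝ}
    (hlo : 0 < lo) (hb : ∀ x, lo ≤ g x ∧ g x ≤ hi) (hT : 0 ≤ T) :
    Integrable (fun y => g y * Real.exp (-(2 * T * nsq y))) (law ρ) := by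
  have hp : PolyB g := polyB_of_bounded (C := hi) fun x => by
    rw [abs_of_pos (hlo.trans_le (hb x).1)]; exact (hb x).2
  refine (integrable_wgt h hg hp (s := 4 * T) (by positivity) 0).congr
    (Eventually.of_forall fun y => ?_)
  simp only [wgt, dotp, Pi.zero_apply, zero_mul, Finset.sum_const_zero, zero_sub]
  congr 2
  ring

lemma tilt_mass_pos (h : Ulc η ρ) {g : (Fin n → ℝ) → ℝ} (hg : Measurable g) {lo hi : ℝ}
    (hlo : 0 < lo) (hb : ∀ x, lo ≤ g x ∧ g x ≤ hi) (hT : 0 ≤ T) :
    0 < ∫ y, g y * Real.exp (-(2 * T * nsq y)) ∂law ρ := by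
  have := isProb h
  have hi' := integrable_tilt h hg hlo hb hT
  rw [integral_pos_iff_support_of_nonneg
    (fun y => mul_nonneg (hlo.le.trans (hb y).1) (Real.exp_pos _).le) hi']
  have : Function.support (fun y => g y * Real.exp (-(2 * T * nsq y))) = Set.univ :=
    Set.eq_univ_of_forall fun y => (mul_pos (hlo.trans_le (hb y).1) (Real.exp_pos _)).ne'
  rw [this, measure_univ]
  exact one_pos

/-- A semiconcave test density times a Gaussian is uniformly log-concave. -/
theorem tilted_ulc (h : Ulc η ρ) {g : (Fin n → ℝ) → ℝ} (hg : Measurable g) {lo hi : ℝ}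
    (hlo : 0 < lo) (hb : ∀ x, lo ≤ g x ∧ g x ≤ hi) (hT : 0 ≤ T)
    (hconc : ∀ x y (a b : ℝ), 0 < a → 0 < b → a + b = 1 →
      g x ^ a * g y ^ b ≤ Real.exp (2 * T * a * b * nsq (x - y)) * g (a • x + b • y)) :
    Ulc η (tilted ρ g T) where
  pos := h.pos
  meas := (h.meas.mul (hg.mul (by unfold nsq; fun_prop))).div_const _
  nonneg x := div_nonneg (mul_nonneg (h.nonneg x)
    (mul_nonneg (hlo.le.trans (hb x).1) (Real.exp_pos _).le)) (tilt_mass_pos h hg hlo hb hT).le
  mass := by
    have hp := tilt_mass_pos h hg hlo hb hT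
    have hi' := (integrable_tilt h hg hlo hb hT).div_const
      (∫ y, g y * Real.exp (-(2 * T * nsq y)) ∂law ρ)
    have e : (fun x => ENNReal.ofReal (tilted ρ g T x)) = fun x => ENNReal.ofReal (ρ x) *
        ENNReal.ofReal (g x * Real.exp (-(2 * T * nsq x)) /
          ∫ y, g y * Real.exp (-(2 * T * nsq y)) ∂law ρ) :=
      funext fun x => by rw [← ENNReal.ofReal_mul (h.nonneg x), tilted, mul_div_assoc]
    have hwm : Measurable fun x => g x * Real.exp (-(2 * T * nsq x)) :=
      hg.mul (by unfold nsq; fun_prop)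
    rw [e, ← lintegral_law h.meas (hwm.div_const _).ennreal_ofReal,
      ← ofReal_integral_eq_lintegral_ofReal hi' (Eventually.of_forall fun x =>
        div_nonneg (mul_nonneg (hlo.le.trans (hb x).1) (Real.exp_pos _).le) hp.le),
      integral_div, div_self hp.ne', ENNReal.ofReal_one]
  conc x y a b ha hb' hab := by
    have hp := tilt_mass_pos h hg hlo hb hT
    have hw : ∀ z, 0 ≤ g z * Real.exp (-(2 * T * nsq z)) := fun z =>
      mul_nonneg (hlo.le.trans (hb z).1) (Real.exp_pos _).le
    have hg0 : ∀ z, 0 ≤ g z := fun z => hlo.le.trans (hb z).1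
    simp only [tilted]
    rw [Real.div_rpow (mul_nonneg (h.nonneg x) (hw x)) hp.le,
      Real.div_rpow (mul_nonneg (h.nonneg y) (hw y)) hp.le, div_mul_div_comm,
      ← Real.rpow_add hp, hab, Real.rpow_one, div_mul_eq_mul_div]
    refine div_le_div_of_nonneg_right ?_ hp.le
    rw [Real.mul_rpow (h.nonneg x) (hw x), Real.mul_rpow (h.nonneg y) (hw y),
      Real.mul_rpow (hg0 x) (Real.exp_pos _).le, Real.mul_rpow (hg0 y) (Real.exp_pos _).le,
      ← Real.exp_mul, ← Real.exp_mul]
    set z := a • x + b • y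
    have key : g x ^ a * Real.exp (-(2 * T * nsq x) * a) *
        (g y ^ b * Real.exp (-(2 * T * nsq y) * b)) ≤ g z * Real.exp (-(2 * T * nsq z)) := by
      have e : Real.exp (2 * T * a * b * nsq (x - y)) *
          (Real.exp (-(2 * T * nsq x) * a) * Real.exp (-(2 * T * nsq y) * b)) =
          Real.exp (-(2 * T * nsq z)) := by
        rw [← Real.exp_add, ← Real.exp_add]
        congr 1
        linear_combination (-(2 * T)) * nsq_combo x y a b hab
      calc g x ^ a * Real.exp (-(2 * T * nsq x) * a) *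
            (g y ^ b * Real.exp (-(2 * T * nsq y) * b))
          = g x ^ a * g y ^ b *
            (Real.exp (-(2 * T * nsq x) * a) * Real.exp (-(2 * T * nsq y) * b)) := by ring
        _ ≤ Real.exp (2 * T * a * b * nsq (x - y)) * g z *
            (Real.exp (-(2 * T * nsq x) * a) * Real.exp (-(2 * T * nsq y) * b)) :=
          mul_le_mul_of_nonneg_right (hconc x y a b ha hb' hab)
            (mul_pos (Real.exp_pos _) (Real.exp_pos _)).le
        _ = _ := by rw [← e]; ring
    calc ρ x ^ a * (g x ^ a * Real.exp (-(2 * T * nsq x) * a)) *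
          (ρ y ^ b * (g y ^ b * Real.exp (-(2 * T * nsq y) * b))) *
          Real.exp (η * a * b / 2 * nsq (x - y))
        = (ρ x ^ a * ρ y ^ b * Real.exp (η * a * b / 2 * nsq (x - y))) *
          (g x ^ a * Real.exp (-(2 * T * nsq x) * a) *
            (g y ^ b * Real.exp (-(2 * T * nsq y) * b))) := by ring
      _ ≤ ρ z * (g z * Real.exp (-(2 * T * nsq z))) := mul_le_mul (h.conc x y a b ha hb' hab) key
          (mul_nonneg (mul_nonneg (Real.rpow_nonneg (hg0 x) _) (Real.exp_pos _).le)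
            (mul_nonneg (Real.rpow_nonneg (hg0 y) _) (Real.exp_pos _).le))
          (h.nonneg z)

/-- The posterior of `ρ g` at time `r` is the posterior of the tilted density at time `r - 4T`. -/
theorem post_tilted (h : Ulc η ρ) {g : (Fin n → ℝ) → ℝ} (hg : Measurable g) {lo hi : ℝ}
    (hlo : 0 < lo) (hb : ∀ x, lo ≤ g x ∧ g x ≤ hi) (hT : 0 ≤ T) (r : ℝ) (θ : Fin n → ℝ) :
    post (fun x => ρ x * g x) r θ = post (tilted ρ g T) (r - 4 * T) θ := by
  have hp := tilt_mass_pos h hg hlo hb hT
  have hg0 : ∀ z, 0 ≤ g z := fun z => hlo.le.trans (hb z).1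
  have hw : ∀ x, Real.exp (-(2 * T * nsq x)) * wgt (r - 4 * T) θ x = wgt r θ x := fun x => by
    simp only [wgt, ← Real.exp_add]
    congr 1
    ring
  set Z := ∫ y, g y * Real.exp (-(2 * T * nsq y)) ∂law ρ with hZ
  have e1 : part (fun x => ρ x * g x) r θ = ∫ x, ρ x * (g x * wgt r θ x) := by
    simp only [part, num, one_mul]
    have hm : Measurable fun x => ρ x * g x := h.meas.mul hg
    rw [integral_law hm fun x => mul_nonneg (h.nonneg x) (hg0 x)]
    exact integral_congr_ae (Eventually.of_forall fun x => by ring)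
  have e2 : part (tilted ρ g T) (r - 4 * T) θ = (∫ x, ρ x * (g x * wgt r θ x)) / Z := by
    simp only [part, num, one_mul]
    have hm : Measurable (tilted ρ g T) :=
      (h.meas.mul (hg.mul (by unfold nsq; fun_prop))).div_const _
    have hn : ∀ x, 0 ≤ tilted ρ g T x := fun x =>
      div_nonneg (mul_nonneg (h.nonneg x) (mul_nonneg (hg0 x) (Real.exp_pos _).le)) hp.le
    rw [integral_law hm hn,
      ← integral_div]
    refine integral_congr_ae (Eventually.of_forall fun x => ?_)
    simp only [tilted, ← hZ, ← hw x]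
    ring
  funext x
  simp only [post, e1, e2, tilted, ← hZ, ← hw x]
  have := hp.ne'
  field_simp

/-- Integrals against the channel law of a change of density. -/
lemma integral_chanM_change (h : Ulc η ρ) {g F : St n → ℝ} (hg : Measurable g) {lo hi : ℝ}
    (hlo : 0 < lo) (hb : ∀ x, lo ≤ g x ∧ g x ≤ hi) (h1 : ∫ x, g x ∂law ρ = 1)
    (hF : Measurable F) {B : ℝ} (hB : ∀ x, |F x| ≤ B) (s : ℝ) :
    ∫ θ, F θ ∂chanM (fun x => g x * ρ x) s = joint ρ s (fun x θ => g x * F θ) := by
  have := isProb h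
  have hg0 : ∀ x, 0 ≤ g x := fun x => hlo.le.trans (hb x).1
  have hgA : ∀ x, |g x| ≤ hi := fun x => by rw [abs_of_nonneg (hg0 x)]; exact (hb x).2
  have hm : Measurable fun x => g x * ρ x := hg.mul h.meas
  have h0 : ∀ x, 0 ≤ g x * ρ x := fun x => mul_nonneg (hg0 x) (h.nonneg x)
  have hp : IsProbabilityMeasure (law fun x => g x * ρ x) := ⟨by
    rw [law, withDensity_apply _ MeasurableSet.univ, setLIntegral_univ]
    have e : (fun x => ENNReal.ofReal (g x * ρ x)) =
        fun x => ENNReal.ofReal (ρ x) * ENNReal.ofReal (g x) :=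
      funext fun x => by rw [← ENNReal.ofReal_mul (h.nonneg x), mul_comm]
    rw [e, ← lintegral_law h.meas hg.ennreal_ofReal,
      ← ofReal_integral_eq_lintegral_ofReal (integrable_bdd hg hgA) (Eventually.of_forall hg0), h1,
      ENNReal.ofReal_one]⟩
  have hi' : Integrable (fun z : St n × St n => F (s • z.1 + Real.sqrt s • z.2))
      ((law fun x => g x * ρ x).prod (P166W.gauss (Fin n))) :=
    Integrable.of_bound (hF.comp (by fun_prop)).aestronglyMeasurable B
      (Eventually.of_forall fun z => hB _)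
  rw [chanM, integral_map (Measurable.aemeasurable (by fun_prop)) hF.aestronglyMeasurable,
    integral_prod _ hi',
    joint_prod h hg hF hgA hB, integral_law hm h0, integral_law h.meas h.nonneg]
  refine integral_congr_ae (Eventually.of_forall fun x => ?_)
  simp only [gavg]
  ring

lemma integral_chanM_eq (h : Ulc η ρ) {G : St n → ℝ} (hG : Measurable G) (s : ℝ) :
    ∫ θ, G θ ∂chanM ρ s = Ep ρ s G := by
  rw [chanM, integral_map (Measurable.aemeasurable (by fun_prop)) hG.aestronglyMeasurable]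
  rfl

/-- The coupling bound for all semiconcave changes gives a defective inequality. -/
theorem reduce {n : ℕ} {η D K : ℝ} {ρ : St n → ℝ} (hb : Base η D K ρ) (hK : 32 ≤ K)
    (hmain : ∀ g ρ', Tilted η D (64 / K) ρ g ρ' → ∀ ε : ℝ, 0 < ε →
      ∃ π : Measure (St n × St n), IsProbabilityMeasure π ∧
        π.map Prod.fst = chanM ρ (32 / K) ∧
        π.map Prod.snd = chanM (fun x => g x * ρ x) (32 / K) ∧
        Integrable (fun p => nsq (delta p)) π ∧
        ∫ p, nsq (delta p) ∂π ≤ 32 * (ent (law ρ) g + 1) / K + ε)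
    {f : St n → ℝ} (hf : Tame f) :
    ent (law ρ) (fun x => f x ^ 2) ≤ K / 4 * energy (law ρ) f + ∫ x, f x ^ 2 ∂law ρ := by
  have hK0 : 0 < K := by linarith
  have hT : 0 < 16 / K := by positivity
  have e : 4 / (16 / K) = K / 4 := by field_simp; ring
  rw [← e]
  refine reduce_test hb.ulc hT ?_ hf
  intro g lo hi hg hlo hgb hg1 hconc F G B hF hG hFB hGB hle
  have hρ' := tilted_ulc hb.ulc hg hlo hgb hT.le hconc
  have hd : Tilted η D (64 / K) ρ g (tilted ρ g (16 / K)) :=
    { gmeas := hg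
      bdd := ⟨lo, hi, hlo, hgb⟩
      gmass := hg1
      ulc' := hρ'
      dens' := ⟨hρ'.meas, hρ'.nonneg, hρ'.mass, fun x hx => by simp [tilted, hb.dens.supp x hx]⟩
      shift := fun r θ => by
        rw [show (fun x => g x * ρ x) = fun x => ρ x * g x from funext fun x => mul_comm _ _,
          post_tilted hb.ulc hg hlo hgb hT.le r θ]
        congr 2
        ring }
  have e2 : 2 * (16 / K) = 32 / K := by ring
  rw [e2]
  refine le_of_forall_pos_le_add fun δ hδ => ?_
  obtain ⟨π, hπ, h1, h2, hint, hbd⟩ := hmain g _ hd (64 / K * δ) (by positivity)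
  have iF : Integrable (fun p : St n × St n => F p.2) π :=
    Integrable.of_bound (hF.comp measurable_snd).aestronglyMeasurable B
      (Eventually.of_forall fun p => hFB _)
  have iG : Integrable (fun p : St n × St n => G p.1) π :=
    Integrable.of_bound (hG.comp measurable_fst).aestronglyMeasurable B
      (Eventually.of_forall fun p => hGB _)
  have hmono := integral_mono iF (iG.add (hint.div_const (4 * (16 / K)))) fun p => hle p.2 p.1
  rw [integral_add' iG (hint.div_const _), integral_div,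
    ← integral_map (φ := Prod.snd) measurable_snd.aemeasurable hF.aestronglyMeasurable,
    ← integral_map (φ := Prod.fst) measurable_fst.aemeasurable hG.aestronglyMeasurable,
    h1, h2, integral_chanM_change hb.ulc hg hlo hgb hg1 hF hFB, integral_chanM_eq hb.ulc hG] at hmono
  refine hmono.trans ?_
  have h3 : (∫ p, nsq (delta p) ∂π) / (4 * (16 / K)) ≤ (ent (law ρ) g + 1) / 2 + δ := by
    rw [div_le_iff₀ (by positivity)]
    refine hbd.trans (le_of_eq ?_)
    field_simp
    ring
  linarith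

end

end Vale.Agent.P245.Gen2
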