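import Vale.Agent.P245.Gen2.Coupling
import Vale.Agent.P245.Gen2.Reduce
import Vale.Agent.P245.Gen2.Gap

/-!
# P245, polylogarithmic bound: compactly supported uniformly log-concave measures

A logarithmic Sobolev constant `K` above `(1 + log n)²` improves to `5 K / 8` plus a multiple of
`1 + log n`; one starts at `2 / η` and passes to the limit.
-/

open MeasureTheory Filter Topology

namespace Vale.Agent.P245.Gen2

open General

/-- One improvement of the constant. -/
theorem lsi_improve : ∃ K₀ C : ℝ, 0 < K₀ ∧ 0 < C ∧ ∀ (n : ℕ) (η D K : ℝ) (ρ : St n → ℝ),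
    Base η D K ρ → K₀ * (1 + Real.log n) ^ 2 ≤ K → ∀ f, Tame f →
      ent (law ρ) (fun x => f x ^ 2) ≤
        (5 / 8 * K + C * (1 + Real.log n) ^ 2) * energy (law ρ) f := by
  obtain ⟨K₀, hK₀, hcoup⟩ := coupling
  obtain ⟨K₁, P, hK₁, hP0, hP⟩ := variance_le_of_lsi 2312 (by norm_num)
  refine ⟨max K₀ K₁, (9 / 4 + 70) * P, lt_max_of_lt_left (by linarith), by positivity,
    fun n η D K ρ hb hK f hf => ?_⟩
  have := isProb hb.ulc
  have hℓ : 1 ≤ 1 + Real.log (n : ℝ) := le_add_of_nonneg_right (Real.log_natCast_nonneg n)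
  have hℓ2 : 1 + Real.log (n : ℝ) ≤ (1 + Real.log n) ^ 2 := le_self_pow₀ hℓ two_ne_zero
  have hK' : K₀ * (1 + Real.log n) ^ 2 ≤ K ∧ K₁ * (1 + Real.log n) ^ 2 ≤ K :=
    ⟨(mul_le_mul_of_nonneg_right (le_max_left _ _) (sq_nonneg _)).trans hK,
      (mul_le_mul_of_nonneg_right (le_max_right _ _) (sq_nonneg _)).trans hK⟩
  have hK32 : 32 ≤ K :=
    hK₀.trans ((le_mul_of_one_le_right (by linarith) (one_le_pow₀ hℓ)).trans hK'.1)
  set m := ∫ y, f y ∂law ρ
  have hr := reduce hb hK32 (fun g ρ' ht ε hε => hcoup n η D K ρ g ρ' hb hK'.1 ht ε hε)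
    (hf.sub_const m)
  have hE : energy (law ρ) (fun x => f x - m) = energy (law ρ) f := by
    simp only [energy, gradSq, pd, fderiv_sub_const]
  rw [hE] at hr
  have hE0 : 0 ≤ energy (law ρ) f := integral_nonneg (gradSq_nonneg f)
  have hV : ∫ x, (f x - m) ^ 2 ∂law ρ ≤
      (2 / 2312 * K + P * (1 + Real.log n) ^ 2) * energy (law ρ) f := by
    refine le_trans (le_of_eq ?_) ((hP n η D K ρ hb hK'.2 f hf).trans ?_)
    · simp only [m, covc, sq]
    · exact mul_le_mul_of_nonneg_right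
        (add_le_add_right (mul_le_mul_of_nonneg_left hℓ2 hP0.le) _) hE0
  have h1 := rothaus (μ := law ρ) hf
  refine h1.trans ?_
  have h2 := mul_le_mul_of_nonneg_left hr (show (0 : ℝ) ≤ 9 / 4 by norm_num)
  have h3 := mul_le_mul_of_nonneg_left hV (show (0 : ℝ) ≤ 9 / 4 + 70 by norm_num)
  have h4 : 0 ≤ K * energy (law ρ) f := mul_nonneg hb.posK.le hE0
  linarith

theorem lsi_compact : ∃ C : ℝ, 0 < C ∧ ∀ (n : ℕ) (η D : ℝ) (ρ : St n → ℝ),
    Ulc η ρ → Dens D ρ → center ρ = 0 → SubG ρ → ∀ f, Tame f →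
      ent (law ρ) (fun x => f x ^ 2) ≤ C * (1 + Real.log n) ^ 2 * energy (law ρ) f := by
  obtain ⟨K₀, C₁, hK₀, hC₁, hstep⟩ := lsi_improve
  refine ⟨K₀ + 8 / 3 * C₁, by positivity, fun n η D ρ h hd hc hs => ?_⟩
  have hℓ : 1 ≤ 1 + Real.log (n : ℝ) := le_add_of_nonneg_right (Real.log_natCast_nonneg n)
  set B := (K₀ + 8 / 3 * C₁) * (1 + Real.log n) ^ 2
  have h25 : K₀ * (1 + Real.log n) ^ 2 ≤ B :=
    mul_le_mul_of_nonneg_right (le_add_of_nonneg_right (by positivity)) (by positivity)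
  have hfix : 5 / 8 * B + C₁ * (1 + Real.log n) ^ 2 ≤ B := by
    have : C₁ * (1 + Real.log n) ^ 2 ≤ 3 / 8 * B := by
      have : 0 ≤ K₀ * (1 + Real.log n) ^ 2 := by positivity
      simp only [B]
      linarith
    linarith
  have hη := h.pos
  set a := fun j : ℕ => (5 / 8 : ℝ) ^ j * (2 / η)
  have main : ∀ j : ℕ, ∀ f, Tame f →
      ent (law ρ) (fun x => f x ^ 2) ≤ (B + a j) * energy (law ρ) f := by
    intro j
    induction j with
    | zero =>
      intro f hf
      refine (lsi_tame h hf).trans (mul_le_mul_of_nonneg_right ?_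
        (integral_nonneg (gradSq_nonneg f)))
      have : 0 ≤ B := by positivity
      simp [a]
      linarith
    | succ j ih =>
      intro f hf
      have hb : Base η D (B + a j) ρ := ⟨h, hd, hc, hs, by positivity, ih⟩
      have ha : 0 ≤ a j := by positivity
      refine (hstep n η D (B + a j) ρ hb (by linarith) f hf).trans
        (mul_le_mul_of_nonneg_right ?_ (integral_nonneg (gradSq_nonneg f)))
      have e : a (j + 1) = 5 / 8 * a j := by simp only [a, pow_succ]; ring
      rw [e]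
      linarith
  intro f hf
  have ht : Tendsto a atTop (𝓝 0) := by
    simpa [a] using (tendsto_pow_atTop_nhds_zero_of_lt_one
      (by norm_num : (0 : ℝ) ≤ 5 / 8) (by norm_num)).mul_const (2 / η)
  have ht' : Tendsto (fun j => (B + a j) * energy (law ρ) f) atTop
      (𝓝 (B * energy (law ρ) f)) := by
    simpa using (ht.const_add B).mul_const (energy (law ρ) f)
  exact ge_of_tendsto' ht' fun j => main j f hf

end Vale.Agent.P245.Gen2
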