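import Vale.Agent.P245.General.Defective
import Vale.Agent.P245.General.EpBasic
import Mathlib.Analysis.Calculus.BumpFunction.FiniteDimension

/-!
# P245, general measures: logarithmic Sobolev inequalities for bounded C1 functions

`LsiP K μ` is the inequality `ent F² ≤ K energy F` for `C¹` functions bounded away from zero and
infinity with bounded gradient.  It follows from the inequality for tame functions, holds with
`K = 2` for the standard Gaussian law, and passes to the channel law with `K t² + 2 t`.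
-/

open MeasureTheory Filter Topology

namespace Vale.Agent.P245.General

noncomputable section

variable {n : ℕ}

/-- The logarithmic Sobolev inequality for bounded positive C1 functions with bounded gradient. -/
def LsiP (K : ℝ) (μ : Measure (Fin n → ℝ)) : Prop :=
  ∀ F : (Fin n → ℝ) → ℝ, ContDiff ℝ 1 F → ∀ lo hi L : ℝ, 0 < lo →
    (∀ x, lo ≤ F x ∧ F x ≤ hi) → (∀ x, gradSq F x ≤ L) →
      ent μ (fun x => F x ^ 2) ≤ K * energy μ F

private theorem continuous_pd_of_contDiff {F : (Fin n → ℝ) → ℝ} (hF : ContDiff ℝ 1 F)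
    (i : Fin n) : Continuous (pd i F) :=
  (hF.continuous_fderiv one_ne_zero).clm_apply continuous_const

private theorem continuous_gradSq_of_contDiff {F : (Fin n → ℝ) → ℝ} (hF : ContDiff ℝ 1 F) :
    Continuous (gradSq F) :=
  continuous_finsetSum _ fun i _ => (continuous_pd_of_contDiff hF i).pow 2

private theorem abs_pd_le {F : (Fin n → ℝ) → ℝ} {L : ℝ} (hL : ∀ x, gradSq F x ≤ L) (i : Fin n)
    (x : Fin n → ℝ) : |pd i F x| ≤ L + 1 := by
  have h1 : pd i F x ^ 2 ≤ L :=
    le_trans (Finset.single_le_sum (f := fun j => pd j F x ^ 2) (fun j _ => sq_nonneg _)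
      (Finset.mem_univ i)) (hL x)
  nlinarith [sq_abs (pd i F x), sq_nonneg (|pd i F x| - 1 / 2)]

/-- Limits of tame-type inequalities along bounded pointwise convergent sequences. -/
private theorem lsi_limit {μ : Measure (Fin n → ℝ)} [IsProbabilityMeasure μ] {K B L : ℝ}
    {u : ℕ → (Fin n → ℝ) → ℝ} {F : (Fin n → ℝ) → ℝ}
    (hu : ∀ k, ContDiff ℝ 1 (u k)) (huB : ∀ k x, |u k x| ≤ B) (huL : ∀ k i x, |pd i (u k) x| ≤ L)
    (hlim : ∀ x, Tendsto (fun k => u k x) atTop (𝓝 (F x)))
    (hdlim : ∀ i x, Tendsto (fun k => pd i (u k) x) atTop (𝓝 (pd i F x)))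
    (h : ∀ k, ent μ (fun x => u k x ^ 2) ≤ K * energy μ (u k)) :
    ent μ (fun x => F x ^ 2) ≤ K * energy μ F := by
  obtain ⟨M, hM⟩ := IsCompact.exists_bound_of_continuousOn (isCompact_Icc (a := (0 : ℝ)) (b := B ^ 2))
    (f := fun t => t * Real.log t) Real.continuous_mul_log.continuousOn
  have h2 : ∀ k x, u k x ^ 2 ≤ B ^ 2 := fun k x => by
    rw [← sq_abs (u k x)]
    exact pow_le_pow_left₀ (abs_nonneg _) (huB k x) 2
  have t1 : Tendsto (fun k => ∫ x, u k x ^ 2 * Real.log (u k x ^ 2) ∂μ) atTop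
      (𝓝 (∫ x, F x ^ 2 * Real.log (F x ^ 2) ∂μ)) := by
    refine tendsto_integral_of_dominated_convergence (fun _ => M)
      (fun k => (Real.continuous_mul_log.comp ((hu k).continuous.pow 2)).aestronglyMeasurable)
      (integrable_const M) (fun k => Eventually.of_forall fun x => ?_)
      (Eventually.of_forall fun x => ?_)
    · exact hM _ ⟨sq_nonneg _, h2 k x⟩
    · exact (Real.continuous_mul_log.tendsto _).comp ((hlim x).pow 2)
  have t2 : Tendsto (fun k => ∫ x, u k x ^ 2 ∂μ) atTop (𝓝 (∫ x, F x ^ 2 ∂μ)) := by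
    refine tendsto_integral_of_dominated_convergence (fun _ => B ^ 2)
      (fun k => ((hu k).continuous.pow 2).aestronglyMeasurable)
      (integrable_const _) (fun k => Eventually.of_forall fun x => ?_)
      (Eventually.of_forall fun x => (hlim x).pow 2)
    rw [Real.norm_eq_abs, abs_of_nonneg (sq_nonneg _)]
    exact h2 k x
  have t3 : Tendsto (fun k => energy μ (u k)) atTop (𝓝 (energy μ F)) := by
    refine tendsto_integral_of_dominated_convergence (fun _ => ∑ _i : Fin n, L ^ 2)
      (fun k => (continuous_gradSq_of_contDiff (hu k)).aestronglyMeasurable)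
      (integrable_const _) (fun k => Eventually.of_forall fun x => ?_)
      (Eventually.of_forall fun x => tendsto_finsetSum _ fun i _ => (hdlim i x).pow 2)
    rw [Real.norm_eq_abs, abs_of_nonneg (Finset.sum_nonneg fun i _ => sq_nonneg _)]
    refine Finset.sum_le_sum fun i _ => ?_
    rw [← sq_abs]
    exact pow_le_pow_left₀ (abs_nonneg _) (huL k i x) 2
  exact le_of_tendsto_of_tendsto' (t1.sub ((Real.continuous_mul_log.tendsto _).comp t2))
    (t3.const_mul K) h

/-- From tame functions to compactly supported C1 functions, by mollification. -/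
private theorem lsi_of_compact {μ : Measure (Fin n → ℝ)} [IsProbabilityMeasure μ] {K : ℝ}
    (h : ∀ f, Tame f → ent μ (fun x => f x ^ 2) ≤ K * energy μ f)
    {U : (Fin n → ℝ) → ℝ} (hU : ContDiff ℝ 1 U) (hs : HasCompactSupport U) :
    ent μ (fun x => U x ^ 2) ≤ K * energy μ U := by
  obtain ⟨B, hB⟩ := hU.continuous.bounded_above_of_compact_support hs
  have hd : Continuous (fderiv ℝ U) := hU.continuous_fderiv one_ne_zero
  obtain ⟨D, hD⟩ := hd.bounded_above_of_compact_support (hs.fderiv ℝ)
  let φ : ℕ → ContDiffBump (0 : Fin n → ℝ) := fun k =>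
    ⟨1 / (2 * ((k : ℝ) + 1)), 1 / ((k : ℝ) + 1), by positivity, by
      rw [div_lt_div_iff₀ (by positivity) (by positivity)]; linarith⟩
  have hr : Tendsto (fun k => (φ k).rOut) atTop (𝓝 0) :=
    tendsto_one_div_add_atTop_nhds_zero_nat
  let u : ℕ → (Fin n → ℝ) → ℝ := fun k =>
    MeasureTheory.convolution ((φ k).normed volume) U (ContinuousLinearMap.lsmul ℝ ℝ) volume
  have hli : ∀ k, LocallyIntegrable ((φ k).normed (volume : Measure (Fin n → ℝ))) :=
    fun k => (φ k).continuous_normed.locallyIntegrable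
  have hsm : ∀ k, ContDiff ℝ (⊤ : ℕ∞) (u k) := fun k =>
    (φ k).hasCompactSupport_normed.contDiff_convolution_left _ (φ k).contDiff_normed
      hU.continuous.locallyIntegrable
  have hpd : ∀ k i x, pd i (u k) x =
      MeasureTheory.convolution ((φ k).normed volume) (pd i U) (ContinuousLinearMap.lsmul ℝ ℝ)
        volume x := by
    intro k i x
    have h1 := hs.hasFDerivAt_convolution_right (ContinuousLinearMap.lsmul ℝ ℝ) (hli k) hU x
    rw [pd, h1.fderiv, convolution_precompR_apply _ (hli k) (hs.fderiv ℝ) hd]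
    rfl
  have hbd : ∀ (k : ℕ) {g : (Fin n → ℝ) → ℝ} {C : ℝ}, Continuous g → (∀ x, ‖g x‖ ≤ C) → ∀ x,
      |MeasureTheory.convolution ((φ k).normed volume) g (ContinuousLinearMap.lsmul ℝ ℝ) volume x|
        ≤ 3 * C := by
    intro k g C hg hC x
    have h1 := (φ k).dist_normed_convolution_le (μ := (volume : Measure (Fin n → ℝ))) (g := g)
      (x₀ := x) (ε := 2 * C) hg.aestronglyMeasurable fun y _ => by
        rw [dist_eq_norm]; linarith [norm_sub_le (g y) (g x), hC y, hC x]
    rw [dist_eq_norm, Real.norm_eq_abs] at h1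
    have h2 := hC x
    rw [Real.norm_eq_abs] at h2
    have := abs_sub_abs_le_abs_sub
      (MeasureTheory.convolution ((φ k).normed volume) g (ContinuousLinearMap.lsmul ℝ ℝ) volume x)
      (g x)
    linarith
  refine lsi_limit (u := u) (B := 3 * B) (L := 3 * D) (fun k => (hsm k).of_le (by simp))
    (fun k x => hbd k hU.continuous hB x) (fun k i x => ?_) (fun x => ?_) (fun i x => ?_)
    (fun k => h _ ⟨hsm k, 0, by
      simpa using (φ k).hasCompactSupport_normed.convolution _ hs⟩)
  · rw [hpd]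
    refine hbd k (continuous_pd_of_contDiff hU i) (fun y => ?_) x
    exact ((fderiv ℝ U y).le_opNorm _).trans (by
      simpa [Pi.norm_single] using hD y)
  · exact ContDiffBump.convolution_tendsto_right_of_continuous hr hU.continuous x
  · simp only [hpd]
    exact ContDiffBump.convolution_tendsto_right_of_continuous hr
      (continuous_pd_of_contDiff hU i) x

/-- From tame functions to bounded C1 functions with bounded gradient. -/
theorem lsiP_of_tame {μ : Measure (Fin n → ℝ)} [IsProbabilityMeasure μ] {K : ℝ}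
    (h : ∀ f, Tame f → ent μ (fun x => f x ^ 2) ≤ K * energy μ f) : LsiP K μ := by
  intro F hF lo hi L hlo hb hL
  let χ : ContDiffBump (0 : Fin n → ℝ) := ⟨1, 2, one_pos, one_lt_two⟩
  have hχd : Continuous (fderiv ℝ (χ : (Fin n → ℝ) → ℝ)) :=
    (χ.contDiff (n := 1)).continuous_fderiv one_ne_zero
  obtain ⟨D, hD⟩ := hχd.bounded_above_of_compact_support (χ.hasCompactSupport.fderiv ℝ)
  set c : ℕ → ℝ := fun k => 1 / ((k : ℝ) + 1) with hc
  have hc0 : ∀ k, 0 < c k := fun k => by positivity
  have hc1 : ∀ k, c k ≤ 1 := fun k => by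
    rw [hc]; simp only; rw [div_le_one (by positivity)]; simp
  let w : ℕ → (Fin n → ℝ) → ℝ := fun k x => χ (c k • x)
  let u : ℕ → (Fin n → ℝ) → ℝ := fun k x => w k x * F x
  have hwd : ∀ k x, HasFDerivAt (w k) (c k • fderiv ℝ χ (c k • x)) x := fun k x => by
    have h1 := ((χ.contDiff (n := 1)).differentiable one_ne_zero (c k • x)).hasFDerivAt.comp x
      ((hasFDerivAt_id x).const_smul (c k))
    refine h1.congr_fderiv ?_
    ext v
    simp
  have hu : ∀ k, ContDiff ℝ 1 (u k) := fun k =>
    ((χ.contDiff (n := 1)).comp ((contDiff_id (E := Fin n → ℝ)).const_smul (c k))).mul hF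
  have hpd : ∀ k i x, pd i (u k) x =
      w k x * pd i F x + F x * (c k * fderiv ℝ χ (c k • x) (Pi.single i 1)) := fun k i x => by
    have h1 : HasFDerivAt (u k) _ x := (hwd k x).mul (hF.differentiable one_ne_zero x).hasFDerivAt
    simp [pd, h1.fderiv]
  have hFb : ∀ x, |F x| ≤ hi := fun x => by
    rw [abs_of_pos (hlo.trans_le (hb x).1)]; exact (hb x).2
  have hw : ∀ k x, |w k x| ≤ 1 := fun k x => by
    rw [abs_of_nonneg χ.nonneg]; exact χ.le_one
  have hev : ∀ x : Fin n → ℝ, Tendsto (fun k => c k • x) atTop (𝓝 0) := fun x => by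
    simpa [hc] using (tendsto_one_div_add_atTop_nhds_zero_nat (𝕜 := ℝ)).smul_const x
  have hdχ : ∀ i y, |fderiv ℝ χ y (Pi.single i 1)| ≤ D := fun i y => by
    rw [← Real.norm_eq_abs]
    exact ((fderiv ℝ (χ : (Fin n → ℝ) → ℝ) y).le_opNorm _).trans (by
      simpa [Pi.norm_single] using hD y)
  have hwlim : ∀ x, Tendsto (fun k => w k x) atTop (𝓝 1) := fun x => by
    refine tendsto_const_nhds.congr' ?_
    filter_upwards [(hev x).eventually (Metric.closedBall_mem_nhds 0 one_pos)] with k hk
    exact (χ.one_of_mem_closedBall hk).symm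
  refine lsi_limit (u := u) (B := hi) (L := L + 1 + hi * D) hu (fun k x => ?_) (fun k i x => ?_)
    (fun x => by simpa using (hwlim x).mul_const (F x)) (fun i x => ?_)
    (fun k => lsi_of_compact h (hu k) ?_)
  · rw [abs_mul]
    exact (mul_le_mul (hw k x) (hFb x) (abs_nonneg _) zero_le_one).trans_eq (one_mul _)
  · rw [hpd]
    have hD0 : 0 ≤ D := (abs_nonneg _).trans (hdχ i 0)
    refine (abs_add_le _ _).trans (add_le_add ?_ ?_)
    · rw [abs_mul]
      exact (mul_le_mul (hw k x) (abs_pd_le hL i x) (abs_nonneg _) zero_le_one).trans_eq (one_mul _)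
    · rw [abs_mul, abs_mul, abs_of_pos (hc0 k)]
      refine mul_le_mul (hFb x) ?_ (by positivity) ((abs_nonneg _).trans (hFb x))
      exact (mul_le_mul (hc1 k) (hdχ i _) (abs_nonneg _) zero_le_one).trans_eq (one_mul _)
  · simp only [hpd]
    have h2 : Tendsto (fun k => c k * fderiv ℝ χ (c k • x) (Pi.single i 1)) atTop (𝓝 0) := by
      refine squeeze_zero_norm (a := fun k => c k * D) (fun k => ?_) ?_
      · rw [Real.norm_eq_abs, abs_mul, abs_of_pos (hc0 k)]
        exact mul_le_mul_of_nonneg_left (hdχ i _) (hc0 k).le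
      · simpa [hc] using tendsto_one_div_add_atTop_nhds_zero_nat.mul_const D
    simpa using ((hwlim x).mul_const (pd i F x)).add (h2.const_mul (F x))
  · exact (χ.hasCompactSupport.comp_smul (hc0 k).ne').mul_right

theorem law_gd_one : law (gd n 1) = P166W.gauss (Fin n) := by
  rw [law_gd_eq one_pos, Real.sqrt_one]
  simp only [one_smul, Measure.map_id']

/-- The Gaussian inequality. -/
theorem lsiP_gauss : LsiP 2 (P166W.gauss (Fin n)) := by
  rw [← law_gd_one]
  have := isProb_gd (n := n) one_pos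
  refine lsiP_of_tame fun f hf => ?_
  simpa using lsi_tame (gd_ulc one_pos) hf

/-- The law of the channel state. -/
def chan (ρ : (Fin n → ℝ) → ℝ) (t : ℝ) : Measure (Fin n → ℝ) :=
  ((law ρ).prod (P166W.gauss (Fin n))).map fun z => t • z.1 + Real.sqrt t • z.2

theorem integral_chan (ρ : (Fin n → ℝ) → ℝ) (t : ℝ) {F : (Fin n → ℝ) → ℝ} (hF : Measurable F) :
    ∫ θ, F θ ∂chan ρ t = Ep ρ t F := by
  rw [chan, integral_map (by fun_prop) hF.aestronglyMeasurable]
  rfl

variable {η : ℝ} {ρ : (Fin n → ℝ) → ℝ}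

theorem isProb_chan (h : Ulc η ρ) (t : ℝ) : IsProbabilityMeasure (chan ρ t) := by
  have := isProb h
  exact Measure.isProbabilityMeasure_map (by fun_prop)

/-- The inequality for the channel law. -/
theorem lsiP_chan (h : Ulc η ρ) {K : ℝ} (hK : 0 ≤ K) (hρ : LsiP K (law ρ)) {t : ℝ} (ht : 0 < t) :
    LsiP (K * t ^ 2 + 2 * t) (chan ρ t) := by
  intro F hF lo hi L hlo hb hL
  have := isProb h
  set γ := P166W.gauss (Fin n)
  set st := Real.sqrt t
  set Q : (Fin n → ℝ) → ℝ := fun y => F y ^ 2
  set G : (Fin n → ℝ) → ℝ := gradSq F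
  have hQb : ∀ y, lo ^ 2 ≤ Q y ∧ Q y ≤ hi ^ 2 := fun y =>
    ⟨pow_le_pow_left₀ hlo.le (hb y).1 2, pow_le_pow_left₀ (hlo.le.trans (hb y).1) (hb y).2 2⟩
  have hQc : Continuous Q := hF.continuous.pow 2
  have hQ0 : ∀ y, 0 < Q y := fun y => pow_pos (hlo.trans_le (hb y).1) 2
  have hlogc : Continuous fun y => Q y * Real.log (Q y) :=
    hQc.mul (hQc.log fun y => (hQ0 y).ne')
  have hFb : ∀ y, |F y| ≤ hi := fun y => by
    rw [abs_of_pos (hlo.trans_le (hb y).1)]; exact (hb y).2
  have hG0 : ∀ y, 0 ≤ G y := fun y => Finset.sum_nonneg fun i _ => sq_nonneg _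
  have hGc : Continuous G := continuous_gradSq_of_contDiff hF
  -- averaging over the Gaussian
  have hAc : ∀ {φ : (Fin n → ℝ) → ℝ} {C : ℝ}, Continuous φ → (∀ y, |φ y| ≤ C) →
      Continuous (fun x => ∫ g, φ (t • x + st • g) ∂γ) ∧
      (∀ x, |∫ g, φ (t • x + st • g) ∂γ| ≤ C) ∧
      (∀ x, Integrable (fun g => φ (t • x + st • g)) γ) ∧
      Ep ρ t φ = ∫ x, ∫ g, φ (t • x + st • g) ∂γ ∂law ρ := by
    intro φ C hφ hC
    refine ⟨continuous_avg integrable_gauss_pow hφ (polyB_of_bounded hC) t st, fun x => ?_,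
      fun x => integrable_avg integrable_gauss_pow hφ (polyB_of_bounded hC) t st x, ?_⟩
    · rw [← Real.norm_eq_abs]
      exact (norm_integral_le_of_norm_le (integrable_const C) (Eventually.of_forall fun g =>
        by rw [Real.norm_eq_abs]; exact hC _)).trans_eq (by simp)
    · show ∫ z, φ (t • z.1 + st • z.2) ∂(law ρ).prod γ = _
      exact integral_prod (fun z : (Fin n → ℝ) × (Fin n → ℝ) => φ (t • z.1 + st • z.2))
        ((integrable_const C).mono' (hφ.comp (by fun_prop)).aestronglyMeasurable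
          (Eventually.of_forall fun z => by rw [Real.norm_eq_abs]; exact hC _))
  have hQB : ∀ y, |Q y| ≤ hi ^ 2 := fun y => by rw [abs_of_pos (hQ0 y)]; exact (hQb y).2
  have hlB : ∀ y, |Q y * Real.log (Q y)| ≤ hi ^ 2 * (|Real.log (lo ^ 2)| + |Real.log (hi ^ 2)|) :=
    fun y => abs_mul_log_le (by positivity) (hQb y).1 (hQb y).2
  have hGB : ∀ y, |G y| ≤ L := fun y => by rw [abs_of_nonneg (hG0 y)]; exact hL y
  obtain ⟨cI, bI, iI, eI⟩ := hAc hQc hQB
  obtain ⟨cl, bl, il, el⟩ := hAc hlogc hlB
  obtain ⟨cG, bG, iG, eG⟩ := hAc hGc hGB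
  set I : (Fin n → ℝ) → ℝ := fun x => ∫ g, Q (t • x + st • g) ∂γ
  have hI1 : ∀ x, lo ^ 2 ≤ I x ∧ I x ≤ hi ^ 2 := fun x => by
    constructor
    · simpa using integral_mono (integrable_const (lo ^ 2)) (iI x) fun g => (hQb _).1
    · simpa using integral_mono (iI x) (integrable_const (hi ^ 2)) fun g => (hQb _).2
  have hI0 : ∀ x, 0 < I x := fun x => (pow_pos hlo 2).trans_le (hI1 x).1
  -- the inner stage
  have hinner : ∀ x, (∫ g, Q (t • x + st • g) * Real.log (Q (t • x + st • g)) ∂γ) -
      I x * Real.log (I x) ≤ 2 * t * ∫ g, G (t • x + st • g) ∂γ := by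
    intro x
    set F' : (Fin n → ℝ) → ℝ := fun g => F (t • x + st • g)
    have hF' : ContDiff ℝ 1 F' := hF.comp (contDiff_const.add (contDiff_id.const_smul st))
    have hg' : ∀ g, gradSq F' g = t * G (t • x + st • g) := by
      intro g
      have h1 : HasFDerivAt F' _ g := (hF.differentiable one_ne_zero _).hasFDerivAt.comp g
        (((hasFDerivAt_id g).const_smul st).const_add (t • x))
      simp only [gradSq, G, Finset.mul_sum]
      refine Finset.sum_congr rfl fun i _ => ?_
      rw [pd, h1.fderiv]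
      simp [pd, mul_pow, st, Real.sq_sqrt ht.le]
    have := lsiP_gauss F' hF' lo hi (t * L) hlo (fun g => hb _) fun g => by
      rw [hg']; exact mul_le_mul_of_nonneg_left (hL _) ht.le
    simp only [ent, energy, hg', integral_const_mul] at this
    linarith
  -- the outer stage
  have hQP : C1P Q := by
    refine ⟨hF.pow 2, polyB_of_bounded hQB, fun i => polyB_of_bounded (C := 2 * hi * (L + 1))
      fun y => ?_⟩
    have h1 : HasFDerivAt Q _ y := (hF.differentiable one_ne_zero y).hasFDerivAt.pow 2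
    rw [pd, h1.fderiv]
    simp only [Nat.add_one_sub_one, pow_one, smul_apply, smul_eq_mul,
      nsmul_eq_mul, Nat.cast_ofNat]
    rw [abs_mul, abs_mul, abs_two]
    exact mul_le_mul (mul_le_mul_of_nonneg_left (hFb y) zero_le_two) (abs_pd_le hL i y)
      (abs_nonneg _) (by have := (abs_nonneg _).trans (hFb y); positivity)
  obtain ⟨⟨hI2, -, -⟩, hIpd⟩ := c1p_avg integrable_gauss_pow hQP t st
  have hgradH : ∀ x, gradSq (fun y => Real.sqrt (I y)) x ≤ t ^ 2 * ∫ g, G (t • x + st • g) ∂γ := by
    intro x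
    have hsum : ∫ g, G (t • x + st • g) ∂γ = ∑ i, ∫ g, pd i F (t • x + st • g) ^ 2 ∂γ := by
      simp only [G, gradSq]
      exact integral_finsetSum _ fun i _ => integrable_avg integrable_gauss_pow
        ((continuous_pd_of_contDiff hF i).pow 2)
        (polyB_of_bounded (C := (L + 1) ^ 2) fun y => by
          rw [Pi.pow_apply, abs_pow]
          exact pow_le_pow_left₀ (abs_nonneg _) (abs_pd_le hL i y) 2) t st x
    rw [hsum, Finset.mul_sum]
    refine Finset.sum_le_sum fun i _ => ?_
    have h1 : HasFDerivAt (fun y => Real.sqrt (I y)) _ x :=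
      (Real.hasDerivAt_sqrt (hI0 x).ne').comp_hasFDerivAt x (hI2.differentiable one_ne_zero x).hasFDerivAt
    rw [pd, h1.fderiv]
    simp only [smul_apply, smul_eq_mul]
    rw [show fderiv ℝ I x (Pi.single i 1) = pd i I x from rfl, hIpd i x]
    set X := fun g => t • x + st • g
    set J := ∫ g, F (X g) * pd i F (X g) ∂γ
    set Dd := ∫ g, pd i F (X g) ^ 2 ∂γ
    have hJ : ∫ g, pd i Q (X g) ∂γ = 2 * J := by
      rw [← integral_const_mul]
      refine integral_congr_ae (Eventually.of_forall fun g => ?_)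
      have h2 : HasFDerivAt Q _ (X g) := (hF.differentiable one_ne_zero (X g)).hasFDerivAt.pow 2
      simp [pd, h2.fderiv, mul_assoc]
    have i1 : Integrable (fun g => pd i F (X g) ^ 2) γ := integrable_avg integrable_gauss_pow
        ((continuous_pd_of_contDiff hF i).pow 2)
        (polyB_of_bounded (C := (L + 1) ^ 2) fun y => by
          rw [Pi.pow_apply, abs_pow]
          exact pow_le_pow_left₀ (abs_nonneg _) (abs_pd_le hL i y) 2) t st x
    have i2 : Integrable (fun g => F (X g) * pd i F (X g)) γ := integrable_avg integrable_gauss_pow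
        (hF.continuous.mul (continuous_pd_of_contDiff hF i))
        (polyB_of_bounded (C := hi * (L + 1)) fun y => by
          rw [Pi.mul_apply, abs_mul]
          exact mul_le_mul (hFb y) (abs_pd_le hL i y) (abs_nonneg _)
            ((abs_nonneg _).trans (hFb y))) t st x
    have hcs : J ^ 2 ≤ I x * Dd := by
      have h0 : 0 ≤ ∫ g, (I x * pd i F (X g) - J * F (X g)) ^ 2 ∂γ :=
        integral_nonneg fun g => sq_nonneg _
      have he : ∫ g, (I x * pd i F (X g) - J * F (X g)) ^ 2 ∂γ = I x * (I x * Dd - J ^ 2) := by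
        have : (fun g => (I x * pd i F (X g) - J * F (X g)) ^ 2) = fun g =>
            I x ^ 2 * pd i F (X g) ^ 2 - 2 * I x * J * (F (X g) * pd i F (X g))
              + J ^ 2 * Q (X g) := funext fun g => by simp only [Q]; ring
        have ia : Integrable (fun g => I x ^ 2 * pd i F (X g) ^ 2 -
            2 * I x * J * (F (X g) * pd i F (X g))) γ := (i1.const_mul _).sub (i2.const_mul _)
        have ib : Integrable (fun g => J ^ 2 * Q (X g)) γ := (iI x).const_mul _
        rw [this, integral_add ia ib, integral_sub (i1.const_mul _) (i2.const_mul _),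
          integral_const_mul, integral_const_mul, integral_const_mul]
        show I x ^ 2 * Dd - 2 * I x * J * J + J ^ 2 * I x = _
        ring
      rw [he] at h0
      linarith [(mul_nonneg_iff_of_pos_left (hI0 x)).1 h0]
    rw [hJ]
    have hs := Real.sq_sqrt (hI0 x).le
    have e : (1 / (2 * Real.sqrt (I x)) * (t * (2 * J))) ^ 2 = t ^ 2 * (J ^ 2 / I x) := by
      rw [mul_pow, div_pow, mul_pow 2, hs]
      field_simp
    rw [e]
    refine mul_le_mul_of_nonneg_left ?_ (sq_nonneg t)
    rw [div_le_iff₀ (hI0 x)]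
    linarith
  set H : (Fin n → ℝ) → ℝ := fun x => Real.sqrt (I x)
  have hHC : ContDiff ℝ 1 H := hI2.sqrt fun x => (hI0 x).ne'
  have hout := hρ H hHC lo hi (t ^ 2 * L) hlo (fun x => ⟨by
      rw [← Real.sqrt_sq hlo.le]; exact Real.sqrt_le_sqrt (hI1 x).1, by
      have h0 : 0 ≤ hi := (abs_nonneg _).trans (hFb 0)
      rw [← Real.sqrt_sq h0]; exact Real.sqrt_le_sqrt (hI1 x).2⟩)
    fun x => (hgradH x).trans (mul_le_mul_of_nonneg_left ((le_abs_self _).trans (bG x)) (sq_nonneg t))
  simp only [ent, show ∀ x, H x ^ 2 = I x from fun x => Real.sq_sqrt (hI0 x).le] at hout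
  -- integration
  have bnd : ∀ {φ : (Fin n → ℝ) → ℝ} {C : ℝ}, Continuous φ → (∀ y, |φ y| ≤ C) →
      Integrable φ (law ρ) := fun {φ C} hφ hC =>
    (integrable_const C).mono' hφ.aestronglyMeasurable
      (Eventually.of_forall fun y => by rw [Real.norm_eq_abs]; exact hC y)
  have iIl : Integrable (fun x => I x * Real.log (I x)) (law ρ) :=
    bnd (cI.mul (cI.log fun x => (hI0 x).ne'))
      fun x => abs_mul_log_le (by positivity) (hI1 x).1 (hI1 x).2
  have s1 := integral_mono ((bnd cl bl).sub iIl) ((bnd cG bG).const_mul (2 * t)) hinner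
  simp only [Pi.sub_apply] at s1
  rw [integral_sub (bnd cl bl) iIl, integral_const_mul, ← el, ← eG] at s1
  have s2 : energy (law ρ) H ≤ t ^ 2 * Ep ρ t G := by
    rw [energy, eG, ← integral_const_mul]
    exact integral_mono_of_nonneg
      (Eventually.of_forall fun x => Finset.sum_nonneg fun i _ => sq_nonneg _)
      ((bnd cG bG).const_mul _) (Eventually.of_forall hgradH)
  simp only [ent, energy]
  rw [integral_chan _ _ hlogc.measurable, integral_chan _ _ hQc.measurable,
    integral_chan _ _ hGc.measurable, eI]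
  have := mul_le_mul_of_nonneg_left s2 hK
  linarith

end

end Vale.Agent.P245.General
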