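import Vale.Agent.P245.Gen2.Chain
import Mathlib.Probability.Kernel.Composition.IntegralCompProd

/-!
# P245, polylogarithmic bound: joint laws at several times
-/

open MeasureTheory ProbabilityTheory

namespace Vale.Agent.P245.Gen2

open General

noncomputable section

variable {n : ℕ} {η D K h : ℝ} {σ ν ρ : St n → ℝ}

/-- The kernel of `j` steps from index `k`. -/
def ker (hσ : Dens D σ) (hν : Dens D ν) (hh : 0 < h) (k j : ℕ) :
    Kernel (St n × St n) (St n × St n) :=
  ⟨pairFrom σ ν h k j, measurable_pairFrom hσ hν hh k j⟩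

theorem ker_apply (hσ : Dens D σ) (hν : Dens D ν) (hh : 0 < h) (k j : ℕ) (p : St n × St n) :
    ker hσ hν hh k j p = pairFrom σ ν h k j p := rfl

theorem isMarkov_ker (hσ : Dens D σ) (hν : Dens D ν) (hh : 0 < h) (k j : ℕ) :
    IsMarkovKernel (ker hσ hν hh k j) :=
  ⟨fun p => (isProb_pairFrom hσ hν hh k j p).1⟩

/-- The law of the pairs at indices `k` and `k + i`. -/
def law2 (hσ : Dens D σ) (hν : Dens D ν) (hh : 0 < h) (k i : ℕ) :
    Measure ((St n × St n) × (St n × St n)) :=
  pairM σ ν h k ⊗ₘ ker hσ hν hh k i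

/-- The law of the pairs at indices `k`, `k + i` and `k + i + j`. -/
def law3 (hσ : Dens D σ) (hν : Dens D ν) (hh : 0 < h) (k i j : ℕ) :
    Measure (((St n × St n) × (St n × St n)) × (St n × St n)) :=
  law2 hσ hν hh k i ⊗ₘ (ker hσ hν hh (k + i) j).comap Prod.snd measurable_snd

variable (hσ : Dens D σ) (hν : Dens D ν) (hh : 0 < h)
include hσ hν hh

theorem isProb_pairM (k : ℕ) : IsProbabilityMeasure (pairM σ ν h k) :=
  (isProb_pairFrom hσ hν hh k 0 (0, 0)).2

theorem isProb_law2 (k i : ℕ) : IsProbabilityMeasure (law2 hσ hν hh k i) := by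
  have := isProb_pairM hσ hν hh k
  have := isMarkov_ker hσ hν hh k i
  unfold law2; infer_instance

theorem isProb_law3 (k i j : ℕ) : IsProbabilityMeasure (law3 hσ hν hh k i j) := by
  have := isProb_law2 hσ hν hh k i
  have := isMarkov_ker hσ hν hh (k + i) j
  unfold law3; infer_instance

theorem fst_law2 (k i : ℕ) : (law2 hσ hν hh k i).map Prod.fst = pairM σ ν h k := by
  have := isProb_pairM hσ hν hh k
  have := isMarkov_ker hσ hν hh k i
  exact Measure.fst_compProd _ _

theorem snd_law2 (k i : ℕ) : (law2 hσ hν hh k i).map Prod.snd = pairM σ ν h (k + i) := by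
  have := isProb_pairM hσ hν hh k
  have := isProb_pairM hσ hν hh (k + i)
  have := isMarkov_ker hσ hν hh k i
  refine Measure.ext fun s hs => ?_
  rw [Measure.map_apply measurable_snd hs, law2,
    Measure.compProd_apply (measurable_snd hs)]
  have hm : Measurable fun q : St n × St n => s.indicator (fun _ => (1 : ℝ)) q :=
    measurable_const.indicator hs
  have hb : ∀ q : St n × St n, |s.indicator (fun _ => (1 : ℝ)) q| ≤ 1 := fun q => by
    by_cases hq : q ∈ s <;> simp [hq]
  have e := integral_pair_add hσ hν hh k i hm ⟨1, 0, fun q => by simpa using hb q⟩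
  simp only [integral_indicator_const _ hs, smul_eq_mul, mul_one] at e
  have hsm : Measurable fun p => (pairFrom σ ν h k i p).real s :=
    ((Measure.measurable_coe hs).comp (measurable_pairFrom hσ hν hh k i)).ennreal_toReal
  have hint : Integrable (fun p => (pairFrom σ ν h k i p).real s) (pairM σ ν h k) :=
    Integrable.of_bound hsm.aestronglyMeasurable 1 (Filter.Eventually.of_forall fun p => by
      have := (isProb_pairFrom hσ hν hh k i p).1
      rw [Real.norm_eq_abs, abs_of_nonneg measureReal_nonneg]; exact measureReal_le_one)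
  rw [← ofReal_measureReal (μ := pairM σ ν h (k + i)) (s := s), e,
    ofReal_integral_eq_lintegral_ofReal hint
      (Filter.Eventually.of_forall fun _ => measureReal_nonneg)]
  refine lintegral_congr fun p => ?_
  have := (isProb_pairFrom hσ hν hh k i p).1
  rw [ofReal_measureReal]
  rfl

theorem fst_law3 (k i j : ℕ) :
    (law3 hσ hν hh k i j).map Prod.fst = law2 hσ hν hh k i := by
  have := isProb_law2 hσ hν hh k i
  have := isMarkov_ker hσ hν hh (k + i) j
  exact Measure.fst_compProd _ _

theorem map_law3 (k i j : ℕ) :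
    (law3 hσ hν hh k i j).map (fun x => (x.1.2, x.2)) = law2 hσ hν hh (k + i) j := by
  have := isProb_law2 hσ hν hh k i
  have := isProb_pairM hσ hν hh (k + i)
  have := isMarkov_ker hσ hν hh (k + i) j
  have hf : Measurable fun x : ((St n × St n) × (St n × St n)) × (St n × St n) =>
      (x.1.2, x.2) := by fun_prop
  refine Measure.ext fun s hs => ?_
  rw [Measure.map_apply hf hs, law3, Measure.compProd_apply (hf hs)]
  conv_rhs => rw [law2, Measure.compProd_apply hs, ← snd_law2 hσ hν hh k i]
  rw [lintegral_map (Kernel.measurable_kernel_prodMk_left hs) measurable_snd]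
  rfl

theorem snd_law3 (k i j : ℕ) :
    (law3 hσ hν hh k i j).map Prod.snd = pairM σ ν h (k + i + j) := by
  rw [← snd_law2 hσ hν hh (k + i) j, ← map_law3 hσ hν hh k i j,
    Measure.map_map measurable_snd (by fun_prop)]
  rfl

end

end Vale.Agent.P245.Gen2
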