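import Vale.Agent.P245.Gen2.Walk
import Vale.Agent.P245.Gen2.Support

/-!
# P245, polylogarithmic bound: one Gaussian step of the posterior barycentre

For a compactly supported density the increment of `⟨u, bary⟩` over a step of length `τ` is the
linear function `√τ ⟨g, A u⟩` of the noise up to an error of order `τ`; its exponential moment, its
mean and its square under a tilted step are computed up to `τ ^ (3/2)`, uniformly in the state.
-/

open MeasureTheory Filter Finset

namespace Vale.Agent.P245.Gen2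

open Vale.Agent.P245 Vale.Agent.P245.General

noncomputable section

variable {n : ℕ} {η D r τ c : ℝ} {ρ : St n → ℝ}

/-- The step of `⟨u, bary⟩`. -/
def stepInc (ρ : St n → ℝ) (r τ : ℝ) (θ u g : St n) : ℝ :=
  dotp u (bary ρ (r + τ) (θ + Real.sqrt τ • g)) - dotp u (bary ρ r θ)

/-- The change of the normalisation over a step. -/
def stepWt (ρ : St n → ℝ) (r τ : ℝ) (θ g : St n) : ℝ :=
  part ρ (r + τ) (θ + Real.sqrt τ • g) / part ρ r θ

/-- The slope of the step. -/
def slope (ρ : St n → ℝ) (r : ℝ) (θ u : St n) : St n := Matrix.mulVec (covMat ρ r θ) u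

/-- The exponent of the envelope. -/
def envL (c : ℝ) (g : St n) : ℝ := c * (1 + Real.sqrt (nsq g))

theorem abs_dotp_le_sqrt (x y : St n) : |dotp x y| ≤ Real.sqrt (nsq x) * Real.sqrt (nsq y) := by
  rw [← Real.sqrt_sq_eq_abs, ← Real.sqrt_mul (nsq_nonneg' x)]
  exact Real.sqrt_le_sqrt (dotp_sq_le x y)

theorem le_envL (hc : 0 ≤ c) (g : St n) : c ≤ envL c g :=
  le_mul_of_one_le_right hc (le_add_of_nonneg_right (Real.sqrt_nonneg _))

theorem abs_exp_sub_one_le (z : ℝ) : |Real.exp z - 1| ≤ |z| * Real.exp |z| := by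
  rcases le_total 0 z with h | h
  · rw [abs_of_nonneg h, abs_of_nonneg (by linarith [Real.one_le_exp h])]
    have h1 := Real.add_one_le_exp (-z)
    have h2 := Real.exp_pos z
    have h3 : Real.exp (-z) * Real.exp z = 1 := by rw [← Real.exp_add]; simp
    nlinarith
  · rw [abs_of_nonpos h, abs_of_nonpos (by linarith [Real.exp_le_one_iff.2 h])]
    have h1 := Real.add_one_le_exp z
    have h2 : 1 ≤ Real.exp (-z) := Real.one_le_exp (by linarith)
    nlinarith

theorem abs_exp_sub_one_sub_le (z : ℝ) : |Real.exp z - 1 - z| ≤ z ^ 2 * Real.exp |z| := by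
  have h0 : 0 ≤ Real.exp z - 1 - z := by linarith [Real.add_one_le_exp z]
  rw [abs_of_nonneg h0]
  have h1 : Real.exp z - 1 - z ≤ z * (Real.exp z - 1) := by
    have h2 := Real.add_one_le_exp (-z)
    have h3 : Real.exp (-z) * Real.exp z = 1 := by rw [← Real.exp_add]; simp
    nlinarith [Real.exp_pos z]
  have h4 : z * (Real.exp z - 1) ≤ |z| * |Real.exp z - 1| := by
    rw [← abs_mul]; exact le_abs_self _
  have h5 := mul_le_mul_of_nonneg_left (abs_exp_sub_one_le z) (abs_nonneg z)
  have h6 : |z| * (|z| * Real.exp |z|) = z ^ 2 * Real.exp |z| := by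
    rw [← mul_assoc, ← sq, sq_abs]
  linarith

theorem exp_taylor_three (z : ℝ) :
    Real.exp z ≤ 1 + z + z ^ 2 / 2 + |z| ^ 3 * Real.exp |z| := by
  rcases le_total |z| 1 with h | h
  · have h1 := Real.exp_bound h (show 0 < 3 by norm_num)
    simp only [Finset.sum_range_succ, Finset.sum_range_zero, Nat.succ_eq_add_one] at h1
    norm_num at h1
    have h2 := (abs_le.1 h1).2
    have h3 : 0 ≤ |z| ^ 3 := by positivity
    have h4 : 1 ≤ Real.exp |z| := Real.one_le_exp (abs_nonneg z)
    nlinarith
  · have h1 : Real.exp z ≤ Real.exp |z| := Real.exp_le_exp.2 (le_abs_self z)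
    have h2 : Real.exp |z| ≤ |z| ^ 3 * Real.exp |z| :=
      le_mul_of_one_le_left (Real.exp_pos _).le (one_le_pow₀ h)
    nlinarith [sq_nonneg (z + 1)]

theorem exp_natMul_add (L : ℝ) (i j : ℕ) :
    Real.exp ((i : ℝ) * L) * Real.exp ((j : ℝ) * L) = Real.exp (((i + j : ℕ) : ℝ) * L) := by
  rw [← Real.exp_add]; push_cast; ring_nf

/-! ### Gaussian integrals -/

theorem integrable_exp_envL (a : ℝ) : Integrable (fun g : St n => Real.exp (a * envL c g))
    (P166W.gauss (Fin n)) := by
  have h := (integral_exp_nsq_gauss (n := n) (b := 1 / 16) (by norm_num) (by norm_num)).1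
  have hm : Continuous fun g : St n => Real.exp (a * envL c g) := by
    unfold envL nsq; fun_prop
  refine (h.const_mul (Real.exp (a * c + 4 * (a * c) ^ 2))).mono' hm.aestronglyMeasurable
    (Eventually.of_forall fun g => ?_)
  rw [Real.norm_eq_abs, abs_of_pos (Real.exp_pos _), ← Real.exp_add]
  refine Real.exp_le_exp.2 ?_
  have h2 : Real.sqrt (nsq g) ^ 2 = nsq g := Real.sq_sqrt (nsq_nonneg' g)
  unfold envL
  nlinarith [sq_nonneg (Real.sqrt (nsq g) / 4 - 2 * (a * c))]

theorem integral_gauss_dotp_mul (a b : St n) :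
    ∫ g, dotp g a * dotp g b ∂P166W.gauss (Fin n) = dotp a b := by
  have hI : ∀ i, Integrable (fun g : St n => a i * (g i * dotp b g)) (P166W.gauss (Fin n)) :=
    fun i => (CP.integrable_gauss ((CP.coord i).mul (c1p_dotp b).cp)).const_mul (a i)
  have e : ∀ g : St n, dotp g a * dotp g b = ∑ i, a i * (g i * dotp b g) := fun g => by
    have hc : dotp g b = dotp b g := by unfold dotp; simp only [mul_comm]
    rw [hc, dotp, Finset.sum_mul]
    exact Finset.sum_congr rfl fun i _ => by ring
  simp only [e]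
  rw [integral_finsetSum _ fun i _ => hI i]
  refine Finset.sum_congr rfl fun i _ => ?_
  rw [integral_const_mul, gauss_ibp_c1p (c1p_dotp b) i, pd_dotp]
  simp

/-! ### Bounds at one noise value -/

/-- The standing bounds: the constant `c` dominates the support, the direction and the shift. -/
structure StepCtx (η D c r τ : ℝ) (ρ : St n → ℝ) (u : St n) : Prop where
  ulc : Ulc η ρ
  dens : Dens D ρ
  hr : 0 ≤ r
  hτ : 0 < τ
  hτ1 : τ ≤ 1
  hc : 1 + D + nsq u ≤ c

section
variable {u : St n}

theorem StepCtx.one_le (h : StepCtx η D c r τ ρ u) : 1 ≤ c := by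
  have := dens_nonneg h.dens
  linarith [h.hc, nsq_nonneg' u]

theorem StepCtx.sqrtD_le (h : StepCtx η D c r τ ρ u) : Real.sqrt D ≤ c := by
  refine Real.sqrt_le_iff.2 ⟨by linarith [h.one_le], ?_⟩
  nlinarith [h.one_le, h.hc, nsq_nonneg' u, dens_nonneg h.dens]

theorem StepCtx.abs_u_le (h : StepCtx η D c r τ ρ u) {x : St n} (hx : nsq x ≤ D) :
    |dotp u x| ≤ c := by
  refine (abs_dotp_le_sqrt u x).trans ?_
  have h1 := Real.sq_sqrt (nsq_nonneg' u)
  have h2 := Real.sq_sqrt (nsq_nonneg' x)
  nlinarith [sq_nonneg (Real.sqrt (nsq u) - Real.sqrt (nsq x)), h.hc, h.one_le]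

/-- The weight on the support. -/
theorem StepCtx.wgt_bounds (h : StepCtx η D c r τ ρ u) (g : St n) {x : St n} (hx : nsq x ≤ D) :
    |wgt τ (Real.sqrt τ • g) x - 1| ≤ Real.sqrt τ * Real.exp (2 * envL c g) ∧
    |wgt τ (Real.sqrt τ • g) x - 1 - Real.sqrt τ * dotp g x| ≤ τ * Real.exp (4 * envL c g) ∧
    Real.exp (-envL c g) ≤ wgt τ (Real.sqrt τ • g) x := by
  set L := envL c g with hL
  set q := Real.sqrt τ with hq
  have hq0 : 0 ≤ q := Real.sqrt_nonneg _
  have hq1 : q ≤ 1 := Real.sqrt_le_one.2 h.hτ1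
  have hq2 : q ^ 2 = τ := Real.sq_sqrt h.hτ.le
  have hc1 := h.one_le
  have hL1 : 1 ≤ L := hc1.trans (le_envL (by linarith) g)
  set z := dotp (q • g) x - τ / 2 * nsq x with hz
  have hw : wgt τ (q • g) x = Real.exp z := rfl
  have hzd : z = q * dotp g x - τ / 2 * nsq x := by rw [hz, dotp_smul]
  have hgx : |dotp g x| ≤ c * Real.sqrt (nsq g) := by
    refine (abs_dotp_le_sqrt g x).trans ?_
    rw [mul_comm c]
    exact mul_le_mul_of_nonneg_left ((Real.sqrt_le_sqrt hx).trans h.sqrtD_le) (Real.sqrt_nonneg _)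
  have hx0 := nsq_nonneg' x
  have hDc : nsq x ≤ c := by linarith [h.hc, nsq_nonneg' u]
  have hzb : |z| ≤ q * L := by
    have h3 := abs_le.1 hgx
    have h5 : τ / 2 * nsq x ≤ q * c := by
      rw [← hq2]
      have h6 : q ^ 2 / 2 * nsq x ≤ q ^ 2 * c :=
        (mul_le_mul_of_nonneg_right (by linarith [sq_nonneg q]) hx0).trans
          (mul_le_mul_of_nonneg_left hDc (sq_nonneg q))
      have h7 : 0 ≤ q * c * (1 - q) := mul_nonneg (mul_nonneg hq0 (by linarith)) (by linarith)
      nlinarith only [h6, h7]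
    have h8 : |q * dotp g x| ≤ q * (c * Real.sqrt (nsq g)) := by
      rw [abs_mul, abs_of_nonneg hq0]; exact mul_le_mul_of_nonneg_left hgx hq0
    have h9 : |τ / 2 * nsq x| ≤ q * c := by rwa [abs_of_nonneg (by have := h.hτ; positivity)]
    rw [hzd]
    refine ((abs_sub _ _).trans (add_le_add h8 h9)).trans (le_of_eq ?_)
    simp only [hL, envL]; ring
  have hzL : |z| ≤ L := hzb.trans (mul_le_of_le_one_left (by linarith) hq1)
  have heL : L ≤ Real.exp L := by linarith [Real.add_one_le_exp L]
  have hexp : Real.exp |z| ≤ Real.exp L := Real.exp_le_exp.2 hzL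
  refine ⟨?_, ?_, ?_⟩
  · rw [hw]
    calc |Real.exp z - 1| ≤ |z| * Real.exp |z| := abs_exp_sub_one_le z
      _ ≤ q * L * Real.exp L := mul_le_mul hzb hexp (Real.exp_pos _).le (mul_nonneg hq0 (by linarith))
      _ ≤ q * Real.exp L * Real.exp L := by gcongr
      _ = _ := by rw [mul_assoc, ← Real.exp_add, two_mul]
  · rw [hw]
    have e : Real.exp z - 1 - q * dotp g x = (Real.exp z - 1 - z) - τ / 2 * nsq x := by
      rw [hzd]; ring
    have hL2 : z ^ 2 ≤ τ * L ^ 2 := by
      rw [← sq_abs, ← hq2, ← mul_pow]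
      exact pow_le_pow_left₀ (abs_nonneg _) hzb 2
    have hL2e : L ^ 2 ≤ Real.exp (2 * L) := by
      rw [two_mul, Real.exp_add, sq]
      exact mul_le_mul heL heL (by linarith) (Real.exp_pos _).le
    rw [e]
    calc |(Real.exp z - 1 - z) - τ / 2 * nsq x|
        ≤ |Real.exp z - 1 - z| + |τ / 2 * nsq x| := abs_sub _ _
      _ ≤ τ * Real.exp (3 * L) + τ * Real.exp (3 * L) / 2 := by
          refine add_le_add ((abs_exp_sub_one_sub_le z).trans ?_) ?_
          · calc z ^ 2 * Real.exp |z| ≤ τ * L ^ 2 * Real.exp L :=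
                  mul_le_mul hL2 hexp (Real.exp_pos _).le (by have := h.hτ; positivity)
              _ ≤ τ * Real.exp (2 * L) * Real.exp L := by
                have := h.hτ
                gcongr
              _ = _ := by rw [mul_assoc, ← Real.exp_add]; ring_nf
          · rw [abs_of_nonneg (by have := h.hτ; positivity)]
            have h6 : c ≤ Real.exp (3 * L) :=
              (le_envL (by linarith) g).trans (heL.trans (Real.exp_le_exp.2 (by linarith)))
            nlinarith [h.hτ]
      _ ≤ τ * Real.exp (4 * L) := by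
          have h7 : Real.exp (4 * L) = Real.exp (3 * L) * Real.exp L := by
            rw [← Real.exp_add]; ring_nf
          have h8 : 2 ≤ Real.exp L := by linarith [Real.add_one_le_exp L]
          rw [h7]
          nlinarith [h.hτ, mul_pos h.hτ (Real.exp_pos (3 * L))]
  · rw [hw]
    exact Real.exp_le_exp.2 (by linarith [(abs_le.1 hzL).1])

theorem stepWt_eq (h : Ulc η ρ) (θ g : St n) :
    stepWt ρ r τ θ g = mg ρ (wgt τ (Real.sqrt τ • g)) r θ := by
  simp only [stepWt, mg, part, num, one_mul]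
  congr 1
  refine integral_congr_ae (Eventually.of_forall fun x => ?_)
  show wgt (r + τ) (θ + Real.sqrt τ • g) x = wgt τ (Real.sqrt τ • g) x * wgt r θ x
  rw [mul_comm, wgt_mul]

theorem StepCtx.post_facts (h : StepCtx η D c r τ ρ u) (θ : St n) :
    IsProbabilityMeasure (law (post ρ r θ)) ∧ ∀ᵐ x ∂law (post ρ r θ), nsq x ≤ D :=
  ⟨dens_isProb (dens_post h.dens r θ), dens_ae_le (dens_post h.dens r θ)⟩

theorem StepCtx.integrable (h : StepCtx η D c r τ ρ u) (θ : St n) {f : St n → ℝ}
    (hf : Continuous f) : Integrable f (law (post ρ r θ)) :=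
  dens_integrable (dens_post h.dens r θ) hf

theorem StepCtx.continuous_wgt_step (_h : StepCtx η D c r τ ρ u) (g : St n) :
    Continuous (wgt τ (Real.sqrt τ • g)) := continuous_wgt _ _

theorem StepCtx.stepWt_bounds (h : StepCtx η D c r τ ρ u) (θ g : St n) :
    |stepWt ρ r τ θ g - 1| ≤ Real.sqrt τ * Real.exp (2 * envL c g) ∧
    |stepWt ρ r τ θ g - 1 - Real.sqrt τ * dotp g (bary ρ r θ)| ≤
      τ * Real.exp (4 * envL c g) ∧
    Real.exp (-envL c g) ≤ stepWt ρ r τ θ g := by
  obtain ⟨hP, hae⟩ := h.post_facts θ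
  have hw := h.integrable θ (h.continuous_wgt_step g)
  have hg : Integrable (dotp g) (law (post ρ r θ)) := h.integrable θ (continuous_dotp g)
  have hb : dotp g (bary ρ r θ) = ∫ x, dotp g x ∂law (post ρ r θ) := by
    rw [← center_post h.ulc h.hr θ]
    exact (integral_dotp (post_ulc h.ulc h.hr θ) g).symm
  have h1 : Integrable (fun x => wgt τ (Real.sqrt τ • g) x - 1) (law (post ρ r θ)) :=
    hw.sub (integrable_const 1)
  rw [stepWt_eq h.ulc, ← integral_post h.ulc h.hr θ, hb]
  refine ⟨?_, ?_, ?_⟩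
  · have e : (∫ x, wgt τ (Real.sqrt τ • g) x ∂law (post ρ r θ)) - 1 =
        ∫ x, (wgt τ (Real.sqrt τ • g) x - 1) ∂law (post ρ r θ) := by
      rw [integral_sub hw (integrable_const 1)]; simp
    rw [e, ← Real.norm_eq_abs]
    refine (norm_integral_le_of_norm_le_const (C := Real.sqrt τ * Real.exp (2 * envL c g))
      (hae.mono fun x hx => (h.wgt_bounds g hx).1)).trans ?_
    simp
  · have e : (∫ x, wgt τ (Real.sqrt τ • g) x ∂law (post ρ r θ)) - 1 -
        Real.sqrt τ * ∫ x, dotp g x ∂law (post ρ r θ) =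
        ∫ x, (wgt τ (Real.sqrt τ • g) x - 1 - Real.sqrt τ * dotp g x) ∂law (post ρ r θ) := by
      rw [integral_sub h1 (hg.const_mul _), integral_sub hw (integrable_const 1), integral_const_mul]
      simp
    rw [e, ← Real.norm_eq_abs]
    refine (norm_integral_le_of_norm_le_const (C := τ * Real.exp (4 * envL c g))
      (hae.mono fun x hx => (h.wgt_bounds g hx).2.1)).trans ?_
    simp
  · calc Real.exp (-envL c g) = ∫ _x, Real.exp (-envL c g) ∂law (post ρ r θ) := by simp
      _ ≤ _ := integral_mono_ae (integrable_const _) hw (hae.mono fun x hx => (h.wgt_bounds g hx).2.2)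

/-- The centred direction. -/
def cdir (ρ : St n → ℝ) (r : ℝ) (θ u x : St n) : ℝ := dotp u x - dotp u (bary ρ r θ)

theorem StepCtx.cdir_le (h : StepCtx η D c r τ ρ u) (θ : St n) {x : St n} (hx : nsq x ≤ D) :
    |cdir ρ r θ u x| ≤ 2 * c :=
  (abs_sub _ _).trans (by linarith [h.abs_u_le hx, h.abs_u_le (nsq_bary_le_supp h.dens r θ)])

theorem StepCtx.integral_cdir (h : StepCtx η D c r τ ρ u) (θ : St n) :
    ∫ x, cdir ρ r θ u x ∂law (post ρ r θ) = 0 := by
  obtain ⟨hP, -⟩ := h.post_facts θ
  unfold cdir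
  rw [integral_sub (h.integrable θ (continuous_dotp u)) (integrable_const _),
    integral_dotp (post_ulc h.ulc h.hr θ), center_post h.ulc h.hr θ]
  simp [dotp]

theorem StepCtx.slope_eq (h : StepCtx η D c r τ ρ u) (θ g : St n) :
    ∫ x, cdir ρ r θ u x * dotp g x ∂law (post ρ r θ) = dotp g (slope ρ r θ u) := by
  obtain ⟨hP, -⟩ := h.post_facts θ
  have hcu : Continuous fun x => cdir ρ r θ u x := (continuous_dotp u).sub continuous_const
  have e : ∀ x, cdir ρ r θ u x * dotp g x = ∑ i, g i * (cdir ρ r θ u x * x i) := fun x => by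
    rw [dotp, Finset.mul_sum]
    exact Finset.sum_congr rfl fun i _ => by ring
  simp only [e]
  have hI : ∀ i, Integrable (fun x => g i * (cdir ρ r θ u x * x i)) (law (post ρ r θ)) := fun i =>
    h.integrable θ (continuous_const.mul (hcu.mul (continuous_apply i)))
  rw [integral_finsetSum _ fun i _ => hI i]
  refine Finset.sum_congr rfl fun i _ => ?_
  rw [integral_const_mul]
  congr 1
  have e2 : ∀ x, cdir ρ r θ u x * x i = ∑ j, u j * ((x j - bary ρ r θ j) * x i) := fun x => by
    rw [cdir, dotp, dotp, ← Finset.sum_sub_distrib, Finset.sum_mul]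
    exact Finset.sum_congr rfl fun j _ => by ring
  simp only [e2]
  have hJ : ∀ j, Integrable (fun x : St n => u j * ((x j - bary ρ r θ j) * x i))
      (law (post ρ r θ)) := fun j => h.integrable θ
    (continuous_const.mul (((continuous_apply j).sub continuous_const).mul (continuous_apply i)))
  rw [integral_finsetSum _ fun j _ => hJ j]
  simp only [slope, Matrix.mulVec, dotProduct, covMat, Matrix.of_apply]
  refine Finset.sum_congr rfl fun j _ => ?_
  rw [integral_const_mul, mul_comm]
  congr 1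
  have e3 : ∀ x : St n, (x j - bary ρ r θ j) * x i = x i * x j - bary ρ r θ j * x i := fun x => by
    ring
  simp only [e3]
  have hK : Integrable (fun x : St n => x i * x j) (law (post ρ r θ)) :=
    h.integrable θ ((continuous_apply i).mul (continuous_apply j))
  have hK' : Integrable (fun x : St n => bary ρ r θ j * x i) (law (post ρ r θ)) :=
    h.integrable θ (continuous_const.mul (continuous_apply i))
  rw [integral_sub hK hK', integral_const_mul,
    integral_post h.ulc h.hr θ, integral_post h.ulc h.hr θ, pcov]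
  simp only [bary]
  ring

theorem StepCtx.stepInc_eq (h : StepCtx η D c r τ ρ u) (θ g : St n) :
    stepInc ρ r τ θ u g * stepWt ρ r τ θ g =
      ∫ x, cdir ρ r θ u x * wgt τ (Real.sqrt τ • g) x ∂law (post ρ r θ) := by
  obtain ⟨hP, -⟩ := h.post_facts θ
  set q := Real.sqrt τ • g
  have hp := post_ulc h.ulc (add_nonneg h.hr h.hτ.le) (θ + q)
  have hb : dotp u (bary ρ (r + τ) (θ + q)) = mg (post ρ r θ) (dotp u) τ q := by
    rw [mg_post h.ulc h.hr h.hτ.le, ← integral_post h.ulc (add_nonneg h.hr h.hτ.le) (θ + q),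
      integral_dotp hp, center_post h.ulc (add_nonneg h.hr h.hτ.le)]
    rfl
  have hw : stepWt ρ r τ θ g = part (post ρ r θ) τ q := by
    rw [stepWt_eq h.ulc, ← integral_post h.ulc h.hr θ]
    simp [part, num, q]
  have hne : part (post ρ r θ) τ q ≠ 0 := (part_pos (post_ulc h.ulc h.hr θ) h.hτ.le q).ne'
  rw [stepInc, hb, hw, sub_mul, mg, div_mul_cancel₀ _ hne]
  simp only [cdir, sub_mul]
  have hA : Integrable (fun x => dotp u x * wgt τ q x) (law (post ρ r θ)) :=
    h.integrable θ ((continuous_dotp u).mul (continuous_wgt _ _))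
  have hB : Integrable (fun x => dotp u (bary ρ r θ) * wgt τ q x) (law (post ρ r θ)) :=
    h.integrable θ (continuous_const.mul (continuous_wgt _ _))
  rw [integral_sub hA hB, integral_const_mul]
  simp [part, num]

theorem StepCtx.abs_slope_le (h : StepCtx η D c r τ ρ u) (θ g : St n) :
    |dotp g (slope ρ r θ u)| ≤ Real.exp (3 * envL c g) := by
  obtain ⟨hP, hae⟩ := h.post_facts θ
  set L := envL c g
  have hc1 := h.one_le
  have hcL : c ≤ L := le_envL (by linarith) g
  rw [← h.slope_eq θ g, ← Real.norm_eq_abs]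
  refine (norm_integral_le_of_norm_le_const (C := Real.exp (3 * L)) (hae.mono fun x hx => ?_)).trans
    (by simp)
  rw [Real.norm_eq_abs, abs_mul]
  have h1 : |dotp g x| ≤ L := by
    refine (abs_dotp_le_sqrt g x).trans ?_
    have := mul_le_mul_of_nonneg_left ((Real.sqrt_le_sqrt hx).trans h.sqrtD_le)
      (Real.sqrt_nonneg (nsq g))
    simp only [L, envL]
    nlinarith
  have h2 : |cdir ρ r θ u x| ≤ 2 * L := (h.cdir_le θ hx).trans (by linarith)
  have h3 : L ≤ Real.exp L := by linarith [Real.add_one_le_exp L]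
  have h4 : 2 * L ≤ Real.exp (2 * L) := by linarith [Real.add_one_le_exp (2 * L)]
  calc |cdir ρ r θ u x| * |dotp g x| ≤ Real.exp (2 * L) * Real.exp L :=
        mul_le_mul (h2.trans h4) (h1.trans h3) (abs_nonneg _) (Real.exp_pos _).le
    _ = _ := by rw [← Real.exp_add]; ring_nf

theorem StepCtx.inc_wt_bounds (h : StepCtx η D c r τ ρ u) (θ g : St n) :
    |stepInc ρ r τ θ u g * stepWt ρ r τ θ g| ≤ Real.sqrt τ * Real.exp (5 * envL c g) ∧
    |stepInc ρ r τ θ u g * stepWt ρ r τ θ g - Real.sqrt τ * dotp g (slope ρ r θ u)| ≤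
      τ * Real.exp (6 * envL c g) := by
  obtain ⟨hP, hae⟩ := h.post_facts θ
  set L := envL c g
  set q := Real.sqrt τ
  have hc1 := h.one_le
  have hcL : c ≤ L := le_envL (by linarith) g
  have hcu : Continuous fun x => cdir ρ r θ u x := (continuous_dotp u).sub continuous_const
  have hci := h.integrable θ hcu
  have hcw : Integrable (fun x => cdir ρ r θ u x * wgt τ (q • g) x) (law (post ρ r θ)) :=
    h.integrable θ (hcu.mul (continuous_wgt τ (q • g)))
  have hcg : Integrable (fun x => cdir ρ r θ u x * dotp g x) (law (post ρ r θ)) :=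
    h.integrable θ (hcu.mul (continuous_dotp g))
  have hcs : Integrable (fun x => cdir ρ r θ u x * (wgt τ (q • g) x - 1)) (law (post ρ r θ)) :=
    h.integrable θ (hcu.mul ((continuous_wgt τ (q • g)).sub continuous_const))
  have h4 : 2 * c ≤ Real.exp (2 * L) := by linarith [Real.add_one_le_exp (2 * L)]
  have e1 : stepInc ρ r τ θ u g * stepWt ρ r τ θ g =
      ∫ x, cdir ρ r θ u x * (wgt τ (q • g) x - 1) ∂law (post ρ r θ) := by
    simp only [mul_sub, mul_one]
    rw [integral_sub hcw hci, h.integral_cdir θ, sub_zero, h.stepInc_eq θ g]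
  refine ⟨?_, ?_⟩
  · rw [e1, ← Real.norm_eq_abs]
    refine (norm_integral_le_of_norm_le_const (C := q * Real.exp (5 * L))
      (hae.mono fun x hx => ?_)).trans (by simp)
    rw [Real.norm_eq_abs, abs_mul]
    refine (mul_le_mul ((h.cdir_le θ hx).trans h4) (h.wgt_bounds g hx).1 (abs_nonneg _)
      (Real.exp_pos _).le).trans ?_
    rw [mul_left_comm, ← Real.exp_add]
    exact mul_le_mul_of_nonneg_left (Real.exp_le_exp.2 (by linarith)) (Real.sqrt_nonneg _)
  · rw [e1, ← h.slope_eq θ g, ← integral_const_mul, ← integral_sub hcs (hcg.const_mul q),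
      ← Real.norm_eq_abs]
    refine (norm_integral_le_of_norm_le_const (C := τ * Real.exp (6 * L))
      (hae.mono fun x hx => ?_)).trans (by simp)
    rw [show cdir ρ r θ u x * (wgt τ (q • g) x - 1) - q * (cdir ρ r θ u x * dotp g x) =
      cdir ρ r θ u x * (wgt τ (q • g) x - 1 - q * dotp g x) by ring, Real.norm_eq_abs, abs_mul]
    refine (mul_le_mul ((h.cdir_le θ hx).trans h4) (h.wgt_bounds g hx).2.1 (abs_nonneg _)
      (Real.exp_pos _).le).trans ?_
    rw [mul_left_comm, ← Real.exp_add]
    exact mul_le_mul_of_nonneg_left (Real.exp_le_exp.2 (by linarith)) h.hτ.le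

theorem StepCtx.inc_bounds (h : StepCtx η D c r τ ρ u) (θ g : St n) :
    |stepInc ρ r τ θ u g| ≤ 2 * c ∧
    |stepInc ρ r τ θ u g| ≤ Real.sqrt τ * Real.exp (6 * envL c g) ∧
    |stepInc ρ r τ θ u g - Real.sqrt τ * dotp g (slope ρ r θ u)| ≤
      τ * Real.exp (9 * envL c g) := by
  set L := envL c g
  set q := Real.sqrt τ
  have hc1 := h.one_le
  have hL1 : 1 ≤ L := hc1.trans (le_envL (by linarith) g)
  obtain ⟨b1, b2⟩ := h.inc_wt_bounds θ g
  obtain ⟨w1, -, w3⟩ := h.stepWt_bounds θ g
  set φ := stepInc ρ r τ θ u g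
  set m := stepWt ρ r τ θ g
  have hm : 0 < m := lt_of_lt_of_le (Real.exp_pos _) w3
  have hinv : m⁻¹ ≤ Real.exp L := by
    rw [← inv_inv (Real.exp L), ← Real.exp_neg]
    exact inv_anti₀ (Real.exp_pos _) w3
  have hφ : φ = φ * m * m⁻¹ := by field_simp
  have a1 : |φ| ≤ q * Real.exp (6 * L) := by
    rw [hφ, abs_mul, abs_of_pos (inv_pos.2 hm)]
    refine (mul_le_mul b1 hinv (inv_pos.2 hm).le (by positivity)).trans (le_of_eq ?_)
    rw [mul_assoc, ← Real.exp_add, show 5 * L + L = 6 * L by ring]
  refine ⟨?_, a1, ?_⟩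
  · refine (abs_sub _ _).trans ?_
    linarith [h.abs_u_le (nsq_bary_le_supp h.dens (r + τ) (θ + q • g)),
      h.abs_u_le (nsq_bary_le_supp h.dens r θ)]
  · have e : φ - q * dotp g (slope ρ r θ u) =
        (φ * m - q * dotp g (slope ρ r θ u)) - φ * (m - 1) := by ring
    rw [e]
    calc |(φ * m - q * dotp g (slope ρ r θ u)) - φ * (m - 1)|
        ≤ |φ * m - q * dotp g (slope ρ r θ u)| + |φ * (m - 1)| := abs_sub _ _
      _ ≤ τ * Real.exp (6 * L) + (q * Real.exp (6 * L)) * (q * Real.exp (2 * L)) := by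
          refine add_le_add b2 ?_
          rw [abs_mul]
          exact mul_le_mul a1 w1 (abs_nonneg _) (by positivity)
      _ ≤ _ := by
          have e2 : (q * Real.exp (6 * L)) * (q * Real.exp (2 * L)) = τ * Real.exp (8 * L) := by
            rw [mul_mul_mul_comm, ← Real.exp_add, Real.mul_self_sqrt h.hτ.le]; ring_nf
          have h8 : Real.exp (6 * L) + Real.exp (8 * L) ≤ Real.exp (9 * L) := by
            have e3 : Real.exp (9 * L) = Real.exp (8 * L) * Real.exp L := by
              rw [← Real.exp_add]; ring_nf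
            have := Real.exp_le_exp.2 (show 6 * L ≤ 8 * L by linarith)
            have := Real.add_one_le_exp L
            nlinarith [Real.exp_pos (8 * L)]
          rw [e2, ← mul_add]
          exact mul_le_mul_of_nonneg_left h8 h.hτ.le

theorem continuous_stepArg (τ : ℝ) (θ : St n) :
    Continuous fun g : St n => θ + Real.sqrt τ • g := by fun_prop

theorem StepCtx.continuous_stepWt (h : StepCtx η D c r τ ρ u) (θ : St n) :
    Continuous (stepWt ρ r τ θ) := by
  have h1 : Continuous (part ρ (r + τ)) :=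
    continuous_num h.dens (f := fun _ : St n => (1 : ℝ)) continuous_const (r + τ)
  have h2 : Continuous fun g : St n => part ρ (r + τ) (θ + Real.sqrt τ • g) :=
    h1.comp' (continuous_stepArg τ θ)
  exact h2.div_const _

theorem StepCtx.continuous_stepInc (h : StepCtx η D c r τ ρ u) (θ : St n) :
    Continuous (stepInc ρ r τ θ u) := by
  have h1 : Continuous fun g : St n => bary ρ (r + τ) (θ + Real.sqrt τ • g) :=
    (continuous_bary h.dens (r + τ)).comp' (continuous_stepArg τ θ)
  have h2 : Continuous fun g : St n => dotp u (bary ρ (r + τ) (θ + Real.sqrt τ • g)) :=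
    (continuous_dotp u).comp' h1
  exact h2.sub continuous_const

/-- The moment of the envelope absorbing all the errors. -/
def envC (n : ℕ) (c : ℝ) : ℝ := ∫ g : St n, Real.exp (20 * envL c g) ∂P166W.gauss (Fin n)

theorem envC_nonneg (n : ℕ) (c : ℝ) : 0 ≤ envC n c := integral_nonneg fun _ => (Real.exp_pos _).le

theorem continuous_dotp_left (x : St n) : Continuous fun g : St n => dotp g x := by
  unfold dotp; fun_prop

theorem integrable_dotp_mul (a b : St n) :
    Integrable (fun g : St n => dotp g a * dotp g b) (P166W.gauss (Fin n)) := by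
  have e : (fun g : St n => dotp g a * dotp g b) = fun g => dotp a g * dotp b g :=
    funext fun g => by simp only [dotp, mul_comm]
  rw [e]
  exact CP.integrable_gauss ((c1p_dotp a).cp.mul (c1p_dotp b).cp)

theorem StepCtx.integrable_of_le (h : StepCtx η D c r τ ρ u) {F : St n → ℝ} (hF : Continuous F)
    (C : ℝ) (hb : ∀ g, |F g| ≤ C * Real.exp (20 * envL c g)) :
    Integrable F (P166W.gauss (Fin n)) := by
  have := h.hτ
  exact ((integrable_exp_envL (c := c) 20).const_mul C).mono' hF.aestronglyMeasurable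
    (Eventually.of_forall fun g => (Real.norm_eq_abs _).trans_le (hb g))

theorem StepCtx.exp_le_exp (h : StepCtx η D c r τ ρ u) {i j : ℝ} (hij : i ≤ j) (g : St n) :
    Real.exp (i * envL c g) ≤ Real.exp (j * envL c g) :=
  Real.exp_le_exp.2 (mul_le_mul_of_nonneg_right hij
    ((zero_le_one.trans h.one_le).trans (le_envL (zero_le_one.trans h.one_le) g)))

theorem StepCtx.stepWt_le (h : StepCtx η D c r τ ρ u) (θ g : St n) :
    |stepWt ρ r τ θ g| ≤ 2 * Real.exp (2 * envL c g) := by
  have h1 := (h.stepWt_bounds θ g).1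
  have h2 : Real.sqrt τ ≤ 1 := Real.sqrt_le_one.2 h.hτ1
  have h3 := Real.exp_pos (2 * envL c g)
  have h4 : 1 ≤ Real.exp (2 * envL c g) :=
    Real.one_le_exp (mul_nonneg zero_le_two
      ((zero_le_one.trans h.one_le).trans (le_envL (zero_le_one.trans h.one_le) g)))
  have h5 := abs_sub_abs_le_abs_sub (stepWt ρ r τ θ g) 1
  rw [abs_one] at h5
  nlinarith

theorem StepCtx.integral_inc_wt (h : StepCtx η D c r τ ρ u) (θ : St n) :
    ∫ g, stepInc ρ r τ θ u g * stepWt ρ r τ θ g ∂P166W.gauss (Fin n) = 0 := by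
  have hp := part_pos h.ulc h.hr θ
  set b := dotp u (bary ρ r θ) with hbdef
  have hdot : ∀ (s : ℝ), 0 ≤ s → ∀ θ', dotp u (bary ρ s θ') = mg ρ (dotp u) s θ' := fun s hs θ' => by
    rw [← center_post h.ulc hs θ', ← integral_post h.ulc hs θ']
    exact (integral_dotp (post_ulc h.ulc hs θ') u).symm
  have hr' := add_nonneg h.hr h.hτ.le
  have e : ∀ g, stepInc ρ r τ θ u g * stepWt ρ r τ θ g =
      (part ρ r θ)⁻¹ * num ρ (dotp u) (r + τ) (θ + Real.sqrt τ • g) -
        b / part ρ r θ * part ρ (r + τ) (θ + Real.sqrt τ • g) := fun g => by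
    have h1 := (part_pos h.ulc hr' (θ + Real.sqrt τ • g)).ne'
    rw [stepInc, stepWt, hdot _ hr', mg, ← hbdef]
    field_simp
  simp only [e]
  have hi : Integrable (fun g => (part ρ r θ)⁻¹ * num ρ (dotp u) (r + τ) (θ + Real.sqrt τ • g))
      (P166W.gauss (Fin n)) := by
    have hq := (integrable_part_step h.ulc h.hr h.hτ θ).const_mul ((part ρ r θ)⁻¹ * c)
    refine hq.mono' ?_ (Eventually.of_forall fun g => ?_)
    · have h1 : Continuous fun g : St n => num ρ (dotp u) (r + τ) (θ + Real.sqrt τ • g) :=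
        (continuous_num h.dens (continuous_dotp u) (r + τ)).comp' (continuous_stepArg τ θ)
      exact (h1.const_mul _).aestronglyMeasurable
    · have h1 := part_pos h.ulc hr' (θ + Real.sqrt τ • g)
      have h2 : num ρ (dotp u) (r + τ) (θ + Real.sqrt τ • g) =
          dotp u (bary ρ (r + τ) (θ + Real.sqrt τ • g)) * part ρ (r + τ) (θ + Real.sqrt τ • g) := by
        rw [hdot _ hr', mg, div_mul_cancel₀ _ h1.ne']
      rw [Real.norm_eq_abs, h2, abs_mul, abs_mul, abs_of_pos (inv_pos.2 hp), abs_of_pos h1,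
        ← mul_assoc]
      exact mul_le_mul_of_nonneg_right (mul_le_mul_of_nonneg_left
        (h.abs_u_le (nsq_bary_le_supp h.dens _ _)) (inv_pos.2 hp).le) h1.le
  rw [integral_sub hi ((integrable_part_step h.ulc h.hr h.hτ θ).const_mul _), integral_const_mul,
    integral_const_mul, integral_num_step h.ulc h.hr h.hτ (continuous_dotp u).measurable
      (polyB_dotp u), integral_part_step h.ulc h.hr h.hτ, hbdef, hdot r h.hr θ, mg]
  field_simp
  ring

/-- The mean of the step under a tilt. -/
theorem StepCtx.mean_step (h : StepCtx η D c r τ ρ u) (θ v : St n) :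
    |∫ g, stepInc ρ r τ θ u g * stepWt ρ r τ (θ + v) g ∂P166W.gauss (Fin n) -
        τ * dotp (slope ρ r θ u) (bary ρ r (θ + v) - bary ρ r θ)| ≤
      τ * Real.sqrt τ * (6 * envC n c) := by
  set q := Real.sqrt τ with hq
  set l := fun g => dotp g (slope ρ r θ u)
  set Δ := bary ρ r (θ + v) - bary ρ r θ
  set φ := stepInc ρ r τ θ u
  set m0 := stepWt ρ r τ θ
  set mv := stepWt ρ r τ (θ + v)
  have hq0 : 0 ≤ q := Real.sqrt_nonneg _
  have hqq : q * q = τ := Real.mul_self_sqrt h.hτ.le
  have c1 := h.continuous_stepInc θ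
  have c2 := h.continuous_stepWt (θ + v)
  have c3 := h.continuous_stepWt θ
  have hbd : ∀ g, |φ g * mv g - φ g * m0 g - τ * (l g * dotp g Δ)| ≤
      τ * q * (6 * Real.exp (20 * envL c g)) := fun g => by
    obtain ⟨-, -, b3⟩ := h.inc_bounds θ g
    obtain ⟨w1, w2, -⟩ := h.stepWt_bounds (θ + v) g
    obtain ⟨x1, x2, -⟩ := h.stepWt_bounds θ g
    have hl := h.abs_slope_le θ g
    have hd : dotp g Δ = dotp g (bary ρ r (θ + v)) - dotp g (bary ρ r θ) := dotp_sub g _ _
    have e : φ g * mv g - φ g * m0 g - τ * (l g * dotp g Δ) =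
        (φ g - q * l g) * ((mv g - 1) - (m0 g - 1)) +
          q * l g * ((mv g - 1 - q * dotp g (bary ρ r (θ + v))) -
            (m0 g - 1 - q * dotp g (bary ρ r θ))) := by
      rw [hd, ← hqq]; ring
    rw [e]
    refine (abs_add_le _ _).trans ?_
    rw [abs_mul, abs_mul, abs_mul, abs_of_nonneg hq0]
    have t1 := mul_le_mul b3 ((abs_sub _ _).trans (add_le_add w1 x1)) (abs_nonneg _)
      (by have := h.hτ; positivity)
    have t2 := mul_le_mul (mul_le_mul_of_nonneg_left hl hq0)
      ((abs_sub _ _).trans (add_le_add w2 x2)) (abs_nonneg _) (by positivity)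
    refine (add_le_add t1 t2).trans ?_
    have f1 : Real.exp (9 * envL c g) * Real.exp (2 * envL c g) ≤ Real.exp (20 * envL c g) := by
      rw [← Real.exp_add, ← add_mul]; exact h.exp_le_exp (by norm_num) g
    have f2 : Real.exp (3 * envL c g) * Real.exp (4 * envL c g) ≤ Real.exp (20 * envL c g) := by
      rw [← Real.exp_add, ← add_mul]; exact h.exp_le_exp (by norm_num) g
    have g1 := mul_le_mul_of_nonneg_left f1 (mul_nonneg h.hτ.le hq0)
    have g2 := mul_le_mul_of_nonneg_left f2 (mul_nonneg h.hτ.le hq0)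
    have g3 : 0 ≤ τ * q * Real.exp (20 * envL c g) := by have := h.hτ; positivity
    simp only [← hq]
    linarith
  have hcl : Continuous fun g => τ * (l g * dotp g Δ) :=
    continuous_const.mul ((continuous_dotp_left _).mul (continuous_dotp_left _))
  have iR := h.integrable_of_le (F := fun g => φ g * mv g - φ g * m0 g - τ * (l g * dotp g Δ))
    (((c1.mul c2).sub (c1.mul c3)).sub hcl) (τ * q * 6) fun g =>
      (hbd g).trans (le_of_eq (by ring))
  have i0 : Integrable (fun g => φ g * m0 g) (P166W.gauss (Fin n)) := by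
    refine h.integrable_of_le (c1.mul c3) (2 * (2 * c)) fun g => ?_
    rw [abs_mul]
    refine (mul_le_mul (h.inc_bounds θ g).1 ((h.stepWt_le θ g).trans
      (mul_le_mul_of_nonneg_left (h.exp_le_exp (show (2 : ℝ) ≤ 20 by norm_num) g) zero_le_two))
      (abs_nonneg _) (by linarith [h.one_le])).trans (le_of_eq (by ring))
  have iL : Integrable (fun g => τ * (l g * dotp g Δ)) (P166W.gauss (Fin n)) :=
    (integrable_dotp_mul _ _).const_mul τ
  have e : (∫ g, φ g * mv g ∂P166W.gauss (Fin n)) - τ * dotp (slope ρ r θ u) Δ =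
      ∫ g, (φ g * mv g - φ g * m0 g - τ * (l g * dotp g Δ)) ∂P166W.gauss (Fin n) := by
    have i1 : Integrable (fun g => φ g * mv g) (P166W.gauss (Fin n)) :=
      ((iR.add iL).add i0).congr (Eventually.of_forall fun g => by simp only [Pi.add_apply]; ring)
    have i2 : Integrable (fun g => φ g * mv g - φ g * m0 g) (P166W.gauss (Fin n)) := i1.sub i0
    rw [integral_sub i2 iL, integral_sub i1 i0, h.integral_inc_wt θ, sub_zero, integral_const_mul,
      integral_gauss_dotp_mul]
  rw [e, ← Real.norm_eq_abs]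
  refine (norm_integral_le_of_norm_le ((integrable_exp_envL (c := c) 20).const_mul (τ * q * 6))
    (Eventually.of_forall fun g => (Real.norm_eq_abs _).trans_le
      ((hbd g).trans (le_of_eq (by ring))))).trans (le_of_eq ?_)
  rw [integral_const_mul, envC]; ring

/-- The square of the step under a tilt. -/
theorem StepCtx.square_step (h : StepCtx η D c r τ ρ u) (θ v : St n) :
    Integrable (fun g => stepInc ρ r τ θ u g ^ 2 * stepWt ρ r τ (θ + v) g)
        (P166W.gauss (Fin n)) ∧
      ∫ g, stepInc ρ r τ θ u g ^ 2 * stepWt ρ r τ (θ + v) g ∂P166W.gauss (Fin n) ≤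
        τ * nsq (slope ρ r θ u) + τ * Real.sqrt τ * (3 * envC n c) := by
  set q := Real.sqrt τ with hq
  set l := fun g => dotp g (slope ρ r θ u)
  set φ := stepInc ρ r τ θ u
  set mv := stepWt ρ r τ (θ + v)
  have hq0 : 0 ≤ q := Real.sqrt_nonneg _
  have hqq : q * q = τ := Real.mul_self_sqrt h.hτ.le
  have c1 := h.continuous_stepInc θ
  have c2 := h.continuous_stepWt (θ + v)
  have hbd : ∀ g, |φ g ^ 2 * mv g - τ * (l g * l g)| ≤
      τ * q * (3 * Real.exp (20 * envL c g)) := fun g => by
    obtain ⟨-, b2, b3⟩ := h.inc_bounds θ g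
    obtain ⟨w1, -, -⟩ := h.stepWt_bounds (θ + v) g
    have hl := h.abs_slope_le θ g
    have e : φ g ^ 2 * mv g - τ * (l g * l g) =
        φ g * φ g * (mv g - 1) + (φ g - q * l g) * (φ g + q * l g) := by rw [← hqq]; ring
    rw [e]
    refine (abs_add_le _ _).trans ?_
    rw [abs_mul, abs_mul, abs_mul]
    have hτ := h.hτ
    have t1 := mul_le_mul (mul_le_mul b2 b2 (abs_nonneg _) (by positivity)) w1 (abs_nonneg _)
      (by positivity)
    have t2 : |φ g + q * l g| ≤ q * (2 * Real.exp (6 * envL c g)) := by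
      refine (abs_add_le _ _).trans ?_
      rw [abs_mul, abs_of_nonneg hq0]
      have := mul_le_mul_of_nonneg_left
        (hl.trans (h.exp_le_exp (show (3 : ℝ) ≤ 6 by norm_num) g)) hq0
      linarith
    refine (add_le_add t1 (mul_le_mul b3 t2 (abs_nonneg _) (by positivity))).trans ?_
    have f1 : Real.exp (6 * envL c g) * Real.exp (6 * envL c g) * Real.exp (2 * envL c g) ≤
        Real.exp (20 * envL c g) := by
      rw [← Real.exp_add, ← Real.exp_add, ← add_mul, ← add_mul]; exact h.exp_le_exp (by norm_num) g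
    have f2 : Real.exp (9 * envL c g) * Real.exp (6 * envL c g) ≤ Real.exp (20 * envL c g) := by
      rw [← Real.exp_add, ← add_mul]; exact h.exp_le_exp (by norm_num) g
    have g1 := mul_le_mul_of_nonneg_left f1 (mul_nonneg hτ.le hq0)
    have g2 := mul_le_mul_of_nonneg_left f2 (mul_nonneg hτ.le hq0)
    have e3 : q * Real.exp (6 * envL c g) * (q * Real.exp (6 * envL c g)) *
        (q * Real.exp (2 * envL c g)) = τ * q * (Real.exp (6 * envL c g) * Real.exp (6 * envL c g) *
          Real.exp (2 * envL c g)) := by rw [← hqq]; ring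
    rw [e3]
    nlinarith
  have hcl : Continuous fun g => τ * (l g * l g) :=
    continuous_const.mul ((continuous_dotp_left _).mul (continuous_dotp_left _))
  have iR := h.integrable_of_le (F := fun g => φ g ^ 2 * mv g - τ * (l g * l g))
    (((c1.pow 2).mul c2).sub hcl) (τ * q * 3) fun g => (hbd g).trans (le_of_eq (by ring))
  have iL : Integrable (fun g => τ * (l g * l g)) (P166W.gauss (Fin n)) :=
    (integrable_dotp_mul _ _).const_mul τ
  have i1 : Integrable (fun g => φ g ^ 2 * mv g) (P166W.gauss (Fin n)) :=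
    (iR.add iL).congr (Eventually.of_forall fun g => by simp only [Pi.add_apply]; ring)
  refine ⟨i1, ?_⟩
  have e : (∫ g, φ g ^ 2 * mv g ∂P166W.gauss (Fin n)) =
      (∫ g, (φ g ^ 2 * mv g - τ * (l g * l g)) ∂P166W.gauss (Fin n)) +
        τ * nsq (slope ρ r θ u) := by
    rw [integral_sub i1 iL, integral_const_mul, integral_gauss_dotp_mul]
    simp only [nsq, dotp, sq]; ring
  rw [e, add_comm]
  refine add_le_add le_rfl ((le_abs_self _).trans ?_)
  rw [← Real.norm_eq_abs]
  refine (norm_integral_le_of_norm_le ((integrable_exp_envL (c := c) 20).const_mul (τ * q * 3))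
    (Eventually.of_forall fun g => (Real.norm_eq_abs _).trans_le
      ((hbd g).trans (le_of_eq (by ring))))).trans (le_of_eq ?_)
  rw [integral_const_mul, envC]; ring

/-- The exponential moment of the step. -/
theorem StepCtx.exp_step (h : StepCtx η D c r τ ρ u) (θ : St n) (a : ℝ) :
    Integrable (fun g => Real.exp (a * stepInc ρ r τ θ u g) * stepWt ρ r τ θ g)
        (P166W.gauss (Fin n)) ∧
      ∫ g, Real.exp (a * stepInc ρ r τ θ u g) * stepWt ρ r τ θ g ∂P166W.gauss (Fin n) ≤
        1 + a ^ 2 / 2 * τ * nsq (slope ρ r θ u) +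
          τ * Real.sqrt τ * ((3 * a ^ 2 / 2 + 2 * |a| ^ 3 * Real.exp (|a| * (2 * c))) * envC n c) := by
  set q := Real.sqrt τ with hq
  set φ := stepInc ρ r τ θ u
  set m := stepWt ρ r τ θ
  set K := |a| ^ 3 * Real.exp (|a| * (2 * c))
  have hq0 : 0 ≤ q := Real.sqrt_nonneg _
  have c1 := h.continuous_stepInc θ
  have c2 := h.continuous_stepWt θ
  obtain ⟨i2, hs2⟩ := h.square_step θ 0
  rw [add_zero] at i2 hs2
  have i0 : Integrable m (P166W.gauss (Fin n)) := (integrable_part_step h.ulc h.hr h.hτ θ).div_const _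
  have i1 : Integrable (fun g => φ g * m g) (P166W.gauss (Fin n)) := by
    refine h.integrable_of_le (c1.mul c2) (2 * (2 * c)) fun g => ?_
    rw [abs_mul]
    refine (mul_le_mul (h.inc_bounds θ g).1 ((h.stepWt_le θ g).trans
      (mul_le_mul_of_nonneg_left (h.exp_le_exp (show (2 : ℝ) ≤ 20 by norm_num) g) zero_le_two))
      (abs_nonneg _) (by linarith [h.one_le])).trans (le_of_eq (by ring))
  have hm0 : ∀ g, 0 ≤ m g := fun g =>
    (lt_of_lt_of_le (Real.exp_pos _) (h.stepWt_bounds θ g).2.2).le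
  have h3 : ∀ g, |φ g| ^ 3 * m g ≤ τ * q * (2 * Real.exp (20 * envL c g)) := fun g => by
    have hτ := h.hτ
    refine (mul_le_mul (pow_le_pow_left₀ (abs_nonneg _) (h.inc_bounds θ g).2.1 3)
      ((le_abs_self _).trans (h.stepWt_le θ g)) (hm0 g) (by positivity)).trans (le_of_eq ?_)
    have e3 : Real.exp (6 * envL c g) ^ 3 * Real.exp (2 * envL c g) = Real.exp (20 * envL c g) := by
      rw [← Real.exp_nat_mul, ← Real.exp_add]; ring_nf
    have e4 : q ^ 3 = τ * q := by rw [pow_succ, hq, Real.sq_sqrt hτ.le]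
    rw [mul_pow, e4, ← e3]; ring
  have hle : ∀ g, Real.exp (a * φ g) * m g ≤
      m g + a * (φ g * m g) + a ^ 2 / 2 * (φ g ^ 2 * m g) +
        K * (τ * q * (2 * Real.exp (20 * envL c g))) := fun g => by
    have t := mul_le_mul_of_nonneg_right (exp_taylor_three (a * φ g)) (hm0 g)
    have hb : Real.exp |a * φ g| ≤ Real.exp (|a| * (2 * c)) := by
      rw [abs_mul]
      exact Real.exp_le_exp.2 (mul_le_mul_of_nonneg_left (h.inc_bounds θ g).1 (abs_nonneg a))
    have hx : |a * φ g| ^ 3 * Real.exp |a * φ g| * m g ≤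
        K * (τ * q * (2 * Real.exp (20 * envL c g))) := by
      calc |a * φ g| ^ 3 * Real.exp |a * φ g| * m g
          ≤ |a * φ g| ^ 3 * Real.exp (|a| * (2 * c)) * m g := by
            have := hm0 g
            gcongr
        _ = K * (|φ g| ^ 3 * m g) := by simp only [K, abs_mul, mul_pow]; ring
        _ ≤ _ := mul_le_mul_of_nonneg_left (h3 g) (by positivity)
    nlinarith
  have iE : Integrable (fun g => K * (τ * q * (2 * Real.exp (20 * envL c g))))
      (P166W.gauss (Fin n)) :=
    (((integrable_exp_envL (c := c) 20).const_mul 2).const_mul (τ * q)).const_mul K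
  have j1 : Integrable (fun g => m g + a * (φ g * m g)) (P166W.gauss (Fin n)) :=
    i0.add (i1.const_mul a)
  have j2 : Integrable (fun g => m g + a * (φ g * m g) + a ^ 2 / 2 * (φ g ^ 2 * m g))
      (P166W.gauss (Fin n)) := j1.add (i2.const_mul _)
  have j3 : Integrable (fun g => m g + a * (φ g * m g) + a ^ 2 / 2 * (φ g ^ 2 * m g) +
      K * (τ * q * (2 * Real.exp (20 * envL c g)))) (P166W.gauss (Fin n)) := j2.add iE
  have iX : Integrable (fun g => Real.exp (a * φ g) * m g) (P166W.gauss (Fin n)) := by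
    refine j3.mono' ((c1.const_mul a).rexp.mul c2).aestronglyMeasurable
      (Eventually.of_forall fun g => ?_)
    rw [Real.norm_eq_abs, abs_of_nonneg (mul_nonneg (Real.exp_pos _).le (hm0 g))]
    exact hle g
  refine ⟨iX, (integral_mono iX j3 hle).trans ?_⟩
  have em : ∫ g, m g ∂P166W.gauss (Fin n) = 1 := by
    simp only [m, stepWt]
    rw [integral_div, integral_part_step h.ulc h.hr h.hτ, div_self (part_pos h.ulc h.hr θ).ne']
  rw [integral_add j2 iE, integral_add j1 (i2.const_mul _), integral_add i0 (i1.const_mul a), em,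
    integral_const_mul, integral_const_mul, integral_const_mul, integral_const_mul,
    integral_const_mul, h.integral_inc_wt θ]
  have := mul_le_mul_of_nonneg_left hs2 (by positivity : 0 ≤ a ^ 2 / 2)
  simp only [envC] at this ⊢
  nlinarith

end

end

end Vale.Agent.P245.Gen2
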