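import Vale.Agent.P245.Gen2.Cut
import Vale.Agent.P245.Gen2.Bridge

/-!
# P245, polylogarithmic bound: the cut barycentre along a path

The increments of the posterior barycentre along a path are cut by a polynomial of the covariance:
the small part has a small exponential moment on pure paths and a small mean on tilted ones, and the
cut part has mean square at most the drift of the tilt plus the excited energy on tilted paths.
-/

open MeasureTheory Filter Finset Polynomial

namespace Vale.Agent.P245.Gen2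

open Vale.Agent.P245 Vale.Agent.P245.General

noncomputable section

variable {n N : ℕ} {η D t τ M b : ℝ} {ρ : St n → ℝ} {q : ℝ[X]}

/-- The time of step `k`. -/
def rk (t τ : ℝ) (k : ℕ) : ℝ := t + k * τ

/-- The increment of `⟨u, bary⟩` at step `k`. -/
def incA (ρ : St n → ℝ) (t τ : ℝ) (θ₀ : St n) (ω : Noise n N) (k : ℕ) (u : St n) : ℝ :=
  stepInc ρ (rk t τ k) τ (pos τ θ₀ ω k) u (incr ω k)

/-- The cut part of the increment of the barycentre. -/
def zc (ρ : St n → ℝ) (q : ℝ[X]) (t τ : ℝ) (θ₀ : St n) (ω : Noise n N) (k : ℕ) : St n := fun i =>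
  ∑ j ∈ range k, incA ρ t τ θ₀ ω j (cutVec ρ q (rk t τ j) (pos τ θ₀ ω j) (Pi.single i 1))

/-- The small part of the increment in the direction `v`. -/
def zs (ρ : St n → ℝ) (q : ℝ[X]) (t τ : ℝ) (θ₀ : St n) (ω : Noise n N) (v : St n) (k : ℕ) : ℝ :=
  ∑ j ∈ range k, incA ρ t τ θ₀ ω j (v - cutVec ρ q (rk t τ j) (pos τ θ₀ ω j) v)

/-- The standing hypotheses on the grid and the cut. -/
structure PathCtx (η D t τ M b : ℝ) (ρ : St n → ℝ) (q : ℝ[X]) : Prop where
  ulc : Ulc η ρ
  dens : Dens D ρ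
  ht : 0 ≤ t
  hτ : 0 < τ
  hτ1 : τ ≤ 1
  hb0 : 0 ≤ b
  hb : b ≤ 2
  hq : ∀ x, 0 ≤ x → x ≤ 1 / (η + t) → |q.eval x| ≤ b ∧ |(1 - q.eval x) * x| ≤ 3 * M

/-- A bounded function of the history and of the present increment is bounded. -/
theorem bmeas_incr {Φ : Noise n N → St n → ℝ} (hb : BMeas (Function.uncurry Φ)) (k : ℕ) :
    BMeas fun ω : Noise n N => Φ ω (incr ω k) := by
  obtain ⟨hm, C, hC⟩ := hb
  exact ⟨hm.comp (measurable_id.prodMk (measurable_incr k)), C, fun ω => hC (ω, incr ω k)⟩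

/-- A bounded function of the history is bounded as a function of the history and a step. -/
theorem bmeas_fst {G : Noise n N → ℝ} (hG : BMeas G) :
    BMeas fun p : Noise n N × St n => G p.1 := by
  obtain ⟨hm, C, hC⟩ := hG
  exact ⟨hm.comp measurable_fst, C, fun p => hC p.1⟩

variable (h : PathCtx η D t τ M b ρ q)
include h

theorem PathCtx.rk_ge (k : ℕ) : t ≤ rk t τ k := by
  have := h.hτ
  simp only [rk]; nlinarith [(k.cast_nonneg : (0 : ℝ) ≤ k)]

theorem PathCtx.rk_nonneg (k : ℕ) : 0 ≤ rk t τ k := h.ht.trans (h.rk_ge k)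

theorem PathCtx.cut (k : ℕ) (θ u : St n) :
    nsq (cutVec ρ q (rk t τ k) θ u) ≤ b ^ 2 * nsq u ∧
      nsq (slope ρ (rk t τ k) θ (cutVec ρ q (rk t τ k) θ u)) ≤
        (b / (η + rk t τ k)) ^ 2 * nsq u ∧
      nsq (slope ρ (rk t τ k) θ (u - cutVec ρ q (rk t τ k) θ u)) ≤ (3 * M) ^ 2 * nsq u := by
  refine cut_bounds h.ulc (h.rk_nonneg k) (fun x hx hx' => h.hq x hx (hx'.trans ?_)) θ u
  have := h.ulc.pos
  have := h.ht
  exact one_div_le_one_div_of_le (by linarith) (by linarith [h.rk_ge k])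

theorem PathCtx.cutCtx (k : ℕ) (θ : St n) {v : St n} {B : ℝ} (hv : nsq v ≤ B) :
    StepCtx η D (1 + D + 10 * B) (rk t τ k) τ ρ (cutVec ρ q (rk t τ k) θ v) ∧
      StepCtx η D (1 + D + 10 * B) (rk t τ k) τ ρ (v - cutVec ρ q (rk t τ k) θ v) := by
  have h1 := (h.cut k θ v).1
  have hv0 := nsq_nonneg' v
  have hb2 : b ^ 2 ≤ 4 := by nlinarith [h.hb0, h.hb]
  have h2 : nsq (cutVec ρ q (rk t τ k) θ v) ≤ 4 * B := by
    refine h1.trans (mul_le_mul hb2 hv hv0 (by norm_num))
  have h3 := nsq_add_le v (-cutVec ρ q (rk t τ k) θ v)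
  have h4 : nsq (-cutVec ρ q (rk t τ k) θ v) = nsq (cutVec ρ q (rk t τ k) θ v) := by simp [nsq]
  rw [← sub_eq_add_neg, h4] at h3
  exact ⟨⟨h.ulc, h.dens, h.rk_nonneg k, h.hτ, h.hτ1, by linarith⟩,
    ⟨h.ulc, h.dens, h.rk_nonneg k, h.hτ, h.hτ1, by linarith⟩⟩

theorem PathCtx.stepWt_eq_pwt (θ₁ : St n) (ω : Noise n N) (k : ℕ) (g : St n) :
    part ρ (t + k * τ + τ) (pos τ θ₁ ω k + Real.sqrt τ • g) =
      stepWt ρ (rk t τ k) τ (pos τ θ₁ ω k) g * pwt ρ t τ θ₁ ω k := by
  have hp := (part_pos h.ulc (h.rk_nonneg k) (pos τ θ₁ ω k)).ne'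
  simp only [stepWt, pwt, rk] at hp ⊢
  rw [div_mul_cancel₀ _ hp]

/-- A conditional bound on one step bounds the path average. -/
theorem PathCtx.step_le (θ₁ : St n) {k : ℕ} (hk : k < N) {G : Noise n N → ℝ} (hG : BMeas G)
    (hG0 : ∀ ω, 0 ≤ G ω) (hB : Before k G) {Φ : Noise n N → St n → ℝ}
    (hΦ : BMeas (Function.uncurry Φ)) (hΦB : Before k Φ) {Ψ : Noise n N → ℝ} (hΨ : BMeas Ψ)
    (hΨB : Before k Ψ)
    (hle : ∀ ω, ∫ g, Φ ω g * stepWt ρ (rk t τ k) τ (pos τ θ₁ ω k) g ∂P166W.gauss (Fin n) ≤ Ψ ω) :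
    walkE ρ t τ θ₁ (fun ω => G ω * Φ ω (incr ω k)) ≤ walkE ρ t τ θ₁ fun ω => G ω * Ψ ω := by
  rw [walkE_step h.ulc h.ht h.hτ θ₁ hk hG hB hΦ hΦB,
    walkE_marginal h.ulc h.ht h.hτ θ₁ hk.le (hG.mul hΨ) fun ω ω' e => by
      simp only [hB ω ω' e, hΨB ω ω' e]]
  refine div_le_div_of_nonneg_right ?_ (part_pos h.ulc h.ht θ₁).le
  have e : ∀ ω, G ω * ∫ g, Φ ω g * part ρ (t + k * τ + τ) (pos τ θ₁ ω k + Real.sqrt τ • g)
      ∂P166W.gauss (Fin n) = G ω * ((∫ g, Φ ω g * stepWt ρ (rk t τ k) τ (pos τ θ₁ ω k) g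
        ∂P166W.gauss (Fin n)) * pwt ρ t τ θ₁ ω k) := fun ω => by
    rw [← integral_mul_const]
    simp only [h.stepWt_eq_pwt, mul_assoc]
  simp only [e]
  obtain ⟨C, hC⟩ := hΦ.2
  obtain ⟨E, hE⟩ := hG.2
  have hm : Measurable fun ω => ∫ g, Φ ω g * stepWt ρ (rk t τ k) τ (pos τ θ₁ ω k) g
      ∂P166W.gauss (Fin n) := by
    have hq : Measurable fun p : Noise n N × St n => stepWt ρ (rk t τ k) τ (pos τ θ₁ p.1 k) p.2 := by
      refine ((measurable_part h.ulc _).comp ?_).div
        ((measurable_part h.ulc _).comp ((measurable_pos_right τ θ₁ k).comp measurable_fst))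
      exact ((measurable_pos_right τ θ₁ k).comp measurable_fst).add
        (measurable_snd.const_smul (Real.sqrt τ))
    exact (hΦ.1.mul hq).stronglyMeasurable.integral_prod_right'.measurable
  have habs : ∀ ω, |∫ g, Φ ω g * stepWt ρ (rk t τ k) τ (pos τ θ₁ ω k) g ∂P166W.gauss (Fin n)| ≤
      |C| := fun ω => by
    have hw := (integrable_part_step h.ulc (h.rk_nonneg k) h.hτ (pos τ θ₁ ω k)).div_const
      (part ρ (rk t τ k) (pos τ θ₁ ω k))
    have hw1 : ∫ g, stepWt ρ (rk t τ k) τ (pos τ θ₁ ω k) g ∂P166W.gauss (Fin n) = 1 := by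
      simp only [stepWt]
      rw [integral_div, integral_part_step h.ulc (h.rk_nonneg k) h.hτ,
        div_self (part_pos h.ulc (h.rk_nonneg k) _).ne']
    rw [← Real.norm_eq_abs]
    refine (norm_integral_le_of_norm_le (hw.const_mul |C|) (Eventually.of_forall fun g => ?_)).trans
      (le_of_eq ?_)
    · rw [Real.norm_eq_abs, abs_mul]
      refine mul_le_mul ((hC (ω, g)).trans (le_abs_self C)) (le_of_eq (abs_of_nonneg ?_))
        (abs_nonneg _) (abs_nonneg _)
      exact div_nonneg (part_pos h.ulc (by linarith [h.hτ, h.rk_nonneg k]) _).le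
        (part_pos h.ulc (h.rk_nonneg k) _).le
    · rw [integral_const_mul]
      simp only [stepWt] at hw1 ⊢
      rw [hw1, mul_one]
  have hI : BMeas fun ω => G ω * ∫ g, Φ ω g * stepWt ρ (rk t τ k) τ (pos τ θ₁ ω k) g
      ∂P166W.gauss (Fin n) := hG.mul ⟨hm, |C|, habs⟩
  have i1 := integrable_mul_pwt h.ulc h.ht h.hτ θ₁ hk.le hI
  refine integral_mono (i1.congr (Eventually.of_forall fun ω => by simp only [mul_assoc]))
    (integrable_mul_pwt h.ulc h.ht h.hτ θ₁ hk.le (hG.mul hΨ)) fun ω => ?_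
  rw [← mul_assoc]
  exact mul_le_mul_of_nonneg_right (mul_le_mul_of_nonneg_left (hle ω) (hG0 ω))
    (pwt_nonneg h.ulc h.ht h.hτ θ₁ ω k)

/-! ### Regularity -/

theorem PathCtx.continuous_pos (θ₀ : St n) (k : ℕ) :
    Continuous fun ω : Noise n N => pos τ θ₀ ω k := by
  have hi : ∀ i, Continuous fun ω : Noise n N => incr ω i := fun i => by
    unfold incr; split
    · exact continuous_apply _
    · exact continuous_const
  unfold pos
  have hs : Continuous fun ω : Noise n N => ∑ i ∈ range k, incr ω i :=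
    continuous_finsetSum _ fun i _ => hi i
  exact continuous_const.add (hs.const_smul (Real.sqrt τ))

theorem PathCtx.continuous_stepInc₂ (r : ℝ) {α : Type} [TopologicalSpace α] {f u g : α → St n}
    (hf : Continuous f) (hu : Continuous u) (hg : Continuous g) :
    Continuous fun a => stepInc ρ r τ (f a) (u a) (g a) := by
  have b1 : Continuous fun a => bary ρ (r + τ) (f a + Real.sqrt τ • g a) := by
    have hs : Continuous fun a => Real.sqrt τ • g a := hg.const_smul (Real.sqrt τ)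
    exact (continuous_bary h.dens _).comp' (hf.add hs)
  have b2 : Continuous fun a => bary ρ r (f a) := (continuous_bary h.dens _).comp' hf
  exact (continuous_dotp2.comp' (hu.prodMk b1)).sub (continuous_dotp2.comp' (hu.prodMk b2))

theorem PathCtx.continuous_incA (θ₀ : St n) (k : ℕ) {u : Noise n N → St n} (hu : Continuous u) :
    Continuous fun ω => incA ρ t τ θ₀ ω k (u ω) := by
  have hi : Continuous fun ω : Noise n N => incr ω k := by
    unfold incr; split
    · exact continuous_apply _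
    · exact continuous_const
  exact h.continuous_stepInc₂ _ (h.continuous_pos θ₀ k) hu hi

theorem PathCtx.abs_stepInc_le (k : ℕ) (θ : St n) {v : St n} {B : ℝ} (hv : nsq v ≤ B) (g : St n) :
    |stepInc ρ (rk t τ k) τ θ (cutVec ρ q (rk t τ k) θ v) g| ≤ 2 * (1 + D + 10 * B) ∧
      |stepInc ρ (rk t τ k) τ θ (v - cutVec ρ q (rk t τ k) θ v) g| ≤ 2 * (1 + D + 10 * B) :=
  ⟨((h.cutCtx k θ hv).1.inc_bounds θ g).1, ((h.cutCtx k θ hv).2.inc_bounds θ g).1⟩

theorem PathCtx.bmeas_zs (θ₀ v : St n) (k : ℕ) :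
    BMeas fun ω : Noise n N => zs ρ q t τ θ₀ ω v k := by
  refine BMeas.sum fun j _ => ⟨(h.continuous_incA θ₀ j (continuous_const.sub
    ((continuous_cutVec h.dens q _ v).comp' (h.continuous_pos θ₀ j)))).measurable,
    2 * (1 + D + 10 * nsq v), fun ω => (h.abs_stepInc_le j _ le_rfl _).2⟩

theorem PathCtx.bmeas_zc (θ₀ : St n) (k : ℕ) (i : Fin n) :
    BMeas fun ω : Noise n N => zc ρ q t τ θ₀ ω k i := by
  refine BMeas.sum fun j _ => ⟨(h.continuous_incA θ₀ j
    ((continuous_cutVec h.dens q _ _).comp' (h.continuous_pos θ₀ j))).measurable,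
    2 * (1 + D + 10 * nsq (Pi.single i 1 : St n)), fun ω => (h.abs_stepInc_le j _ le_rfl _).1⟩

theorem PathCtx.bmeas_nsq_zc (θ₀ : St n) (k : ℕ) :
    BMeas fun ω : Noise n N => nsq (zc ρ q t τ θ₀ ω k) := by
  unfold nsq
  exact BMeas.sum fun i _ => by simpa only [sq] using (h.bmeas_zc θ₀ k i).mul (h.bmeas_zc θ₀ k i)

omit h in
theorem before_incr_lt {j k : ℕ} (hjk : j < k) : Before k fun ω : Noise n N => incr ω j :=
  fun ω ω' e => by
    simp only [incr]
    split
    · rename_i hj; exact e ⟨j, hj⟩ hjk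
    · rfl

omit h in
theorem before_zs (θ₀ v : St n) (k : ℕ) :
    Before k fun ω : Noise n N => zs ρ q t τ θ₀ ω v k := fun ω ω' e => by
  refine Finset.sum_congr rfl fun j hj => ?_
  have hj' := Finset.mem_range.1 hj
  have h1 := before_mono hj'.le (before_pos τ θ₀ j) ω ω' e
  have h2 := before_incr_lt hj' ω ω' e
  simp only [incA, h1, h2] at *

omit h in
theorem before_zc (θ₀ : St n) (k : ℕ) :
    Before k fun ω : Noise n N => zc ρ q t τ θ₀ ω k := fun ω ω' e => by
  funext i
  refine Finset.sum_congr rfl fun j hj => ?_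
  have hj' := Finset.mem_range.1 hj
  have h1 := before_mono hj'.le (before_pos τ θ₀ j) ω ω' e
  have h2 := before_incr_lt hj' ω ω' e
  simp only [incA, h1, h2] at *

omit h in
theorem stepInc_combo (r : ℝ) (θ g : St n) {ι : Type} (S : Finset ι) (a : ι → ℝ) (u : ι → St n) :
    stepInc ρ r τ θ (∑ i ∈ S, a i • u i) g = ∑ i ∈ S, a i * stepInc ρ r τ θ (u i) g := by
  have e : ∀ x : St n, dotp (∑ i ∈ S, a i • u i) x = ∑ i ∈ S, a i * dotp (u i) x := fun x => by
    simp only [dotp, Finset.mul_sum, Finset.sum_apply, Pi.smul_apply, smul_eq_mul, Finset.sum_mul,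
      mul_assoc]
    exact Finset.sum_comm
  simp only [stepInc, e, mul_sub, Finset.sum_sub_distrib]

omit h in
theorem cutVec_combo (r : ℝ) (θ v : St n) :
    cutVec ρ q r θ v = ∑ i, v i • cutVec ρ q r θ (Pi.single i 1) := by
  simp only [cutVec, ← Matrix.mulVec_smul, ← Matrix.mulVec_sum]
  rw [← pi_eq_sum_univ' v]

/-- The cut and the small part add up to the increment of the barycentre. -/
theorem PathCtx.split (θ₀ v : St n) (ω : Noise n N) {k : ℕ} (hk : k ≤ N) :
    dotp v (zc ρ q t τ θ₀ ω k) + zs ρ q t τ θ₀ ω v k =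
      dotp v (bary ρ (rk t τ k) (pos τ θ₀ ω k)) - dotp v (bary ρ t θ₀) := by
  have hj : ∀ j < k, (∑ i, v i * incA ρ t τ θ₀ ω j
      (cutVec ρ q (rk t τ j) (pos τ θ₀ ω j) (Pi.single i 1))) +
      incA ρ t τ θ₀ ω j (v - cutVec ρ q (rk t τ j) (pos τ θ₀ ω j) v) =
      dotp v (bary ρ (rk t τ (j + 1)) (pos τ θ₀ ω (j + 1))) -
        dotp v (bary ρ (rk t τ j) (pos τ θ₀ ω j)) := fun j hj => by
    simp only [incA]
    rw [← stepInc_combo, ← cutVec_combo]
    have e : rk t τ j + τ = rk t τ (j + 1) := by simp only [rk, Nat.cast_succ]; ring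
    simp only [stepInc, pos_succ, e, dotp, Pi.sub_apply, sub_mul, Finset.sum_sub_distrib]
    ring
  have e1 : dotp v (zc ρ q t τ θ₀ ω k) = ∑ j ∈ range k, ∑ i, v i * incA ρ t τ θ₀ ω j
      (cutVec ρ q (rk t τ j) (pos τ θ₀ ω j) (Pi.single i 1)) := by
    simp only [dotp, zc, Finset.mul_sum]
    exact Finset.sum_comm
  rw [e1, zs, ← Finset.sum_add_distrib, Finset.sum_congr rfl fun j hj' => hj j (Finset.mem_range.1 hj'),
    Finset.sum_range_sub fun j => dotp v (bary ρ (rk t τ j) (pos τ θ₀ ω j))]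
  simp [rk]

/-! ### The estimates -/

/-- The exponential moment of the small part on pure paths. -/
theorem PathCtx.zs_mgf (θ₀ v : St n) (a : ℝ) :
    walkE ρ t τ θ₀ (fun ω : Noise n N => Real.exp (a * zs ρ q t τ θ₀ ω v N)) ≤
      Real.exp (N * (a ^ 2 / 2 * τ * ((3 * M) ^ 2 * nsq v) + τ * Real.sqrt τ *
        ((3 * a ^ 2 / 2 + 2 * |a| ^ 3 * Real.exp (|a| * (2 * (1 + D + 10 * nsq v)))) *
          envC n (1 + D + 10 * nsq v)))) := by
  set c := 1 + D + 10 * nsq v
  set S := a ^ 2 / 2 * τ * ((3 * M) ^ 2 * nsq v) + τ * Real.sqrt τ *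
    ((3 * a ^ 2 / 2 + 2 * |a| ^ 3 * Real.exp (|a| * (2 * c))) * envC n c)
  suffices H : ∀ k ≤ N, walkE ρ t τ θ₀
      (fun ω : Noise n N => Real.exp (a * zs ρ q t τ θ₀ ω v k)) ≤ Real.exp (k * S) from H N le_rfl
  intro k
  induction k with
  | zero =>
    intro _
    simp [zs, walkE_const h.ulc h.ht h.hτ θ₀]
  | succ k ih =>
    intro hk
    set Φ : Noise n N → St n → ℝ := fun ω g => Real.exp (a * stepInc ρ (rk t τ k) τ (pos τ θ₀ ω k)
      (v - cutVec ρ q (rk t τ k) (pos τ θ₀ ω k) v) g) with hΦ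
    have hb : BMeas (Function.uncurry Φ) := by
      have hp : Continuous fun p : Noise n N × St n => pos τ θ₀ p.1 k :=
        (h.continuous_pos θ₀ k).comp' continuous_fst
      refine BMeas.exp (BMeas.smul a ⟨(h.continuous_stepInc₂ _ hp (continuous_const.sub
        ((continuous_cutVec h.dens q _ v).comp' hp)) continuous_snd).measurable, 2 * c,
        fun p => (h.abs_stepInc_le k _ le_rfl _).2⟩)
    have hB : Before k Φ := fun ω ω' e => by
      simp only [hΦ, before_pos τ θ₀ k ω ω' e]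
    have h1 := h.step_le θ₀ hk (G := fun ω => Real.exp (a * zs ρ q t τ θ₀ ω v k))
      ((h.bmeas_zs θ₀ v k).smul a).exp (fun ω => (Real.exp_pos _).le)
      (fun ω ω' e => by simp only [before_zs θ₀ v k ω ω' e]) hb hB
      (Ψ := fun _ => Real.exp S) (BMeas.const _) (fun _ _ _ => rfl) (fun ω => by
        refine ((h.cutCtx k (pos τ θ₀ ω k) (le_refl (nsq v))).2.exp_step
          (pos τ θ₀ ω k) a).2.trans ?_
        have h3 := mul_le_mul_of_nonneg_left (h.cut k (pos τ θ₀ ω k) v).2.2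
          (by have := h.hτ; positivity : 0 ≤ a ^ 2 / 2 * τ)
        refine le_trans ?_ (Real.add_one_le_exp S)
        simp only [S]
        linarith)
    have e : (fun ω : Noise n N => Real.exp (a * zs ρ q t τ θ₀ ω v (k + 1))) =
        fun ω => Real.exp (a * zs ρ q t τ θ₀ ω v k) * Φ ω (incr ω k) := funext fun ω => by
      simp only [zs, hΦ, Finset.sum_range_succ, incA, mul_add, Real.exp_add]
    rw [e]
    refine h1.trans ?_
    simp only [mul_comm _ (Real.exp S), walkE_smul]
    refine (mul_le_mul_of_nonneg_left (ih (by omega)) (Real.exp_pos S).le).trans (le_of_eq ?_)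
    rw [← Real.exp_add]; push_cast; ring_nf

/-- The posterior average is constant in mean along the path. -/
theorem PathCtx.walkE_mg (θ₁ : St n) {f : St n → ℝ} (hf : Continuous f) {C : ℝ}
    (hC : ∀ x, nsq x ≤ D → |f x| ≤ C) (hf' : PolyB f) {k : ℕ} (hk : k ≤ N) :
    walkE ρ t τ θ₁ (fun ω : Noise n N => mg ρ f (rk t τ k) (pos τ θ₁ ω k)) = mg ρ f t θ₁ := by
  have hmb : ∀ j, BMeas fun ω : Noise n N => mg ρ f (rk t τ j) (pos τ θ₁ ω j) := fun j => by
    refine ⟨((continuous_mg h.dens hf _).comp' (h.continuous_pos θ₁ j)).measurable, |C|,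
      fun ω => ?_⟩
    simp only []
    rw [← dens_integral_post h.dens, ← Real.norm_eq_abs]
    haveI := dens_isProb (dens_post h.dens (rk t τ j) (pos τ θ₁ ω j))
    refine (norm_integral_le_of_norm_le_const ((dens_ae_le (dens_post h.dens _ _)).mono
      fun x hx => (Real.norm_eq_abs _).trans_le ((hC x hx).trans (le_abs_self C)))).trans ?_
    simp
  induction k with
  | zero =>
    simp only [rk, Nat.cast_zero, zero_mul, add_zero, pos_zero]
    exact walkE_const h.ulc h.ht h.hτ θ₁ _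
  | succ k ih =>
    rw [← ih (by omega), walkE_marginal h.ulc h.ht h.hτ θ₁ hk (hmb (k + 1))
      (fun ω ω' e => by simp only [before_pos τ θ₁ (k + 1) ω ω' e]),
      walkE_marginal h.ulc h.ht h.hτ θ₁ (show k ≤ N by omega) (hmb k)
      (fun ω ω' e => by simp only [before_pos τ θ₁ k ω ω' e]),
      ← integral_update ⟨k, hk⟩ (integrable_mul_pwt h.ulc h.ht h.hτ θ₁ hk (hmb (k + 1)))]
    congr 1
    refine integral_congr_ae (Eventually.of_forall fun ω => ?_)
    have e : ∀ (r : ℝ), 0 ≤ r → ∀ θ, mg ρ f r θ * part ρ r θ = num ρ f r θ := fun r hr θ => by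
      rw [mg, div_mul_cancel₀ _ (part_pos h.ulc hr θ).ne']
    simp only [pwt, pos_succ, incr_update, before_update hk (before_pos τ θ₁ k)]
    rw [show (t + ((k + 1 : ℕ) : ℝ) * τ) = rk t τ k + τ by simp only [rk]; push_cast; ring,
      show rk t τ (k + 1) = rk t τ k + τ by simp only [rk]; push_cast; ring]
    simp only [e _ (by linarith [h.hτ, h.rk_nonneg k] : 0 ≤ rk t τ k + τ)]
    rw [integral_num_step h.ulc (h.rk_nonneg k) h.hτ hf.measurable hf']
    exact (e _ (h.rk_nonneg k) _).symm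

/-- The exponential moment of the barycentre on pure paths. -/
theorem PathCtx.bary_mgf (θ₀ v : St n) (a : ℝ) {k : ℕ} (hk : k ≤ N) :
    walkE ρ t τ θ₀ (fun ω : Noise n N => Real.exp (a * dotp v (bary ρ (rk t τ k) (pos τ θ₀ ω k))))
      ≤ walkE ρ t τ θ₀ (fun ω : Noise n N =>
          mg ρ (fun x => Real.exp (a * dotp v x)) (rk t τ k) (pos τ θ₀ ω k)) := by
  have hc : Continuous fun x => Real.exp (a * dotp v x) := ((continuous_dotp v).const_mul a).rexp
  have hcp : Continuous fun ω : Noise n N => dotp v (bary ρ (rk t τ k) (pos τ θ₀ ω k)) :=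
    (continuous_dotp v).comp' ((continuous_bary h.dens _).comp' (h.continuous_pos θ₀ k))
  have hbd : ∀ x : St n, nsq x ≤ D → |dotp v x| ≤ (nsq v + D) / 2 := fun x hx =>
    (abs_dotp_le v x).trans (by linarith)
  have hbm : BMeas fun ω : Noise n N => dotp v (bary ρ (rk t τ k) (pos τ θ₀ ω k)) :=
    ⟨hcp.measurable, _, fun ω => hbd _ (nsq_bary_le_supp h.dens _ _)⟩
  refine walkE_mono h.ulc h.ht h.hτ θ₀ (hbm.smul a).exp ?_ fun ω => ?_
  · refine ⟨((continuous_mg h.dens hc _).comp' (h.continuous_pos θ₀ k)).measurable,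
      Real.exp (|a| * ((nsq v + D) / 2)), fun ω => ?_⟩
    simp only []
    rw [← dens_integral_post h.dens, ← Real.norm_eq_abs]
    haveI := dens_isProb (dens_post h.dens (rk t τ k) (pos τ θ₀ ω k))
    refine (norm_integral_le_of_norm_le_const (C := Real.exp (|a| * ((nsq v + D) / 2)))
      ((dens_ae_le (dens_post h.dens _ _)).mono fun x hx => ?_)).trans (le_of_eq (by simp))
    rw [Real.norm_eq_abs, abs_of_pos (Real.exp_pos _)]
    refine Real.exp_le_exp.2 ((le_abs_self _).trans ?_)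
    rw [abs_mul]
    exact mul_le_mul_of_nonneg_left (hbd x hx) (abs_nonneg a)
  · set σ := post ρ (rk t τ k) (pos τ θ₀ ω k)
    haveI := dens_isProb (dens_post h.dens (rk t τ k) (pos τ θ₀ ω k))
    rw [← dens_integral_post h.dens]
    have hb : dotp v (bary ρ (rk t τ k) (pos τ θ₀ ω k)) = ∫ x, dotp v x ∂law σ := by
      rw [← center_post h.ulc (h.rk_nonneg k)]
      exact (integral_dotp (post_ulc h.ulc (h.rk_nonneg k) _) v).symm
    rw [hb, ← integral_const_mul]
    exact exp_integral_le (post_ulc h.ulc (h.rk_nonneg k) _)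
      (dens_integrable (dens_post h.dens _ _) ((continuous_dotp v).const_mul a))
      (dens_integrable (dens_post h.dens _ _) hc)

/-- The drift of one small increment. -/
theorem PathCtx.small_drift (k : ℕ) (θ v w : St n) (hM : 0 ≤ 3 * M) :
    |dotp (slope ρ (rk t τ k) θ (v - cutVec ρ q (rk t τ k) θ v))
        (bary ρ (rk t τ k) (θ + w) - bary ρ (rk t τ k) θ)| ≤
      3 * M * Real.sqrt (nsq v) * (Real.sqrt (nsq w) / (η + t)) := by
  refine (abs_dotp_le_sqrt _ _).trans (mul_le_mul ?_ ?_ (Real.sqrt_nonneg _) (by positivity))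
  · rw [← Real.sqrt_sq hM, ← Real.sqrt_mul (sq_nonneg _)]
    exact Real.sqrt_le_sqrt (h.cut k θ v).2.2
  · have hden : 0 < η + t := by linarith [h.ulc.pos, h.ht]
    rw [← Real.sqrt_sq hden.le, ← Real.sqrt_div (nsq_nonneg' w)]
    refine Real.sqrt_le_sqrt ((dBary_coco h.ulc (h.rk_nonneg k) θ w).2.2.1.trans ?_)
    exact div_le_div_of_nonneg_left (nsq_nonneg' w) (by positivity)
      (pow_le_pow_left₀ hden.le (by linarith [h.rk_ge k]) 2)

/-- The mean of one small increment under a tilted step. -/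
theorem PathCtx.small_step (k : ℕ) (θ v w : St n) (σ : ℝ) (hσ : |σ| ≤ 1) :
    ∫ g, σ * stepInc ρ (rk t τ k) τ θ (v - cutVec ρ q (rk t τ k) θ v) g *
        stepWt ρ (rk t τ k) τ (θ + w) g ∂P166W.gauss (Fin n) ≤
      τ * (3 * M * Real.sqrt (nsq v) * (Real.sqrt (nsq w) / (η + t))) +
        τ * Real.sqrt τ * (6 * envC n (1 + D + 10 * nsq v)) := by
  have hM : 0 ≤ 3 * M := by
    have := (h.hq 0 le_rfl (one_div_nonneg.2 (by linarith [h.ulc.pos, h.ht]))).2
    simpa using this
  have hd := h.small_drift k θ v w hM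
  have hm := (h.cutCtx k θ (le_refl (nsq v))).2.mean_step θ w
  generalize v - cutVec ρ q (rk t τ k) θ v = u at hd hm ⊢
  generalize dotp (slope ρ (rk t τ k) θ u) (bary ρ (rk t τ k) (θ + w) - bary ρ (rk t τ k) θ) = d
    at hd hm ⊢
  simp only [mul_assoc, integral_const_mul] at hm ⊢
  generalize ∫ g, stepInc ρ (rk t τ k) τ θ u g * stepWt ρ (rk t τ k) τ (θ + w) g
    ∂P166W.gauss (Fin n) = I at hm ⊢
  have h1 := abs_sub_abs_le_abs_sub I (τ * d)
  rw [abs_mul, abs_of_pos h.hτ] at h1
  have h2 := mul_le_mul_of_nonneg_left hd h.hτ.le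
  have h3 : σ * I ≤ |I| := (le_abs_self _).trans (by
    rw [abs_mul]; exact mul_le_of_le_one_left (abs_nonneg I) hσ)
  linarith

/-- The mean of the small part on tilted paths. -/
theorem PathCtx.zs_mean (θ₀ v w : St n) (σ : ℝ) (hσ : |σ| ≤ 1) :
    σ * walkE ρ t τ (θ₀ + w) (fun ω : Noise n N => zs ρ q t τ θ₀ ω v N) ≤
      N * (τ * (3 * M * Real.sqrt (nsq v) * (Real.sqrt (nsq w) / (η + t))) +
        τ * Real.sqrt τ * (6 * envC n (1 + D + 10 * nsq v))) := by
  set c := 1 + D + 10 * nsq v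
  set S := τ * (3 * M * Real.sqrt (nsq v) * (Real.sqrt (nsq w) / (η + t))) +
    τ * Real.sqrt τ * (6 * envC n c)
  have hM : 0 ≤ 3 * M := by
    have := (h.hq 0 le_rfl (one_div_nonneg.2 (by linarith [h.ulc.pos, h.ht]))).2
    simpa using this
  have hS : 0 ≤ S := by
    have := h.hτ; have := h.ulc.pos; have := h.ht; have := envC_nonneg n c; positivity
  suffices H : ∀ k ≤ N, walkE ρ t τ (θ₀ + w)
      (fun ω : Noise n N => σ * zs ρ q t τ θ₀ ω v k) ≤ k * S by
    rw [← walkE_smul]; exact H N le_rfl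
  intro k
  induction k with
  | zero =>
    intro _
    simp [zs, walkE_const h.ulc h.ht h.hτ]
  | succ k ih =>
    intro hk
    set Φ : Noise n N → St n → ℝ := fun ω g => σ * stepInc ρ (rk t τ k) τ (pos τ θ₀ ω k)
      (v - cutVec ρ q (rk t τ k) (pos τ θ₀ ω k) v) g with hΦ
    have hb : BMeas (Function.uncurry Φ) := by
      have hp : Continuous fun p : Noise n N × St n => pos τ θ₀ p.1 k :=
        (h.continuous_pos θ₀ k).comp' continuous_fst
      refine BMeas.smul σ ⟨(h.continuous_stepInc₂ _ hp (continuous_const.sub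
        ((continuous_cutVec h.dens q _ v).comp' hp)) continuous_snd).measurable, 2 * c,
        fun p => (h.abs_stepInc_le k _ le_rfl _).2⟩
    have hB : Before k Φ := fun ω ω' e => by simp only [hΦ, before_pos τ θ₀ k ω ω' e]
    have h1 := h.step_le (θ₀ + w) hk (G := fun _ => (1 : ℝ)) (BMeas.const 1) (fun _ => zero_le_one)
      (fun _ _ _ => rfl) hb hB (Ψ := fun _ => S) (BMeas.const S) (fun _ _ _ => rfl) (fun ω => by
        simp only [hΦ, pos_shift]
        exact h.small_step k (pos τ θ₀ ω k) v w σ hσ)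
    have e : (fun ω : Noise n N => σ * zs ρ q t τ θ₀ ω v (k + 1)) =
        fun ω => σ * zs ρ q t τ θ₀ ω v k + 1 * Φ ω (incr ω k) := funext fun ω => by
      simp only [zs, hΦ, Finset.sum_range_succ, incA, mul_add, one_mul]
    have hbi : BMeas fun ω : Noise n N => 1 * Φ ω (incr ω k) := (bmeas_incr hb k).smul 1
    rw [e, walkE_add h.ulc h.ht h.hτ _ ((h.bmeas_zs θ₀ v k).smul σ) hbi]
    have h2 := walkE_const (N := N) h.ulc h.ht h.hτ (θ₀ + w) (1 * S)
    have h3 := ih (by omega)
    rw [h2] at h1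
    push_cast
    linarith

/-- The mean square of the cut part on tilted paths. -/
theorem PathCtx.zc_sq (θ₀ w : St n) (X : ℕ → ℝ)
    (hX : ∀ j < N, walkE ρ t τ (θ₀ + w)
      (fun ω : Noise n N => excess ρ q (rk t τ j) (pos τ θ₀ ω j)) ≤ X j)
    {α : ℝ} (hα : 0 < α) :
    walkE ρ t τ (θ₀ + w) (fun ω : Noise n N => nsq (zc ρ q t τ θ₀ ω N)) ≤
      (α + ∑ j ∈ range N, (τ * (b / (η + rk t τ j)) * (Real.sqrt (nsq w) / (η + rk t τ j)) +
          τ * Real.sqrt τ * ((n + 1) * (6 * envC n (1 + D + 10)))) +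
        Real.sqrt (∑ j ∈ range N,
          (τ * X j + τ * Real.sqrt τ * (n * (3 * envC n (1 + D + 10)))))) ^ 2 := by
  set E := envC n (1 + D + 10)
  have hE : 0 ≤ E := envC_nonneg n _
  set m := fun j => τ * (b / (η + rk t τ j)) * (Real.sqrt (nsq w) / (η + rk t τ j)) +
    τ * Real.sqrt τ * ((n + 1) * (6 * E))
  set Q := fun j => τ * X j + τ * Real.sqrt τ * (n * (3 * E))
  have hτ := h.hτ
  have hpos : ∀ j, 0 < η + rk t τ j := fun j => by linarith [h.ulc.pos, h.rk_nonneg j]
  have hm0 : ∀ j, 0 ≤ m j := fun j => by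
    have := hpos j; have := h.hb0; positivity
  have hexb : ∀ j, BMeas fun ω : Noise n N => excess ρ q (rk t τ j) (pos τ θ₀ ω j) := fun j => by
    refine ⟨((continuous_excess h.dens q _).comp' (h.continuous_pos θ₀ j)).measurable,
      (b / (η + rk t τ j)) ^ 2 * n, fun ω => ?_⟩
    rw [abs_of_nonneg (show 0 ≤ excess ρ q (rk t τ j) (pos τ θ₀ ω j) from
      Finset.sum_nonneg fun i _ => nsq_nonneg' _), excess]
    refine (Finset.sum_le_sum fun i _ => (h.cut j (pos τ θ₀ ω j) (Pi.single i 1)).2.1).trans ?_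
    simp [nsq, Pi.single_apply, mul_comm]
  have hQ0 : ∀ j < N, 0 ≤ Q j := fun j hj => by
    have hXj : 0 ≤ X j := by
      refine le_trans ?_ (hX j hj)
      refine (walkE_const (N := N) h.ulc h.ht h.hτ (θ₀ + w) 0).symm.le.trans ?_
      exact walkE_mono h.ulc h.ht h.hτ _ (BMeas.const 0) (hexb j) fun ω =>
        Finset.sum_nonneg fun i _ => nsq_nonneg' _
    simp only [Q]; positivity
  suffices H : ∀ k ≤ N, walkE ρ t τ (θ₀ + w) (fun ω : Noise n N => nsq (zc ρ q t τ θ₀ ω k)) ≤
      (α + ∑ j ∈ range k, m j + Real.sqrt (∑ j ∈ range k, Q j)) ^ 2 from H N le_rfl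
  intro k
  induction k with
  | zero =>
    intro _
    simp only [nsq, zc, Finset.range_zero, Finset.sum_empty, zero_pow (two_ne_zero),
      Finset.sum_const_zero, Real.sqrt_zero, add_zero]
    rw [walkE_const h.ulc h.ht h.hτ]
    positivity
  | succ k ih =>
    intro hk
    set A := α + ∑ j ∈ range k, m j + Real.sqrt (∑ j ∈ range k, Q j) with hA
    have hA0 : 0 < A := by
      have := Finset.sum_nonneg fun j (_ : j ∈ range k) => hm0 j
      have := Real.sqrt_nonneg (∑ j ∈ range k, Q j)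
      simp only [A]; linarith
    set θ := fun ω : Noise n N => pos τ θ₀ ω k
    set xg := fun (ω : Noise n N) (g : St n) (i : Fin n) =>
      stepInc ρ (rk t τ k) τ (θ ω) (cutVec ρ q (rk t τ k) (θ ω) (Pi.single i 1)) g
    set z := fun ω : Noise n N => zc ρ q t τ θ₀ ω k
    have hu : ∀ i, nsq (Pi.single i 1 : St n) ≤ 1 := fun i => by simp [nsq, Pi.single_apply]
    have hcx : ∀ ω i, StepCtx η D (1 + D + 10) (rk t τ k) τ ρ
        (cutVec ρ q (rk t τ k) (θ ω) (Pi.single i 1)) := fun ω i => by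
      simpa using (h.cutCtx k (θ ω) (hu i)).1
    have hxb : ∀ i, BMeas (Function.uncurry fun ω g => xg ω g i) := fun i => by
      have hp : Continuous fun p : Noise n N × St n => pos τ θ₀ p.1 k :=
        (h.continuous_pos θ₀ k).comp' continuous_fst
      exact ⟨(h.continuous_stepInc₂ _ hp ((continuous_cutVec h.dens q _ _).comp' hp)
        continuous_snd).measurable, 2 * (1 + D + 10),
        fun p => ((hcx p.1 i).inc_bounds _ p.2).1⟩
    set Φ : Noise n N → St n → ℝ := fun ω g => ∑ i, (2 * z ω i * xg ω g i + xg ω g i * xg ω g i)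
    have hΦb : BMeas (Function.uncurry Φ) := by
      refine BMeas.sum (F := fun i (p : Noise n N × St n) =>
        2 * z p.1 i * xg p.1 p.2 i + xg p.1 p.2 i * xg p.1 p.2 i) fun i _ => ?_
      refine BMeas.add (BMeas.mul ?_ (hxb i)) ((hxb i).mul (hxb i))
      exact bmeas_fst ((h.bmeas_zc (N := N) θ₀ k i).smul 2)
    have hΦB : Before k Φ := fun ω ω' e => by
      funext g
      simp only [Φ, xg, z, θ, before_pos τ θ₀ k ω ω' e, before_zc θ₀ k ω ω' e]
    set mk := m k
    set Ψ := fun ω : Noise n N => nsq (z ω) * (mk / A) + A * mk +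
      (τ * excess ρ q (rk t τ k) (θ ω) + τ * Real.sqrt τ * (n * (3 * E)))
    have hΨb : BMeas Ψ := by
      refine ((((h.bmeas_nsq_zc θ₀ k).mul (BMeas.const _))).add (BMeas.const _)).add ?_
      exact ((hexb k).smul τ).add (BMeas.const _)
    have hΨB : Before k Ψ := fun ω ω' e => by
      simp only [Ψ, z, θ, before_pos τ θ₀ k ω ω' e, before_zc θ₀ k ω ω' e]
    have hle : ∀ ω, ∫ g, Φ ω g * stepWt ρ (rk t τ k) τ (pos τ (θ₀ + w) ω k) g
        ∂P166W.gauss (Fin n) ≤ Ψ ω := fun ω => by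
      rw [pos_shift]
      set W := stepWt ρ (rk t τ k) τ (θ ω + w)
      set Δ := bary ρ (rk t τ k) (θ ω + w) - bary ρ (rk t τ k) (θ ω)
      set u := fun i : Fin n => cutVec ρ q (rk t τ k) (θ ω) (Pi.single i 1)
      have iW : ∀ i, Integrable (fun g => xg ω g i * W g) (P166W.gauss (Fin n)) := fun i => by
        refine ((integrable_part_step h.ulc (h.rk_nonneg k) h.hτ (θ ω + w)).div_const
          (part ρ (rk t τ k) (θ ω + w))).bdd_mul (c := 2 * (1 + D + 10))
          ((hcx ω i).continuous_stepInc _).aestronglyMeasurable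
          (Eventually.of_forall fun g => by
            rw [Real.norm_eq_abs]; exact ((hcx ω i).inc_bounds _ g).1)
      have i2 : ∀ i, Integrable (fun g => xg ω g i ^ 2 * W g) (P166W.gauss (Fin n)) := fun i =>
        ((hcx ω i).square_step (θ ω) w).1
      have e : ∀ g, Φ ω g * W g =
          ∑ i, (2 * z ω i * (xg ω g i * W g) + xg ω g i ^ 2 * W g) := fun g => by
        simp only [Φ, Finset.sum_mul]
        exact Finset.sum_congr rfl fun i _ => by ring
      simp only [e]
      have iI : ∀ i, Integrable (fun g => 2 * z ω i * (xg ω g i * W g) + xg ω g i ^ 2 * W g)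
          (P166W.gauss (Fin n)) := fun i => ((iW i).const_mul _).add (i2 i)
      rw [integral_finsetSum _ fun i _ => iI i]
      have e2 : ∀ i, ∫ g, (2 * z ω i * (xg ω g i * W g) + xg ω g i ^ 2 * W g) ∂P166W.gauss (Fin n) =
          2 * z ω i * (∫ g, xg ω g i * W g ∂P166W.gauss (Fin n)) +
            ∫ g, xg ω g i ^ 2 * W g ∂P166W.gauss (Fin n) := fun i => by
        rw [integral_add ((iW i).const_mul _) (i2 i), integral_const_mul]
      simp only [e2, Finset.sum_add_distrib]
      refine add_le_add ?_ ?_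
      · set d := fun i => dotp (slope ρ (rk t τ k) (θ ω) (u i)) Δ
        have hmi : ∀ i, |(∫ g, xg ω g i * W g ∂P166W.gauss (Fin n)) - τ * d i| ≤
            τ * Real.sqrt τ * (6 * E) := fun i => (hcx ω i).mean_step (θ ω) w
        have s1 : ∑ i, z ω i * d i =
            dotp (slope ρ (rk t τ k) (θ ω) (cutVec ρ q (rk t τ k) (θ ω) (z ω))) Δ := by
          rw [cutVec_combo (q := q) (rk t τ k) (θ ω) (z ω)]
          simp only [slope, Matrix.mulVec_sum, Matrix.mulVec_smul, d, u, dotp, Finset.sum_apply,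
            Pi.smul_apply, smul_eq_mul, Finset.sum_mul, Finset.mul_sum, mul_assoc]
          exact Finset.sum_comm
        have hz0 := Real.sqrt_nonneg (nsq (z ω))
        have s2 : |∑ i, z ω i * d i| ≤ Real.sqrt (nsq (z ω)) *
            (b / (η + rk t τ k) * (Real.sqrt (nsq w) / (η + rk t τ k))) := by
          rw [s1, ← mul_assoc, mul_comm (Real.sqrt _)]
          have := hpos k
          have := h.hb0
          refine (abs_dotp_le_sqrt _ _).trans (mul_le_mul ?_ ?_ (Real.sqrt_nonneg _) (by positivity))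
          · rw [← Real.sqrt_sq (show 0 ≤ b / (η + rk t τ k) by positivity),
              ← Real.sqrt_mul (sq_nonneg _)]
            exact Real.sqrt_le_sqrt (h.cut k (θ ω) (z ω)).2.1
          · rw [← Real.sqrt_sq (hpos k).le, ← Real.sqrt_div (nsq_nonneg' w)]
            exact Real.sqrt_le_sqrt (dBary_coco h.ulc (h.rk_nonneg k) (θ ω) w).2.2.1
        have s3 : ∀ i, z ω i * ((∫ g, xg ω g i * W g ∂P166W.gauss (Fin n)) - τ * d i) ≤
            Real.sqrt (nsq (z ω)) * (τ * Real.sqrt τ * (6 * E)) := fun i => by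
          refine (le_abs_self _).trans ?_
          rw [abs_mul]
          refine mul_le_mul ?_ (hmi i) (abs_nonneg _) hz0
          rw [← Real.sqrt_sq_eq_abs]
          exact Real.sqrt_le_sqrt (sq_le_nsq (z ω) i)
        have s4 : ∑ i, z ω i * (∫ g, xg ω g i * W g ∂P166W.gauss (Fin n)) ≤
            Real.sqrt (nsq (z ω)) * mk := by
          have := Finset.sum_le_sum fun i (_ : i ∈ (univ : Finset (Fin n))) => s3 i
          simp only [mul_sub, Finset.sum_sub_distrib, Finset.sum_const, Finset.card_univ,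
            Fintype.card_fin, nsmul_eq_mul] at this
          have e4 : ∑ i, z ω i * (τ * d i) = τ * ∑ i, z ω i * d i := by
            rw [Finset.mul_sum]; exact Finset.sum_congr rfl fun i _ => by ring
          have s5 := mul_le_mul_of_nonneg_left ((le_abs_self _).trans s2) hτ.le
          have s6 : 0 ≤ Real.sqrt (nsq (z ω)) * (τ * Real.sqrt τ * (6 * E)) := by positivity
          simp only [mk, m]
          nlinarith
        have s7 : 2 * (Real.sqrt (nsq (z ω)) * mk) ≤ nsq (z ω) * (mk / A) + A * mk := by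
          have h8 : 2 * Real.sqrt (nsq (z ω)) ≤ nsq (z ω) / A + A := by
            rw [div_add' _ _ _ hA0.ne', le_div_iff₀ hA0]
            nlinarith [sq_nonneg (Real.sqrt (nsq (z ω)) - A), Real.sq_sqrt (nsq_nonneg' (z ω))]
          have := mul_le_mul_of_nonneg_right h8 (hm0 k)
          simp only [mk]
          calc 2 * (Real.sqrt (nsq (z ω)) * m k) = 2 * Real.sqrt (nsq (z ω)) * m k := by ring
            _ ≤ (nsq (z ω) / A + A) * m k := this
            _ = _ := by ring
        have e5 : ∑ i, 2 * z ω i * (∫ g, xg ω g i * W g ∂P166W.gauss (Fin n)) =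
            2 * ∑ i, z ω i * (∫ g, xg ω g i * W g ∂P166W.gauss (Fin n)) := by
          rw [Finset.mul_sum]; exact Finset.sum_congr rfl fun i _ => by ring
        rw [e5]
        linarith
      · have := Finset.sum_le_sum fun i (_ : i ∈ (univ : Finset (Fin n))) =>
          ((hcx ω i).square_step (θ ω) w).2
        simp only [Finset.sum_add_distrib, ← Finset.mul_sum, Finset.sum_const, Finset.card_univ,
          Fintype.card_fin, nsmul_eq_mul] at this
        refine this.trans (le_of_eq ?_)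
        simp only [excess, E]
        ring
    have h1 := h.step_le (θ₀ + w) hk (G := fun _ => (1 : ℝ)) (BMeas.const 1) (fun _ => zero_le_one)
      (fun _ _ _ => rfl) hΦb hΦB hΨb hΨB hle
    simp only [one_mul] at h1
    have e : (fun ω : Noise n N => nsq (zc ρ q t τ θ₀ ω (k + 1))) =
        fun ω => nsq (z ω) + Φ ω (incr ω k) := funext fun ω => by
      simp only [nsq, z, Φ, xg, θ, zc, Finset.sum_range_succ, incA, ← Finset.sum_add_distrib]
      exact Finset.sum_congr rfl fun i _ => by ring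
    have hΦi : BMeas fun ω : Noise n N => Φ ω (incr ω k) := bmeas_incr hΦb k
    rw [e, walkE_add h.ulc h.ht h.hτ _ (h.bmeas_nsq_zc θ₀ k) hΦi]
    refine (add_le_add le_rfl h1).trans ?_
    have i1 := ih (by omega)
    have hP : walkE ρ t τ (θ₀ + w) Ψ = (mk / A) * walkE ρ t τ (θ₀ + w)
        (fun ω : Noise n N => nsq (z ω)) + A * mk +
        (τ * walkE ρ t τ (θ₀ + w) (fun ω : Noise n N => excess ρ q (rk t τ k) (θ ω)) +
          τ * Real.sqrt τ * (n * (3 * E))) := by
      simp only [Ψ]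
      rw [walkE_add h.ulc h.ht h.hτ _ (((h.bmeas_nsq_zc θ₀ k).mul (BMeas.const _)).add
          (BMeas.const _)) (((hexb k).smul τ).add (BMeas.const _)),
        walkE_add h.ulc h.ht h.hτ _ ((h.bmeas_nsq_zc θ₀ k).mul (BMeas.const _)) (BMeas.const _),
        walkE_add h.ulc h.ht h.hτ _ ((hexb k).smul τ) (BMeas.const _), walkE_smul,
        walkE_const h.ulc h.ht h.hτ, walkE_const h.ulc h.ht h.hτ]
      simp only [z, θ, mul_comm _ (mk / A), walkE_smul]
    rw [hP]
    have hX' := mul_le_mul_of_nonneg_left (hX k hk) hτ.le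
    have h9 := mul_le_mul_of_nonneg_left i1 (div_nonneg (hm0 k) hA0.le)
    have h10 : mk / A * A ^ 2 = mk * A := by field_simp
    set S := ∑ j ∈ range k, Q j with hS
    have hS0 : 0 ≤ S := Finset.sum_nonneg fun j hj => hQ0 j (by
      have := Finset.mem_range.1 hj; omega)
    have hQk := hQ0 k hk
    rw [Finset.sum_range_succ, Finset.sum_range_succ]
    have h11 : Real.sqrt S ≤ Real.sqrt (S + Q k) := Real.sqrt_le_sqrt (by linarith)
    have h12 := Real.sq_sqrt hS0
    have h13 := Real.sq_sqrt (add_nonneg hS0 hQk)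
    have h14 : 0 ≤ α + ∑ j ∈ range k, m j := by
      have := Finset.sum_nonneg fun j (_ : j ∈ range k) => hm0 j
      linarith
    have h15 : A ^ 2 + 2 * A * mk + Q k ≤
        (α + (∑ j ∈ range k, m j + m k) + Real.sqrt (S + Q k)) ^ 2 := by
      have p := mul_nonneg (add_nonneg h14 (hm0 k)) (sub_nonneg.2 h11)
      simp only [A, mk]
      nlinarith [sq_nonneg (m k)]
    simp only [← hA, mk, Q] at *
    linarith

end

end Vale.Agent.P245.Gen2
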