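import Vale.Agent.P245.Gen2.Chain
import Vale.Agent.P245.Gen2.Support
import Vale.Agent.P245.Gen2.Facts
import Vale.Agent.P245.General.EpBasic

/-!
# P245, polylogarithmic bound: expansion of one step

A tilt of size `c` moves the mean of a bounded function by its covariance with the tilt, up to
`c²`.  From this, one step of the chain moves a posterior average by the covariance against the
noise, up to the step size.
-/

open MeasureTheory

namespace Vale.Agent.P245.Gen2

open General

noncomputable section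

variable {n : ℕ} {η D h s : ℝ} {σ ν : St n → ℝ}

/-- The bounded tilt expansion. -/
theorem tilt_expand {α : Type*} [MeasurableSpace α] {μ : Measure α} [IsProbabilityMeasure μ]
    {F φ : α → ℝ} (hF : Measurable F) (hφ : Measurable φ) {M c : ℝ}
    (hM : ∀ᵐ x ∂μ, |F x| ≤ M) (hc : ∀ᵐ x ∂μ, |φ x| ≤ c) :
    |(∫ x, F x * Real.exp (φ x) ∂μ) / (∫ x, Real.exp (φ x) ∂μ) - (∫ x, F x ∂μ)
        - ((∫ x, F x * φ x ∂μ) - (∫ x, F x ∂μ) * ∫ x, φ x ∂μ)| ≤ 12 * M * c ^ 2 := by
  obtain ⟨x₀, hx₀, hx₁⟩ := (hM.and hc).exists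
  have hM0 : 0 ≤ M := (abs_nonneg _).trans hx₀
  have hc0 : 0 ≤ c := (abs_nonneg _).trans hx₁
  have iF : Integrable F μ := Integrable.of_bound hF.aestronglyMeasurable M hM
  have iφ : Integrable φ μ := Integrable.of_bound hφ.aestronglyMeasurable c hc
  have he : ∀ᵐ x ∂μ, Real.exp (-c) ≤ Real.exp (φ x) ∧ Real.exp (φ x) ≤ Real.exp c := by
    filter_upwards [hc] with x hx
    exact ⟨Real.exp_le_exp.2 (abs_le.1 hx).1, Real.exp_le_exp.2 (abs_le.1 hx).2⟩
  have ie : Integrable (fun x => Real.exp (φ x)) μ :=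
    Integrable.of_bound hφ.exp.aestronglyMeasurable (Real.exp c)
      (he.mono fun x hx => by rw [Real.norm_eq_abs, abs_of_pos (Real.exp_pos _)]; exact hx.2)
  have iFe : Integrable (fun x => F x * Real.exp (φ x)) μ :=
    ie.bdd_mul hF.aestronglyMeasurable hM
  have iFφ : Integrable (fun x => F x * φ x) μ := iφ.bdd_mul hF.aestronglyMeasurable hM
  set m := ∫ x, F x ∂μ with hm
  set Z := ∫ x, Real.exp (φ x) ∂μ with hZ
  set P := ∫ x, F x * φ x ∂μ with hP
  set A := ∫ x, F x * Real.exp (φ x) ∂μ with hA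
  have hm1 : |m| ≤ M := by
    simpa using norm_integral_le_of_norm_le_const (μ := μ) (f := F) hM
  have hφ1 : |∫ x, φ x ∂μ| ≤ c := by
    simpa using norm_integral_le_of_norm_le_const (μ := μ) (f := φ) hc
  have hP1 : |P| ≤ M * c := by
    simpa using norm_integral_le_of_norm_le_const (μ := μ) (f := fun x => F x * φ x)
      ((hM.and hc).mono fun x hx => by
        rw [Real.norm_eq_abs, abs_mul]
        exact mul_le_mul hx.1 hx.2 (abs_nonneg _) hM0)
  have hZlo : Real.exp (-c) ≤ Z := by
    have := integral_mono_ae (integrable_const (Real.exp (-c))) ie (he.mono fun x hx => hx.1)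
    simpa using this
  have hZ0 : 0 < Z := (Real.exp_pos _).trans_le hZlo
  have hcov : |P - m * ∫ x, φ x ∂μ| ≤ 2 * M * c := by
    refine (abs_sub _ _).trans ?_
    rw [abs_mul]
    nlinarith [mul_le_mul hm1 hφ1 (abs_nonneg _) hM0]
  rcases le_or_gt (1 / 2) c with hc2 | hc2
  · have hA1 : |A| ≤ M * Z := by
      have := norm_integral_le_of_norm_le (ie.const_mul M) (f := fun x => F x * Real.exp (φ x))
        (hM.mono fun x hx => by
          rw [Real.norm_eq_abs, abs_mul, abs_of_pos (Real.exp_pos _)]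
          exact mul_le_mul_of_nonneg_right hx (Real.exp_pos _).le)
      rw [integral_const_mul, Real.norm_eq_abs] at this
      exact this
    have hA2 : |A / Z| ≤ M := by
      rw [abs_div, abs_of_pos hZ0, div_le_iff₀ hZ0]; exact hA1
    refine (abs_sub _ _).trans ?_
    nlinarith [abs_sub (A / Z) m, mul_nonneg hM0 (mul_nonneg hc0 (sub_nonneg.2 hc2)),
      mul_nonneg hM0 (mul_nonneg (sub_nonneg.2 hc2) (sub_nonneg.2 hc2))]
  · have hZhalf : 1 / 2 ≤ Z := by linarith [Real.add_one_le_exp (-c)]
    have hZ1 : |Z - 1| ≤ 2 * c := by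
      have := norm_integral_le_of_norm_le_const (μ := μ) (f := fun x => Real.exp (φ x) - 1)
        (C := 2 * c) (hc.mono fun x hx => by
          rw [Real.norm_eq_abs]
          exact (Real.abs_exp_sub_one_le (by linarith)).trans (by linarith))
      rw [integral_sub ie (integrable_const _)] at this
      simpa using this
    set Rint := ∫ x, (F x - m) * (Real.exp (φ x) - 1 - φ x) ∂μ with hR
    have hR1 : |Rint| ≤ 2 * M * c ^ 2 := by
      have := norm_integral_le_of_norm_le_const (μ := μ)
        (f := fun x => (F x - m) * (Real.exp (φ x) - 1 - φ x))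
        (C := 2 * M * c ^ 2) ((hM.and hc).mono fun x hx => by
          rw [Real.norm_eq_abs, abs_mul]
          refine mul_le_mul ((abs_sub _ _).trans (by linarith [hx.1])) ?_ (abs_nonneg _)
            (by linarith)
          refine (Real.abs_exp_sub_one_sub_id_le (by linarith [hx.2])).trans ?_
          rw [← sq_abs (φ x)]
          exact pow_le_pow_left₀ (abs_nonneg _) hx.2 2)
      simpa using this
    have hRe : Rint = A - m * Z - (P - m * ∫ x, φ x ∂μ) := by
      have e : (fun x => (F x - m) * (Real.exp (φ x) - 1 - φ x)) = fun x =>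
          (F x * Real.exp (φ x) - m * Real.exp (φ x)) - (F x - m) - (F x * φ x - m * φ x) :=
        funext fun x => by ring
      have i1 : Integrable (fun x => F x * Real.exp (φ x) - m * Real.exp (φ x)) μ :=
        iFe.sub (ie.const_mul m)
      have i2 : Integrable (fun x => F x - m) μ := iF.sub (integrable_const m)
      have i3 : Integrable (fun x => F x * φ x - m * φ x) μ := iFφ.sub (iφ.const_mul m)
      have i12 : Integrable
          (fun x => F x * Real.exp (φ x) - m * Real.exp (φ x) - (F x - m)) μ := i1.sub i2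
      rw [hR, e, integral_sub i12 i3, integral_sub i1 i2, integral_sub iFe (ie.const_mul m),
        integral_sub iF (integrable_const m), integral_sub iFφ (iφ.const_mul m),
        integral_const_mul, integral_const_mul, integral_const, probReal_univ, one_smul]
      simp only [A, Z, P, m]
      ring
    set cv := P - m * ∫ x, φ x ∂μ
    have e2 : A / Z - m - cv = (Rint - cv * (Z - 1)) / Z := by
      rw [hRe]; field_simp; ring
    rw [e2, abs_div, abs_of_pos hZ0, div_le_iff₀ hZ0]
    refine (abs_sub _ _).trans ?_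
    rw [abs_mul]
    nlinarith [mul_le_mul hcov hZ1 (abs_nonneg _) (by positivity : (0:ℝ) ≤ 2 * M * c),
      mul_le_mul_of_nonneg_left hZhalf (by positivity : (0:ℝ) ≤ 12 * M * c ^ 2)]

/-- A polynomial weight of the noise. -/
def wG (g : St n) : ℝ := (1 + nsq g) ^ 4

theorem one_le_wG (g : St n) : 1 ≤ wG g := one_le_pow₀ (one_le_one_add_nsq g)

theorem sq_le_wG (g : St n) : (1 + nsq g) ^ 2 ≤ wG g :=
  pow_le_pow_right₀ (one_le_one_add_nsq g) (by norm_num)

theorem abs_coord_le_supp {x : St n} (hx : nsq x ≤ D) (i : Fin n) : |x i| ≤ 1 + D :=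
  (abs_coord_le x i).trans (by linarith)

/-- The posterior of a posterior. -/
theorem dens_mg_post (hσ : Dens D σ) (r s : ℝ) (θ θ' : St n) (G : St n → ℝ) :
    mg (post σ r θ) G s θ' = mg σ G (r + s) (θ + θ') := by
  have e : ∀ G : St n → ℝ,
      num (post σ r θ) G s θ' = num σ G (r + s) (θ + θ') / part σ r θ := fun G => by
    rw [num, dens_integral_post hσ, mg]
    congr 1
    refine integral_congr_ae (Filter.Eventually.of_forall fun x => ?_)
    simp only [← wgt_mul]
    ring
  have h1 := (dens_part_pos hσ r θ).ne'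
  have h2 := (dens_part_pos hσ (r + s) (θ + θ')).ne'
  simp only [mg, part, e] at *
  field_simp

theorem abs_mg_le_supp (hσ : Dens D σ) {F : St n → ℝ} {M : ℝ} (hM : ∀ x, nsq x ≤ D → |F x| ≤ M)
    (s : ℝ) (θ : St n) : |mg σ F s θ| ≤ M := by
  have := dens_isProb (dens_post hσ s θ)
  rw [← dens_integral_post hσ]
  simpa using norm_integral_le_of_norm_le_const (μ := law (post σ s θ)) (f := F)
    ((dens_ae_le (dens_post hσ s θ)).mono hM)

theorem abs_pcov_le (hσ : Dens D σ) {F G : St n → ℝ} {M N : ℝ}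
    (hM : ∀ x, nsq x ≤ D → |F x| ≤ M) (hN : ∀ x, nsq x ≤ D → |G x| ≤ N) (hM0 : 0 ≤ M)
    (s : ℝ) (θ : St n) : |pcov σ F G s θ| ≤ 2 * M * N := by
  refine (abs_sub _ _).trans ?_
  have h1 : |mg σ (fun x => F x * G x) s θ| ≤ M * N := abs_mg_le_supp hσ (fun x hx => by
    rw [abs_mul]; exact mul_le_mul (hM x hx) (hN x hx) (abs_nonneg _) hM0) s θ
  have h2 := mul_le_mul (abs_mg_le_supp hσ hM s θ) (abs_mg_le_supp hσ hN s θ) (abs_nonneg _) hM0
  rw [abs_mul]
  linarith

/-- One step of a posterior average. -/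
theorem mg_step (hσ : Dens D σ) : ∃ C : ℝ, 0 ≤ C ∧
    ∀ (F : St n → ℝ) (M : ℝ), Continuous F → 0 ≤ M → (∀ x, nsq x ≤ D → |F x| ≤ M) →
      ∀ h : ℝ, 0 < h → h ≤ 1 → ∀ (s : ℝ) (θ X g : St n), nsq X ≤ D →
        |mg σ F (s + h) (move h θ X g) - mg σ F s θ
            - Real.sqrt h * ∑ i, g i * pcov σ F (fun x => x i) s θ|
          ≤ C * M * h * (1 + nsq g) ^ 2 := by
  have hD := dens_nonneg hσ
  set C1 := (1 + D) * (n * (2 + D) + 1) with hC1
  refine ⟨12 * C1 ^ 2 + (n * (1 + D) * (2 * (1 + D)) + D), by positivity,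
    fun F M hF hM0 hM h hh hh1 s θ X g hX => ?_⟩
  set a := h • X + Real.sqrt h • g with ha
  set π := post σ s θ with hπ
  have hπd : Dens D π := dens_post hσ s θ
  have := dens_isProb hπd
  set W := 1 + nsq g with hW
  have hW1 : 1 ≤ W := one_le_one_add_nsq g
  have hs0 := Real.sqrt_nonneg h
  have hsh : h ≤ Real.sqrt h := Real.le_sqrt_of_sq_le (by nlinarith)
  have hai : ∀ i, |a i| ≤ Real.sqrt h * ((2 + D) * W) := fun i => by
    simp only [ha, Pi.add_apply, Pi.smul_apply, smul_eq_mul]
    refine (abs_add_le _ _).trans ?_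
    rw [abs_mul, abs_mul, abs_of_pos hh, abs_of_nonneg hs0]
    have h1 : h * |X i| ≤ Real.sqrt h * ((1 + D) * W) :=
      mul_le_mul hsh ((abs_coord_le_supp hX i).trans
        (le_mul_of_one_le_right (by linarith) hW1)) (abs_nonneg _) hs0
    have h2 : Real.sqrt h * |g i| ≤ Real.sqrt h * W :=
      mul_le_mul_of_nonneg_left (abs_coord_le g i) hs0
    linarith
  set φ := fun x => dotp a x - h / 2 * nsq x with hφ
  have hφc : Continuous φ := by fun_prop
  have hbd : ∀ᵐ x ∂law π, |φ x| ≤ Real.sqrt h * (C1 * W) := (dens_ae_le hπd).mono fun x hx => by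
    have h1 : |dotp a x| ≤ n * (Real.sqrt h * ((2 + D) * W) * (1 + D)) := by
      refine (Finset.abs_sum_le_sum_abs _ _).trans ((Finset.sum_le_sum fun i _ => ?_).trans
        (le_of_eq (by rw [Finset.sum_const, Finset.card_univ, Fintype.card_fin, nsmul_eq_mul])))
      rw [abs_mul]
      exact mul_le_mul (hai i) (abs_coord_le_supp hx i) (abs_nonneg _) (by positivity)
    have h2 : |h / 2 * nsq x| ≤ Real.sqrt h * ((1 + D) * W) := by
      rw [abs_of_nonneg (mul_nonneg (by linarith) (nsq_nonneg x))]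
      refine mul_le_mul (by linarith) ?_ (nsq_nonneg x) hs0
      exact (by linarith : nsq x ≤ 1 + D).trans (le_mul_of_one_le_right (by linarith) hW1)
    refine (abs_sub _ _).trans ((add_le_add h1 h2).trans (le_of_eq ?_))
    rw [hC1]; ring
  have key := tilt_expand hF.measurable hφc.measurable ((dens_ae_le hπd).mono hM) hbd
  have e1 : mg σ F (s + h) (move h θ X g)
      = (∫ x, F x * Real.exp (φ x) ∂law π) / ∫ x, Real.exp (φ x) ∂law π := by
    rw [move, add_assoc, ← dens_mg_post hσ, mg, part, num, num]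
    simp [wgt, φ, π, a]
  have e2 : (∫ x, F x * φ x ∂law π) - (∫ x, F x ∂law π) * ∫ x, φ x ∂law π
      = Real.sqrt h * (∑ i, g i * pcov σ F (fun x => x i) s θ)
        + (h * (∑ i, X i * pcov σ F (fun x => x i) s θ) - h / 2 * pcov σ F nsq s θ) := by
    have i1 : ∀ i, Integrable (fun x => a i * (F x * x i)) (law π) := fun i =>
      dens_integrable hπd (by fun_prop)
    have i2 : ∀ i, Integrable (fun x : St n => a i * x i) (law π) := fun i =>
      dens_integrable hπd (by fun_prop)
    have q1 : ∫ x, F x * φ x ∂law π = (∑ i, a i * mg σ (fun x => F x * x i) s θ)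
        - h / 2 * mg σ (fun x => F x * nsq x) s θ := by
      have e : (fun x => F x * φ x) = fun x => (∑ i, a i * (F x * x i)) - h / 2 * (F x * nsq x) :=
        funext fun x => by
          simp only [φ, dotp, mul_sub, Finset.mul_sum]
          congr 1
          · exact Finset.sum_congr rfl fun i _ => by ring
          · ring
      rw [e, integral_sub (integrable_finsetSum _ fun i _ => i1 i)
        (dens_integrable hπd (by fun_prop)), integral_finsetSum _ fun i _ => i1 i]
      simp only [integral_const_mul]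
      simp only [π, dens_integral_post hσ]
    have q2 : ∫ x, φ x ∂law π = (∑ i, a i * mg σ (fun x => x i) s θ)
        - h / 2 * mg σ nsq s θ := by
      simp only [φ, dotp]
      rw [integral_sub (integrable_finsetSum _ fun i _ => i2 i)
        (dens_integrable hπd (by fun_prop)), integral_finsetSum _ fun i _ => i2 i]
      simp only [integral_const_mul]
      simp only [π, dens_integral_post hσ]
    rw [q1, q2, show ∫ x, F x ∂law π = mg σ F s θ from dens_integral_post hσ s θ F]
    simp only [pcov, mul_sub, Finset.mul_sum, a, Pi.add_apply, Pi.smul_apply, smul_eq_mul,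
      add_mul, Finset.sum_add_distrib, Finset.sum_sub_distrib, mul_add]
    have c1 : ∀ (c : ℝ) (u v : St n), ∑ i, c * u i * v i = ∑ i, c * (u i * v i) := fun c u v =>
      Finset.sum_congr rfl fun i _ => by ring
    have c2 : ∀ (c d : ℝ) (u v : St n),
        ∑ i, d * (c * u i * v i) = ∑ i, c * (u i * (d * v i)) := fun c d u v =>
      Finset.sum_congr rfl fun i _ => by ring
    simp only [c1, c2]
    ring
  have h1 : |h * (∑ i, X i * pcov σ F (fun x => x i) s θ)| ≤
      (n * (1 + D) * (2 * (1 + D))) * M * h := by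
    rw [abs_mul, abs_of_pos hh, mul_comm _ h]
    refine mul_le_mul_of_nonneg_left ?_ hh.le
    refine (Finset.abs_sum_le_sum_abs _ _).trans ((Finset.sum_le_sum fun i _ =>
      (abs_mul _ _).le.trans (mul_le_mul (abs_coord_le_supp hX i) (abs_pcov_le hσ hM
        (fun x hx => abs_coord_le_supp hx i) hM0 s θ) (abs_nonneg _) (by positivity))).trans
      (le_of_eq ?_))
    rw [Finset.sum_const, Finset.card_univ, Fintype.card_fin, nsmul_eq_mul]; ring
  have h2 : |h / 2 * pcov σ F nsq s θ| ≤ D * M * h := by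
    rw [abs_mul, abs_of_pos (by positivity)]
    refine (mul_le_mul_of_nonneg_left (abs_pcov_le hσ hM (N := D) (fun x hx => by
      rw [abs_of_nonneg (nsq_nonneg x)]; exact hx) hM0 s θ) (by positivity)).trans (le_of_eq ?_)
    ring
  rw [← e1, e2, show ∫ x, F x ∂law π = mg σ F s θ from dens_integral_post hσ s θ F] at key
  have e3 : Real.sqrt h * (C1 * W) * (Real.sqrt h * (C1 * W)) = h * (C1 ^ 2 * W ^ 2) := by
    rw [mul_mul_mul_comm, Real.mul_self_sqrt hh.le]; ring
  rw [sq, e3] at key
  have hW2 : 1 ≤ W ^ 2 := one_le_pow₀ hW1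
  have h3 : (n * (1 + D) * (2 * (1 + D)) + D) * M * h
      ≤ (n * (1 + D) * (2 * (1 + D)) + D) * M * h * W ^ 2 :=
    le_mul_of_one_le_right (by positivity) hW2
  obtain ⟨k1, k2⟩ := abs_le.1 key
  obtain ⟨a1, a2⟩ := abs_le.1 h1
  obtain ⟨b1, b2⟩ := abs_le.1 h2
  rw [abs_le]
  constructor <;> linarith

end

end Vale.Agent.P245.Gen2
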