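import Vale.Agent.P245.Gen2.StepExp

/-!
# P245, polylogarithmic bound: means over one step of the pair chain
-/

open MeasureTheory

namespace Vale.Agent.P245.Gen2

open General

noncomputable section

variable {n : ℕ} {η D h s : ℝ} {σ ν : St n → ℝ}

/-- The law of the two posterior points and of the noise of a step. -/
def stepM (σ ν : St n → ℝ) (h : ℝ) (k : ℕ) (p : St n × St n) : Measure ((St n × St n) × St n) :=
  ((law (post σ (k * h) p.1)).prod (law (post ν (k * h) p.2))).prod (P166W.gauss (Fin n))

/-- The state after a step. -/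
def moveP (h : ℝ) (p : St n × St n) (z : (St n × St n) × St n) : St n × St n :=
  (move h p.1 z.1.1 z.2, move h p.2 z.1.2 z.2)

/-- The admissible steps. -/
def Adm (D : ℝ) (z : (St n × St n) × St n) : Prop := nsq z.1.1 ≤ D ∧ nsq z.1.2 ≤ D

@[fun_prop]
theorem continuous_moveP (h : ℝ) (p : St n × St n) : Continuous (moveP h p) := by
  unfold moveP move; fun_prop

theorem isProb_stepM (hσ : Dens D σ) (hν : Dens D ν) (h : ℝ) (k : ℕ) (p : St n × St n) :
    IsProbabilityMeasure (stepM σ ν h k p) := by
  have := dens_isProb (dens_post hσ (k * h) p.1)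
  have := dens_isProb (dens_post hν (k * h) p.2)
  unfold stepM
  infer_instance

theorem adm_ae (hσ : Dens D σ) (hν : Dens D ν) (h : ℝ) (k : ℕ) (p : St n × St n) :
    ∀ᵐ z ∂stepM σ ν h k p, Adm D z := by
  have := dens_isProb (dens_post hσ (k * h) p.1)
  have := dens_isProb (dens_post hν (k * h) p.2)
  exact (Measure.quasiMeasurePreserving_fst.ae (Measure.quasiMeasurePreserving_fst.ae
    (dens_ae_le (dens_post hσ (k * h) p.1)))).and
    (Measure.quasiMeasurePreserving_fst.ae (Measure.quasiMeasurePreserving_snd.ae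
    (dens_ae_le (dens_post hν (k * h) p.2))))

theorem integrable_wG : Integrable (wG (n := n)) (P166W.gauss (Fin n)) :=
  integrable_gauss_pow 4

theorem integrable_stepM (hσ : Dens D σ) (hν : Dens D ν) (h : ℝ) (k : ℕ) (p : St n × St n)
    {H : (St n × St n) × St n → ℝ} (hH : Continuous H) {C : ℝ}
    (hb : ∀ z, Adm D z → |H z| ≤ C * wG z.2) : Integrable H (stepM σ ν h k p) := by
  have := dens_isProb (dens_post hσ (k * h) p.1)
  have := dens_isProb (dens_post hν (k * h) p.2)
  exact ((integrable_wG.const_mul C).comp_snd _).mono' hH.aestronglyMeasurable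
    ((adm_ae hσ hν h k p).mono fun z hz => hb z hz)

/-- Two functions of a step which are close have close means. -/
theorem stepM_close (hσ : Dens D σ) (hν : Dens D ν) (h : ℝ) (k : ℕ) (p : St n × St n)
    {F G : (St n × St n) × St n → ℝ} (hF : Integrable F (stepM σ ν h k p))
    (hG : Integrable G (stepM σ ν h k p)) {E : ℝ} (hb : ∀ z, Adm D z → |F z - G z| ≤ E * wG z.2) :
    |(∫ z, F z ∂stepM σ ν h k p) - ∫ z, G z ∂stepM σ ν h k p|
      ≤ E * ∫ g, wG g ∂P166W.gauss (Fin n) := by
  have := dens_isProb (dens_post hσ (k * h) p.1)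
  have := dens_isProb (dens_post hν (k * h) p.2)
  rw [← integral_sub hF hG]
  have hi : Integrable (fun z => E * wG z.2) (stepM σ ν h k p) := by
    unfold stepM
    exact (integrable_wG.const_mul E).comp_snd _
  refine (norm_integral_le_of_norm_le (f := fun z => F z - G z) hi
    ((adm_ae hσ hν h k p).mono hb)).trans (le_of_eq ?_)
  rw [stepM, integral_fun_snd (f := fun g => E * wG g), probReal_univ, one_smul,
    integral_const_mul]

theorem pairFrom_zero (σ ν : St n → ℝ) (h : ℝ) (k : ℕ) (p : St n × St n) :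
    pairFrom σ ν h k 0 p = Measure.dirac p := rfl

theorem pairFrom_step (σ ν : St n → ℝ) (h : ℝ) (k : ℕ) (p : St n × St n) :
    pairFrom σ ν h k 1 p = (stepM σ ν h k p).map (moveP h p) := by
  show (Measure.dirac p).bind (pairStep σ ν h (k + 0)) = _
  rw [add_zero, Measure.bind, Measure.map_congr (ae_eq_dirac _)]
  show (Measure.map (fun _ => pairStep σ ν h k p) (Measure.dirac p)).join = _
  rw [Measure.map_const, measure_univ, one_smul, Measure.join_dirac]
  rfl

theorem integral_one (σ ν : St n → ℝ) (h : ℝ) (k : ℕ) (p : St n × St n)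
    {F : St n × St n → ℝ} (hm : Measurable F) :
    ∫ q, F q ∂pairFrom σ ν h k 1 p = ∫ z, F (moveP h p z) ∂stepM σ ν h k p := by
  rw [pairFrom_step, integral_map (continuous_moveP h p).measurable.aemeasurable
    hm.aestronglyMeasurable]

theorem integrable_one (hσ : Dens D σ) (hν : Dens D ν) (hh : 0 < h) (k : ℕ) (p : St n × St n)
    {F : St n × St n → ℝ} (hm : Measurable F) (hF : PolyP F) :
    Integrable (fun z => F (moveP h p z)) (stepM σ ν h k p) := by
  have hi := (integrable_pair hσ hν hh k 1 p hm hF).2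
  rw [pairFrom_step] at hi
  exact hi.comp_measurable (continuous_moveP h p).measurable

theorem integral_stepM_fst (hσ : Dens D σ) (hν : Dens D ν) (h : ℝ) (k : ℕ) (p : St n × St n)
    {F : St n × St n → ℝ} (hm : Measurable F) :
    ∫ z, F (z.1.1, z.2) ∂stepM σ ν h k p
      = ∫ y, F y ∂(law (post σ (k * h) p.1)).prod (P166W.gauss (Fin n)) := by
  have := dens_isProb (dens_post hσ (k * h) p.1)
  have := dens_isProb (dens_post hν (k * h) p.2)
  have hmp := (measurePreserving_fst (μ := law (post σ (k * h) p.1))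
    (ν := law (post ν (k * h) p.2))).prod (MeasurePreserving.id (P166W.gauss (Fin n)))
  conv_rhs => rw [← hmp.map_eq]
  rw [integral_map hmp.measurable.aemeasurable hm.aestronglyMeasurable]
  rfl

theorem integral_stepM_snd (hσ : Dens D σ) (hν : Dens D ν) (h : ℝ) (k : ℕ) (p : St n × St n)
    {F : St n × St n → ℝ} (hm : Measurable F) :
    ∫ z, F (z.1.2, z.2) ∂stepM σ ν h k p
      = ∫ y, F y ∂(law (post ν (k * h) p.2)).prod (P166W.gauss (Fin n)) := by
  have := dens_isProb (dens_post hσ (k * h) p.1)
  have := dens_isProb (dens_post hν (k * h) p.2)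
  have hmp := (measurePreserving_snd (μ := law (post σ (k * h) p.1))
    (ν := law (post ν (k * h) p.2))).prod (MeasurePreserving.id (P166W.gauss (Fin n)))
  conv_rhs => rw [← hmp.map_eq]
  rw [integral_map hmp.measurable.aemeasurable hm.aestronglyMeasurable]
  rfl

theorem integral_stepM_noise (hσ : Dens D σ) (hν : Dens D ν) (h : ℝ) (k : ℕ) (p : St n × St n)
    (F : St n → ℝ) : ∫ z, F z.2 ∂stepM σ ν h k p = ∫ g, F g ∂P166W.gauss (Fin n) := by
  have := dens_isProb (dens_post hσ (k * h) p.1)
  have := dens_isProb (dens_post hν (k * h) p.2)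
  rw [stepM, integral_fun_snd (f := F), probReal_univ, one_smul]

theorem integral_stepM_X (hσ : Dens D σ) (hν : Dens D ν) (h : ℝ) (k : ℕ) (p : St n × St n)
    (i : Fin n) : ∫ z, z.1.1 i ∂stepM σ ν h k p = bary σ (k * h) p.1 i := by
  have := dens_isProb (dens_post hσ (k * h) p.1)
  rw [integral_stepM_fst hσ hν h k p (F := fun y : St n × St n => y.1 i) (by fun_prop),
    integral_fun_fst (f := fun x : St n => x i), probReal_univ, one_smul, dens_integral_post hσ]
  rfl

theorem integral_stepM_Y (hσ : Dens D σ) (hν : Dens D ν) (h : ℝ) (k : ℕ) (p : St n × St n)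
    (i : Fin n) : ∫ z, z.1.2 i ∂stepM σ ν h k p = bary ν (k * h) p.2 i := by
  have := dens_isProb (dens_post hν (k * h) p.2)
  rw [integral_stepM_snd hσ hν h k p (F := fun y : St n × St n => y.1 i) (by fun_prop),
    integral_fun_fst (f := fun x : St n => x i), probReal_univ, one_smul, dens_integral_post hν]
  rfl

/-- The first two moments of the noise. -/
theorem gauss_mean (i : Fin n) : ∫ g, g i ∂P166W.gauss (Fin n) = 0 := by
  have := gauss_ibp_c1p (c1p_const (n := n) 1) i
  simpa [pd_const] using this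

theorem gauss_pair (i j : Fin n) :
    ∫ g, g i * g j ∂P166W.gauss (Fin n) = if j = i then 1 else 0 := by
  rw [gauss_ibp_c1p (c1p_coord j) i]
  simp [pd_coord]

theorem gauss_dotp2 (u v : St n) :
    ∫ g, dotp u g * dotp v g ∂P166W.gauss (Fin n) = dotp u v := by
  have hi : ∀ i j, Integrable (fun g => u i * v j * (g i * g j)) (P166W.gauss (Fin n)) :=
    fun i j => (integrable_gauss (by fun_prop)
      (polyB_mul (polyB_coord i) (polyB_coord j))).const_mul _
  have e : (fun g => dotp u g * dotp v g) = fun g => ∑ i, ∑ j, u i * v j * (g i * g j) :=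
    funext fun g => by
      simp only [dotp, Finset.sum_mul_sum]
      exact Finset.sum_congr rfl fun i _ => Finset.sum_congr rfl fun j _ => by ring
  rw [e, integral_finsetSum _ fun i _ => integrable_finsetSum _ fun j _ => hi i j]
  simp only [integral_finsetSum _ fun j _ => hi _ j, integral_const_mul, gauss_pair]
  simp [dotp]

/-- Two nearly linear increments have nearly the product of the linear parts as product. -/
theorem mul_approx {C W a b P Q : ℝ} (hh : 0 ≤ h) (hh1 : h ≤ 1) (hC : 0 ≤ C) (hW : 1 ≤ W)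
    (hP : |P| ≤ C * W ^ 2) (hQ : |Q| ≤ C * W ^ 2) (ha : |a - Real.sqrt h * P| ≤ C * h * W ^ 2)
    (hb : |b - Real.sqrt h * Q| ≤ C * h * W ^ 2) :
    |a * b - h * (P * Q)| ≤ 3 * C ^ 2 * (h * Real.sqrt h) * W ^ 4 := by
  have hs := Real.mul_self_sqrt hh
  have hs0 := Real.sqrt_nonneg h
  have hsh : h ≤ Real.sqrt h := Real.le_sqrt_of_sq_le (by nlinarith)
  set r := a - Real.sqrt h * P
  set t := b - Real.sqrt h * Q
  have e : a * b - h * (P * Q) = Real.sqrt h * P * t + Real.sqrt h * Q * r + r * t := by
    simp only [r, t]; linear_combination (P * Q) * hs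
  have h1 : |Real.sqrt h * P * t| ≤ C ^ 2 * (h * Real.sqrt h) * W ^ 4 := by
    rw [abs_mul, abs_mul, abs_of_nonneg hs0]
    refine (mul_le_mul (mul_le_mul_of_nonneg_left hP hs0) hb (abs_nonneg _) (by positivity)).trans
      (le_of_eq ?_)
    ring
  have h2 : |Real.sqrt h * Q * r| ≤ C ^ 2 * (h * Real.sqrt h) * W ^ 4 := by
    rw [abs_mul, abs_mul, abs_of_nonneg hs0]
    refine (mul_le_mul (mul_le_mul_of_nonneg_left hQ hs0) ha (abs_nonneg _) (by positivity)).trans
      (le_of_eq ?_)
    ring
  have h3 : |r * t| ≤ C ^ 2 * (h * Real.sqrt h) * W ^ 4 := by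
    rw [abs_mul]
    refine (mul_le_mul ha hb (abs_nonneg _) (by positivity)).trans ?_
    have := mul_le_mul_of_nonneg_left hsh (show 0 ≤ C ^ 2 * h * W ^ 4 by positivity)
    linarith
  rw [e]
  exact (abs_add_three _ _ _).trans (by linarith)

end

end Vale.Agent.P245.Gen2
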