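import Vale.Agent.P245.Gen2.StepMean

/-!
# P245, polylogarithmic bound: the first two moments of one step

Up to `h^(3/2)`, one step adds `h frob (gam)` to the squared difference of the barycentres, pairs
it with the displacement through `gam`, and lowers the mean of `gam` by `drift`.
-/

open MeasureTheory

namespace Vale.Agent.P245.Gen2

open General

noncomputable section

variable {n : ℕ} {η D h s : ℝ} {σ ν : St n → ℝ}

/-- The decrease of the mean of `gam` per unit time. -/
def drift (σ ν : St n → ℝ) (h : ℝ) (k : ℕ) (p : St n × St n) : Matrix (Fin n) (Fin n) ℝ :=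
  covMat ν (k * h) p.2 * covMat ν (k * h) p.2 - covMat σ (k * h) p.1 * covMat σ (k * h) p.1

theorem abs_wV_le_supp (hσ : Dens D σ) (hν : Dens D ν) (h : ℝ) (k : ℕ) (p : St n × St n) (a : Fin n) :
    |wV σ ν h k p a| ≤ 2 * (1 + D) := by
  have h1 : |bary ν (k * h) p.2 a| ≤ 1 + D :=
    abs_mg_le_supp hν (fun x hx => abs_coord_le_supp hx a) _ _
  have h2 : |bary σ (k * h) p.1 a| ≤ 1 + D :=
    abs_mg_le_supp hσ (fun x hx => abs_coord_le_supp hx a) _ _
  exact (abs_sub _ _).trans (by linarith)

theorem abs_gam_le (hσ : Dens D σ) (hν : Dens D ν) (h : ℝ) (k : ℕ) (p : St n × St n)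
    (a b : Fin n) : |gam σ ν h k p a b| ≤ 4 * (1 + D) := by
  have := abs_covMat_le hν (k * h) p.2 a b
  have := abs_covMat_le hσ (k * h) p.1 a b
  exact (abs_sub _ _).trans (by linarith)

@[fun_prop]
theorem continuous_wV (hσ : Dens D σ) (hν : Dens D ν) (h : ℝ) (k : ℕ) :
    Continuous (wV σ ν h k) :=
  ((continuous_bary hν _).comp continuous_snd).sub ((continuous_bary hσ _).comp continuous_fst)

theorem continuous_covMat_supp (hσ : Dens D σ) (s : ℝ) (a b : Fin n) :
    Continuous fun θ => covMat σ s θ a b :=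
  (continuous_mg hσ ((continuous_apply a).mul (continuous_apply b)) s).sub
    ((continuous_mg hσ (continuous_apply a) s).mul (continuous_mg hσ (continuous_apply b) s))

theorem continuous_gam (hσ : Dens D σ) (hν : Dens D ν) (h : ℝ) (k : ℕ) (a b : Fin n) :
    Continuous fun p => gam σ ν h k p a b :=
  ((continuous_covMat_supp hν _ a b).comp continuous_snd).sub
    ((continuous_covMat_supp hσ _ a b).comp continuous_fst)

theorem polyP_bdd {F : St n × St n → ℝ} {C : ℝ} (hC : ∀ p, |F p| ≤ C) : PolyP F :=
  ⟨C, 0, fun p => by simpa using hC p⟩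

theorem polyP_lin {F : St n × St n → ℝ} {C : ℝ}
    (hC : ∀ p, |F p| ≤ C * (1 + nsq p.1 + nsq p.2)) : PolyP F :=
  ⟨C, 1, fun p => by simpa using hC p⟩

theorem row_le {C : ℝ} (hC : 0 ≤ C) {u : St n} (hu : ∀ l, |u l| ≤ C) (g : St n) :
    |∑ l, u l * g l| ≤ n * C * (1 + nsq g) ^ 2 := by
  refine (Finset.abs_sum_le_sum_abs _ _).trans ((Finset.sum_le_sum fun l _ => ?_).trans
    (le_of_eq (by rw [Finset.sum_const, Finset.card_univ, Fintype.card_fin, nsmul_eq_mul,
      ← mul_assoc])))
  rw [abs_mul]
  exact mul_le_mul (hu l) ((abs_coord_le g l).trans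
    (le_self_pow₀ (one_le_one_add_nsq g) two_ne_zero)) (abs_nonneg _) hC

theorem abs_sum_le {f : Fin n → ℝ} {c : ℝ} (hf : ∀ a, |f a| ≤ c) : |∑ a, f a| ≤ n * c := by
  refine (Finset.abs_sum_le_sum_abs _ _).trans ((Finset.sum_le_sum fun a _ => hf a).trans ?_)
  simp

theorem gauss_row (u : St n) (b : Fin n) :
    ∫ g, (∑ l, u l * g l) * g b ∂P166W.gauss (Fin n) = u b := by
  have e : (fun g : St n => g b) = dotp (Pi.single b 1) :=
    funext fun g => by simp [dotp, Pi.single_apply]
  have := gauss_dotp2 u (Pi.single b 1)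
  rw [← e] at this
  simpa [dotp, Pi.single_apply] using this

theorem cast_succ_mul (k : ℕ) (h : ℝ) : ((k + 1 : ℕ) : ℝ) * h = k * h + h := by push_cast; ring

/-- One step of the difference of the barycentres. -/
theorem w_step (hσ : Dens D σ) (hν : Dens D ν) : ∃ C : ℝ, 0 ≤ C ∧
    ∀ h : ℝ, 0 < h → h ≤ 1 → ∀ (k : ℕ) (p : St n × St n) (z : (St n × St n) × St n), Adm D z →
      ∀ a : Fin n,
        |wV σ ν h (k + 1) (moveP h p z) a - wV σ ν h k p a
            - Real.sqrt h * ∑ l, gam σ ν h k p a l * z.2 l| ≤ C * h * (1 + nsq z.2) ^ 2 ∧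
          |∑ l, gam σ ν h k p a l * z.2 l| ≤ C * (1 + nsq z.2) ^ 2 := by
  obtain ⟨C1, hC1, hs1⟩ := mg_step hσ
  obtain ⟨C2, hC2, hs2⟩ := mg_step hν
  have hD := dens_nonneg hσ
  refine ⟨C1 * (1 + D) + C2 * (1 + D) + n * (4 * (1 + D)), by positivity,
    fun h hh hh1 k p z hz a => ⟨?_, ?_⟩⟩
  · have a1 := hs1 (fun x => x a) (1 + D) (continuous_apply a) (by linarith)
      (fun x hx => abs_coord_le_supp hx a) h hh hh1 (k * h) p.1 z.1.1 z.2 hz.1
    have a2 := hs2 (fun x => x a) (1 + D) (continuous_apply a) (by linarith)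
      (fun x hx => abs_coord_le_supp hx a) h hh hh1 (k * h) p.2 z.1.2 z.2 hz.2
    have e1 : ∑ i, z.2 i * pcov σ (fun x => x a) (fun x => x i) (k * h) p.1
        = ∑ l, covMat σ (k * h) p.1 a l * z.2 l := Finset.sum_congr rfl fun l _ => mul_comm _ _
    have e2 : ∑ i, z.2 i * pcov ν (fun x => x a) (fun x => x i) (k * h) p.2
        = ∑ l, covMat ν (k * h) p.2 a l * z.2 l := Finset.sum_congr rfl fun l _ => mul_comm _ _
    rw [e1] at a1
    rw [e2] at a2
    have e3 : ∑ l, gam σ ν h k p a l * z.2 l
        = (∑ l, covMat ν (k * h) p.2 a l * z.2 l) - ∑ l, covMat σ (k * h) p.1 a l * z.2 l := by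
      simp [gam, sub_mul, Finset.sum_sub_distrib]
    rw [e3]
    simp only [wV, Pi.sub_apply, moveP, cast_succ_mul, bary]
    have h0 : 0 ≤ (n * (4 * (1 + D))) * h * (1 + nsq z.2) ^ 2 := by positivity
    obtain ⟨p1, p2⟩ := abs_le.1 a1
    obtain ⟨q1, q2⟩ := abs_le.1 a2
    rw [abs_le]
    constructor <;> linarith
  · refine (row_le (by linarith) (abs_gam_le hσ hν h k p a) z.2).trans ?_
    exact mul_le_mul_of_nonneg_right (le_add_of_nonneg_left (by positivity)) (by positivity)

/-- The martingale property at one step. -/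
theorem integral_wV_one (hσ : Dens D σ) (hν : Dens D ν) (hh : 0 < h) (k : ℕ) (p : St n × St n)
    (a : Fin n) :
    ∫ z, wV σ ν h (k + 1) (moveP h p z) a ∂stepM σ ν h k p = wV σ ν h k p a := by
  rw [← wV_martingale hσ hν hh k 1 p a, integral_one σ ν h k p
    (F := fun q => wV σ ν h (k + 1) q a)
    ((continuous_apply a).comp (continuous_wV hσ hν h (k + 1))).measurable]

/-- One step of the squared difference of the barycentres. -/
theorem step_sq (hσ : Dens D σ) (hν : Dens D ν) : ∃ E : ℝ, 0 ≤ E ∧
    ∀ h : ℝ, 0 < h → h ≤ 1 → ∀ (k : ℕ) (p : St n × St n),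
      |(∫ q, nsq (wV σ ν h (k + 1) q) ∂pairFrom σ ν h k 1 p)
          - (nsq (wV σ ν h k p) + h * frob (gam σ ν h k p))| ≤ E * (h * Real.sqrt h) := by
  obtain ⟨C, hC, hw⟩ := w_step hσ hν
  have hD := dens_nonneg hσ
  have hI : 0 ≤ ∫ g, wG g ∂P166W.gauss (Fin n) :=
    integral_nonneg fun g : St n => le_trans zero_le_one (one_le_wG g)
  refine ⟨n * (3 * C ^ 2) * ∫ g, wG g ∂P166W.gauss (Fin n), by positivity,
    fun h hh hh1 k p => ?_⟩
  have := isProb_stepM hσ hν h k p
  set w := wV σ ν h k p
  set P := fun (z : (St n × St n) × St n) (a : Fin n) => ∑ l, gam σ ν h k p a l * z.2 l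
  set w' := fun (z : (St n × St n) × St n) => wV σ ν h (k + 1) (moveP h p z)
  have hc : ∀ a, Continuous fun z => w' z a := fun a =>
    (continuous_apply a).comp ((continuous_wV hσ hν h (k + 1)).comp (continuous_moveP h p))
  have hPc : ∀ a, Continuous fun z => P z a := fun a => by fun_prop
  have i1 : ∀ a, Integrable (fun z => w' z a) (stepM σ ν h k p) := fun a =>
    integrable_stepM hσ hν h k p (hc a) (C := 2 * (1 + D)) fun z _ =>
      (abs_wV_le_supp hσ hν _ _ _ a).trans (le_mul_of_one_le_right (by linarith) (one_le_wG _))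
  have i2 : ∀ a, Integrable (fun z => P z a * P z a) (stepM σ ν h k p) := fun a =>
    integrable_stepM hσ hν h k p ((hPc a).mul (hPc a)) (C := C ^ 2) fun z hz => by
      rw [abs_mul]
      refine (mul_le_mul (hw h hh hh1 k p z hz a).2 (hw h hh hh1 k p z hz a).2 (abs_nonneg _)
        (by positivity)).trans (le_of_eq ?_)
      simp only [wG]; ring
  set G := fun z => ∑ a, (w a * w a + 2 * w a * (w' z a - w a) + h * (P z a * P z a))
  have j1 : ∀ a, Integrable (fun z => w a * w a + 2 * w a * (w' z a - w a)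
      + h * (P z a * P z a)) (stepM σ ν h k p) := fun a =>
    ((integrable_const _).add (((i1 a).sub (integrable_const _)).const_mul _)).add
      ((i2 a).const_mul h)
  have iG : Integrable G (stepM σ ν h k p) := integrable_finsetSum _ fun a _ => j1 a
  have hnc : Continuous fun q => nsq (wV σ ν h (k + 1) q) :=
    continuous_nsq.comp (continuous_wV hσ hν h (k + 1))
  have hb : ∀ q, |nsq (wV σ ν h (k + 1) q)| ≤ n * (2 * (1 + D)) ^ 2 := fun q => by
    rw [abs_of_nonneg (nsq_nonneg _)]
    refine (Finset.sum_le_sum fun a _ => ?_).trans (le_of_eq (by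
      rw [Finset.sum_const, Finset.card_univ, Fintype.card_fin, nsmul_eq_mul]))
    rw [← sq_abs]
    exact pow_le_pow_left₀ (abs_nonneg _) (abs_wV_le_supp hσ hν _ _ _ a) 2
  have hG : ∫ z, G z ∂stepM σ ν h k p = nsq w + h * frob (gam σ ν h k p) := by
    simp only [G]
    rw [integral_finsetSum _ fun a _ => j1 a]
    simp only [nsq, frob, Finset.mul_sum, ← Finset.sum_add_distrib]
    refine Finset.sum_congr rfl fun a _ => ?_
    have e0 : Integrable (fun z => w' z a - w a) (stepM σ ν h k p) :=
      (i1 a).sub (integrable_const _)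
    have e1 : Integrable (fun z => w a * w a + 2 * w a * (w' z a - w a)) (stepM σ ν h k p) :=
      (integrable_const _).add (e0.const_mul _)
    rw [integral_add e1 ((i2 a).const_mul h), integral_add (integrable_const _) (e0.const_mul _),
      integral_const (w a * w a), integral_const_mul, integral_sub (i1 a) (integrable_const _)]
    simp only [w', P]
    rw [integral_wV_one hσ hν hh k p a,
      integral_const, probReal_univ, one_smul, one_smul, integral_const_mul,
      integral_stepM_noise hσ hν h k p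
        (fun g => (∑ l, gam σ ν h k p a l * g l) * ∑ l, gam σ ν h k p a l * g l)]
    have e2 : ∫ g, (∑ l, gam σ ν h k p a l * g l) * (∑ l, gam σ ν h k p a l * g l)
        ∂P166W.gauss (Fin n) = ∑ l, gam σ ν h k p a l * gam σ ν h k p a l :=
      gauss_dotp2 (fun l => gam σ ν h k p a l) (fun l => gam σ ν h k p a l)
    rw [e2, Finset.mul_sum, sub_self, mul_zero, add_zero, ← sq]
    congr 1
    exact Finset.sum_congr rfl fun l _ => by ring
  rw [integral_one σ ν h k p hnc.measurable, ← hG]
  refine (stepM_close hσ hν h k p (integrable_one hσ hν hh k p hnc.measurable (polyP_bdd hb)) iG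
    (E := n * (3 * C ^ 2 * (h * Real.sqrt h))) fun z hz => ?_).trans (le_of_eq (by ring))
  have hd : nsq (wV σ ν h (k + 1) (moveP h p z)) - G z
      = ∑ a, ((w' z a - w a) * (w' z a - w a) - h * (P z a * P z a)) := by
    simp only [G, nsq, ← Finset.sum_sub_distrib, w']
    exact Finset.sum_congr rfl fun a _ => by ring
  rw [hd]
  refine (Finset.abs_sum_le_sum_abs _ _).trans ((Finset.sum_le_sum fun a _ =>
    mul_approx hh.le hh1 hC (one_le_one_add_nsq z.2) (hw h hh hh1 k p z hz a).2
      (hw h hh hh1 k p z hz a).2 (hw h hh hh1 k p z hz a).1 (hw h hh hh1 k p z hz a).1).trans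
    (le_of_eq ?_))
  rw [Finset.sum_const, Finset.card_univ, Fintype.card_fin, nsmul_eq_mul, wG]; ring

/-- One step of the pairing of the difference of the barycentres with the first state. -/
theorem step_cross (hσ : Dens D σ) (hν : Dens D ν) : ∃ E : ℝ, 0 ≤ E ∧
    ∀ h : ℝ, 0 < h → h ≤ 1 → ∀ (k : ℕ) (p : St n × St n) (a b : Fin n) (c : ℝ),
      |(∫ q, wV σ ν h (k + 1) q a * (q.1 b - c) ∂pairFrom σ ν h k 1 p)
          - (wV σ ν h k p a * (p.1 b - c)
            + h * (wV σ ν h k p a * bary σ (k * h) p.1 b + gam σ ν h k p a b))|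
        ≤ E * (h * Real.sqrt h) := by
  obtain ⟨C0, hC0, hw⟩ := w_step hσ hν
  have hD := dens_nonneg hσ
  set C := C0 + (2 + D) with hCdef
  have hC : 0 ≤ C := by positivity
  have hI : 0 ≤ ∫ g, wG g ∂P166W.gauss (Fin n) :=
    integral_nonneg fun g : St n => le_trans zero_le_one (one_le_wG g)
  refine ⟨3 * C ^ 2 * ∫ g, wG g ∂P166W.gauss (Fin n), by positivity,
    fun h hh hh1 k p a b c => ?_⟩
  have := isProb_stepM hσ hν h k p
  set wa := wV σ ν h k p a
  set d := p.1 b - c
  set P := fun (z : (St n × St n) × St n) => ∑ l, gam σ ν h k p a l * z.2 l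
  set w' := fun (z : (St n × St n) × St n) => wV σ ν h (k + 1) (moveP h p z) a
  set δ := fun (z : (St n × St n) × St n) => h * z.1.1 b + Real.sqrt h * z.2 b
  have hwc : Continuous w' :=
    (continuous_apply a).comp ((continuous_wV hσ hν h (k + 1)).comp (continuous_moveP h p))
  have hδ : ∀ z, Adm D z → |δ z - Real.sqrt h * z.2 b| ≤ C * h * (1 + nsq z.2) ^ 2 ∧
      |z.2 b| ≤ C * (1 + nsq z.2) ^ 2 := fun z hz => by
    have h2 : (1 : ℝ) ≤ (1 + nsq z.2) ^ 2 := one_le_pow₀ (one_le_one_add_nsq _)
    refine ⟨?_, ?_⟩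
    · simp only [δ, add_sub_cancel_right, abs_mul, abs_of_pos hh]
      refine (mul_le_mul_of_nonneg_left ((abs_coord_le_supp hz.1 b).trans
        (show 1 + D ≤ C by linarith)) hh.le).trans ((le_of_eq (mul_comm h C)).trans
        (le_mul_of_one_le_right (by positivity) h2))
    · refine (abs_coord_le _ b).trans ?_
      calc 1 + nsq z.2 ≤ (1 + nsq z.2) ^ 2 := le_self_pow₀ (one_le_one_add_nsq _) two_ne_zero
        _ ≤ C * (1 + nsq z.2) ^ 2 := le_mul_of_one_le_left (by positivity) (by linarith)
  have i1 : Integrable w' (stepM σ ν h k p) :=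
    integrable_stepM hσ hν h k p hwc (C := 2 * (1 + D)) fun z _ =>
      (abs_wV_le_supp hσ hν _ _ _ a).trans (le_mul_of_one_le_right (by linarith) (one_le_wG _))
  have i2 : Integrable (fun z => z.1.1 b) (stepM σ ν h k p) :=
    integrable_stepM hσ hν h k p (by fun_prop) (C := 1 + D) fun z hz =>
      (abs_coord_le_supp hz.1 b).trans (le_mul_of_one_le_right (by linarith) (one_le_wG _))
  have i3 : Integrable (fun z => z.2 b) (stepM σ ν h k p) :=
    integrable_stepM hσ hν h k p (by fun_prop) (C := C) fun z hz =>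
      (hδ z hz).2.trans (mul_le_mul_of_nonneg_left (sq_le_wG _) hC)
  have i4 : Integrable (fun z => P z * z.2 b) (stepM σ ν h k p) :=
    integrable_stepM hσ hν h k p (by fun_prop) (C := C0 * C) fun z hz => by
      rw [abs_mul]
      refine (mul_le_mul (hw h hh hh1 k p z hz a).2 (hδ z hz).2 (abs_nonneg _)
        (by positivity)).trans (le_of_eq ?_)
      simp only [wG]; ring
  have i5 : Integrable δ (stepM σ ν h k p) := (i2.const_mul h).add (i3.const_mul _)
  have i6 : Integrable (fun z => w' z * d + wa * δ z) (stepM σ ν h k p) :=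
    (i1.mul_const d).add (i5.const_mul wa)
  have hG : ∫ z, w' z * d + wa * δ z + h * (P z * z.2 b) ∂stepM σ ν h k p
      = wa * d + h * (wa * bary σ (k * h) p.1 b + gam σ ν h k p a b) := by
    rw [integral_add i6 (i4.const_mul h), integral_add (i1.mul_const d) (i5.const_mul wa),
      integral_mul_const, integral_const_mul, integral_const_mul]
    simp only [w', δ]
    rw [integral_wV_one hσ hν hh k p a, integral_add (i2.const_mul h) (i3.const_mul _),
      integral_const_mul, integral_const_mul, integral_stepM_X hσ hν,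
      integral_stepM_noise hσ hν h k p (fun g => g b), gauss_mean,
      integral_stepM_noise hσ hν h k p (fun g => (∑ l, gam σ ν h k p a l * g l) * g b), gauss_row]
    ring
  have hFc : Continuous fun q : St n × St n => wV σ ν h (k + 1) q a * (q.1 b - c) :=
    ((continuous_apply a).comp (continuous_wV hσ hν h (k + 1))).mul (by fun_prop)
  have hFP : PolyP fun q : St n × St n => wV σ ν h (k + 1) q a * (q.1 b - c) :=
    polyP_lin (C := 2 * (1 + D) * (1 + |c|)) fun q => by
      rw [abs_mul, mul_assoc]
      refine mul_le_mul (abs_wV_le_supp hσ hν _ _ _ a) ?_ (abs_nonneg _) (by linarith)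
      refine (abs_sub _ _).trans ?_
      nlinarith [abs_coord_le q.1 b, nsq_nonneg q.1, nsq_nonneg q.2, abs_nonneg c]
  rw [integral_one σ ν h k p hFc.measurable, ← hG]
  refine (stepM_close hσ hν h k p (integrable_one hσ hν hh k p hFc.measurable hFP)
    (i6.add (i4.const_mul h)) (E := 3 * C ^ 2 * (h * Real.sqrt h)) fun z hz => ?_).trans
      (le_of_eq (by ring))
  have e : wV σ ν h (k + 1) (moveP h p z) a * ((moveP h p z).1 b - c)
      - (w' z * d + wa * δ z + h * (P z * z.2 b)) = (w' z - wa) * δ z - h * (P z * z.2 b) := by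
    simp only [w', δ, d, moveP, move, Pi.add_apply, Pi.smul_apply, smul_eq_mul]
    ring
  simp only [Pi.add_apply] at *
  rw [e]
  obtain ⟨w1, w2⟩ := hw h hh hh1 k p z hz a
  refine mul_approx hh.le hh1 hC (one_le_one_add_nsq z.2) (w2.trans ?_) (hδ z hz).2
    (w1.trans ?_) (hδ z hz).1
  · exact mul_le_mul_of_nonneg_right (by linarith) (by positivity)
  · exact mul_le_mul_of_nonneg_right (mul_le_mul_of_nonneg_right (by linarith) hh.le)
      (by positivity)

/-- One step of the displacement and of its pairing. -/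
theorem step_delta (hσ : Dens D σ) (hν : Dens D ν) : ∃ E : ℝ, 0 ≤ E ∧
    ∀ h : ℝ, 0 < h → h ≤ 1 → ∀ (k : ℕ) (p : St n × St n),
      |(∫ q, nsq (delta q) ∂pairFrom σ ν h k 1 p)
          - (nsq (delta p) + 2 * h * dotp (delta p) (wV σ ν h k p))| ≤ E * h ^ 2 ∧
        |(∫ q, dotp (delta q) (wV σ ν h (k + 1) q) ∂pairFrom σ ν h k 1 p)
          - (dotp (delta p) (wV σ ν h k p) + h * nsq (wV σ ν h k p))|
          ≤ E * (h * Real.sqrt h) := by
  obtain ⟨C, hC, hw⟩ := w_step hσ hν
  have hD := dens_nonneg hσ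
  have hI : 0 ≤ ∫ g, wG g ∂P166W.gauss (Fin n) :=
    integral_nonneg fun g : St n => le_trans zero_le_one (one_le_wG g)
  refine ⟨(n * (2 * (1 + D)) ^ 2 + n * (2 * (1 + D) * (2 * C))) *
    ∫ g, wG g ∂P166W.gauss (Fin n), by positivity, fun h hh hh1 k p => ?_⟩
  have := isProb_stepM hσ hν h k p
  set u := fun (z : (St n × St n) × St n) (a : Fin n) => z.1.2 a - z.1.1 a
  set w' := fun (z : (St n × St n) × St n) => wV σ ν h (k + 1) (moveP h p z)
  set w := wV σ ν h k p
  have hδ : ∀ z a, delta (moveP h p z) a = delta p a + h * u z a := fun z a => by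
    simp only [delta, moveP, move, u, Pi.sub_apply, Pi.add_apply, Pi.smul_apply, smul_eq_mul]
    ring
  have hu : ∀ z, Adm D z → ∀ a, |u z a| ≤ 2 * (1 + D) := fun z hz a =>
    (abs_sub _ _).trans (by linarith [abs_coord_le_supp hz.1 a, abs_coord_le_supp hz.2 a])
  have iu : ∀ a, Integrable (fun z => u z a) (stepM σ ν h k p) := fun a =>
    integrable_stepM hσ hν h k p (by fun_prop) (C := 2 * (1 + D)) fun z hz =>
      (hu z hz a).trans (le_mul_of_one_le_right (by linarith) (one_le_wG _))
  have iw : ∀ a, Integrable (fun z => w' z a) (stepM σ ν h k p) := fun a =>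
    integrable_stepM hσ hν h k p ((continuous_apply a).comp
      ((continuous_wV hσ hν h (k + 1)).comp (continuous_moveP h p))) (C := 2 * (1 + D)) fun z _ =>
      (abs_wV_le_supp hσ hν _ _ _ a).trans (le_mul_of_one_le_right (by linarith) (one_le_wG _))
  have mu : ∀ a, ∫ z, u z a ∂stepM σ ν h k p = w a := fun a => by
    have i1 : Integrable (fun z => z.1.1 a) (stepM σ ν h k p) :=
      integrable_stepM hσ hν h k p (by fun_prop) (C := 1 + D) fun z hz =>
        (abs_coord_le_supp hz.1 a).trans (le_mul_of_one_le_right (by linarith) (one_le_wG _))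
    have i2 : Integrable (fun z => z.1.2 a) (stepM σ ν h k p) :=
      integrable_stepM hσ hν h k p (by fun_prop) (C := 1 + D) fun z hz =>
        (abs_coord_le_supp hz.2 a).trans (le_mul_of_one_le_right (by linarith) (one_le_wG _))
    simp only [u]
    rw [integral_sub i2 i1, integral_stepM_Y hσ hν, integral_stepM_X hσ hν]
    rfl
  constructor
  · have hFc : Continuous fun q : St n × St n => nsq (delta q) :=
      continuous_nsq.comp (continuous_snd.sub continuous_fst)
    have hFP : PolyP fun q : St n × St n => nsq (delta q) := polyP_lin (C := 2) fun q => by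
      rw [abs_of_nonneg (nsq_nonneg _), delta]
      have : nsq (q.2 - q.1) ≤ 2 * nsq q.2 + 2 * nsq q.1 := by
        simp only [nsq, Finset.mul_sum, ← Finset.sum_add_distrib, Pi.sub_apply]
        exact Finset.sum_le_sum fun i _ => by nlinarith [sq_nonneg (q.2 i + q.1 i)]
      linarith
    have j : ∀ a, Integrable (fun z => delta p a ^ 2 + 2 * h * delta p a * u z a)
        (stepM σ ν h k p) := fun a => (integrable_const _).add ((iu a).const_mul _)
    have hG : ∫ z, ∑ a, (delta p a ^ 2 + 2 * h * delta p a * u z a) ∂stepM σ ν h k p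
        = nsq (delta p) + 2 * h * dotp (delta p) w := by
      rw [integral_finsetSum _ fun a _ => j a, nsq, dotp, Finset.mul_sum, ← Finset.sum_add_distrib]
      refine Finset.sum_congr rfl fun a _ => ?_
      rw [integral_add (integrable_const _) ((iu a).const_mul _), integral_const_mul, mu,
        integral_const, probReal_univ, one_smul]
      ring
    rw [integral_one σ ν h k p hFc.measurable, ← hG]
    refine (stepM_close hσ hν h k p (integrable_one hσ hν hh k p hFc.measurable hFP)
      (integrable_finsetSum _ fun a _ => j a) (E := n * (2 * (1 + D)) ^ 2 * h ^ 2)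
      fun z hz => ?_).trans ?_
    · simp only [nsq, ← Finset.sum_sub_distrib, hδ]
      refine (abs_sum_le (c := (2 * (1 + D)) ^ 2 * h ^ 2) fun a => ?_).trans
        ((le_of_eq (mul_assoc _ _ _).symm).trans
        (le_mul_of_one_le_right (by positivity) (one_le_wG _)))
      rw [show (delta p a + h * u z a) ^ 2 - (delta p a ^ 2 + 2 * h * delta p a * u z a)
        = h ^ 2 * u z a ^ 2 by ring, abs_of_nonneg (by positivity), mul_comm]
      refine mul_le_mul_of_nonneg_right ?_ (sq_nonneg h)
      rw [← sq_abs]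
      exact pow_le_pow_left₀ (abs_nonneg _) (hu z hz a) 2
    · have : 0 ≤ n * (2 * (1 + D) * (2 * C)) * (∫ g, wG g ∂P166W.gauss (Fin n)) * h ^ 2 := by
        positivity
      linarith
  · have hFc : Continuous fun q : St n × St n => dotp (delta q) (wV σ ν h (k + 1) q) :=
      continuous_dotp2.comp ((continuous_snd.sub continuous_fst).prodMk
        (continuous_wV hσ hν h (k + 1)))
    have hFP : PolyP fun q : St n × St n => dotp (delta q) (wV σ ν h (k + 1) q) :=
      polyP_lin (C := n * (2 * (2 * (1 + D)))) fun q => by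
        refine (abs_sum_le (c := 2 * (2 * (1 + D)) * (1 + nsq q.1 + nsq q.2)) fun a => ?_).trans
          (le_of_eq (mul_assoc _ _ _).symm)
        rw [abs_mul, mul_comm]
        refine (mul_le_mul (abs_wV_le_supp hσ hν _ _ _ a)
          (show |delta q a| ≤ 2 * (1 + nsq q.1 + nsq q.2) from (abs_sub _ _).trans (by
            linarith [abs_coord_le q.1 a, abs_coord_le q.2 a, nsq_nonneg q.1, nsq_nonneg q.2]))
          (abs_nonneg _) (by linarith)).trans (le_of_eq ?_)
        ring
    have j : ∀ a, Integrable (fun z => delta p a * w' z a + h * (u z a * w a))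
        (stepM σ ν h k p) := fun a => ((iw a).const_mul _).add (((iu a).mul_const _).const_mul h)
    have hG : ∫ z, ∑ a, (delta p a * w' z a + h * (u z a * w a)) ∂stepM σ ν h k p
        = dotp (delta p) w + h * nsq w := by
      rw [integral_finsetSum _ fun a _ => j a, nsq, dotp, Finset.mul_sum, ← Finset.sum_add_distrib]
      refine Finset.sum_congr rfl fun a _ => ?_
      rw [integral_add ((iw a).const_mul _) (((iu a).mul_const _).const_mul h),
        integral_const_mul, integral_const_mul, integral_mul_const, mu]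
      simp only [w', w]
      rw [integral_wV_one hσ hν hh k p a]
      ring
    rw [integral_one σ ν h k p hFc.measurable, ← hG]
    refine (stepM_close hσ hν h k p (integrable_one hσ hν hh k p hFc.measurable hFP)
      (integrable_finsetSum _ fun a _ => j a)
      (E := n * (2 * (1 + D) * (2 * C)) * (h * Real.sqrt h)) fun z hz => ?_).trans ?_
    · simp only [dotp, ← Finset.sum_sub_distrib, hδ]
      refine (abs_sum_le (c := h * (2 * (1 + D) * (2 * C * Real.sqrt h * (1 + nsq z.2) ^ 4)))
        fun a => ?_).trans (le_of_eq (by simp only [wG]; ring))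
      rw [show (delta p a + h * u z a) * wV σ ν h (k + 1) (moveP h p z) a
        - (delta p a * w' z a + h * (u z a * w a)) = h * (u z a * (w' z a - w a)) by
          simp only [w']; ring, abs_mul, abs_mul, abs_of_pos hh]
      obtain ⟨w1, w2⟩ := hw h hh hh1 k p z hz a
      have hsh : h ≤ Real.sqrt h := Real.le_sqrt_of_sq_le (by nlinarith)
      have hd : |w' z a - w a| ≤ 2 * C * Real.sqrt h * (1 + nsq z.2) ^ 4 := by
        have h3 : (1 + nsq z.2) ^ 2 ≤ (1 + nsq z.2) ^ 4 := sq_le_wG z.2
        have h4 := mul_le_mul (mul_le_mul_of_nonneg_left hsh hC) h3 (by positivity) (by positivity)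
        have h5 : Real.sqrt h * |∑ l, gam σ ν h k p a l * z.2 l|
            ≤ Real.sqrt h * (C * (1 + nsq z.2) ^ 4) := mul_le_mul_of_nonneg_left
          (w2.trans (mul_le_mul_of_nonneg_left h3 hC)) (Real.sqrt_nonneg h)
        have h6 := abs_sub_abs_le_abs_sub (w' z a - w a)
          (Real.sqrt h * ∑ l, gam σ ν h k p a l * z.2 l)
        rw [abs_mul, abs_of_nonneg (Real.sqrt_nonneg h)] at h6
        simp only [w', w] at *
        linarith
      exact mul_le_mul_of_nonneg_left (mul_le_mul (hu z hz a) hd (abs_nonneg _) (by linarith))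
        hh.le
    · have : 0 ≤ n * (2 * (1 + D)) ^ 2 * (∫ g, wG g ∂P166W.gauss (Fin n)) *
          (h * Real.sqrt h) := by positivity
      linarith

/-- The posterior averages are martingales when the posterior is uniformly log-concave. -/
theorem integral_mg_one (hσ : Dens D σ) (hh : 0 < h) (k : ℕ) (θ : St n)
    (hπ : Ulc η (post σ (k * h) θ)) {F : St n → ℝ} (hF : Continuous F) (hF' : PolyB F) :
    ∫ z, mg σ F (k * h + h) (move h θ z.1.1 z.2) ∂stepM σ σ h k (θ, θ) = mg σ F (k * h) θ := by
  have := dens_isProb (dens_post hσ (k * h) θ)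
  have hm : Continuous fun y : St n × St n => mg σ F (k * h + h) (move h θ y.1 y.2) :=
    (continuous_mg hσ hF _).comp (by unfold move; fun_prop)
  rw [integral_stepM_fst hσ hσ h k (θ, θ) hm.measurable]
  simp only [move, add_assoc, ← dens_mg_post hσ]
  have hP2 : PolyB2 fun x _ => F x := by
    obtain ⟨A, m, hA⟩ := hF'
    refine ⟨|A|, m, fun x θ' => (hA x).trans (mul_le_mul (le_abs_self A) (pow_le_pow_left₀
      (by linarith [nsq_nonneg x]) (by linarith [nsq_nonneg θ']) m)
      (by have := nsq_nonneg x; positivity) (abs_nonneg A))⟩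
  have := joint_mg hπ hh (Φ := fun x _ => F x) (hF.measurable.comp measurable_fst) hP2
  simp only [joint, Ep] at this
  rw [← this, integral_fun_fst (f := F), probReal_univ, one_smul, dens_integral_post hσ]

/-- One step of a covariance matrix. -/
theorem step_cov (hσ : Dens D σ) : ∃ E : ℝ, 0 ≤ E ∧
    ∀ h : ℝ, 0 < h → h ≤ 1 → ∀ (k : ℕ) (θ : St n) (η : ℝ), Ulc η (post σ (k * h) θ) →
      ∀ a b : Fin n,
        |(∫ z, covMat σ (k * h + h) (move h θ z.1.1 z.2) a b ∂stepM σ σ h k (θ, θ))
            - (covMat σ (k * h) θ - h • (covMat σ (k * h) θ * covMat σ (k * h) θ)) a b|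
          ≤ E * (h * Real.sqrt h) := by
  obtain ⟨C0, hC0, hs⟩ := mg_step hσ
  have hD := dens_nonneg hσ
  set C := C0 * (1 + D) + n * (2 * (1 + D)) with hCdef
  have hI : 0 ≤ ∫ g, wG g ∂P166W.gauss (Fin n) :=
    integral_nonneg fun g : St n => le_trans zero_le_one (one_le_wG g)
  refine ⟨3 * C ^ 2 * ∫ g, wG g ∂P166W.gauss (Fin n), by positivity,
    fun h hh hh1 k θ η hπ a b => ?_⟩
  have := isProb_stepM hσ hσ h k (θ, θ)
  set A := covMat σ (k * h) θ with hA
  set P := fun (z : (St n × St n) × St n) (i : Fin n) => ∑ l, A i l * z.2 l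
  set β := fun (z : (St n × St n) × St n) (i : Fin n) =>
    mg σ (fun x => x i) (k * h + h) (move h θ z.1.1 z.2)
  set β0 := fun i : Fin n => mg σ (fun x => x i) (k * h) θ
  set M2 := fun (z : (St n × St n) × St n) =>
    mg σ (fun x => x a * x b) (k * h + h) (move h θ z.1.1 z.2)
  have hmc : ∀ {F : St n → ℝ}, Continuous F →
      Continuous fun z : (St n × St n) × St n => mg σ F (k * h + h) (move h θ z.1.1 z.2) :=
    fun hF => (continuous_mg hσ hF _).comp (by unfold move; fun_prop)
  have hm2 : ∀ x : St n, nsq x ≤ D → |x a * x b| ≤ (1 + D) * (1 + D) := fun x hx => by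
    rw [abs_mul]
    exact mul_le_mul (abs_coord_le_supp hx a) (abs_coord_le_supp hx b) (abs_nonneg _)
      (by linarith)
  have iβ : ∀ i, Integrable (fun z => β z i) (stepM σ σ h k (θ, θ)) := fun i =>
    integrable_stepM hσ hσ h k _ (hmc (continuous_apply i)) (C := 1 + D) fun z _ =>
      (abs_mg_le_supp hσ (fun x hx => abs_coord_le_supp hx i) _ _).trans
        (le_mul_of_one_le_right (by linarith) (one_le_wG _))
  have iM : Integrable M2 (stepM σ σ h k (θ, θ)) :=
    integrable_stepM hσ hσ h k _ (hmc (by fun_prop)) (C := (1 + D) * (1 + D)) fun z _ =>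
      (abs_mg_le_supp hσ hm2 _ _).trans (le_mul_of_one_le_right (by positivity) (one_le_wG _))
  have hP : ∀ z i, |P z i| ≤ C * (1 + nsq z.2) ^ 2 := fun z i =>
    (row_le (by linarith) (fun l => (abs_covMat_le hσ _ θ i l).trans (by linarith)) z.2).trans
      (mul_le_mul_of_nonneg_right (le_add_of_nonneg_left (by positivity)) (by positivity))
  have hβ : ∀ z, Adm D z → ∀ i,
      |β z i - β0 i - Real.sqrt h * P z i| ≤ C * h * (1 + nsq z.2) ^ 2 := fun z hz i => by
    have a1 := hs (fun x => x i) (1 + D) (continuous_apply i) (by linarith)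
      (fun x hx => abs_coord_le_supp hx i) h hh hh1 (k * h) θ z.1.1 z.2 hz.1
    have e1 : ∑ l, z.2 l * pcov σ (fun x => x i) (fun x => x l) (k * h) θ = P z i :=
      Finset.sum_congr rfl fun l _ => mul_comm _ _
    rw [e1] at a1
    refine a1.trans (mul_le_mul_of_nonneg_right (mul_le_mul_of_nonneg_right ?_ hh.le)
      (by positivity))
    exact le_add_of_nonneg_right (by positivity)
  have iP : Integrable (fun z => P z a * P z b) (stepM σ σ h k (θ, θ)) :=
    integrable_stepM hσ hσ h k _ (by fun_prop) (C := C ^ 2) fun z _ => by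
      rw [abs_mul]
      refine (mul_le_mul (hP z a) (hP z b) (abs_nonneg _) (by positivity)).trans (le_of_eq ?_)
      simp only [wG]; ring
  have i6 : Integrable (fun z => M2 z - (β0 a * β0 b + β0 a * (β z b - β0 b)
      + β0 b * (β z a - β0 a))) (stepM σ σ h k (θ, θ)) :=
    iM.sub (((integrable_const _).add (((iβ b).sub (integrable_const _)).const_mul _)).add
      (((iβ a).sub (integrable_const _)).const_mul _))
  have hG : ∫ z, M2 z - (β0 a * β0 b + β0 a * (β z b - β0 b) + β0 b * (β z a - β0 a))
        - h * (P z a * P z b) ∂stepM σ σ h k (θ, θ)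
      = (A - h • (A * A)) a b := by
    have ea : Integrable (fun z => β z a - β0 a) (stepM σ σ h k (θ, θ)) :=
      (iβ a).sub (integrable_const _)
    have eb : Integrable (fun z => β z b - β0 b) (stepM σ σ h k (θ, θ)) :=
      (iβ b).sub (integrable_const _)
    have e1 : Integrable (fun z => β0 a * β0 b + β0 a * (β z b - β0 b)) (stepM σ σ h k (θ, θ)) :=
      (integrable_const _).add (eb.const_mul _)
    have e2 : Integrable (fun z => β0 a * β0 b + β0 a * (β z b - β0 b) + β0 b * (β z a - β0 a))
        (stepM σ σ h k (θ, θ)) := e1.add (ea.const_mul _)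
    rw [integral_sub i6 (iP.const_mul h), integral_sub iM e2, integral_add e1 (ea.const_mul _),
      integral_add (integrable_const _) (eb.const_mul _), integral_const (β0 a * β0 b),
      integral_const_mul, integral_const_mul,
      integral_sub (iβ b) (integrable_const _), integral_sub (iβ a) (integrable_const _),
      integral_const, integral_const, integral_const_mul]
    simp only [β, M2, P, probReal_univ, one_smul]
    rw [integral_mg_one hσ hh k θ hπ (continuous_apply b) (polyB_coord b),
      integral_mg_one hσ hh k θ hπ (continuous_apply a) (polyB_coord a),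
      integral_mg_one hσ hh k θ hπ (by fun_prop) (polyB_mul (polyB_coord a) (polyB_coord b)),
      integral_stepM_noise hσ hσ h k (θ, θ) (fun g => (∑ l, A a l * g l) * ∑ l, A b l * g l)]
    have e2 : ∫ g, (∑ l, A a l * g l) * (∑ l, A b l * g l) ∂P166W.gauss (Fin n)
        = ∑ l, A a l * A b l := gauss_dotp2 (fun l => A a l) (fun l => A b l)
    have e3 : (A * A) a b = ∑ l, A a l * A b l := by
      rw [Matrix.mul_apply]
      exact Finset.sum_congr rfl fun l _ =>
        congrArg (A a l * ·) ((covMat_symm (ρ := σ) (k * h) θ).apply b l)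
    rw [e2, Matrix.sub_apply, Matrix.smul_apply, e3, hA]
    simp only [β0, covMat, Matrix.of_apply, pcov, smul_eq_mul]
    ring
  rw [← hG]
  refine (stepM_close hσ hσ h k _ ?_ (i6.sub (iP.const_mul h))
    (E := 3 * C ^ 2 * (h * Real.sqrt h)) fun z hz => ?_).trans (le_of_eq (by ring))
  · exact integrable_stepM hσ hσ h k _ ((continuous_covMat_supp hσ _ a b).comp
      (by unfold move; fun_prop)) (C := 2 * D) fun z _ =>
      (abs_covMat_le hσ _ _ a b).trans (le_mul_of_one_le_right (by linarith) (one_le_wG _))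
  · have e : covMat σ (k * h + h) (move h θ z.1.1 z.2) a b
        - (M2 z - (β0 a * β0 b + β0 a * (β z b - β0 b) + β0 b * (β z a - β0 a))
          - h * (P z a * P z b))
        = -((β z a - β0 a) * (β z b - β0 b) - h * (P z a * P z b)) := by
      simp only [covMat, Matrix.of_apply, pcov, β, M2]
      ring
    simp only [Pi.sub_apply] at *
    rw [e, abs_neg]
    exact mul_approx hh.le hh1 (by positivity) (one_le_one_add_nsq z.2) (hP z a) (hP z b)
      (hβ z hz a) (hβ z hz b)

/-- One step of the mean of `gam`. -/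
theorem step_gam (hσ : Dens D σ) (hν : Dens D ν) : ∃ E : ℝ, 0 ≤ E ∧
    ∀ h : ℝ, 0 < h → h ≤ 1 → ∀ (k : ℕ) (p : St n × St n) (η η' : ℝ),
      Ulc η (post σ (k * h) p.1) → Ulc η' (post ν (k * h) p.2) → ∀ a b : Fin n,
        |(∫ q, gam σ ν h (k + 1) q a b ∂pairFrom σ ν h k 1 p)
            - (gam σ ν h k p a b - h * drift σ ν h k p a b)| ≤ E * (h * Real.sqrt h) := by
  obtain ⟨E1, hE1, h1⟩ := step_cov hσ
  obtain ⟨E2, hE2, h2⟩ := step_cov hν
  refine ⟨E1 + E2, by positivity, fun h hh hh1 k p η η' u1 u2 a b => ?_⟩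
  have a1 := h1 h hh hh1 k p.1 η u1 a b
  have a2 := h2 h hh hh1 k p.2 η' u2 a b
  have := isProb_stepM hσ hν h k p
  have c1 : Continuous fun y : St n × St n => covMat σ (k * h + h) (move h p.1 y.1 y.2) a b :=
    (continuous_covMat_supp hσ _ a b).comp (by unfold move; fun_prop)
  have c2 : Continuous fun y : St n × St n => covMat ν (k * h + h) (move h p.2 y.1 y.2) a b :=
    (continuous_covMat_supp hν _ a b).comp (by unfold move; fun_prop)
  have hg := continuous_gam hσ hν h (k + 1) a b
  have hD := dens_nonneg hσ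
  rw [integral_one σ ν h k p hg.measurable]
  simp only [gam, moveP, cast_succ_mul, Matrix.sub_apply]
  rw [integral_sub, integral_stepM_snd hσ hν h k p
      (F := fun y => covMat ν (k * h + h) (move h p.2 y.1 y.2) a b) c2.measurable,
    integral_stepM_fst hσ hν h k p
      (F := fun y => covMat σ (k * h + h) (move h p.1 y.1 y.2) a b) c1.measurable]
  · rw [integral_stepM_fst hσ hσ h k (p.1, p.1)
      (F := fun y => covMat σ (k * h + h) (move h p.1 y.1 y.2) a b) c1.measurable] at a1
    rw [integral_stepM_fst hν hν h k (p.2, p.2)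
      (F := fun y => covMat ν (k * h + h) (move h p.2 y.1 y.2) a b) c2.measurable] at a2
    simp only [drift, Matrix.sub_apply, Matrix.smul_apply, smul_eq_mul] at a1 a2 ⊢
    obtain ⟨p1, p2⟩ := abs_le.1 a1
    obtain ⟨q1, q2⟩ := abs_le.1 a2
    rw [abs_le]
    constructor <;> linarith
  · exact integrable_stepM hσ hν h k p (c2.comp (f := fun z : (St n × St n) × St n => (z.1.2, z.2)) (by fun_prop)) (C := 2 * D) fun z _ =>
      (abs_covMat_le hν _ _ a b).trans (le_mul_of_one_le_right (by linarith) (one_le_wG _))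
  · exact integrable_stepM hσ hν h k p (c1.comp (f := fun z : (St n × St n) × St n => (z.1.1, z.2)) (by fun_prop)) (C := 2 * D) fun z _ =>
      (abs_covMat_le hσ _ _ a b).trans (le_mul_of_one_le_right (by linarith) (one_le_wG _))

end

end Vale.Agent.P245.Gen2
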