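import Vale.Agent.P245.Gen2.TiltBasic

/-!
# Tilts of a low-dimensional image

A linear image of a log-concave vector in dimension `k` has all its tilts of entropy `k` at distance
at most `C * √S` of its mean, `S` the trace of its covariance: after a small Gaussian smoothing the
sublevel set of the potential at level `13 k` contains a ball of half the width, and its volume is
at most `exp (C k)` times the volume of the ball of radius `4 √S`.
-/

open MeasureTheory Set
open scoped ENNReal Pointwise

namespace Vale.Agent.P245.General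

noncomputable section

variable {n k : ℕ} {η : ℝ} {ρ : (Fin n → ℝ) → ℝ}

/-- The linear image. -/
def img (ρ : (Fin n → ℝ) → ℝ) (v : Fin k → Fin n → ℝ) (x : Fin n → ℝ) : Fin k → ℝ :=
  fun j => dotp (v j) (x - center ρ)

/-- The smoothed density of the linear image. -/
def smooth (ρ : (Fin n → ℝ) → ℝ) (v : Fin k → Fin n → ℝ) (s : ℝ) (z : Fin k → ℝ) : ℝ :=
  ∫ x, gd k s (z - img ρ v x) ∂law ρ

theorem continuous_img (v : Fin k → Fin n → ℝ) : Continuous (img ρ v) :=
  continuous_pi fun j => (continuous_dotp (v j)).comp (continuous_id.sub continuous_const)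

theorem dotp_img (v : Fin k → Fin n → ℝ) (e : Fin k → ℝ) (x : Fin n → ℝ) :
    dotp e (img ρ v x) = dotp (∑ j, e j • v j) (x - center ρ) := by
  simp only [dotp, img, Finset.sum_apply, Pi.smul_apply, smul_eq_mul, Finset.mul_sum,
    Finset.sum_mul, mul_assoc]
  exact Finset.sum_comm

theorem dotp_sq_centred (h : Ulc η ρ) {c : ℝ} (hcov : CovLe ρ c) (u : Fin n → ℝ) :
    Integrable (fun x => dotp u (x - center ρ) ^ 2) (law ρ) ∧
      ∫ x, dotp u (x - center ρ) ^ 2 ∂law ρ ≤ c * nsq u := by
  have := isProb h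
  have hp : PolyB fun x => dotp u (x - center ρ) := by
    have e : (fun x => dotp u (x - center ρ)) = fun x => dotp u x + -dotp u (center ρ) := by
      funext x; rw [dotp_sub]; ring
    rw [e]
    exact polyB_add (polyB_dotp u) (polyB_const _)
  have hm : ∀ x, dotp u x - ∫ y, dotp u y ∂law ρ = dotp u (x - center ρ) := fun x => by
    have hi : Integrable (fun y => dotp u y) (law ρ) :=
      integrable_polyB h (continuous_dotp u).measurable (polyB_dotp u)
    have h0 := (integral_dotp_centred h u).2
    simp only [dotp_sub] at h0 ⊢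
    rw [integral_sub hi (integrable_const _), integral_const, probReal_univ, one_smul] at h0
    linarith
  refine ⟨?_, ?_⟩
  · simp only [pow_two]
    exact integrable_polyB h ((measurable_sub_dotp u _).mul (measurable_sub_dotp u _))
      (polyB_mul hp hp)
  · refine (le_of_eq ?_).trans (hcov u)
    simp only [covc, hm, pow_two]

theorem sum_sq_img (h : Ulc η ρ) (hcov : CovLe ρ 3) (v : Fin k → Fin n → ℝ) :
    Integrable (fun x => nsq (img ρ v x)) (law ρ) ∧
      ∫ x, nsq (img ρ v x) ∂law ρ ≤ 3 * ∑ j, nsq (v j) := by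
  have hj := fun j => dotp_sq_centred h hcov (v j)
  simp only [nsq, img] at hj ⊢
  refine ⟨integrable_finsetSum _ fun j _ => (hj j).1, ?_⟩
  rw [integral_finsetSum _ fun j _ => (hj j).1, Finset.mul_sum]
  exact Finset.sum_le_sum fun j _ => (hj j).2

section

variable {s : ℝ} {v : Fin k → Fin n → ℝ}

theorem gd_le_zero (hs : 0 < s) (z : Fin k → ℝ) : gd k s z ≤ gd k s 0 := by
  have : (0 : ℝ) ≤ (Real.sqrt (2 * Real.pi * s))⁻¹ ^ k := by positivity
  simp only [gd]
  refine mul_le_mul_of_nonneg_left (Real.exp_le_exp.2 ?_) this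
  have := nsq_nonneg z
  simp only [nsq, Pi.zero_apply, zero_pow two_ne_zero, Finset.sum_const_zero, neg_zero, zero_div]
  exact div_nonpos_of_nonpos_of_nonneg (neg_nonpos.2 (Finset.sum_nonneg fun i _ => sq_nonneg _))
    (by positivity)

theorem continuous_shift (v : Fin k → Fin n → ℝ) (z : Fin k → ℝ) :
    Continuous fun x => gd k s (z - img ρ v x) :=
  continuous_gd.comp (continuous_const.sub (continuous_img v))

theorem integrable_shift (h : Ulc η ρ) (hs : 0 < s) (z : Fin k → ℝ) :
    Integrable (fun x => gd k s (z - img ρ v x)) (law ρ) := by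
  have := isProb h
  exact Integrable.of_bound (continuous_shift v z).aestronglyMeasurable (gd k s 0)
    (Filter.Eventually.of_forall fun x => by
      rw [Real.norm_eq_abs, abs_of_pos (gd_pos hs _)]; exact gd_le_zero hs _)

theorem smooth_pos (h : Ulc η ρ) (hs : 0 < s) (z : Fin k → ℝ) : 0 < smooth ρ v s z := by
  have := isProb h
  rw [smooth, integral_pos_iff_support_of_nonneg (fun x => (gd_pos hs _).le)
    (integrable_shift h hs z)]
  simp [Function.support, (gd_pos hs _).ne']

theorem smooth_le (h : Ulc η ρ) (hs : 0 < s) (z : Fin k → ℝ) : smooth ρ v s z ≤ gd k s 0 := by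
  have := isProb h
  refine (integral_mono (integrable_shift h hs z) (integrable_const _) fun x => gd_le_zero hs _).trans
    (le_of_eq ?_)
  rw [integral_const, probReal_univ, one_smul]

theorem continuous_smooth (h : Ulc η ρ) (hs : 0 < s) : Continuous (smooth ρ v s) := by
  have := isProb h
  refine continuous_of_dominated (fun z => (continuous_shift v z).aestronglyMeasurable)
    (bound := fun _ => gd k s 0) (fun z => Filter.Eventually.of_forall fun x => ?_)
    (integrable_const _) (Filter.Eventually.of_forall fun x => ?_)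
  · rw [Real.norm_eq_abs, abs_of_pos (gd_pos hs _)]; exact gd_le_zero hs _
  · exact continuous_gd.comp (continuous_id.sub continuous_const)

theorem ofReal_smooth (h : Ulc η ρ) (hs : 0 < s) (z : Fin k → ℝ) :
    ENNReal.ofReal (smooth ρ v s z) = ∫⁻ x, ENNReal.ofReal (gd k s (z - img ρ v x)) ∂law ρ :=
  ofReal_integral_eq_lintegral_ofReal (integrable_shift h hs z)
    (Filter.Eventually.of_forall fun _ => (gd_pos hs _).le)

theorem img_combo (v : Fin k → Fin n → ℝ) (x y : Fin n → ℝ) {a b : ℝ} (hab : a + b = 1) :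
    img ρ v (a • x + b • y) = a • img ρ v x + b • img ρ v y := by
  obtain rfl : b = 1 - a := by linarith
  funext j
  simp only [img, dotp, Pi.add_apply, Pi.sub_apply, Pi.smul_apply, smul_eq_mul, Finset.mul_sum,
    ← Finset.sum_add_distrib]
  exact Finset.sum_congr rfl fun i _ => by ring

/-- Log-concavity of the smoothed density. -/
theorem smooth_conc (h : Ulc η ρ) (hs : 0 < s) (y z : Fin k → ℝ) {a b : ℝ} (ha : 0 < a)
    (hb : 0 < b) (hab : a + b = 1) :
    smooth ρ v s y ^ a * smooth ρ v s z ^ b ≤ smooth ρ v s (a • y + b • z) := by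
  have key := pl_law h ha hb hab (u := fun x => ENNReal.ofReal (gd k s (y - img ρ v x)))
    (v := fun x => ENNReal.ofReal (gd k s (z - img ρ v x)))
    (w := fun x => ENNReal.ofReal (gd k s (a • y + b • z - img ρ v x)))
    (continuous_shift v y).measurable.ennreal_ofReal
    (continuous_shift v z).measurable.ennreal_ofReal
    (continuous_shift v _).measurable.ennreal_ofReal fun p q => ?_
  · rw [← ofReal_smooth h hs, ← ofReal_smooth h hs, ← ofReal_smooth h hs,
      ENNReal.ofReal_rpow_of_pos (smooth_pos h hs _), ENNReal.ofReal_rpow_of_pos (smooth_pos h hs _),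
      ← ENNReal.ofReal_mul (Real.rpow_nonneg (smooth_pos h hs _).le _),
      ENNReal.ofReal_le_ofReal_iff (smooth_pos h hs _).le] at key
    exact key
  · rw [ENNReal.ofReal_rpow_of_pos (gd_pos hs _), ENNReal.ofReal_rpow_of_pos (gd_pos hs _),
      ← ENNReal.ofReal_mul (Real.rpow_nonneg (gd_pos hs _).le _),
      ← ENNReal.ofReal_mul (Real.exp_pos _).le]
    refine ENNReal.ofReal_le_ofReal ?_
    have h1 := (gd_ulc (n := k) hs).conc (y - img ρ v p) (z - img ρ v q) a b ha hb hab
    have e : a • (y - img ρ v p) + b • (z - img ρ v q)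
        = a • y + b • z - img ρ v (a • p + b • q) := by
      rw [img_combo v p q hab]; module
    rw [e] at h1
    have h2 : (1 : ℝ) ≤ Real.exp ((1 / s) * a * b / 2 * nsq (y - img ρ v p - (z - img ρ v q))) :=
      Real.one_le_exp (by have := nsq_nonneg (y - img ρ v p - (z - img ρ v q)); positivity)
    have h3 : (1 : ℝ) ≤ Real.exp (η * a * b / 2 * nsq (p - q)) :=
      Real.one_le_exp (by have := nsq_nonneg (p - q); have := h.pos; positivity)
    have h4 := le_mul_of_one_le_right (mul_nonneg (Real.rpow_nonneg (gd_pos hs (y - img ρ v p)).le a)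
      (Real.rpow_nonneg (gd_pos hs (z - img ρ v q)).le b)) h2
    exact (h4.trans h1).trans (le_mul_of_one_le_left (gd_pos hs _).le h3)

theorem map_smooth (h : Ulc η ρ) (hs : 0 < s) :
    law (smooth ρ v s) = ((law ρ).prod (law (gd k s))).map (fun p => img ρ v p.1 + p.2) := by
  have := isProb h
  have := isProb_gd (n := k) hs
  have hL : Measurable (img ρ v) := (continuous_img v).measurable
  have hf := (continuous_smooth (v := v) h hs).measurable
  refine Measure.ext_of_lintegral _ fun W hW => ?_
  rw [lintegral_law hf hW, lintegral_map hW (by fun_prop), lintegral_prod _ (by fun_prop)]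
  simp only [ofReal_smooth h hs]
  have hj : Measurable fun p : (Fin k → ℝ) × (Fin n → ℝ) =>
      ENNReal.ofReal (gd k s (p.1 - img ρ v p.2)) :=
    (continuous_gd.comp (continuous_fst.sub ((continuous_img v).comp continuous_snd))).measurable.ennreal_ofReal
  calc ∫⁻ z, (∫⁻ x, ENNReal.ofReal (gd k s (z - img ρ v x)) ∂law ρ) * W z
      = ∫⁻ z, ∫⁻ x, ENNReal.ofReal (gd k s (z - img ρ v x)) * W z ∂law ρ :=
        lintegral_congr fun z => (lintegral_mul_const _ (hj.comp measurable_prodMk_left)).symm
    _ = ∫⁻ x, ∫⁻ z, ENNReal.ofReal (gd k s (z - img ρ v x)) * W z ∂volume ∂law ρ :=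
        lintegral_lintegral_swap (hj.mul (hW.comp measurable_fst)).aemeasurable
    _ = _ := lintegral_congr fun x => by
        rw [lintegral_law continuous_gd.measurable
          (u := fun y => W (img ρ v x + y)) (hW.comp (measurable_const.add measurable_id)),
          ← lintegral_add_right_eq_self (fun z => ENNReal.ofReal (gd k s (z - img ρ v x)) * W z)
            (img ρ v x)]
        refine lintegral_congr fun y => ?_
        simp [add_comm]

theorem isProb_smooth (h : Ulc η ρ) (hs : 0 < s) : IsProbabilityMeasure (law (smooth ρ v s)) := by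
  have := isProb h
  have := isProb_gd (n := k) hs
  rw [map_smooth h hs]
  exact Measure.isProbabilityMeasure_map
    (((continuous_img v).measurable.comp measurable_fst).add measurable_snd).aemeasurable

theorem continuous_pair (v : Fin k → Fin n → ℝ) :
    Continuous fun p : (Fin n → ℝ) × (Fin k → ℝ) => img ρ v p.1 + p.2 :=
  ((continuous_img v).comp continuous_fst).add continuous_snd

theorem smooth_second (h : Ulc η ρ) (hcov : CovLe ρ 3) (hs : 0 < s) :
    Integrable nsq (law (smooth ρ v s)) ∧
      ∫ z, nsq z ∂law (smooth ρ v s) ≤ 6 * (∑ j, nsq (v j)) + 2 * (k * s) := by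
  have := isProb h
  have := isProb_gd (n := k) hs
  obtain ⟨hg, hg'⟩ := integral_nsq_le (gd_ulc (n := k) hs) (covLe_inv (gd_ulc hs))
  simp only [center_gd hs, sub_zero, one_div_one_div] at hg hg'
  obtain ⟨hy, hy'⟩ := sum_sq_img h hcov v
  have hb : Integrable (fun p : (Fin n → ℝ) × (Fin k → ℝ) => 2 * nsq (img ρ v p.1) + 2 * nsq p.2)
      ((law ρ).prod (law (gd k s))) :=
    ((hy.comp_fst (law (gd k s))).const_mul 2).add ((hg.comp_snd (law ρ)).const_mul 2)
  have hc : Continuous fun p : (Fin n → ℝ) × (Fin k → ℝ) => nsq (img ρ v p.1 + p.2) :=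
    continuous_nsq.comp (continuous_pair v)
  have hi : Integrable (fun p : (Fin n → ℝ) × (Fin k → ℝ) => nsq (img ρ v p.1 + p.2))
      ((law ρ).prod (law (gd k s))) :=
    hb.mono' hc.aestronglyMeasurable (Filter.Eventually.of_forall fun p => by
      rw [Real.norm_eq_abs, abs_of_nonneg (nsq_nonneg _)]; exact nsq_add_le _ _)
  rw [map_smooth h hs]
  refine ⟨(integrable_map_measure continuous_nsq.aestronglyMeasurable
    (continuous_pair v).aemeasurable).2 hi, ?_⟩
  rw [integral_map (continuous_pair v).aemeasurable continuous_nsq.aestronglyMeasurable]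
  refine (integral_mono hi hb fun p => nsq_add_le _ _).trans ?_
  rw [integral_add ((hy.comp_fst _).const_mul 2) ((hg.comp_snd _).const_mul 2), integral_const_mul,
    integral_const_mul, integral_fun_fst (fun x => nsq (img ρ v x)), integral_fun_snd (nsq : (Fin k → ℝ) → ℝ), probReal_univ, probReal_univ,
    one_smul, one_smul]
  linarith

theorem smooth_coord (h : Ulc η ρ) (hs : 0 < s) (i : Fin k) :
    Integrable (fun z => z i) (law (smooth ρ v s)) ∧ ∫ z, z i ∂law (smooth ρ v s) = 0 := by
  have := isProb h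
  have := isProb_gd (n := k) hs
  obtain ⟨hy, hy0⟩ := integral_dotp_centred h (v i)
  have hg : Integrable (fun y : Fin k → ℝ => y i) (law (gd k s)) :=
    integrable_polyB (gd_ulc hs) (measurable_pi_apply i) (polyB_coord i)
  have hg0 : ∫ y, y i ∂law (gd k s) = 0 := congrFun (center_gd (n := k) hs) i
  have hi : Integrable (fun p : (Fin n → ℝ) × (Fin k → ℝ) => (img ρ v p.1 + p.2) i)
      ((law ρ).prod (law (gd k s))) := (hy.comp_fst _).add (hg.comp_snd _)
  rw [map_smooth h hs]
  refine ⟨(integrable_map_measure (continuous_apply i).aestronglyMeasurable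
    (continuous_pair v).aemeasurable).2 hi, ?_⟩
  rw [integral_map (continuous_pair v).aemeasurable (continuous_apply i).aestronglyMeasurable]
  simp only [Pi.add_apply, img]
  rw [integral_add (hy.comp_fst _) (hg.comp_snd _), integral_fun_fst (fun x => dotp (v i) (x - center ρ)),
    integral_fun_snd (fun y : Fin k → ℝ => y i), hy0, hg0]
  simp

theorem smooth_mgf (h : Ulc η ρ) (hs : 0 < s) (e : Fin k → ℝ) :
    Integrable (fun z => Real.exp (dotp e z)) (law (smooth ρ v s)) ∧
      Real.exp (lmgf ρ (∑ j, e j • v j)) ≤ ∫ z, Real.exp (dotp e z) ∂law (smooth ρ v s) := by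
  have := isProb h
  have := isProb_gd (n := k) hs
  set u := ∑ j, e j • v j
  have hy := integrable_linear_mgf h u
  have hg := integrable_linear_mgf (gd_ulc (n := k) hs) e
  have hB := one_le_mgf (gd_ulc (n := k) hs) e
  simp only [center_gd hs, sub_zero] at hg hB
  have he : ∀ p : (Fin n → ℝ) × (Fin k → ℝ), Real.exp (dotp e (img ρ v p.1 + p.2))
      = Real.exp (dotp u (p.1 - center ρ)) * Real.exp (dotp e p.2) := fun p => by
    rw [← Real.exp_add, ← dotp_img]
    simp only [dotp, Pi.add_apply, mul_add, Finset.sum_add_distrib]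
  have hc : Continuous fun z : Fin k → ℝ => Real.exp (dotp e z) :=
    Real.continuous_exp.comp (continuous_dotp e)
  rw [map_smooth h hs]
  refine ⟨(integrable_map_measure hc.aestronglyMeasurable (continuous_pair v).aemeasurable).2 ?_, ?_⟩
  · simpa only [Function.comp_def, he] using hy.mul_prod hg
  · rw [integral_map (continuous_pair v).aemeasurable hc.aestronglyMeasurable]
    simp only [he]
    rw [integral_prod_mul (fun x => Real.exp (dotp u (x - center ρ)))
      (fun y => Real.exp (dotp e y)), ← exp_lmgf h]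
    exact le_mul_of_one_le_right (Real.exp_pos _).le hB

theorem volume_nsq_le (r : ℝ) (hr : 0 < r) :
    volume {z : Fin k → ℝ | nsq z ≤ r ^ 2}
      = ENNReal.ofReal (r ^ k) * volume {z : Fin k → ℝ | nsq z ≤ 1} := by
  have e : {z : Fin k → ℝ | nsq z ≤ r ^ 2} = r • {z : Fin k → ℝ | nsq z ≤ 1} := by
    ext z
    rw [Set.mem_smul_set_iff_inv_smul_mem₀ hr.ne', mem_ofPred_eq, mem_ofPred_eq, nsq_smul_eq,
      inv_pow, inv_mul_le_iff₀ (by positivity), mul_one]
  rw [e, Measure.addHaar_smul_of_nonneg _ hr.le, Module.finrank_pi, Fintype.card_fin]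

/-- **The width of the tilts of an image in dimension `k`**, in the directions that do not point
away from a cone `A` filling at least the fraction `2 ^ (-k)` of the ball. -/
theorem core_cone (h : Ulc η ρ) (hcov : CovLe ρ 3) (hk : 1 ≤ k) {S : ℝ} (hS : 0 < S)
    (hv : ∑ j, nsq (v j) ≤ S) {R : ℝ}
    {A : Set (Fin k → ℝ)} (hAc : ∀ c : ℝ, 0 < c → c • A = A)
    (hA : ENNReal.ofReal (1 / 2 ^ k) * volume {z : Fin k → ℝ | nsq z ≤ 1}
      ≤ volume ({z | nsq z ≤ 1} ∩ A))
    (hR : ∀ e : Fin k → ℝ, nsq e = 1 →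
      (∀ x ∈ A, dotp e x ≤ 0) ∨ R ≤ wid ρ k (∑ j, e j • v j)) :
    R ≤ 16 * Real.exp 14 * Real.sqrt S := by
  rcases le_or_gt R 0 with h0 | hR0
  · exact h0.trans (by positivity)
  have hk0 : (1 : ℝ) ≤ k := by exact_mod_cast hk
  set s := S / k with hsdef
  have hs : 0 < s := by positivity
  set f := smooth ρ v s
  set ν := law f with hν
  have : IsProbabilityMeasure ν := isProb_smooth (v := v) h hs
  have hfc : Continuous f := continuous_smooth h hs
  have hfp : ∀ z, 0 < f z := smooth_pos h hs
  set F := sSup (range f)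
  have hbd : BddAbove (range f) := ⟨gd k s 0, by rintro _ ⟨z, rfl⟩; exact smooth_le h hs z⟩
  have hfF : ∀ z, f z ≤ F := fun z => le_csSup hbd (mem_range_self z)
  have hF : 0 < F := (hfp 0).trans_le (hfF 0)
  set φ := fun z => Real.log F - Real.log (f z)
  have hφ0 : ∀ z, 0 ≤ φ z := fun z => sub_nonneg.2 (Real.log_le_log (hfp z) (hfF z))
  have hφc : Continuous φ := continuous_const.sub (hfc.log fun z => (hfp z).ne')
  have hconv : ConvexOn ℝ univ φ := by
    refine ⟨convex_univ, fun y _ z _ a b ha hb hab => ?_⟩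
    rcases eq_or_lt_of_le ha with rfl | ha'
    · simp [show b = 1 by linarith]
    rcases eq_or_lt_of_le hb with rfl | hb'
    · simp [show a = 1 by linarith]
    have h1 := Real.log_le_log (mul_pos (Real.rpow_pos_of_pos (hfp y) a)
      (Real.rpow_pos_of_pos (hfp z) b)) (smooth_conc h hs y z ha' hb' hab)
    rw [Real.log_mul (Real.rpow_pos_of_pos (hfp y) a).ne' (Real.rpow_pos_of_pos (hfp z) b).ne',
      Real.log_rpow (hfp y), Real.log_rpow (hfp z)] at h1
    simp only [φ, smul_eq_mul]
    have : Real.log F = a * Real.log F + b * Real.log F := by rw [← add_mul, hab, one_mul]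
    linarith
  -- the exponential moment of the potential
  obtain ⟨w, ⟨x0, rfl⟩, hx0⟩ :=
    exists_lt_of_lt_csSup (range_nonempty f) (show F / 2 < F by linarith)
  have hexp : ∀ z, Real.exp (φ z / 2) = Real.sqrt F / Real.sqrt (f z) := fun z => by
    rw [← Real.sqrt_div hF.le, Real.exp_half, Real.exp_sub, Real.exp_log hF, Real.exp_log (hfp z)]
  have hmom : ∫⁻ z, ENNReal.ofReal (Real.exp (φ z / 2)) ∂ν ≤ ENNReal.ofReal (4 ^ k) := by
    rw [hν, lintegral_law hfc.measurable (by fun_prop)]
    have hle : ∀ z, ENNReal.ofReal (f z) * ENNReal.ofReal (Real.exp (φ z / 2))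
        ≤ ENNReal.ofReal (Real.sqrt 2) * ENNReal.ofReal (f ((1 / 2 : ℝ) • z + (1 / 2 : ℝ) • x0)) := by
      intro z
      rw [← ENNReal.ofReal_mul (hfp z).le, ← ENNReal.ofReal_mul (by positivity)]
      refine ENNReal.ofReal_le_ofReal ?_
      have h1 := smooth_conc h hs (v := v) z x0 (show (0 : ℝ) < 1 / 2 by norm_num)
        (show (0 : ℝ) < 1 / 2 by norm_num) (by norm_num)
      rw [← Real.sqrt_eq_rpow, ← Real.sqrt_eq_rpow] at h1
      have h2 : Real.sqrt F ≤ Real.sqrt 2 * Real.sqrt (f x0) := by
        rw [← Real.sqrt_mul (by norm_num)]; exact Real.sqrt_le_sqrt (by linarith)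
      have h3 : 0 < Real.sqrt (f z) := Real.sqrt_pos.2 (hfp z)
      calc f z * Real.exp (φ z / 2) = Real.sqrt (f z) * Real.sqrt F := by
            rw [hexp, ← mul_div_assoc, div_eq_iff h3.ne', mul_right_comm,
              Real.mul_self_sqrt (hfp z).le]
        _ ≤ Real.sqrt (f z) * (Real.sqrt 2 * Real.sqrt (f x0)) :=
            mul_le_mul_of_nonneg_left h2 h3.le
        _ = Real.sqrt 2 * (Real.sqrt (f z) * Real.sqrt (f x0)) := by ring
        _ ≤ _ := mul_le_mul_of_nonneg_left h1 (Real.sqrt_nonneg _)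
    refine (lintegral_mono hle).trans ?_
    have hF' : Measurable fun z => ENNReal.ofReal (f z) := hfc.measurable.ennreal_ofReal
    have hsub : ∫⁻ z, ENNReal.ofReal (f ((1 / 2 : ℝ) • z + (1 / 2 : ℝ) • x0))
        = ENNReal.ofReal (2 ^ k) := by
      have e1 : ∫⁻ z, ENNReal.ofReal (f ((1 / 2 : ℝ) • z + (1 / 2 : ℝ) • x0))
          = ∫⁻ w, ENNReal.ofReal (f (w + (1 / 2 : ℝ) • x0))
              ∂Measure.map (fun z => (1 / 2 : ℝ) • z) volume :=
        (lintegral_map (f := fun w => ENNReal.ofReal (f (w + (1 / 2 : ℝ) • x0)))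
          (by fun_prop) (by fun_prop)).symm
      have e2 : ∫⁻ z, ENNReal.ofReal (f z) = 1 := by
        have := measure_univ (μ := ν)
        rwa [hν, law, withDensity_apply _ MeasurableSet.univ, setLIntegral_univ] at this
      rw [e1, Measure.map_addHaar_smul _ (by norm_num : (1 / 2 : ℝ) ≠ 0), lintegral_smul_measure,
        lintegral_add_right_eq_self (fun z => ENNReal.ofReal (f z)), e2, Module.finrank_pi,
        Fintype.card_fin, smul_eq_mul, mul_one]
      congr 1
      rw [one_div, inv_pow, inv_inv, abs_of_pos (by positivity)]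
    rw [lintegral_const_mul' _ _ ENNReal.ofReal_ne_top, hsub,
      ← ENNReal.ofReal_mul (by positivity)]
    refine ENNReal.ofReal_le_ofReal ?_
    rw [show (4 : ℝ) ^ k = 2 ^ k * 2 ^ k by rw [← mul_pow]; norm_num]
    refine mul_le_mul_of_nonneg_right ?_ (by positivity)
    calc Real.sqrt 2 ≤ 2 := Real.sqrt_le_iff.2 ⟨by norm_num, by norm_num⟩
      _ = 2 ^ 1 := (pow_one _).symm
      _ ≤ 2 ^ k := pow_le_pow_right₀ (by norm_num) hk
  have hei : Integrable (fun z => Real.exp (φ z / 2)) ν :=
    ⟨(Real.continuous_exp.comp (hφc.div_const 2)).aestronglyMeasurable,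
      (hasFiniteIntegral_iff_ofReal (Filter.Eventually.of_forall fun z => (Real.exp_pos _).le)).2
        (hmom.trans_lt ENNReal.ofReal_lt_top)⟩
  have hI : ∫ z, Real.exp (φ z / 2) ∂ν ≤ 4 ^ k := by
    rw [← ofReal_integral_eq_lintegral_ofReal hei
      (Filter.Eventually.of_forall fun z => (Real.exp_pos _).le),
      ENNReal.ofReal_le_ofReal_iff (by positivity)] at hmom
    exact hmom
  have hlog4 : Real.log 4 ≤ 3 / 2 := by
    rw [show (4 : ℝ) = 2 ^ 2 by norm_num, Real.log_pow]
    have := Real.log_two_lt_d9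
    push_cast
    linarith
  have h4k : (4 : ℝ) ^ k ≤ Real.exp (3 / 2 * k) := by
    rw [← Real.rpow_natCast, Real.rpow_def_of_pos (by norm_num)]
    exact Real.exp_le_exp.2 (mul_le_mul_of_nonneg_right hlog4 (Nat.cast_nonneg k))
  -- the centre
  have ha0 : φ 0 ≤ 3 * k := by
    have hφi : Integrable φ ν := by
      refine (hei.const_mul 2).mono' hφc.aestronglyMeasurable (Filter.Eventually.of_forall fun z => ?_)
      rw [Real.norm_eq_abs, abs_of_nonneg (hφ0 z)]
      linarith [Real.add_one_le_exp (φ z / 2)]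
    have hid : Integrable (fun z : Fin k → ℝ => z) ν :=
      integrable_pi_iff.2 fun i => (smooth_coord h hs i).1
    have hmean : ∫ z : Fin k → ℝ, z ∂ν = 0 := by
      funext i
      have := (ContinuousLinearMap.proj (R := ℝ) (φ := fun _ : Fin k => ℝ) i).integral_comp_comm hid
      simp only [ContinuousLinearMap.proj_apply] at this
      rw [← this]
      exact (smooth_coord h hs i).2
    have h1 := hconv.map_integral_le hφc.continuousOn isClosed_univ
      (Filter.Eventually.of_forall fun z => mem_univ z) hid hφi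
    rw [hmean] at h1
    have h2 := convexOn_exp.map_integral_le Real.continuous_exp.continuousOn isClosed_univ
      (Filter.Eventually.of_forall fun z => mem_univ (φ z / 2)) (hφi.div_const 2) hei
    rw [integral_div] at h2
    have h3 := Real.exp_le_exp.1 ((h2.trans hI).trans h4k)
    linarith
  -- every direction reaches `R / 2` in the sublevel set
  set K := {z | φ z ≤ 13 * (k : ℝ)}
  have hdir : ∀ e : Fin k → ℝ, nsq e = 1 → R ≤ wid ρ k (∑ j, e j • v j) →
      ∃ z ∈ K, R / 2 ≤ dotp e z := by
    intro e he hRe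
    by_contra hno
    push Not at hno
    set q := (13 * (k : ℝ) - φ 0) / R
    have hTa : 10 * (k : ℝ) ≤ 13 * k - φ 0 := by linarith
    have hq : 0 < q := div_pos (by linarith) hR0
    have hle : ∀ z, Real.exp (dotp (q • e) z)
        ≤ Real.exp (q * (R / 2)) + Real.exp (φ z / 2) := fun z => by
      rw [dotp_smul]
      rcases le_or_gt (dotp e z) (R / 2) with hz | hz
      · exact (Real.exp_le_exp.2 (mul_le_mul_of_nonneg_left hz hq.le)).trans
          (le_add_of_nonneg_right (Real.exp_pos _).le)
      refine (Real.exp_le_exp.2 ?_).trans (le_add_of_nonneg_left (Real.exp_pos _).le)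
      have hZ : 0 < dotp e z := by linarith
      set th := R / 2 / dotp e z
      have hth : 0 < th := by positivity
      have hth1 : th ≤ 1 := by rw [div_le_one hZ]; exact hz.le
      have hp : 13 * (k : ℝ) < φ (th • z) := by
        by_contra hp
        have := hno (th • z) (not_lt.1 hp)
        have e2 : dotp e (th • z) = th * dotp e z := by
          simp only [dotp, Pi.smul_apply, smul_eq_mul, Finset.mul_sum]
          exact Finset.sum_congr rfl fun i _ => by ring
        rw [e2, div_mul_cancel₀ _ hZ.ne'] at this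
        exact lt_irrefl _ this
      have hc := hconv.2 (mem_univ z) (mem_univ 0) hth.le (sub_nonneg.2 hth1) (add_sub_cancel th 1)
      simp only [smul_zero, add_zero, smul_eq_mul] at hc
      have hb : 13 * (k : ℝ) - φ 0 ≤ th * φ z := by
        have := mul_nonneg hth.le (hφ0 0)
        linarith
      have e3 : q * dotp e z = (13 * (k : ℝ) - φ 0) / (2 * th) := by
        simp only [q, th]; field_simp
      rw [e3, div_le_iff₀ (by positivity)]
      linarith
    obtain ⟨hi, hlow⟩ := smooth_mgf (v := v) h hs (q • e)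
    have hup := integral_mono hi ((integrable_const _).add hei) hle
    simp only [Pi.add_apply] at hup
    rw [integral_add (integrable_const _) hei, integral_const, probReal_univ, one_smul] at hup
    have hsum : ∑ j, (q • e) j • v j = q • ∑ j, e j • v j := by
      simp [Finset.smul_sum, smul_smul]
    rw [hsum] at hlow
    have hfin : Real.exp (lmgf ρ (q • ∑ j, e j • v j)) ≤ Real.exp (1 + q * (R / 2) + 3 / 2 * k) := by
      refine (hlow.trans hup).trans ((add_le_add_right (hI.trans h4k) _).trans ?_)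
      have h1 : (2 : ℝ) ≤ Real.exp 1 := by linarith [Real.add_one_le_exp (1 : ℝ)]
      have h2 : Real.exp (q * (R / 2)) ≤ Real.exp (q * (R / 2) + 3 / 2 * k) :=
        Real.exp_le_exp.2 (by linarith)
      have h3 : Real.exp (3 / 2 * (k : ℝ)) ≤ Real.exp (q * (R / 2) + 3 / 2 * k) :=
        Real.exp_le_exp.2 (by nlinarith)
      rw [add_assoc, Real.exp_add]
      nlinarith [Real.exp_pos (q * (R / 2) + 3 / 2 * k)]
    have hL := Real.exp_le_exp.1 hfin
    have hw := hRe.trans (wid_le h (Nat.cast_nonneg k) _ hq)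
    rw [le_div_iff₀ hq] at hw
    have e4 : R * q = 13 * (k : ℝ) - φ 0 := by simp only [q]; field_simp
    have e5 : q * (R / 2) = (13 * (k : ℝ) - φ 0) / 2 := by simp only [q]; field_simp
    linarith
  have hball : {z : Fin k → ℝ | nsq z ≤ (R / 2) ^ 2} ∩ A ⊆ K := by
    rintro x ⟨hx, hxA⟩
    by_contra hxK
    have hKc : Convex ℝ K := by simpa using hconv.convex_le (13 * (k : ℝ))
    obtain ⟨l, u, hl, hu⟩ :=
      geometric_hahn_banach_closed_point hKc (isClosed_le hφc continuous_const) hxK
    set g : Fin k → ℝ := fun i => l (Pi.single i 1)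
    have hlz : ∀ z, l z = dotp g z := fun z => by
      conv_lhs => rw [show z = ∑ i, z i • (Pi.single i 1 : Fin k → ℝ) from funext fun j => by
        simp [Finset.sum_apply, Pi.single_apply]]
      rw [map_sum]
      exact Finset.sum_congr rfl fun i _ => by simp [g, mul_comm]
    have h0K : (0 : Fin k → ℝ) ∈ K := by
      show φ 0 ≤ 13 * (k : ℝ)
      linarith
    set r := Real.sqrt (nsq g)
    have hlx : dotp g x ≤ r * (R / 2) :=
      (Real.sum_mul_le_sqrt_mul_sqrt _ _ _).trans (mul_le_mul_of_nonneg_left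
        ((Real.sqrt_le_sqrt hx).trans (Real.sqrt_sq (by positivity)).le) (Real.sqrt_nonneg _))
    have h0l := hl 0 h0K
    rw [map_zero] at h0l
    rcases eq_or_lt_of_le (Real.sqrt_nonneg (nsq g)) with hr | hr
    · rw [hlz] at hu
      rw [show r = 0 from hr.symm, zero_mul] at hlx
      linarith
    · have he : nsq (r⁻¹ • g) = 1 := by
        rw [nsq_smul_eq, inv_pow, Real.sq_sqrt (nsq_nonneg g),
          inv_mul_cancel₀ (Real.sqrt_pos.1 hr).ne']
      rcases hR _ he with hn | hRe
      · have h1 := hn x hxA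
        rw [dotp_smul, inv_mul_eq_div, div_le_iff₀ hr, zero_mul] at h1
        rw [hlz] at hu
        linarith
      obtain ⟨z, hzK, hz⟩ := hdir _ he hRe
      rw [dotp_smul, inv_mul_eq_div, le_div_iff₀ hr] at hz
      have := hl z hzK
      rw [hlz] at this hu
      linarith
  -- compare volumes
  set V := volume {z : Fin k → ℝ | nsq z ≤ 1}
  set r := 4 * Real.sqrt S
  have hr0 : 0 < r := by positivity
  have hlow : ENNReal.ofReal (1 / 2) ≤ ENNReal.ofReal F * (ENNReal.ofReal (r ^ k) * V) := by
    obtain ⟨hi, hle⟩ := smooth_second (v := v) h hcov hs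
    have hks : (k : ℝ) * s = S := by simp only [s]; field_simp
    rw [hks] at hle
    have hmk := mul_meas_ge_le_integral_of_nonneg (μ := ν)
      (Filter.Eventually.of_forall fun z => nsq_nonneg z) hi (r ^ 2)
    have hr2 : r ^ 2 = 16 * S := by simp only [r]; rw [mul_pow, Real.sq_sqrt hS.le]; ring
    have hhalf : ν.real {z | r ^ 2 ≤ nsq z} ≤ 1 / 2 := by
      rw [hr2] at hmk ⊢
      by_contra hc
      have := mul_lt_mul_of_pos_left (not_le.1 hc) (show (0 : ℝ) < 16 * S by positivity)
      linarith
    have hu : ν.real univ ≤ ν.real {z | nsq z ≤ r ^ 2} + ν.real {z | r ^ 2 ≤ nsq z} :=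
      (measureReal_mono (fun z _ => le_total (nsq z) (r ^ 2)) (measure_ne_top ν _)).trans
        (measureReal_union_le _ _)
    rw [probReal_univ] at hu
    calc ENNReal.ofReal (1 / 2) ≤ ν {z | nsq z ≤ r ^ 2} := by
          rw [← ofReal_measureReal]; exact ENNReal.ofReal_le_ofReal (by linarith)
      _ = ∫⁻ z in {z | nsq z ≤ r ^ 2}, ENNReal.ofReal (f z) := by
          rw [hν, law, withDensity_apply _ (measurableSet_nsq_le _)]
      _ ≤ ∫⁻ _ in {z : Fin k → ℝ | nsq z ≤ r ^ 2}, ENNReal.ofReal F :=
          lintegral_mono fun z => ENNReal.ofReal_le_ofReal (hfF z)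
      _ = _ := by rw [setLIntegral_const, volume_nsq_le r hr0]
  have hup : ENNReal.ofReal (F * Real.exp (-(13 * (k : ℝ)))) *
      (ENNReal.ofReal ((R / 2) ^ k) * (ENNReal.ofReal (1 / 2 ^ k) * V)) ≤ 1 := by
    have hsc : ENNReal.ofReal ((R / 2) ^ k) * (ENNReal.ofReal (1 / 2 ^ k) * V)
        ≤ volume ({z : Fin k → ℝ | nsq z ≤ (R / 2) ^ 2} ∩ A) := by
      refine (mul_le_mul_of_nonneg_left hA zero_le).trans (le_of_eq ?_)
      have hR2 : 0 < R / 2 := by positivity
      have e : {z : Fin k → ℝ | nsq z ≤ (R / 2) ^ 2} ∩ A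
          = (R / 2) • ({z : Fin k → ℝ | nsq z ≤ 1} ∩ A) := by
        rw [Set.smul_set_inter₀ hR2.ne', hAc _ hR2]
        congr 1
        ext z
        rw [Set.mem_smul_set_iff_inv_smul_mem₀ hR2.ne', mem_ofPred_eq, mem_ofPred_eq, nsq_smul_eq,
          inv_pow, inv_mul_le_iff₀ (by positivity), mul_one]
      rw [e, Measure.addHaar_smul_of_nonneg _ hR2.le, Module.finrank_pi, Fintype.card_fin]
    refine (mul_le_mul_of_nonneg_left hsc zero_le).trans ?_
    calc _ ≤ ∫⁻ z in {z : Fin k → ℝ | nsq z ≤ (R / 2) ^ 2} ∩ A, ENNReal.ofReal (f z) := by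
          rw [← setLIntegral_const]
          refine setLIntegral_mono hfc.measurable.ennreal_ofReal fun z hz => ?_
          refine ENNReal.ofReal_le_ofReal ?_
          have hzK : φ z ≤ 13 * (k : ℝ) := hball hz
          have e : F * Real.exp (-φ z) = f z := by
            simp only [φ, neg_sub, Real.exp_sub, Real.exp_log hF, Real.exp_log (hfp z)]
            field_simp
          rw [← e]
          exact mul_le_mul_of_nonneg_left (Real.exp_le_exp.2 (by linarith)) hF.le
      _ ≤ ν univ := by
          rw [hν, law, withDensity_apply _ MeasurableSet.univ, setLIntegral_univ]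
          exact setLIntegral_le_lintegral _ _
      _ = 1 := measure_univ
  have hVt : V ≠ ∞ := by
    refine ((measure_mono (fun z hz => ?_)).trans_lt
      (measure_closedBall_lt_top (x := (0 : Fin k → ℝ)) (r := 1))).ne
    rw [Metric.mem_closedBall, dist_zero_right, pi_norm_le_iff_of_nonneg zero_le_one]
    intro i
    rw [Real.norm_eq_abs, ← Real.sqrt_sq_eq_abs, Real.sqrt_le_one]
    exact (Finset.single_le_sum (fun j _ => sq_nonneg (z j)) (Finset.mem_univ i)).trans hz
  obtain ⟨V', hV', hVe⟩ : ∃ V' : ℝ, 0 ≤ V' ∧ V = ENNReal.ofReal V' :=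
    ⟨V.toReal, ENNReal.toReal_nonneg, (ENNReal.ofReal_toReal hVt).symm⟩
  rw [hVe, ← ENNReal.ofReal_mul (by positivity), ← ENNReal.ofReal_mul hF.le,
    ENNReal.ofReal_le_ofReal_iff (by positivity)] at hlow
  rw [hVe, ← ENNReal.ofReal_mul (by positivity), ← ENNReal.ofReal_mul (by positivity),
    ← ENNReal.ofReal_mul (by positivity), ENNReal.ofReal_le_one] at hup
  have hFV : 0 < F * V' := by
    by_contra hc
    have : F * (r ^ k * V') ≤ 0 := by
      rw [mul_left_comm]; exact mul_nonpos_of_nonneg_of_nonpos (by positivity) (not_lt.1 hc)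
    linarith
  have hRr : (R / 4) ^ k ≤ (Real.exp 14 * r) ^ k := by
    have e4 : (R / 4) ^ k = (R / 2) ^ k * (1 / 2 ^ k) := by
      rw [one_div, ← inv_pow, ← mul_pow]; congr 1; ring
    rw [e4]
    have h1 : (R / 2) ^ k * (1 / 2 ^ k) * Real.exp (-(13 * (k : ℝ))) ≤ 2 * r ^ k := by
      refine le_of_mul_le_mul_left ?_ hFV
      linarith
    rw [Real.exp_neg, mul_inv_le_iff₀ (Real.exp_pos _)] at h1
    refine h1.trans ?_
    rw [mul_pow (Real.exp 14), ← Real.exp_nat_mul, mul_comm (2 : ℝ), mul_assoc, mul_comm (r ^ k)]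
    refine mul_le_mul_of_nonneg_right ?_ (by positivity)
    have h2 : (2 : ℝ) ≤ Real.exp k :=
      le_trans (by linarith [Real.add_one_le_exp (1 : ℝ)]) (Real.exp_le_exp.2 hk0)
    calc 2 * Real.exp (13 * (k : ℝ)) ≤ Real.exp k * Real.exp (13 * (k : ℝ)) :=
          mul_le_mul_of_nonneg_right h2 (Real.exp_pos _).le
      _ = _ := by rw [← Real.exp_add]; congr 1; ring
  have := le_of_pow_le_pow_left₀ (by omega) (by positivity) hRr
  simp only [r] at this
  linarith

/-- The width of the tilts of an image in dimension `k`, all directions. -/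
theorem core (h : Ulc η ρ) (hcov : CovLe ρ 3) (hk : 1 ≤ k) {S : ℝ} (hS : 0 < S)
    (hv : ∑ j, nsq (v j) ≤ S) {R : ℝ}
    (hR : ∀ e : Fin k → ℝ, nsq e = 1 → R ≤ wid ρ k (∑ j, e j • v j)) :
    R ≤ 16 * Real.exp 14 * Real.sqrt S := by
  refine core_cone h hcov hk hS hv (A := univ) (fun c hc => ?_) ?_
    fun e he => Or.inr (hR e he)
  · exact Set.smul_set_univ₀ hc.ne'
  · rw [inter_univ]
    calc _ ≤ 1 * volume {z : Fin k → ℝ | nsq z ≤ 1} := by
          refine mul_le_mul_left ?_ _
          rw [ENNReal.ofReal_le_one, div_le_one (by positivity)]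
          exact one_le_pow₀ (by norm_num)
      _ = _ := one_mul _

/-- The width in one direction. -/
theorem wid_one_le (h : Ulc η ρ) (hcov : CovLe ρ 3) (u : Fin n → ℝ) :
    wid ρ 1 u ≤ 16 * Real.exp 14 * Real.sqrt (nsq u) := by
  refine le_of_forall_pos_le_add fun ε hε => ?_
  have hε' : 0 < ε / (16 * Real.exp 14) := by positivity
  set S := (Real.sqrt (nsq u) + ε / (16 * Real.exp 14)) ^ 2
  have hS : 0 < S := by positivity
  have hu : ∑ j : Fin 1, nsq ((fun _ => u) j) ≤ S := by
    rw [Fin.sum_univ_one]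
    calc nsq u = Real.sqrt (nsq u) ^ 2 := (Real.sq_sqrt (nsq_nonneg u)).symm
      _ ≤ S := pow_le_pow_left₀ (Real.sqrt_nonneg _) (by linarith) 2
  have key := core_cone (k := 1) (v := fun _ => u) h hcov le_rfl hS hu (R := wid ρ 1 u)
    (A := {z | 0 ≤ z 0}) (fun c hc => ?_) ?_ fun e he => ?_
  · rw [show S = (Real.sqrt (nsq u) + ε / (16 * Real.exp 14)) ^ 2 from rfl,
      Real.sqrt_sq (by positivity), mul_add, mul_div_cancel₀ _ (by positivity)] at key
    exact key
  · ext z
    rw [Set.mem_smul_set_iff_inv_smul_mem₀ hc.ne']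
    simp only [mem_ofPred_eq, Pi.smul_apply, smul_eq_mul]
    exact mul_nonneg_iff_of_pos_left (inv_pos.2 hc)
  · have hneg : volume ({z : Fin 1 → ℝ | nsq z ≤ 1} ∩ {z | z 0 ≤ 0})
        = volume ({z : Fin 1 → ℝ | nsq z ≤ 1} ∩ {z | 0 ≤ z 0}) := by
      rw [← Measure.measure_neg]
      congr 1
      ext z
      simp [nsq]
    have hsum : volume {z : Fin 1 → ℝ | nsq z ≤ 1}
        ≤ 2 * volume ({z : Fin 1 → ℝ | nsq z ≤ 1} ∩ {z | 0 ≤ z 0}) := by
      calc _ ≤ volume ({z : Fin 1 → ℝ | nsq z ≤ 1} ∩ {z | 0 ≤ z 0}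
            ∪ {z : Fin 1 → ℝ | nsq z ≤ 1} ∩ {z | z 0 ≤ 0}) :=
            measure_mono fun z hz => (le_total 0 (z 0)).imp (⟨hz, ·⟩) (⟨hz, ·⟩)
        _ ≤ _ := measure_union_le _ _
        _ = _ := by rw [hneg, two_mul]
    refine (mul_le_mul_of_nonneg_left hsum zero_le).trans (le_of_eq ?_)
    rw [← mul_assoc, show (2 : ℝ≥0∞) = ENNReal.ofReal 2 by simp,
      ← ENNReal.ofReal_mul (by norm_num)]
    norm_num
  · have h1 : e 0 ^ 2 = 1 := by simpa [nsq] using he
    rcases sq_eq_one_iff.1 h1 with h2 | h2
    · right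
      simp [h2]
    · left
      intro x hx
      simp only [dotp, Fin.sum_univ_one, h2]
      simp only [mem_ofPred_eq] at hx
      linarith

end

end

end Vale.Agent.P245.General
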