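import Vale.Agent.P245.General.Defective

/-!
# P245: the channel on a finite grid of times as a weighted Gaussian walk

Along the times `t + k τ`, `k ≤ N`, the state of the channel started at `θ₀` at time `t` has the law
of the walk `θ₀ + √τ (g₀ + ⋯ + g_{k-1})` weighted by `part ρ (t + N τ) (θ_N) / part ρ t θ₀`.  The
path under the posterior of `θ₀ + h` is the same expression with the start `θ₀ + h`.
-/

open MeasureTheory Filter Finset
open scoped ENNReal

namespace Vale.Agent.P245.Gen2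

open Vale.Agent.P245 Vale.Agent.P245.General

noncomputable section

variable {n N : ℕ} {η r s t τ D : ℝ} {ρ : (Fin n → ℝ) → ℝ}

/-! ### One step -/

lemma lintegral_wgt_gauss (hτ : 0 < τ) (x : Fin n → ℝ) :
    ∫⁻ g, ENNReal.ofReal (wgt τ (Real.sqrt τ • g) x) ∂P166W.gauss (Fin n) = 1 := by
  have h := lintegral_wgt_gd (n := n) hτ x
  rw [law_gd_eq hτ, lintegral_map (by unfold wgt dotp nsq; fun_prop) (by fun_prop)] at h
  exact h

/-- The posterior numerator is averaged by one Gaussian step of the state. -/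
theorem lintegral_num_step (h : Ulc η ρ) (hτ : 0 < τ) {f : (Fin n → ℝ) → ℝ≥0∞} (hf : Measurable f)
    (θ : Fin n → ℝ) :
    ∫⁻ g, ∫⁻ x, f x * ENNReal.ofReal (wgt (r + τ) (θ + Real.sqrt τ • g) x) ∂law ρ
      ∂P166W.gauss (Fin n) = ∫⁻ x, f x * ENNReal.ofReal (wgt r θ x) ∂law ρ := by
  have := isProb h
  have hw : Measurable fun p : (Fin n → ℝ) × (Fin n → ℝ) =>
      f p.2 * ENNReal.ofReal (wgt (r + τ) (θ + Real.sqrt τ • p.1) p.2) :=
    (hf.comp measurable_snd).mul (Measurable.ennreal_ofReal (by unfold wgt dotp nsq; fun_prop))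
  rw [lintegral_lintegral_swap hw.aemeasurable]
  refine lintegral_congr fun x => ?_
  have e : ∀ g, f x * ENNReal.ofReal (wgt (r + τ) (θ + Real.sqrt τ • g) x) =
      f x * ENNReal.ofReal (wgt r θ x) * ENNReal.ofReal (wgt τ (Real.sqrt τ • g) x) := fun g => by
    have hp : 0 ≤ wgt r θ x := (Real.exp_pos _).le
    rw [mul_assoc, ← ENNReal.ofReal_mul hp, ← wgt_mul]
  simp only [e]
  rw [lintegral_const_mul _ (by unfold wgt dotp nsq; fun_prop), lintegral_wgt_gauss hτ x, mul_one]

lemma lintegral_part (h : Ulc η ρ) (hs : 0 ≤ s) (θ : Fin n → ℝ) :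
    ∫⁻ x, ENNReal.ofReal (wgt s θ x) ∂law ρ = ENNReal.ofReal (part ρ s θ) := by
  have hi : Integrable (fun x => wgt s θ x) (law ρ) := by
    simpa using integrable_wgt h measurable_const (polyB_const (n := n) 1) hs θ
  rw [show part ρ s θ = ∫ x, wgt s θ x ∂law ρ by simp [part, num],
    ofReal_integral_eq_lintegral_ofReal hi (Eventually.of_forall fun x => (Real.exp_pos _).le)]

/-- The normalisation is averaged by one Gaussian step of the state. -/
theorem lintegral_part_step (h : Ulc η ρ) (hr : 0 ≤ r) (hτ : 0 < τ) (θ : Fin n → ℝ) :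
    ∫⁻ g, ENNReal.ofReal (part ρ (r + τ) (θ + Real.sqrt τ • g)) ∂P166W.gauss (Fin n) =
      ENNReal.ofReal (part ρ r θ) := by
  have e := lintegral_num_step (r := r) h hτ (f := fun _ => 1) measurable_const θ
  simpa [lintegral_part h, hr, add_nonneg hr hτ.le] using e

theorem integrable_part_step (h : Ulc η ρ) (hr : 0 ≤ r) (hτ : 0 < τ) (θ : Fin n → ℝ) :
    Integrable (fun g => part ρ (r + τ) (θ + Real.sqrt τ • g)) (P166W.gauss (Fin n)) := by
  refine (lintegral_ofReal_ne_top_iff_integrable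
    (f := fun g => part ρ (r + τ) (θ + Real.sqrt τ • g))
    ((measurable_part h _).comp (by fun_prop)).aestronglyMeasurable
    (Eventually.of_forall fun g => (part_pos h (by linarith) _).le)).1 ?_
  rw [lintegral_part_step h hr hτ θ]
  exact ENNReal.ofReal_ne_top

theorem integral_part_step (h : Ulc η ρ) (hr : 0 ≤ r) (hτ : 0 < τ) (θ : Fin n → ℝ) :
    ∫ g, part ρ (r + τ) (θ + Real.sqrt τ • g) ∂P166W.gauss (Fin n) = part ρ r θ := by
  rw [integral_eq_lintegral_of_nonneg_ae (Eventually.of_forall fun g => (part_pos h (by linarith) _).le)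
    ((measurable_part h _).comp (by fun_prop)).aestronglyMeasurable, lintegral_part_step h hr hτ θ,
    ENNReal.toReal_ofReal (part_pos h hr θ).le]

/-- The posterior average is averaged by one step of the state weighted by the normalisation. -/
theorem integral_num_step (h : Ulc η ρ) (hr : 0 ≤ r) (hτ : 0 < τ) {f : (Fin n → ℝ) → ℝ}
    (hf : Measurable f) (hf' : PolyB f) (θ : Fin n → ℝ) :
    ∫ g, num ρ f (r + τ) (θ + Real.sqrt τ • g) ∂P166W.gauss (Fin n) = num ρ f r θ := by
  have := isProb h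
  have hi : Integrable (fun x => f x * wgt r θ x) (law ρ) := integrable_wgt h hf hf' hr θ
  have hm : Measurable fun p : (Fin n → ℝ) × (Fin n → ℝ) =>
      f p.2 * wgt (r + τ) (θ + Real.sqrt τ • p.1) p.2 :=
    (hf.comp measurable_snd).mul (by unfold wgt dotp nsq; fun_prop)
  have hI : Integrable (fun p : (Fin n → ℝ) × (Fin n → ℝ) =>
      f p.2 * wgt (r + τ) (θ + Real.sqrt τ • p.1) p.2) ((P166W.gauss (Fin n)).prod (law ρ)) := by
    refine ⟨hm.aestronglyMeasurable, ?_⟩
    rw [hasFiniteIntegral_iff_norm, lintegral_prod _ hm.norm.ennreal_ofReal.aemeasurable]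
    have e : ∀ g x, ENNReal.ofReal ‖f x * wgt (r + τ) (θ + Real.sqrt τ • g) x‖ =
        ENNReal.ofReal |f x| * ENNReal.ofReal (wgt (r + τ) (θ + Real.sqrt τ • g) x) := fun g x => by
      rw [Real.norm_eq_abs, abs_mul, ← ENNReal.ofReal_mul (abs_nonneg _),
        abs_of_pos (show 0 < wgt (r + τ) (θ + Real.sqrt τ • g) x from Real.exp_pos _)]
    simp only [e]
    rw [lintegral_num_step h hτ hf.abs.ennreal_ofReal θ]
    simp only [← ENNReal.ofReal_mul (abs_nonneg _)]
    exact Integrable.lintegral_lt_top (hi.abs.congr (Eventually.of_forall fun x => by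
      simp only [abs_mul, abs_of_pos (show 0 < wgt r θ x from Real.exp_pos _)]))
  simp only [num]
  rw [integral_integral_swap hI]
  refine integral_congr_ae (Eventually.of_forall fun x => ?_)
  have hw : ∀ g, f x * wgt (r + τ) (θ + Real.sqrt τ • g) x =
      f x * wgt r θ x * wgt τ (Real.sqrt τ • g) x := fun g => by rw [mul_assoc, ← wgt_mul]
  simp only [hw, integral_const_mul]
  rw [integral_eq_lintegral_of_nonneg_ae (f := fun g => wgt τ (Real.sqrt τ • g) x)
    (Eventually.of_forall fun g => (Real.exp_pos _).le)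
    (Measurable.aestronglyMeasurable (by unfold wgt dotp nsq; fun_prop)), lintegral_wgt_gauss hτ x,
    ENNReal.toReal_one, mul_one]

/-! ### The walk -/

/-- The space of the increments. -/
abbrev Noise (n N : ℕ) := Fin N → Fin n → ℝ

/-- The law of the increments. -/
def noise (n N : ℕ) : Measure (Noise n N) := Measure.pi fun _ => P166W.gauss (Fin n)

instance : IsProbabilityMeasure (noise n N) := by unfold noise; infer_instance

/-- The increment number `i`, zero beyond the horizon. -/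
def incr (ω : Noise n N) (i : ℕ) : Fin n → ℝ := if h : i < N then ω ⟨i, h⟩ else 0

/-- The state after `k` steps of size `τ` from `θ₀`. -/
def pos (τ : ℝ) (θ₀ : Fin n → ℝ) (ω : Noise n N) (k : ℕ) : Fin n → ℝ :=
  θ₀ + Real.sqrt τ • ∑ i ∈ range k, incr ω i

/-- A functional which only sees the increments before step `k`. -/
def Before {α : Type*} (k : ℕ) (G : Noise n N → α) : Prop :=
  ∀ ω ω', (∀ i : Fin N, (i : ℕ) < k → ω i = ω' i) → G ω = G ω'

theorem measurable_incr (i : ℕ) : Measurable fun ω : Noise n N => incr ω i := by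
  unfold incr
  split
  · exact measurable_pi_apply _
  · exact measurable_const

theorem measurable_pos (τ : ℝ) (k : ℕ) :
    Measurable fun p : (Fin n → ℝ) × Noise n N => pos τ p.1 p.2 k := by
  unfold pos
  have hm : Measurable fun p : (Fin n → ℝ) × Noise n N => ∑ i ∈ range k, incr p.2 i :=
    Finset.measurable_sum _ fun i _ => (measurable_incr i).comp measurable_snd
  exact measurable_fst.add (hm.const_smul (Real.sqrt τ))

theorem measurable_pos_right (τ : ℝ) (θ₀ : Fin n → ℝ) (k : ℕ) :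
    Measurable fun ω : Noise n N => pos τ θ₀ ω k :=
  (measurable_pos τ k).comp measurable_prodMk_left

@[simp] theorem pos_zero (τ : ℝ) (θ₀ : Fin n → ℝ) (ω : Noise n N) : pos τ θ₀ ω 0 = θ₀ := by
  simp [pos]

theorem pos_succ (τ : ℝ) (θ₀ : Fin n → ℝ) (ω : Noise n N) (k : ℕ) :
    pos τ θ₀ ω (k + 1) = pos τ θ₀ ω k + Real.sqrt τ • incr ω k := by
  simp [pos, Finset.sum_range_succ, smul_add, add_assoc]

theorem pos_shift (τ : ℝ) (θ₀ h : Fin n → ℝ) (ω : Noise n N) (k : ℕ) :
    pos τ (θ₀ + h) ω k = pos τ θ₀ ω k + h := by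
  unfold pos; abel

theorem before_mono {α : Type*} {k l : ℕ} (hkl : k ≤ l) {G : Noise n N → α} (hG : Before k G) :
    Before l G := fun ω ω' h => hG ω ω' fun i hi => h i (lt_of_lt_of_le hi hkl)

theorem before_pos (τ : ℝ) (θ₀ : Fin n → ℝ) (k : ℕ) :
    Before k fun ω : Noise n N => pos τ θ₀ ω k := fun ω ω' h => by
  simp only [pos]
  refine congrArg _ (congrArg _ (Finset.sum_congr rfl fun i hi => ?_))
  by_cases hN : i < N
  · simp only [incr, hN, dif_pos]
    exact h ⟨i, hN⟩ (Finset.mem_range.1 hi)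
  · simp [incr, hN]

theorem before_update {α : Type*} {k : ℕ} (hk : k < N) {G : Noise n N → α} (hG : Before k G)
    (ω : Noise n N) (g : Fin n → ℝ) : G (Function.update ω ⟨k, hk⟩ g) = G ω :=
  hG _ _ fun i hi => Function.update_of_ne (by intro e; rw [e] at hi; exact lt_irrefl k hi) _ _

theorem incr_update {k : ℕ} (hk : k < N) (ω : Noise n N) (g : Fin n → ℝ) :
    incr (Function.update ω ⟨k, hk⟩ g) k = g := by simp [incr, hk]

theorem measurable_updateFn (j : Fin N) :
    Measurable fun p : Noise n N × (Fin n → ℝ) => Function.update p.1 j p.2 :=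
  measurable_pi_iff.2 fun i => by
    rcases eq_or_ne i j with rfl | hi
    · simpa using measurable_snd
    · simpa [Function.update_of_ne hi, Function.comp_def] using (measurable_pi_apply i).comp measurable_fst

/-- Redrawing one increment leaves the law of the increments. -/
theorem map_update (j : Fin N) :
    ((noise n N).prod (P166W.gauss (Fin n))).map (fun p => Function.update p.1 j p.2) =
      noise n N := by
  refine (Measure.pi_eq fun A hA => ?_).symm
  rw [Measure.map_apply (measurable_updateFn j) (MeasurableSet.univ_pi hA)]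
  have e : (fun p : Noise n N × (Fin n → ℝ) => Function.update p.1 j p.2) ⁻¹' Set.univ.pi A =
      Set.univ.pi (Function.update A j Set.univ) ×ˢ A j := by
    ext p
    simp only [Set.mem_preimage, Set.mem_univ_pi, Set.mem_prod]
    constructor
    · intro h
      refine ⟨fun i => ?_, by simpa using h j⟩
      rcases eq_or_ne i j with rfl | hi
      · simp
      · simpa [Function.update_of_ne hi] using h i
    · intro h i
      rcases eq_or_ne i j with rfl | hi
      · simpa using h.2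
      · simpa [Function.update_of_ne hi] using h.1 i
  rw [e, Measure.prod_prod, noise, Measure.pi_pi]
  rw [← Finset.mul_prod_erase univ (fun i => P166W.gauss (Fin n) (A i)) (mem_univ j),
    ← Finset.mul_prod_erase univ _ (mem_univ j), Function.update_self, measure_univ, one_mul,
    mul_comm]
  refine congrArg _ (Finset.prod_congr rfl fun i hi => ?_)
  rw [Function.update_of_ne (Finset.ne_of_mem_erase hi)]

theorem lintegral_update (j : Fin N) {F : Noise n N → ℝ≥0∞} (hF : Measurable F) :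
    ∫⁻ ω, ∫⁻ g, F (Function.update ω j g) ∂P166W.gauss (Fin n) ∂noise n N = ∫⁻ ω, F ω ∂noise n N := by
  conv_rhs => rw [← map_update j, lintegral_map hF (measurable_updateFn j)]
  exact (lintegral_prod _ (hF.comp (measurable_updateFn j)).aemeasurable).symm

theorem integral_update (j : Fin N) {F : Noise n N → ℝ} (hF : Integrable F (noise n N)) :
    ∫ ω, ∫ g, F (Function.update ω j g) ∂P166W.gauss (Fin n) ∂noise n N = ∫ ω, F ω ∂noise n N := by
  have hT : AEMeasurable (fun p : Noise n N × (Fin n → ℝ) => Function.update p.1 j p.2)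
      ((noise n N).prod (P166W.gauss (Fin n))) := (measurable_updateFn j).aemeasurable
  rw [← map_update j] at hF
  have hi := (integrable_map_measure hF.aestronglyMeasurable hT).1 hF
  conv_rhs => rw [← map_update j, integral_map hT hF.aestronglyMeasurable]
  exact (integral_prod _ hi).symm

/-- The weight of a path. -/
def pwt (ρ : (Fin n → ℝ) → ℝ) (t τ : ℝ) (θ₀ : Fin n → ℝ) (ω : Noise n N) (k : ℕ) : ℝ :=
  part ρ (t + k * τ) (pos τ θ₀ ω k)

theorem measurable_pwt (h : Ulc η ρ) (k : ℕ) (θ₀ : Fin n → ℝ) :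
    Measurable fun ω : Noise n N => pwt ρ t τ θ₀ ω k :=
  (measurable_part h _).comp (measurable_pos_right τ θ₀ k)

theorem pwt_update (h : Ulc η ρ) {k : ℕ} (hk : k < N) (θ₀ : Fin n → ℝ) (ω : Noise n N)
    (g : Fin n → ℝ) :
    pwt ρ t τ θ₀ (Function.update ω ⟨k, hk⟩ g) (k + 1) =
      part ρ (t + k * τ + τ) (pos τ θ₀ ω k + Real.sqrt τ • g) := by
  have := before_update hk (before_pos τ θ₀ k) ω g
  simp only [pwt, pos_succ, incr_update, Nat.cast_succ, add_one_mul, this, ← add_assoc]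

theorem lintegral_step (h : Ulc η ρ) (ht : 0 ≤ t) (hτ : 0 < τ) {k : ℕ} (hk : k < N)
    (θ₀ : Fin n → ℝ) {G : Noise n N → ℝ≥0∞} (hG : Measurable G) (hB : Before k G) :
    ∫⁻ ω, G ω * ENNReal.ofReal (pwt ρ t τ θ₀ ω (k + 1)) ∂noise n N =
      ∫⁻ ω, G ω * ENNReal.ofReal (pwt ρ t τ θ₀ ω k) ∂noise n N := by
  rw [← lintegral_update ⟨k, hk⟩ (F := fun ω => G ω * ENNReal.ofReal (pwt ρ t τ θ₀ ω (k + 1)))
    (hG.mul (measurable_pwt h _ _).ennreal_ofReal)]
  refine lintegral_congr fun ω => ?_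
  simp only [before_update hk hB, pwt_update h hk]
  have hm : Measurable fun g => ENNReal.ofReal
      (part ρ (t + k * τ + τ) (pos τ θ₀ ω k + Real.sqrt τ • g)) :=
    ((measurable_part h _).comp (by fun_prop)).ennreal_ofReal
  rw [lintegral_const_mul _ hm,
    lintegral_part_step h (by positivity) hτ]
  rfl

theorem lintegral_marginal (h : Ulc η ρ) (ht : 0 ≤ t) (hτ : 0 < τ) (θ₀ : Fin n → ℝ)
    {k l : ℕ} (hkl : k ≤ l) (hl : l ≤ N) {G : Noise n N → ℝ≥0∞} (hG : Measurable G)
    (hB : Before k G) :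
    ∫⁻ ω, G ω * ENNReal.ofReal (pwt ρ t τ θ₀ ω l) ∂noise n N =
      ∫⁻ ω, G ω * ENNReal.ofReal (pwt ρ t τ θ₀ ω k) ∂noise n N := by
  induction l, hkl using Nat.le_induction with
  | base => rfl
  | succ l hkl ih =>
    rw [lintegral_step h ht hτ hl θ₀ hG (before_mono hkl hB)]
    exact ih (by omega)

theorem lintegral_pwt (h : Ulc η ρ) (ht : 0 ≤ t) (hτ : 0 < τ) (θ₀ : Fin n → ℝ) {k : ℕ}
    (hk : k ≤ N) :
    ∫⁻ ω, ENNReal.ofReal (pwt ρ t τ θ₀ ω k) ∂noise n N = ENNReal.ofReal (part ρ t θ₀) := by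
  have e := lintegral_marginal (N := N) h ht hτ θ₀ (Nat.zero_le k) hk (G := fun _ => 1)
    measurable_const fun _ _ _ => rfl
  simpa [pwt] using e

theorem pwt_nonneg (h : Ulc η ρ) (ht : 0 ≤ t) (hτ : 0 < τ) (θ₀ : Fin n → ℝ) (ω : Noise n N)
    (k : ℕ) : 0 ≤ pwt ρ t τ θ₀ ω k :=
  (part_pos h (by positivity) _).le

theorem integrable_pwt (h : Ulc η ρ) (ht : 0 ≤ t) (hτ : 0 < τ) (θ₀ : Fin n → ℝ) {k : ℕ}
    (hk : k ≤ N) : Integrable (fun ω : Noise n N => pwt ρ t τ θ₀ ω k) (noise n N) := by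
  refine (lintegral_ofReal_ne_top_iff_integrable (measurable_pwt h k θ₀).aestronglyMeasurable
    (Eventually.of_forall fun ω => pwt_nonneg h ht hτ θ₀ ω k)).1 ?_
  rw [lintegral_pwt h ht hτ θ₀ hk]
  exact ENNReal.ofReal_ne_top

/-! ### Averages over paths -/

/-- The average of a functional of the path of the channel started at time `t` from `θ₀`; the start
`θ₀ + h` gives the law of the path under the posterior tilted by `h`. -/
def walkE (ρ : (Fin n → ℝ) → ℝ) (t τ : ℝ) (θ₀ : Fin n → ℝ) (G : Noise n N → ℝ) : ℝ :=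
  (∫ ω, G ω * pwt ρ t τ θ₀ ω N ∂noise n N) / part ρ t θ₀

/-- Bounded and measurable. -/
def BMeas {α : Type*} [MeasurableSpace α] (G : α → ℝ) : Prop :=
  Measurable G ∧ ∃ C : ℝ, ∀ a, |G a| ≤ C

theorem BMeas.const {α : Type*} [MeasurableSpace α] (c : ℝ) : BMeas fun _ : α => c :=
  ⟨measurable_const, |c|, fun _ => le_rfl⟩

theorem BMeas.add {α : Type*} [MeasurableSpace α] {F G : α → ℝ} (hF : BMeas F) (hG : BMeas G) :
    BMeas fun a => F a + G a := by
  obtain ⟨C, hC⟩ := hF.2
  obtain ⟨E, hE⟩ := hG.2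
  exact ⟨hF.1.add hG.1, C + E, fun a => (abs_add_le _ _).trans (add_le_add (hC a) (hE a))⟩

theorem BMeas.mul {α : Type*} [MeasurableSpace α] {F G : α → ℝ} (hF : BMeas F) (hG : BMeas G) :
    BMeas fun a => F a * G a := by
  obtain ⟨C, hC⟩ := hF.2
  obtain ⟨E, hE⟩ := hG.2
  refine ⟨hF.1.mul hG.1, C * E, fun a => ?_⟩
  rw [abs_mul]
  exact mul_le_mul (hC a) (hE a) (abs_nonneg _) ((abs_nonneg _).trans (hC a))

theorem BMeas.smul {α : Type*} [MeasurableSpace α] {F : α → ℝ} (c : ℝ) (hF : BMeas F) :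
    BMeas fun a => c * F a := (BMeas.const c).mul hF

theorem BMeas.sum {α ι : Type*} [MeasurableSpace α] {s : Finset ι} {F : ι → α → ℝ}
    (hF : ∀ i ∈ s, BMeas (F i)) : BMeas fun a => ∑ i ∈ s, F i a := by
  classical
  induction s using Finset.induction_on with
  | empty => simpa using BMeas.const (α := α) 0
  | insert i s hi ih =>
    simp only [Finset.sum_insert hi]
    exact (hF i (Finset.mem_insert_self i s)).add
      (ih fun j hj => hF j (Finset.mem_insert_of_mem hj))

theorem BMeas.exp {α : Type*} [MeasurableSpace α] {F : α → ℝ} (hF : BMeas F) :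
    BMeas fun a => Real.exp (F a) := by
  obtain ⟨C, hC⟩ := hF.2
  refine ⟨hF.1.exp, Real.exp C, fun a => ?_⟩
  rw [abs_of_pos (Real.exp_pos _)]
  exact Real.exp_le_exp.2 (le_of_abs_le (hC a))

theorem integrable_mul_pwt (h : Ulc η ρ) (ht : 0 ≤ t) (hτ : 0 < τ) (θ₀ : Fin n → ℝ) {k : ℕ}
    (hk : k ≤ N) {G : Noise n N → ℝ} (hG : BMeas G) :
    Integrable (fun ω => G ω * pwt ρ t τ θ₀ ω k) (noise n N) := by
  obtain ⟨C, hC⟩ := hG.2
  exact (integrable_pwt h ht hτ θ₀ hk).bdd_mul (c := C) hG.1.aestronglyMeasurable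
    (Eventually.of_forall fun ω => by simpa [Real.norm_eq_abs] using hC ω)

theorem integral_marginal (h : Ulc η ρ) (ht : 0 ≤ t) (hτ : 0 < τ) (θ₀ : Fin n → ℝ) {k : ℕ}
    (hk : k ≤ N) {G : Noise n N → ℝ} (hG : BMeas G) (hB : Before k G) :
    ∀ l, k ≤ l → l ≤ N → ∫ ω, G ω * pwt ρ t τ θ₀ ω l ∂noise n N =
      ∫ ω, G ω * pwt ρ t τ θ₀ ω k ∂noise n N := by
  intro l hkl
  induction l, hkl using Nat.le_induction with
  | base => exact fun _ => rfl
  | succ l hkl ih =>
    intro hl
    rw [← ih (by omega), ← integral_update ⟨l, hl⟩ (integrable_mul_pwt h ht hτ θ₀ hl hG)]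
    refine integral_congr_ae (Eventually.of_forall fun ω => ?_)
    simp only [before_update hl (before_mono hkl hB), pwt_update h hl, integral_const_mul]
    rw [integral_part_step h (by positivity) hτ]
    rfl

/-- The marginal of the path up to step `k`. -/
theorem walkE_marginal (h : Ulc η ρ) (ht : 0 ≤ t) (hτ : 0 < τ) (θ₀ : Fin n → ℝ) {k : ℕ}
    (hk : k ≤ N) {G : Noise n N → ℝ} (hG : BMeas G) (hB : Before k G) :
    walkE ρ t τ θ₀ G = (∫ ω, G ω * pwt ρ t τ θ₀ ω k ∂noise n N) / part ρ t θ₀ := by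
  rw [walkE, integral_marginal h ht hτ θ₀ hk hG hB N hk le_rfl]

theorem walkE_const (h : Ulc η ρ) (ht : 0 ≤ t) (hτ : 0 < τ) (θ₀ : Fin n → ℝ) (c : ℝ) :
    walkE (N := N) ρ t τ θ₀ (fun _ => c) = c := by
  rw [walkE_marginal h ht hτ θ₀ (Nat.zero_le N) (BMeas.const c) fun _ _ _ => rfl]
  simp only [pwt, pos_zero, Nat.cast_zero, zero_mul, add_zero, integral_const, probReal_univ,
    one_smul]
  rw [mul_div_assoc, div_self (part_pos h ht θ₀).ne', mul_one]

theorem walkE_add (h : Ulc η ρ) (ht : 0 ≤ t) (hτ : 0 < τ) (θ₀ : Fin n → ℝ)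
    {F G : Noise n N → ℝ} (hF : BMeas F) (hG : BMeas G) :
    walkE ρ t τ θ₀ (fun ω => F ω + G ω) = walkE ρ t τ θ₀ F + walkE ρ t τ θ₀ G := by
  simp only [walkE, add_mul]
  rw [integral_add (integrable_mul_pwt h ht hτ θ₀ le_rfl hF)
    (integrable_mul_pwt h ht hτ θ₀ le_rfl hG), add_div]

theorem walkE_smul (θ₀ : Fin n → ℝ) (c : ℝ) (F : Noise n N → ℝ) :
    walkE ρ t τ θ₀ (fun ω => c * F ω) = c * walkE ρ t τ θ₀ F := by
  simp only [walkE, mul_assoc, integral_const_mul, mul_div_assoc]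

theorem walkE_mono (h : Ulc η ρ) (ht : 0 ≤ t) (hτ : 0 < τ) (θ₀ : Fin n → ℝ)
    {F G : Noise n N → ℝ} (hF : BMeas F) (hG : BMeas G) (hle : ∀ ω, F ω ≤ G ω) :
    walkE ρ t τ θ₀ F ≤ walkE ρ t τ θ₀ G := by
  refine div_le_div_of_nonneg_right ?_ (part_pos h ht θ₀).le
  exact integral_mono (integrable_mul_pwt h ht hτ θ₀ le_rfl hF)
    (integrable_mul_pwt h ht hτ θ₀ le_rfl hG) fun ω =>
      mul_le_mul_of_nonneg_right (hle ω) (pwt_nonneg h ht hτ θ₀ ω N)

theorem walkE_sum (h : Ulc η ρ) (ht : 0 ≤ t) (hτ : 0 < τ) (θ₀ : Fin n → ℝ) {ι : Type*}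
    (S : Finset ι) {F : ι → Noise n N → ℝ} (hF : ∀ i ∈ S, BMeas (F i)) :
    walkE ρ t τ θ₀ (fun ω => ∑ i ∈ S, F i ω) = ∑ i ∈ S, walkE ρ t τ θ₀ (F i) := by
  simp only [walkE, Finset.sum_mul]
  rw [integral_finsetSum _ fun i hi => integrable_mul_pwt h ht hτ θ₀ le_rfl (hF i hi),
    Finset.sum_div]

/-- The average of `G` times a function of the increment `k`, conditioned before step `k`. -/
theorem walkE_step (h : Ulc η ρ) (ht : 0 ≤ t) (hτ : 0 < τ) (θ₀ : Fin n → ℝ) {k : ℕ} (hk : k < N)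
    {G : Noise n N → ℝ} (hG : BMeas G) (hB : Before k G)
    {Φ : Noise n N → (Fin n → ℝ) → ℝ} (hΦ : BMeas (Function.uncurry Φ)) (hΦB : Before k Φ) :
    walkE ρ t τ θ₀ (fun ω => G ω * Φ ω (incr ω k)) =
      (∫ ω, G ω * ∫ g, Φ ω g * part ρ (t + k * τ + τ) (pos τ θ₀ ω k + Real.sqrt τ • g)
        ∂P166W.gauss (Fin n) ∂noise n N) / part ρ t θ₀ := by
  have hH : BMeas fun ω => G ω * Φ ω (incr ω k) :=
    hG.mul ⟨hΦ.1.comp (measurable_id.prodMk (measurable_incr k)), hΦ.2.choose,
      fun ω => hΦ.2.choose_spec (ω, incr ω k)⟩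
  have hHB : Before (k + 1) fun ω => G ω * Φ ω (incr ω k) := fun ω ω' e => by
    have e' : ∀ i : Fin N, (i : ℕ) < k → ω i = ω' i := fun i hi => e i (by omega)
    have hi : incr ω k = incr ω' k := by
      simp only [incr, hk, dif_pos]; exact e ⟨k, hk⟩ (Nat.lt_succ_self k)
    simp only [hB ω ω' e', hΦB ω ω' e', hi]
  rw [walkE_marginal h ht hτ θ₀ hk hH hHB,
    ← integral_update ⟨k, hk⟩ (integrable_mul_pwt h ht hτ θ₀ hk hH)]
  congr 1
  refine integral_congr_ae (Eventually.of_forall fun ω => ?_)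
  simp only [before_update hk hB, before_update hk hΦB, incr_update, pwt_update h hk, mul_assoc,
    integral_const_mul]

end

end Vale.Agent.P245.Gen2
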